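import Crest.Agent.R177.DiagRed

/-!
# Row 177: reduced diagrams exist (helper595)
-/

set_option autoImplicit false

open scoped Classical

namespace Crest.Agent.R177

open Crest.Agent.R199 (PAct)

variable {S V : Type}

/-- every diagram can be reduced, keeping the chain and the outer word -/
theorem exists_reduced_diag {A : PAct S V} (w : List (S × Bool))
    (hred : FreeGroup.IsReduced (w ++ w)) : ∀ (n : ℕ) (X : Type) [Fintype X] (D : Diag A X),
    Fintype.card X = n → OutW D w →
    ∃ (X' : Type) (_ : Fintype X') (D' : Diag A X'), D'.Reduced ∧ D'.cls = D.cls ∧ OutW D' w := by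
  intro n
  induction n using Nat.strong_induction_on with
  | _ n ih =>
    intro X _ D hn hw
    by_cases hD : D.Reduced
    · exact ⟨X, inferInstance, D, hD, rfl, hw⟩
    · obtain ⟨X', _, D', h1, h2, h3⟩ := reduce_step D w hred hw hD
      obtain ⟨X'', i, D'', h4, h5, h6⟩ := ih _ (hn ▸ h1) X' D' rfl h3
      exact ⟨X'', i, D'', h4, h5.trans h2, h6⟩

end Crest.Agent.R177
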