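import Crest.Agent.R177.GrpChain

/-!
# Row 177, group side: chains of the developed graph, identities
-/

set_option autoImplicit false
set_option linter.unusedSectionVars false

open scoped Classical

namespace Crest.Agent.R177.GS

open Crest.Agent.R199 (PAct)
open Crest.Agent.R199.Chase Crest.Agent.R199.Exact

variable {S V : Type}

/-- chains of the developed graph -/
noncomputable def kap (A : PAct S V) :
    (Grp A →₀ ((lamA A).Ed →₀ ℤ)) →+ ((Grp A × V × S) →₀ ℤ) :=
  Finsupp.liftAddHom fun g => Finsupp.liftAddHom fun e =>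
    Finsupp.singleAddHom (g * e.1.1, e.1.2.1, e.1.2.2)

theorem kap_single (A : PAct S V) (g : Grp A) (e : (lamA A).Ed) (n : ℤ) :
    kap A (Finsupp.single g (Finsupp.single e n)) =
      Finsupp.single (g * e.1.1, e.1.2.1, e.1.2.2) n := by
  unfold kap
  rw [Finsupp.liftAddHom_apply_single, Finsupp.liftAddHom_apply_single]
  rfl

theorem kap_chain (A : PAct S V) (g : Grp A) (l : List ((lamA A).Ed × Bool)) :
    ∀ (p : Grp A × V) (q : Grp A × V), (lamA A).IsWalk p l q →
      kap A (Finsupp.single g ((lamA A).chain l)) = pathCh A (g * p.1) p.2 ((lamA A).word l) := by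
  induction l with
  | nil =>
    intro p q h
    rw [chain_nil, Finsupp.single_zero, map_zero]
    rfl
  | cons d l ih =>
    intro p q h
    obtain ⟨h1, h2⟩ := h
    have h3 := ih _ _ h2
    obtain ⟨h4, h5⟩ := lamA_st A d
    subst h1
    rw [chain_cons, Finsupp.single_add, map_add, h3, kap_single]
    have hw : (lamA A).word (d :: l) = ((lamA A).lab d.1, d.2) :: (lamA A).word l := rfl
    rw [hw, pathCh]
    simp only [h4]
    rw [h5, ← mul_assoc]
    congr 1
    obtain ⟨e, b⟩ := d
    cases b with
    | true => rfl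
    | false =>
      have h6 : ((lamA A).dt (e, false)) = (e.1.1, e.1.2.1) := rfl
      rw [h6] at h5
      simp only at h5
      show Finsupp.single (g * e.1.1, e.1.2.1, e.1.2.2) (-1) =
        - Finsupp.single (g * ((lamA A).ds (e, false)).1 * gw A [((lamA A).lab e, false)],
          e.1.2.1, e.1.2.2) 1
      rw [mul_assoc, ← h5, Finsupp.single_neg]

/-- the triple of a conjugate over the graph -/
noncomputable def trG (A : PAct S V) (t : Fr (gA A)) : List (S × Bool) × V × List (S × Bool) :=
  (t.u.toWord, t.p, (gA A).word t.l)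

/-- the triple of a conjugate over the developed graph -/
noncomputable def trL (A : PAct S V) (t : Fr (lamA A)) : List (S × Bool) × V × List (S × Bool) :=
  (t.u.toWord, t.p.2, (lamA A).word t.l)

theorem prod_trG (A : PAct S V) (L : List (Fr (gA A))) :
    ((L.map (trG A)).map fun t => (FreeGroup.mk t.1 : FreeGroup S) * FreeGroup.mk t.2.2 *
      (FreeGroup.mk t.1)⁻¹).prod = frProd L := by
  rw [List.map_map, frProd]
  congr 2
  funext t
  simp only [Function.comp_apply, trG, FreeGroup.mk_toWord, Fr.val]

theorem prod_trL (A : PAct S V) (L : List (Fr (lamA A))) :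
    ((L.map (trL A)).map fun t => (FreeGroup.mk t.1 : FreeGroup S) * FreeGroup.mk t.2.2 *
      (FreeGroup.mk t.1)⁻¹).prod = frProd L := by
  rw [List.map_map, frProd]
  congr 2
  funext t
  simp only [Function.comp_apply, trL, FreeGroup.mk_toWord, Fr.val]

theorem sum_trL (A : PAct S V) (L : List (Fr (lamA A))) :
    ((L.map (trL A)).map fun t => pathCh A (gw A t.1) t.2.1 t.2.2).sum =
      kap A (frCls (piA A) (fun p : (lamA A).P => (p.1 : Grp A)) L) := by
  induction L with
  | nil => rw [frCls_nil, map_zero]; rfl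
  | cons t L ih =>
    rw [frCls_cons, map_add, ← ih, List.map_cons, List.map_cons, List.sum_cons]
    congr 1
    rw [Fr.cls, kap_chain A _ t.l t.p t.p t.hl]
    show pathCh A (gw A t.u.toWord) t.p.2 _ = _
    rw [gw_eq, FreeGroup.mk_toWord, inv_mul_cancel_right]
    rfl

/-- forget that the edges exist -/
noncomputable def embL (A : PAct S V) : ((lamA A).Ed →₀ ℤ) →+ ((Grp A × V × S) →₀ ℤ) :=
  Finsupp.liftAddHom fun e => Finsupp.singleAddHom e.1

theorem embL_single (A : PAct S V) (e : (lamA A).Ed) (n : ℤ) :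
    embL A (Finsupp.single e n) = Finsupp.single e.1 n := by
  unfold embL
  rw [Finsupp.liftAddHom_apply_single]
  rfl

theorem exists_embL (A : PAct S V) (z : (Grp A × V × S) →₀ ℤ)
    (hz : ∀ e ∈ z.support, (A.st (e.2.2, true) e.2.1).isSome) :
    ∃ z' : (lamA A).Ed →₀ ℤ, embL A z' = z := by
  have key : ∀ s : Finset (Grp A × V × S), (∀ e ∈ s, (A.st (e.2.2, true) e.2.1).isSome) →
      ∃ z' : (lamA A).Ed →₀ ℤ, embL A z' = ∑ e ∈ s, Finsupp.single e (z e) := by
    intro s
    induction s using Finset.induction_on with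
    | empty => intro _; exact ⟨0, by rw [map_zero, Finset.sum_empty]⟩
    | insert a s ha ih =>
      intro h
      obtain ⟨y, hy⟩ := ih fun e he => h e (Finset.mem_insert_of_mem he)
      refine ⟨Finsupp.single (⟨a, h a (Finset.mem_insert_self ..)⟩ : (lamA A).Ed) (z a) + y, ?_⟩
      rw [map_add, hy, embL_single, Finset.sum_insert ha]
  obtain ⟨z', hz'⟩ := key z.support hz
  refine ⟨z', ?_⟩
  rw [hz']
  exact Finsupp.sum_single z

theorem cbd_embL (A : PAct S V) (z : (lamA A).Ed →₀ ℤ) :
    cbd A (embL A z) = (lamA A).bdry z := by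
  induction z using Finsupp.induction_linear with
  | zero => rw [map_zero, map_zero, map_zero]
  | add a b ha hb => rw [map_add, map_add, map_add, ha, hb]
  | single e n =>
    have h0 : A.st (e.1.2.2, true) e.1.2.1 = some ((A.st (e.1.2.2, true) e.1.2.1).get e.2) :=
      (Option.some_get _).symm
    rw [embL_single, LG.bdry_single]
    exact cbd_single A e.1.1 e.1.2.1 _ e.1.2.2 n h0

theorem push_embL (A : PAct S V) (z : (lamA A).Ed →₀ ℤ) (g : Grp A) (s : S) :
    push A (embL A z) (g, s) =
      d2' (fun p : (lamA A).P => (p.1 : Grp A)) 1 z g s := by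
  induction z using Finsupp.induction_linear with
  | zero => simp
  | add a b ha hb => rw [map_add, map_add, map_add, Finsupp.add_apply, ha, hb]; rfl
  | single e n =>
    obtain ⟨⟨p, v, s'⟩, he⟩ := e
    rw [embL_single, push_single, d2'_single, E, one_mul]
    show (Finsupp.single (p, s') n) (g, s) = (Finsupp.single p (Finsupp.single s' n)) g s
    by_cases hg : p = g
    · rw [hg, Finsupp.single_eq_same]
      by_cases hs : s' = s
      · rw [hs, Finsupp.single_eq_same, Finsupp.single_eq_same]
      · rw [Finsupp.single_eq_of_ne (fun h => hs h.symm), Finsupp.single_eq_of_ne]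
        intro h
        exact hs (congrArg Prod.snd h).symm
    · rw [Finsupp.single_eq_of_ne (fun h => hg h.symm), Finsupp.single_eq_of_ne]
      · rfl
      · intro h
        exact hg (congrArg Prod.fst h).symm

theorem kap_single_one (A : PAct S V) (z : (lamA A).Ed →₀ ℤ) :
    kap A (Finsupp.single 1 z) = embL A z := by
  induction z using Finsupp.induction_linear with
  | zero => rw [Finsupp.single_zero, map_zero, map_zero]
  | add a b ha hb => rw [Finsupp.single_add, map_add, map_add, ha, hb]
  | single e n => rw [kap_single, embL_single, one_mul]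

/-- **identities from cycles** -/
theorem exists_identity (A : PAct S V) (z : (Grp A × V × S) →₀ ℤ)
    (hz : ∀ e ∈ z.support, (A.st (e.2.2, true) e.2.1).isSome)
    (h1 : cbd A z = 0) (h2 : push A z = 0) :
    ∃ L : List (List (S × Bool) × V × List (S × Bool)),
      (∀ t ∈ L, A.read t.2.2 t.2.1 = some t.2.1) ∧
      (L.map fun t => (FreeGroup.mk t.1 : FreeGroup S) * FreeGroup.mk t.2.2 *
        (FreeGroup.mk t.1)⁻¹).prod = 1 ∧
      (L.map fun t => pathCh A (gw A t.1) t.2.1 t.2.2).sum = z := by
  obtain ⟨z', rfl⟩ := exists_embL A z hz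
  rw [cbd_embL] at h1
  let γ : (lamA A).P → Grp A := fun p => p.1
  have hγ : ∀ e, γ ((lamA A).tgt e) =
      γ ((lamA A).src e) * piA A (FreeGroup.of ((lamA A).lab e)) := fun e => rfl
  obtain ⟨L, h3, h4⟩ := exists_identity_of_d2_eq_zero (piA A) γ hγ (piA_surjective A)
    (by rw [piA_ker, lamA_rels]) (Finsupp.single 1 ⟨z', h1⟩) (by
      rw [d2_single]
      ext g s
      rw [← push_embL, h2]
      rfl)
  refine ⟨L.map (trL A), ?_, ?_, ?_⟩
  · intro t ht
    obtain ⟨r, _, rfl⟩ := List.mem_map.1 ht
    exact (lamA_read A r.hl).1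
  · rw [prod_trL, h3]
  · rw [sum_trL, h4, incl_single, kap_single_one]

/-- identities from relations -/
theorem exists_identity_word (A : PAct S V) (w : List (S × Bool))
    (hw : FreeGroup.mk w ∈ Subgroup.normalClosure (rels A)) :
    ∃ L : List (List (S × Bool) × V × List (S × Bool)),
      (∀ t ∈ L, A.read t.2.2 t.2.1 = some t.2.1) ∧
      (FreeGroup.mk w : FreeGroup S) * (L.map fun t =>
        (FreeGroup.mk t.1 : FreeGroup S) * FreeGroup.mk t.2.2 * (FreeGroup.mk t.1)⁻¹).prod = 1 := by
  obtain ⟨L, hL⟩ := exists_list_of_mem (Γ := gA A) (FreeGroup.mk w)⁻¹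
    (by rw [gA_rels]; exact Subgroup.inv_mem _ hw)
  refine ⟨L.map (trG A), ?_, ?_⟩
  · intro t ht
    obtain ⟨r, _, rfl⟩ := List.mem_map.1 ht
    exact gA_read A r.hl
  · rw [prod_trG, hL, mul_inv_cancel]

end Crest.Agent.R177.GS
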