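import Crest.Agent.R177.DiagInit
import Crest.Agent.R177.DiagReduce
import Crest.Agent.R177.GrpDiag

/-!
# Row 177: a cyclically reduced relation bounds a reduced diagram (helper595)
-/

set_option autoImplicit false

open scoped Classical

namespace Crest.Agent.R177

open Crest.Agent.R199 (PAct)
open GS

variable {S V : Type}

/-- DIAG1 (file DiagWord.lean): a cyclically reduced relation bounds a reduced diagram with one
outer face. -/
theorem diag_of_word (A : PAct S V) (w : List (S × Bool)) (hne : w ≠ [])
    (hred : FreeGroup.IsReduced (w ++ w))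
    (hw : FreeGroup.mk w ∈ Subgroup.normalClosure (rels A)) :
    ∃ (X : Type) (_ : Finite X) (_ : Nonempty X) (D : Diag A X), D.Reduced ∧
      Nat.card {x // D.out x} = w.length ∧
      ∀ x y, D.out x → D.out y → D.φ.SameCycle x y := by
  rcases isEmpty_or_nonempty V with hV | hV
  · exfalso
    have h1 : rels A = ∅ := by
      ext r
      simp only [Set.mem_empty_iff_false, iff_false]
      rintro ⟨v, _⟩
      exact hV.false v
    rw [h1, Subgroup.normalClosure_empty, Subgroup.mem_bot] at hw
    have h2 : FreeGroup.reduce w = FreeGroup.reduce [] := FreeGroup.reduce.sound hw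
    have h3 : FreeGroup.IsReduced w := hred.infix ⟨[], w, by simp⟩
    rw [h3.reduce_eq, FreeGroup.reduce_nil] at h2
    exact hne h2
  obtain ⟨L, h3, h4⟩ := exists_identity_word A w hw
  obtain ⟨X, _, D, h6, h7⟩ := diag_of_identity A w L h3 h4
  obtain ⟨X', i, D', h8, h9, h10⟩ := exists_reduced_diag w hred _ X D rfl h7
  obtain ⟨e, he, hout, hlab, hφ⟩ := h10
  have hpos : 0 < w.length := List.length_pos_iff.2 hne
  refine ⟨X', inferInstance, ⟨e ⟨0, hpos⟩⟩, D', h8, ?_, ?_⟩
  · have e1 : {x // D'.out x} ≃ Fin w.length :=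
      (Equiv.subtypeEquivRight hout).trans (Equiv.ofInjective e he).symm
    rw [Nat.card_congr e1, Nat.card_fin]
  · have key : ∀ (k : ℕ) (hk : k < w.length), D'.φ.SameCycle (e ⟨0, hpos⟩) (e ⟨k, hk⟩) := by
      intro k
      induction k with
      | zero => intro _; exact Equiv.Perm.SameCycle.refl _ _
      | succ k ih =>
        intro hk
        have h1 := ih (by omega)
        have h2 := hφ ⟨k, by omega⟩ ⟨k + 1, hk⟩ (Or.inl rfl)
        rw [← h2]
        exact Equiv.Perm.sameCycle_apply_right.2 h1
    intro x y hx hy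
    obtain ⟨a, rfl⟩ := (hout x).1 hx
    obtain ⟨b, rfl⟩ := (hout y).1 hy
    exact (key a.1 a.2).symm.trans (key b.1 b.2)

end Crest.Agent.R177
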