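import Crest.Agent.R177.Defs
import Crest.Agent.R177.EulerBase

/-!
# Row 177: EULER (interface theorems)
-/

set_option autoImplicit false

open scoped Classical

namespace Crest.Agent.R177

/-- Euler bound in the form of helper603. -/
theorem euler_count {X : Type*} [Fintype X] (φ α : Equiv.Perm X) (h2 : ∀ x, α (α x) = x)
    (h0 : ∀ x, α x ≠ x) (hP : PropP φ α) :
    {x | φ (α (φ (α x))) ≠ x}.ncard ≤
      6 * Nat.card (Quotient (Equiv.Perm.SameCycle.setoid φ)) + 3 * {x | φ (α x) = x}.ncard := by
  rcases isEmpty_or_nonempty X with hX | hX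
  · have : {x | φ (α (φ (α x))) ≠ x} = ∅ := Set.eq_empty_of_isEmpty _
    rw [this]; simp
  · have h := euler_corners_fintype h2 h0 hP
    have e1 : {x | φ (α (φ (α x))) ≠ x}.ncard
        = (Finset.univ.filter (fun x => φ (α (φ (α x))) ≠ x)).card := by
      rw [← Set.ncard_coe_finset]; simp
    have e2 : {x | φ (α x) = x}.ncard
        = (Finset.univ.filter (fun x => φ (α x) = x)).card := by
      rw [← Set.ncard_coe_finset]; simp
    rw [e1, e2]
    have e3 : cyc φ = Nat.card (Quotient (Equiv.Perm.SameCycle.setoid φ)) := rfl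
    rw [e3] at h
    omega

/-- `V + F ≥ E + 2` -/
theorem euler_char {X : Type} [Finite X] [Nonempty X] (M : PMap X) :
    Nat.card X + 4 ≤ 2 * Nat.card (Quotient (Equiv.Perm.SameCycle.setoid (M.φ * M.α)))
      + 2 * Nat.card M.Face := by
  have : Fintype X := Fintype.ofFinite X
  have h := euler (φ := M.φ) (α := M.α) M.inv M.ne M.planar
  rw [Nat.card_eq_fintype_card (α := X)]
  exact h

/-- number of corners at vertices of degree at least three, with the `+ 12`; degree one allowed -/
theorem euler_corners' {X : Type} [Finite X] [Nonempty X] (M : PMap X) :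
    Nat.card {x // ¬ M.Smooth x} + 12 ≤ 6 * Nat.card M.Face + 3 * Nat.card {x // M.σ x = x} := by
  have : Fintype X := Fintype.ofFinite X
  have h := euler_corners_fintype (φ := M.φ) (α := M.α) M.inv M.ne M.planar
  have e1 : Nat.card {x // ¬ M.Smooth x}
      = (Finset.univ.filter (fun x => M.φ (M.α (M.φ (M.α x))) ≠ x)).card := by
    rw [Nat.card_eq_fintype_card, Fintype.card_subtype]
    rfl
  have e2 : Nat.card {x // M.σ x = x}
      = (Finset.univ.filter (fun x => M.φ (M.α x) = x)).card := by
    rw [Nat.card_eq_fintype_card, Fintype.card_subtype]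
    rfl
  rw [e1, e2]
  exact h

/-- EULER 1 (file Euler.lean) -/
theorem euler_corners {X : Type} [Finite X] (M : PMap X) (h : ∀ x, M.σ x ≠ x) :
    Nat.card {x // ¬ M.Smooth x} ≤ 6 * Nat.card M.Face := by
  rcases isEmpty_or_nonempty X with hX | hX
  · have : Nat.card {x // ¬ M.Smooth x} = 0 := by
      simp
    rw [this]; exact Nat.zero_le _
  · have h1 := euler_corners' M
    have : IsEmpty {x // M.σ x = x} := ⟨fun x => h x.1 x.2⟩
    have h2 : Nat.card {x // M.σ x = x} = 0 := Nat.card_of_isEmpty
    omega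

/-- EULER 2 (file Euler.lean) -/
theorem euler_faces {X : Type} [Finite X] [Nonempty X] (M : PMap X) (h : ∀ x, M.σ x ≠ x) :
    2 ≤ Nat.card M.Face := by
  have h1 := euler_corners' M
  have : IsEmpty {x // M.σ x = x} := ⟨fun x => h x.1 x.2⟩
  have h2 : Nat.card {x // M.σ x = x} = 0 := Nat.card_of_isEmpty
  omega

end Crest.Agent.R177
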