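import Crest.Agent.R177.DiagChain
import Crest.Agent.R177.DiagWord
import Crest.Agent.R177.Euler

/-!
# Row 177: consequences of the isoperimetric inequality (helper595)
-/

set_option autoImplicit false

open scoped Classical

namespace Crest.Agent.R177

open Crest.Agent.R199 (PAct)
open GS

variable {S V : Type}

/-- ASPH (file Asph.lean) -/
theorem aspherical_of_iso (A : PAct S V) (C : ℕ) (h : Iso A C) : Aspherical A := by
  intro z hz h1 h2
  obtain ⟨X, _, D, hD, ho, rfl⟩ := diag_of_chain A z hz h1 h2
  have h3 := h X D hD (fun x _ hx => absurd hx (ho x))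
  have h4 : Nat.card {x // D.out x} = 0 := by
    have : IsEmpty {x // D.out x} := ⟨fun x => ho x.1 x.2⟩
    exact Nat.card_of_isEmpty
  rw [h4, mul_zero, Nat.le_zero, Nat.card_eq_zero] at h3
  have h5 : IsEmpty X := by
    rcases h3 with h3 | h3
    · exact ⟨fun x => h3.false ⟨x, ho x⟩⟩
    · exact absurd (inferInstance : Finite {x // ¬ D.out x}) (not_finite_iff_infinite.2 h3)
  rw [Diag.cls, Finset.univ_eq_empty, Finset.sum_empty]

namespace GS

/-- the word read along `n` darts of a face -/
def fword {A : PAct S V} {X : Type} (D : Diag A X) (x : X) : ℕ → List (S × Bool)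
  | 0 => []
  | n + 1 => fword D x n ++ [D.lab ((D.φ ^ n) x)]

theorem fword_length {A : PAct S V} {X : Type} (D : Diag A X) (x : X) (n : ℕ) :
    (fword D x n).length = n := by
  induction n with
  | zero => rfl
  | succ n ih => simp [fword, ih]

theorem out_pow {A : PAct S V} {X : Type} (D : Diag A X) (x : X) (n : ℕ) :
    D.out ((D.φ ^ n) x) ↔ D.out x := by
  induction n with
  | zero => simp
  | succ n ih => rw [pow_succ', Equiv.Perm.mul_apply, D.out_φ, ih]

theorem fword_read {A : PAct S V} {X : Type} (D : Diag A X) (x : X) (hx : ¬ D.out x) (n : ℕ) :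
    A.read (fword D x n) (D.node x) = some (D.node ((D.φ ^ n) x)) := by
  induction n with
  | zero => rfl
  | succ n ih =>
    rw [fword, PAct.read_append, ih]
    simp only [Option.bind_some, PAct.read_singleton]
    rw [D.node_step _ (by rwa [out_pow]), pow_succ', Equiv.Perm.mul_apply]

theorem fword_reduced {A : PAct S V} {X : Type} (D : Diag A X) (hD : D.Reduced) (x : X) (n : ℕ) :
    FreeGroup.IsReduced (fword D x n) := by
  induction n with
  | zero => simp [fword]
  | succ n ih =>
    rw [fword]
    unfold FreeGroup.IsReduced at *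
    rw [List.isChain_append]
    refine ⟨ih, by simp, ?_⟩
    intro c hc b hb hcb
    simp only [List.head?_cons, Option.mem_def, Option.some.injEq] at hb
    subst hb
    cases n with
    | zero => simp [fword] at hc
    | succ n =>
      have hc' : c = D.lab ((D.φ ^ n) x) := by
        have h1 : (fword D x (n + 1)).getLast? = some (D.lab ((D.φ ^ n) x)) := by
          rw [fword, List.getLast?_concat]
        rw [Option.mem_def, h1] at hc
        exact (Option.some.inj hc).symm
      have h1 := hD.2 ((D.φ ^ n) x)
      rw [← Equiv.Perm.mul_apply, ← pow_succ', ← hc'] at h1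
      by_contra hne
      apply h1
      refine Prod.ext hcb.symm ?_
      show _ = !c.2
      cases h2 : c.2 <;> cases h3 : (D.lab ((D.φ ^ (n + 1)) x)).2 <;> simp_all

end GS

/-- SHORT (file Asph.lean) -/
theorem short_of_iso (A : PAct S V) (C n : ℕ) (h : Iso A C) (hg : Girth A (C * n + 1))
    (w : List (S × Bool)) (hw : w ≠ []) (hred : FreeGroup.IsReduced w) (hl : w.length ≤ n) :
    gw A w ≠ 1 := by
  intro h1
  -- cyclic reduction
  obtain ⟨w', hw', hred', hl', hmem⟩ : ∃ w' : List (S × Bool), w' ≠ [] ∧
      FreeGroup.IsReduced (w' ++ w') ∧ w'.length ≤ n ∧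
      FreeGroup.mk w' ∈ Subgroup.normalClosure (rels A) := by
    have hc := FreeGroup.reduceCyclically.isCyclicallyReduced hred
    have hj := FreeGroup.reduceCyclically.conj_conjugator_reduceCyclically w
    have hmk : (FreeGroup.mk w : FreeGroup S) = FreeGroup.mk (FreeGroup.reduceCyclically.conjugator w) *
        FreeGroup.mk (FreeGroup.reduceCyclically w) *
        (FreeGroup.mk (FreeGroup.reduceCyclically.conjugator w))⁻¹ := by
      conv_lhs => rw [← hj]
      rw [FreeGroup.inv_mk, FreeGroup.mul_mk, FreeGroup.mul_mk]
    refine ⟨FreeGroup.reduceCyclically w, ?_, ?_, ?_, ?_⟩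
    · intro h0
      rw [h0] at hmk
      have h2 : (FreeGroup.mk w : FreeGroup S) = 1 := by
        rw [hmk]
        have : (FreeGroup.mk [] : FreeGroup S) = 1 := rfl
        rw [this, mul_one, mul_inv_cancel]
      have h3 : FreeGroup.reduce w = FreeGroup.reduce [] := FreeGroup.reduce.sound h2
      rw [hred.reduce_eq, FreeGroup.reduce_nil] at h3
      exact hw h3
    · have := (hc.flatten_replicate 2).isReduced
      simpa [List.replicate_succ] using this
    · have := congrArg List.length hj
      simp only [List.length_append] at this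
      omega
    · have h2 : FreeGroup.mk w ∈ Subgroup.normalClosure (rels A) := (piA_eq_one_iff A _).1 h1
      have h3 := (Subgroup.normalClosure_normal (s := rels A)).conj_mem _ h2
        (FreeGroup.mk (FreeGroup.reduceCyclically.conjugator w))⁻¹
      rw [hmk] at h3
      convert h3 using 1
      group
  obtain ⟨X, _, _, D, hD, hcard, hcyc⟩ := diag_of_word A w' hw' hred' hmem
  have h3 := h X D hD hcyc
  rw [hcard] at h3
  -- no inner darts
  have hout : ∀ x, D.out x := by
    intro x
    by_contra hx
    obtain ⟨m, hm, hm1⟩ : ∃ m, 0 < m ∧ (D.φ ^ m) x = x ∧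
        ∀ i j, i < m → j < m → (D.φ ^ i) x = (D.φ ^ j) x → i = j := by
      refine ⟨Function.minimalPeriod D.φ x, ?_, ?_, ?_⟩
      · apply Function.minimalPeriod_pos_of_mem_periodicPts
        exact Function.Injective.mem_periodicPts D.φ.injective x
      · rw [Equiv.Perm.coe_pow]
        exact Function.iterate_minimalPeriod
      · intro i j hi hj hij
        rw [Equiv.Perm.coe_pow, Equiv.Perm.coe_pow] at hij
        exact Function.iterate_injOn_Iio_minimalPeriod hi hj hij
    obtain ⟨hm2, hm3⟩ := hm1
    have h4 : C * n + 1 ≤ m := by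
      have := hg (D.node x) (fword D x m) (fword_reduced D hD x m) (by
        intro h0
        have := fword_length D x m
        rw [h0] at this
        simp at this
        omega) (by rw [fword_read D x hx, hm2])
      rwa [fword_length] at this
    have h5 : m ≤ Nat.card {x // ¬ D.out x} := by
      let f : Fin m → {x // ¬ D.out x} := fun i => ⟨(D.φ ^ i.1) x, by rwa [out_pow]⟩
      have hf : Function.Injective f := by
        intro i j hij
        exact Fin.ext (hm3 i j i.2 j.2 (congrArg Subtype.val hij))
      have := Nat.card_le_card_of_injective f hf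
      rwa [Nat.card_fin] at this
    have h6 : C * w'.length ≤ C * n := Nat.mul_le_mul_left _ hl'
    omega
  have h7 := euler_faces D.toPMap (by
    intro x hx
    apply hD.2 (D.α x)
    have h8 : D.φ (D.α x) = x := hx
    rw [h8, ← D.lab_α, D.inv])
  have h9 : Nat.card D.toPMap.Face ≤ 1 := by
    rw [Finite.card_le_one_iff_subsingleton]
    refine ⟨fun a b => ?_⟩
    induction a using Quotient.inductionOn with
    | h a =>
      induction b using Quotient.inductionOn with
      | h b => exact Quotient.sound (hcyc a b (hout a) (hout b))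
  omega

end Crest.Agent.R177
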