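import Crest.Agent.R177.MkConf
import Crest.Agent.R177.Pieces

/-!
# Row 184 (S0274), module CUT (helper132)

A configuration over `aug A v o` (one additional edge `ζ : v → o`) is cut at its `ζ`-darts; this
gives a configuration over `A`.
-/

set_option autoImplicit false

open scoped Classical

namespace Crest.Agent.R177

open Crest.Agent.R199 (PAct)

namespace CutM

open Loc (IsPath word word_length)

variable {S V : Type}

/-- embedding of the letters -/
def emb (a : S × Bool) : Option S × Bool := (some a.1, a.2)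

theorem emb_inj {a b : S × Bool} (h : emb a = emb b) : a = b := by
  obtain ⟨s, x⟩ := a
  obtain ⟨t, y⟩ := b
  simpa [emb] using h

theorem emb_hinv (a : S × Bool) : emb (hinv a) = hinv (emb a) := rfl

theorem st_emb (A : PAct S V) (v o : V) (a : S × Bool) (x : V) :
    (aug A v o).st (emb a) x = A.st a x := by
  obtain ⟨s, _ | _⟩ := a <;> rfl

/-- the letter of `A` of a letter which is not `ζ` -/
noncomputable def unemb (a : Option S × Bool) (h : a.1 ≠ none) : S × Bool :=
  (a.1.get (Option.isSome_iff_ne_none.2 h), a.2)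

theorem emb_unemb (a : Option S × Bool) (h : a.1 ≠ none) : emb (unemb a h) = a := by
  unfold emb unemb
  simp

/-- the partial function of a functional relation -/
noncomputable def ofRel {D E : Type} (R : D → E → Prop) (x : D) : Option E :=
  if h : ∃ y, R x y then some h.choose else none

theorem ofRel_iff {D E : Type} {R : D → E → Prop} (hR : ∀ x y y', R x y → R x y' → y = y')
    (x : D) (y : E) : ofRel R x = some y ↔ R x y := by
  unfold ofRel
  constructor
  · intro h
    by_cases h1 : ∃ y, R x y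
    · rw [dif_pos h1] at h
      rw [← Option.some.inj h]
      exact h1.choose_spec
    · rw [dif_neg h1] at h
      cases h
  · intro h
    have h1 : ∃ y, R x y := ⟨y, h⟩
    rw [dif_pos h1]
    exact congrArg some (hR _ _ _ h1.choose_spec h)

theorem ofRel_none {D E : Type} {R : D → E → Prop} (x : D) :
    ofRel R x = none ↔ ∀ y, ¬ R x y := by
  unfold ofRel
  by_cases h1 : ∃ y, R x y
  · rw [dif_pos h1]
    simp only [reduceCtorEq, false_iff, not_forall, not_not]
    exact h1
  · rw [dif_neg h1]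
    simp only [true_iff]
    exact fun y hy => h1 ⟨y, hy⟩

/-! ### The relation `Next` -/

theorem next_fun {F : Frame} {x y y' : F.Dart} (h : F.Next x y) (h' : F.Next x y') : y = y' := by
  obtain ⟨i, j⟩ := x
  obtain ⟨i1, j1⟩ := y
  obtain ⟨i2, j2⟩ := y'
  obtain ⟨rfl, h⟩ := h
  obtain ⟨h0, h'⟩ := h'
  simp only at h0 h h'
  subst h0
  have e1 : j1.val < F.len i := j1.isLt
  have e2 : j2.val < F.len i := j2.isLt
  have : j1.val = j2.val := by
    rcases h with h | ⟨h, h1, -⟩ <;> rcases h' with h' | ⟨h', h1', -⟩ <;> omega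
  rw [Fin.ext this]

theorem next_inj {F : Frame} {x x' y : F.Dart} (h : F.Next x y) (h' : F.Next x' y) : x = x' := by
  obtain ⟨i, j⟩ := x
  obtain ⟨i1, j1⟩ := x'
  obtain ⟨i2, j2⟩ := y
  obtain ⟨rfl, h⟩ := h
  obtain ⟨h0, h'⟩ := h'
  simp only at h0 h h'
  subst h0
  have e1 := j.isLt
  have e2 := j1.isLt
  have : j.val = j1.val := by omega
  rw [Fin.ext this]

variable {A : PAct S V} {v o : V} {F : Frame}

/-- consecutive darts meet -/
theorem node_next {T : Type} {B : PAct T V} (c : Conf B F) {x y : F.Dart} (h : F.Next x y) :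
    c.node (F.stop x) = c.node (F.start y) := by
  obtain ⟨i, j⟩ := x
  obtain ⟨i1, j1⟩ := y
  obtain ⟨rfl, h⟩ := h
  simp only at h
  rcases h with h | ⟨h1, h2, h3⟩
  · have : F.stop ⟨i, j⟩ = F.start ⟨i, j1⟩ := by
      show (⟨i, j.succ⟩ : F.Pos) = ⟨i, j1.castSucc⟩
      have : j.succ = j1.castSucc := Fin.ext (by simp [h])
      rw [this]
    rw [this]
  · have e1 : F.stop ⟨i, j⟩ = ⟨i, Fin.last _⟩ := by
      show (⟨i, j.succ⟩ : F.Pos) = ⟨i, Fin.last _⟩
      have : j.succ = Fin.last _ := Fin.ext h2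
      rw [this]
    have e2 : F.start ⟨i, j1⟩ = ⟨i, 0⟩ := by
      show (⟨i, j1.castSucc⟩ : F.Pos) = ⟨i, 0⟩
      have : j1.castSucc = 0 := Fin.ext (by simp [h1])
      rw [this]
    rw [e1, e2]
    exact c.closed i h3

/-! ### The `ζ`-darts -/

variable (c : Conf (aug A v o) F)

/-- the nodes of a `ζ`-dart -/
theorem zeta_nodes {x : F.Dart} (hx : (c.lab x).1 = none) :
    ((c.lab x).2 = true ∧ c.node (F.start x) = v ∧ c.node (F.stop x) = o) ∨
    ((c.lab x).2 = false ∧ c.node (F.start x) = o ∧ c.node (F.stop x) = v) := by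
  have h := c.step x
  rcases hl : c.lab x with ⟨a, b⟩
  rw [hl] at hx h
  simp only at hx
  subst hx
  cases b with
  | true =>
    left
    have h' : (if c.node (F.start x) = v then some o else none) = some (c.node (F.stop x)) := h
    by_cases h1 : c.node (F.start x) = v
    · rw [if_pos h1] at h'
      exact ⟨rfl, h1, (Option.some.inj h').symm⟩
    · rw [if_neg h1] at h'
      cases h'
  | false =>
    right
    have h' : (if c.node (F.start x) = o then some v else none) = some (c.node (F.stop x)) := h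
    by_cases h1 : c.node (F.start x) = o
    · rw [if_pos h1] at h'
      exact ⟨rfl, h1, (Option.some.inj h').symm⟩
    · rw [if_neg h1] at h'
      cases h'

/-- a `ζ`-dart is not matched -/
theorem mate_zeta {x x' : F.Dart} (h : c.mate x = some x') : (c.lab x).1 ≠ none := by
  intro hx
  obtain ⟨y', hy'⟩ := c.mate_corner _ _ (c.mate_symm _ _ h)
  have h1 := c.mate_lab _ _ _ (c.mate_symm _ _ h) hy'
  have h2 := c.mate_node _ _ h
  -- `y'` is the inverse `ζ`-dart and ends where `x` starts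
  have h3 : (c.lab y').1 = none := by
    rw [h1] at hx
    exact hx
  have h4 : (c.lab x).2 = !(c.lab y').2 := by rw [h1]; rfl
  rw [← node_next c hy'] at h2
  rcases zeta_nodes c hx with ⟨b1, n1, -⟩ | ⟨b1, n1, -⟩ <;>
    rcases zeta_nodes c h3 with ⟨b2, -, n2⟩ | ⟨b2, -, n2⟩
  · rw [b1, b2] at h4
    cases h4
  · exact h2 (n1.trans n2.symm)
  · exact h2 (n1.trans n2.symm)
  · rw [b1, b2] at h4
    cases h4

theorem mate_zeta' {x x' : F.Dart} (h : c.mate x = some x') : (c.lab x').1 ≠ none :=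
  mate_zeta c (c.mate_symm _ _ h)

/-- the dart before a matched corner is not a `ζ`-dart -/
theorem mate_zeta_pred {x x' y : F.Dart} (h : c.mate x = some x') (hy : F.Next y x) :
    (c.lab y).1 ≠ none := by
  have h1 := c.mate_lab _ _ _ h hy
  have h2 := mate_zeta' c h
  rw [h1] at h2
  exact h2

/-- two consecutive darts are not both `ζ`-darts -/
theorem zeta_next (hvo : v ≠ o) {x y : F.Dart} (h : F.Next x y) (hx : (c.lab x).1 = none) :
    (c.lab y).1 ≠ none := by
  intro hy
  have h1 := node_next c h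
  have h2 := c.red _ _ h
  have h3 : ∀ b b', c.lab x = (none, b) → c.lab y = (none, b') → b ≠ !b' := by
    intro b b' e1 e2 e3
    rw [e1, e2, e3] at h2
    exact h2 (by simp [hinv])
  have ex : c.lab x = (none, (c.lab x).2) := by rw [← hx]
  have ey : c.lab y = (none, (c.lab y).2) := by rw [← hy]
  have h4 := h3 _ _ ex ey
  rcases zeta_nodes c hx with ⟨b1, -, n1⟩ | ⟨b1, -, n1⟩ <;>
    rcases zeta_nodes c hy with ⟨b2, n2, -⟩ | ⟨b2, n2, -⟩
  · exact hvo ((n2.symm.trans h1.symm).trans n1)
  · rw [b1, b2] at h4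
    exact h4 rfl
  · rw [b1, b2] at h4
    exact h4 rfl
  · exact hvo ((n1.symm.trans h1).trans n2)

/-- the nodes of the path `i` -/
noncomputable def ndN (i : Fin F.K) (k : ℕ) : V :=
  if h : k < F.len i + 1 then c.node ⟨i, ⟨k, h⟩⟩ else v

/-- the letters of the path `i` -/
noncomputable def lbN (i : Fin F.K) (k : ℕ) : Option S × Bool :=
  if h : k < F.len i then c.lab ⟨i, ⟨k, h⟩⟩ else (none, true)

theorem ndN_eq (i : Fin F.K) {k : ℕ} (h : k < F.len i + 1) : ndN c i k = c.node ⟨i, ⟨k, h⟩⟩ :=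
  dif_pos h

theorem lbN_eq (i : Fin F.K) {k : ℕ} (h : k < F.len i) : lbN c i k = c.lab ⟨i, ⟨k, h⟩⟩ :=
  dif_pos h

/-- the paths of `c` as paths indexed by natural numbers -/
theorem isPath (i : Fin F.K) : IsPath (aug A v o) (F.len i) (ndN c i) (lbN c i) := by
  refine ⟨?_, ?_⟩
  · intro k hk
    rw [lbN_eq c i hk, ndN_eq c i (by omega), ndN_eq c i (by omega)]
    exact c.step ⟨i, ⟨k, hk⟩⟩
  · intro k hk
    rw [lbN_eq c i hk, lbN_eq c i (by omega)]
    exact c.red _ _ ⟨rfl, Or.inl rfl⟩

/-- `ζ`-darts of one path are far apart -/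
theorem zeta_far {g' : ℕ} (hgir : Girth (aug A v o) g') (hvo : v ≠ o) {i : Fin F.K}
    {p q : Fin (F.len i)} (hpq : p < q) (hp : (c.lab ⟨i, p⟩).1 = none)
    (hq : (c.lab ⟨i, q⟩).1 = none) : p.val + g' ≤ q.val := by
  have hP := isPath c i
  have hlt : p.val < q.val := hpq
  have hql := q.isLt
  have es : ndN c i p.val = c.node (F.start ⟨i, p⟩) := ndN_eq c i (by omega)
  have ep : ndN c i (p.val + 1) = c.node (F.stop ⟨i, p⟩) := ndN_eq c i (by omega)
  have eq : ndN c i q.val = c.node (F.start ⟨i, q⟩) := ndN_eq c i (by omega)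
  -- a closed subpath starting at `p`
  have same : c.node (F.start ⟨i, p⟩) = c.node (F.start ⟨i, q⟩) → p.val + g' ≤ q.val := by
    intro h
    have h1 := hP.read p.val (q.val - p.val) (by omega)
    have h2 := hP.red p.val (q.val - p.val) (by omega)
    rw [show p.val + (q.val - p.val) = q.val by omega, es, eq, ← h] at h1
    have h3 := hgir _ _ h2 (by
      intro e
      have := congrArg List.length e
      simp only [word_length, List.length_nil] at this
      omega) h1
    rw [word_length] at h3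
    omega
  -- a closed subpath starting at `p + 1`
  have opp : c.node (F.stop ⟨i, p⟩) = c.node (F.start ⟨i, q⟩) → p.val + g' ≤ q.val := by
    intro h
    by_cases h0 : q.val = p.val + 1
    · exact absurd hq (zeta_next c hvo (x := ⟨i, p⟩) (y := ⟨i, q⟩) ⟨rfl, Or.inl h0⟩ hp)
    · have h1 := hP.read (p.val + 1) (q.val - (p.val + 1)) (by omega)
      have h2 := hP.red (p.val + 1) (q.val - (p.val + 1)) (by omega)
      rw [show p.val + 1 + (q.val - (p.val + 1)) = q.val by omega, ep, eq, ← h] at h1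
      have h3 := hgir _ _ h2 (by
        intro e
        have := congrArg List.length e
        simp only [word_length, List.length_nil] at this
        omega) h1
      rw [word_length] at h3
      omega
  rcases zeta_nodes c hp with ⟨-, n1, m1⟩ | ⟨-, n1, m1⟩ <;>
    rcases zeta_nodes c hq with ⟨-, n2, m2⟩ | ⟨-, n2, m2⟩
  · exact same (n1.trans n2.symm)
  · exact opp (m1.trans n2.symm)
  · exact opp (m1.trans n2.symm)
  · exact same (n1.trans n2.symm)

/-- the number of `ζ`-darts -/
theorem card_zeta {g' L : ℕ} (hg : 0 < g') (hgir : Girth (aug A v o) g') (hvo : v ≠ o)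
    (hL : ∀ i, F.len i ≤ L) :
    Nat.card {x : F.Dart // (c.lab x).1 = none} ≤ F.K * (L / g' + 1) := by
  have hlt : ∀ x : F.Dart, x.2.val / g' < L / g' + 1 := by
    intro x
    have h1 := x.2.isLt
    have h2 := hL x.1
    exact Nat.lt_succ_of_le (Nat.div_le_div_right (by omega))
  let f : {x : F.Dart // (c.lab x).1 = none} → Fin F.K × Fin (L / g' + 1) :=
    fun x => (x.1.1, ⟨x.1.2.val / g', hlt x.1⟩)
  have hf : Function.Injective f := by
    rintro ⟨⟨i, p⟩, hp⟩ ⟨⟨j, q⟩, hq⟩ h
    have h1 : i = j := congrArg Prod.fst h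
    subst h1
    have h2 : p.val / g' = q.val / g' := congrArg Fin.val (congrArg Prod.snd h)
    have key : ∀ a b : Fin (F.len i), (c.lab ⟨i, a⟩).1 = none → (c.lab ⟨i, b⟩).1 = none →
        a.val / g' = b.val / g' → ¬ a < b := by
      intro a b ha hb hab hlt
      have h3 := zeta_far c hgir hvo hlt ha hb
      have h4 : a.val / g' + 1 ≤ b.val / g' := by
        rw [← Nat.add_div_right _ hg]
        exact Nat.div_le_div_right h3
      omega
    have h3 : p = q := le_antisymm (not_lt.1 (key q p hq hp h2.symm)) (not_lt.1 (key p q hp hq h2))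
    subst h3
    rfl
  have h1 := Nat.card_le_card_of_injective f hf
  have h2 : Nat.card (Fin F.K × Fin (L / g' + 1)) = F.K * (L / g' + 1) := by simp
  rwa [h2] at h1

/-! ### The cut configuration -/

/-- the darts which are not `ζ`-darts -/
abbrev DD : Type := {x : F.Dart // (c.lab x).1 ≠ none}

theorem nx_iff (x y : DD c) : ofRel (fun x y : DD c => F.Next x.1 y.1) x = some y ↔
    F.Next x.1 y.1 :=
  ofRel_iff (fun _ _ _ h h' => Subtype.ext (next_fun h h')) x y

theorem mt_iff (x y : DD c) : ofRel (fun x y : DD c => c.mate x.1 = some y.1) x = some y ↔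
    c.mate x.1 = some y.1 :=
  ofRel_iff (fun _ _ _ h h' => Subtype.ext (Option.some.inj (h.symm.trans h'))) x y

/-- the pre-configuration over `A` -/
noncomputable def pre : Pre A (DD c) where
  nx := ofRel fun x y : DD c => F.Next x.1 y.1
  inj x y z hx hy := Subtype.ext (next_inj ((nx_iff c x z).1 hx) ((nx_iff c y z).1 hy))
  nd x := c.node (F.start x.1)
  nd' x := c.node (F.stop x.1)
  lab x := unemb (c.lab x.1) x.2
  mate := ofRel fun x y : DD c => c.mate x.1 = some y.1
  step x := by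
    rw [← st_emb A v o, emb_unemb]
    exact c.step x.1
  glueN x y h := node_next c ((nx_iff c x y).1 h)
  red x y h := by
    intro e
    refine c.red _ _ ((nx_iff c x y).1 h) ?_
    have := congrArg emb e
    rwa [emb_unemb, emb_hinv, emb_unemb] at this
  mate_symm x x' h := (mt_iff c x' x).2 (c.mate_symm _ _ ((mt_iff c x x').1 h))
  mate_corner x x' h := by
    have h1 := (mt_iff c x x').1 h
    obtain ⟨y, hy⟩ := c.mate_corner _ _ h1
    exact ⟨⟨y, mate_zeta_pred c h1 hy⟩, (nx_iff c _ _).2 hy⟩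
  mate_lab x x' y h hy := by
    have h1 := (mt_iff c x x').1 h
    have h2 := c.mate_lab _ _ _ h1 ((nx_iff c y x).1 hy)
    apply emb_inj
    rw [emb_hinv, emb_unemb, emb_unemb]
    exact h2
  mate_node x x' h := c.mate_node _ _ ((mt_iff c x x').1 h)
  mate_coh x x' y y' h h1 h2 := (nx_iff c y' x').2
    (c.mate_coh _ _ _ _ ((mt_iff c x x').1 h) ((nx_iff c x y).1 h1) ((mt_iff c y y').1 h2))

theorem mate_ne (x : DD c) : (pre c).mate x ≠ none ↔ c.mate x.1 ≠ none := by
  constructor
  · intro h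
    obtain ⟨y, hy⟩ := Option.ne_none_iff_exists'.1 h
    rw [(mt_iff c x y).1 hy]
    simp
  · intro h
    obtain ⟨y, hy⟩ := Option.ne_none_iff_exists'.1 h
    have h1 : (pre c).mate x = some ⟨y, mate_zeta' c hy⟩ := (mt_iff c x _).2 hy
    rw [h1]
    simp

theorem glued_le : c.glued ≤ (pre c).glued := by
  refine Nat.card_le_card_of_injective
    (fun x : {x : F.Dart // c.mate x ≠ none} =>
      (⟨⟨x.1, by
          obtain ⟨y, hy⟩ := Option.ne_none_iff_exists'.1 x.2
          exact mate_zeta c hy⟩, (mate_ne c _).2 x.2⟩ : {x : DD c // (pre c).mate x ≠ none})) ?_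
  intro x y h
  exact Subtype.ext (congrArg (fun z : {x : DD c // (pre c).mate x ≠ none} => z.1.1) h)

theorem unglued_le : (pre c).unglued ≤ c.unglued := by
  refine Nat.card_le_card_of_injective
    (fun x : {x : DD c // (∃ y, (pre c).nx y = some x) ∧ (pre c).mate x = none} =>
      (⟨x.1.1, by
          obtain ⟨y, hy⟩ := x.2.1
          exact ⟨y.1, (nx_iff c y x.1).1 hy⟩, by
          by_contra h
          exact (mate_ne c x.1).2 h x.2.2⟩ : {x : F.Dart // F.IsCorner x ∧ c.mate x = none})) ?_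
  intro x y h
  exact Subtype.ext (Subtype.ext
    (congrArg (fun z : {x : F.Dart // F.IsCorner x ∧ c.mate x = none} => z.1) h))

theorem ends_le : (pre c).ends ≤ c.ends := by
  refine Nat.card_le_card_of_injective
    (fun x : {x : DD c // (pre c).mate x ≠ none ∧
        ∀ y, (pre c).nx x = some y → (pre c).mate y = none} =>
      (⟨x.1.1, (mate_ne c x.1).1 x.2.1, by
          intro y hy
          by_contra h
          obtain ⟨y', hy'⟩ := Option.ne_none_iff_exists'.1 h
          have h1 : (pre c).nx x.1 = some ⟨y, mate_zeta c hy'⟩ := (nx_iff c _ _).2 hy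
          exact (mate_ne c ⟨y, mate_zeta c hy'⟩).2 h (x.2.2 _ h1)⟩ :
        {x : F.Dart // c.mate x ≠ none ∧ ∀ y, F.Next x y → c.mate y = none})) ?_
  intro x y h
  exact Subtype.ext (Subtype.ext (congrArg (fun z : {x : F.Dart // c.mate x ≠ none ∧
    ∀ y, F.Next x y → c.mate y = none} => z.1) h))

/-- first darts of open paths -/
theorem card_first : Nat.card {x : F.Dart // ∀ y, ¬ F.Next y x} ≤ F.openN := by
  have key : ∀ x : F.Dart, (∀ y, ¬ F.Next y x) → F.cl x.1 = false ∧ x.2.val = 0 := by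
    rintro ⟨i, j⟩ h
    have h0 : j.val = 0 := by
      by_contra hne
      exact h ⟨i, ⟨j.val - 1, by have := j.isLt; omega⟩⟩ ⟨rfl, Or.inl (by
        show j.val = j.val - 1 + 1
        omega)⟩
    refine ⟨?_, h0⟩
    by_contra hcl
    have hcl' : F.cl i = true := by simpa using hcl
    refine h ⟨i, ⟨F.len i - 1, by have := F.len_pos i; omega⟩⟩ ⟨rfl, Or.inr ⟨h0, ?_, hcl'⟩⟩
    show F.len i - 1 + 1 = F.len i
    have := F.len_pos i
    omega
  refine Nat.card_le_card_of_injective
    (fun x : {x : F.Dart // ∀ y, ¬ F.Next y x} =>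
      (⟨x.1.1, (key x.1 x.2).1⟩ : {i : Fin F.K // F.cl i = false})) ?_
  rintro ⟨⟨i, p⟩, hx⟩ ⟨⟨j, q⟩, hy⟩ h
  have h1 : i = j := congrArg Subtype.val h
  subst h1
  have h2 := (key _ hx).2
  have h3 := (key _ hy).2
  simp only at h2 h3
  have : p = q := Fin.ext (h2.trans h3.symm)
  subst this
  rfl

/-- an injection given by a relation -/
theorem card_le_of_rel {U T : Type} [Finite T] (R : U → T → Prop) (h1 : ∀ u, ∃ t, R u t)
    (h2 : ∀ u u' t, R u t → R u' t → u = u') : Nat.card U ≤ Nat.card T := by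
  choose f hf using h1
  exact Nat.card_le_card_of_injective f fun u u' h => h2 u u' (f u) (hf u) (h ▸ hf u')

theorem openN_le (hvo : v ≠ o) : (pre c).openN ≤ F.openN + (pre c).endsAt o := by
  refine le_trans ?_ (Nat.add_le_add_right card_first _)
  unfold Pre.openN Pre.endsAt
  rw [← Nat.card_sum, ← Nat.card_sum]
  refine card_le_of_rel (fun (x : {x : DD c // ∀ y, (pre c).nx y ≠ some x})
    (t : {x : F.Dart // ∀ y, ¬ F.Next y x} ⊕
      ({x : DD c // (∀ y, (pre c).nx y ≠ some x) ∧ (pre c).nd x = o} ⊕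
        {x : DD c // (pre c).nx x = none ∧ (pre c).nd' x = o})) =>
    match t with
    | Sum.inl a => (a.1 = x.1.1) ∨ ((c.lab a.1).1 = none ∧ F.Next a.1 x.1.1)
    | Sum.inr (Sum.inl y) => y.1 = x.1
    | Sum.inr (Sum.inr y) => ∃ z : F.Dart, F.Next y.1.1 z ∧ F.Next z x.1.1) ?_ ?_
  · rintro ⟨x, hx⟩
    by_cases h1 : ∃ z, F.Next z x.1
    · obtain ⟨z, hz⟩ := h1
      have hzl : (c.lab z).1 = none := by
        by_contra h
        exact hx ⟨z, h⟩ ((nx_iff c _ _).2 hz)
      rcases zeta_nodes c hzl with ⟨-, -, n1⟩ | ⟨-, n1, -⟩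
      · refine ⟨Sum.inr (Sum.inl ⟨x, hx, ?_⟩), rfl⟩
        show c.node (F.start x.1) = o
        rw [← node_next c hz, n1]
      · by_cases h2 : ∃ w, F.Next w z
        · obtain ⟨w, hw⟩ := h2
          have hwl : (c.lab w).1 ≠ none := fun h => zeta_next c hvo hw h hzl
          refine ⟨Sum.inr (Sum.inr ⟨⟨w, hwl⟩, ?_, ?_⟩), z, hw, hz⟩
          · show ofRel (fun x y : DD c => F.Next x.1 y.1) _ = none
            refine (ofRel_none (R := fun x y : DD c => F.Next x.1 y.1) _).2 ?_
            intro y hy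
            have := next_fun hy hw
            exact y.2 (this ▸ hzl)
          · show c.node (F.stop w) = o
            rw [node_next c hw, n1]
        · refine ⟨Sum.inl ⟨z, fun w hw => h2 ⟨w, hw⟩⟩, Or.inr ⟨hzl, hz⟩⟩
    · exact ⟨Sum.inl ⟨x.1, fun w hw => h1 ⟨w, hw⟩⟩, Or.inl rfl⟩
  · rintro ⟨x, hx⟩ ⟨x', hx'⟩ (a | a | a) h h'
    · apply Subtype.ext
      apply Subtype.ext
      rcases h with h | ⟨h, g⟩ <;> rcases h' with h' | ⟨h', g'⟩
      · exact h.symm.trans h'
      · exact absurd h' (h ▸ x.2)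
      · exact absurd h (h' ▸ x'.2)
      · exact next_fun g g'
    · exact Subtype.ext (h.symm.trans h')
    · obtain ⟨z, hz, hz1⟩ := h
      obtain ⟨z', hz', hz1'⟩ := h'
      have := next_fun hz hz'
      subst this
      exact Subtype.ext (Subtype.ext (next_fun hz1 hz1'))

/-- the number of paths of the cut configuration -/
theorem card_paths {F' : Frame} (e : DD c ≃ F'.Dart)
    (hN : ∀ x y, F'.Next (e x) (e y) ↔ (pre c).nx x = some y) :
    F'.K ≤ F.K + Nat.card {x : F.Dart // (c.lab x).1 = none} := by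
  have h0 : F'.K = Nat.card (Fin F'.K) := by simp
  have h1 : F.K = Nat.card (Fin F.K) := by simp
  rw [h0, h1, ← Nat.card_sum]
  refine card_le_of_rel (fun (i : Fin F'.K) (t : Fin F.K ⊕ {x : F.Dart // (c.lab x).1 = none}) =>
    match t with
    | Sum.inl j => ∃ hj : (c.lab ⟨j, ⟨0, F.len_pos j⟩⟩).1 ≠ none,
        (e ⟨⟨j, ⟨0, F.len_pos j⟩⟩, hj⟩).1 = i
    | Sum.inr z => ∃ x : DD c, F.Next z.1 x.1 ∧ (e x).1 = i) ?_ ?_
  · intro i
    by_cases hz : ∃ z : {x : F.Dart // (c.lab x).1 = none}, ∃ x : DD c,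
        F.Next z.1 x.1 ∧ (e x).1 = i
    · obtain ⟨z, hz⟩ := hz
      exact ⟨Sum.inr z, hz⟩
    · -- go back to the first dart
      have back : ∀ (j : Fin F.K) (n : ℕ) (hn : n < F.len j)
          (hl : (c.lab ⟨j, ⟨n, hn⟩⟩).1 ≠ none), (e ⟨⟨j, ⟨n, hn⟩⟩, hl⟩).1 = i →
          ∃ hj : (c.lab ⟨j, ⟨0, F.len_pos j⟩⟩).1 ≠ none,
            (e ⟨⟨j, ⟨0, F.len_pos j⟩⟩, hj⟩).1 = i := by
        intro j n
        induction n with
        | zero => intro hn hl h; exact ⟨hl, h⟩
        | succ n ih =>
          intro hn hl h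
          have hnext : F.Next ⟨j, ⟨n, by omega⟩⟩ ⟨j, ⟨n + 1, hn⟩⟩ := ⟨rfl, Or.inl rfl⟩
          have hl' : (c.lab ⟨j, ⟨n, by omega⟩⟩).1 ≠ none := by
            intro h'
            exact hz ⟨⟨_, h'⟩, ⟨_, hl⟩, hnext, h⟩
          refine ih (by omega) hl' ?_
          have h2 : F'.Next (e ⟨⟨j, ⟨n, by omega⟩⟩, hl'⟩) (e ⟨⟨j, ⟨n + 1, hn⟩⟩, hl⟩) :=
            (hN _ _).2 ((nx_iff c _ _).2 hnext)
          exact h2.1.trans h
      let a : DD c := e.symm ⟨i, ⟨0, F'.len_pos i⟩⟩
      have ha : (e a).1 = i := by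
        show (e (e.symm ⟨i, ⟨0, F'.len_pos i⟩⟩)).1 = i
        rw [Equiv.apply_symm_apply]
      obtain ⟨⟨⟨j, ⟨n, hn⟩⟩, hl⟩, hdef⟩ : ∃ b : DD c, b = a := ⟨a, rfl⟩
      exact ⟨Sum.inl j, back j n hn hl (by rw [hdef]; exact ha)⟩
  · rintro i i' (j | z) h h'
    · obtain ⟨_, h⟩ := h
      obtain ⟨_, h'⟩ := h'
      exact h.symm.trans h'
    · obtain ⟨x, hx, h⟩ := h
      obtain ⟨x', hx', h'⟩ := h'
      have : x = x' := Subtype.ext (next_fun hx hx')
      subst this
      exact h.symm.trans h'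

end CutM

open CutM in
/-- CUT: cut all paths at their `ζ`-darts. -/
theorem cut {S V : Type} (A : PAct S V) (v o : V) (g' K K' D0 L : ℕ) (κ C P η : ℝ)
    (hg : 2 ≤ g') (hgir : Girth (aug A v o) g') (hκ : 0 ≤ κ) (hC : 0 ≤ C) (hP : 0 ≤ P)
    (hK : K * (L / g' + 2) ≤ K') (h : LocalIneqO A o K' D0 L κ C P η) :
    LocalIneq (aug A v o) K D0 L κ C P η := by
  have hvo : v ≠ o := by
    rintro rfl
    have h1 := hgir v [(none, true)] FreeGroup.IsReduced.singleton (by simp) (by
      show ((aug A v v).st (none, true) v).bind ((aug A v v).read []) = some v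
      have : (aug A v v).st (none, true) v = some v := by
        show (if v = v then some v else none) = some v
        rw [if_pos rfl]
      rw [this]
      rfl)
    simp only [List.length_singleton] at h1
    omega
  intro F c hFK hFL hends
  obtain ⟨F', c', e, hN, -, -, -, -, -, hgl, hug, hen, hop, hat⟩ := (pre c).exists_conf
  have hK' : F'.K ≤ K' := by
    have h1 := card_paths c e hN
    have h2 := card_zeta c (by omega : 0 < g') hgir hvo hFL
    calc F'.K ≤ F.K + F.K * (L / g' + 1) := by omega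
      _ = F.K * (L / g' + 2) := by ring
      _ ≤ K * (L / g' + 2) := Nat.mul_le_mul_right _ hFK
      _ ≤ K' := hK
  have hL' : ∀ i, F'.len i ≤ L := by
    refine Frame.len_le_of e hN (fun x : DD c => x.1.1) ?_ L ?_
    · intro x y hxy
      exact ((nx_iff c x y).1 hxy).1
    · intro j
      refine le_trans ?_ (hFL j)
      have h1 : Nat.card (Fin (F.len j)) = F.len j := by simp
      rw [← h1]
      refine card_le_of_rel (fun (x : {x : DD c // x.1.1 = j}) (t : Fin (F.len j)) =>
        x.1.1 = ⟨j, t⟩) ?_ ?_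
      · rintro ⟨⟨⟨i, p⟩, hx⟩, hxj⟩
        simp only at hxj
        subst hxj
        exact ⟨p, rfl⟩
      · rintro x x' t hx hx'
        exact Subtype.ext (Subtype.ext (hx.trans hx'.symm))
  have h1 := h F' c' hK' hL' (by rw [hen]; exact (ends_le c).trans hends)
  rw [hgl, hug, hop, hat] at h1
  have g1 : (c.glued : ℝ) ≤ (pre c).glued := by exact_mod_cast glued_le c
  have g2 : ((pre c).unglued : ℝ) ≤ c.unglued := by exact_mod_cast unglued_le c
  have g3 : ((pre c).openN : ℝ) ≤ F.openN + (pre c).endsAt o := by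
    exact_mod_cast openN_le c hvo
  have k1 := mul_le_mul_of_nonneg_left g1 hκ
  have k2 := mul_le_mul_of_nonneg_left g2 hC
  have k3 : P * (((pre c).openN : ℝ) - ((pre c).endsAt o : ℝ)) ≤ P * F.openN :=
    mul_le_mul_of_nonneg_left (by linarith) hP
  linarith

/-- CUT in the form of `Iface74.lean` -/
theorem localIneq_aug {S V : Type} (A : PAct S V) (o v : V) (g' K D0 L B : ℕ) (κ C P η : ℝ)
    (hκ : 0 ≤ κ) (hC : 0 ≤ C) (hP : 0 ≤ P) (hg : Girth (aug A v o) g') (hg' : 2 ≤ g')
    (hL : L ≤ B * g') (h : LocalIneqO A o (K * (B + 3)) D0 L κ C P η) :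
    LocalIneq (aug A v o) K D0 L κ C P η := by
  refine cut A v o g' K (K * (B + 3)) D0 L κ C P η hg' hg hκ hC hP ?_ h
  have h1 : L / g' ≤ B := Nat.div_le_of_le_mul (by rw [Nat.mul_comm]; exact hL)
  exact Nat.mul_le_mul_left _ (by omega)

end Crest.Agent.R177
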