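import Crest.Agent.R177.Defs2

/-!
# Rows 177 / 184: frozen definitions for the marked version (S0274, helper455)

`Conf.endsAt`, `LocalIneqO` are in `DefsO.lean`.
-/

set_option autoImplicit false

open scoped Classical

namespace Crest.Agent.R177

open Crest.Agent.R199 (PAct)

variable {S V : Type}

/-- one additional letter `ζ = none` with one edge `v → o` -/
noncomputable def aug (A : PAct S V) (v o : V) : PAct (Option S) V where
  st a x :=
    match a with
    | (some s, b) => A.st (s, b) x
    | (none, true) => if x = v then some o else none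
    | (none, false) => if x = o then some v else none
  symm := by
    rintro ⟨_ | s, _ | _⟩ x y h
    · simp only [Bool.not_false] at h ⊢
      split_ifs at h with h1
      · obtain rfl : v = y := by simpa using h
        simp [h1]
    · simp only [Bool.not_true] at h ⊢
      split_ifs at h with h1
      · obtain rfl : o = y := by simpa using h
        simp [h1]
    · exact A.symm _ _ _ h
    · exact A.symm _ _ _ h

/-- letters of the design of S0274: `inl k = τ_k`, `inr Q = y_Q` -/
abbrev L74 : Type := Fin 4 ⊕ Fin 3

/-- the three triangles `{0,1,2}, {0,1,3}, {0,2,3}`: `Q` misses `3 - Q` -/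
def inc74 (Q : Fin 3) (k : Fin 4) : Prop := k.val ≠ 3 - Q.val

/-- The combinatorial properties giving `α * β = 1`, `β * α ≠ 1`. The marked node `o` is a
position with only the half-edges `(τ_1, in)`, `(y_1, out)`; its `y_0`-flag is missing. -/
structure Typed74 {V : Type} (A : PAct L74 V) (o : V) : Prop where
  tau : ∀ v k l, (A.st (Sum.inl k, true) v).isSome → (A.st (Sum.inl l, true) v).isSome
  y_out : ∀ p, p ≠ o → ∀ Q, (A.st (Sum.inr Q, true) p).isSome ↔
    Odd (Nat.card {k : Fin 4 // inc74 Q k ∧ (A.st (Sum.inl k, false) p).isSome})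
  z_in : ∀ z, Even (Nat.card {Q : Fin 3 // (A.st (Sum.inr Q, false) z).isSome})
  o_tau : ∀ k, (A.st (Sum.inl k, false) o).isSome ↔ k = 1
  o_y : ∀ Q, (A.st (Sum.inr Q, true) o).isSome ↔ Q = 1
  t123 : ∀ p, (A.st (Sum.inl 1, false) p).isSome → (A.st (Sum.inl 2, false) p).isSome →
    (A.st (Sum.inl 3, false) p).isSome

end Crest.Agent.R177
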