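import Crest.Agent.R177.Defs74

/-!
# Rows 177 / 184: the local inequality with a marked node (frozen, helper323)
-/

set_option autoImplicit false

open scoped Classical

namespace Crest.Agent.R177

open Crest.Agent.R199 (PAct)

/-- number of ends of open paths at the node `o` -/
noncomputable def Conf.endsAt {S V : Type} {A : PAct S V} {F : Frame} (c : Conf A F) (o : V) : ℕ :=
  Nat.card {i : Fin F.K // F.cl i = false ∧ c.node ⟨i, 0⟩ = o} +
    Nat.card {i : Fin F.K // F.cl i = false ∧ c.node ⟨i, Fin.last _⟩ = o}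

/-- `LocalIneq` with a marked node `o`: every end of an open path at `o` saves `P`. -/
def LocalIneqO {S V : Type} (A : PAct S V) (o : V) (K D0 L : ℕ) (κ C P η : ℝ) : Prop :=
  ∀ (F : Frame) (c : Conf A F), F.K ≤ K → (∀ i, F.len i ≤ L) → c.ends ≤ D0 →
    κ * c.glued ≤ C * c.unglued + P * ((F.openN : ℝ) - (c.endsAt o : ℝ)) + η

theorem LocalIneqO.toLocal {S V : Type} {A : PAct S V} {o : V} {K D0 L : ℕ} {κ C P η : ℝ}
    (hP : 0 ≤ P) (h : LocalIneqO A o K D0 L κ C P η) : LocalIneq A K D0 L κ C P η := by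
  intro F c h1 h2 h3
  have h4 := h F c h1 h2 h3
  have h5 : P * ((F.openN : ℝ) - (c.endsAt o : ℝ)) ≤ P * F.openN :=
    mul_le_mul_of_nonneg_left (by have := Nat.cast_nonneg (α := ℝ) (c.endsAt o); linarith) hP
  linarith

theorem LocalIneqO.mono {S V : Type} {A : PAct S V} {o : V} {K D0 L K' D0' L' : ℕ}
    {κ C P η η' : ℝ} (hK : K ≤ K') (hD : D0 ≤ D0') (hL : L ≤ L') (hη : η' ≤ η)
    (h : LocalIneqO A o K' D0' L' κ C P η') : LocalIneqO A o K D0 L κ C P η := by
  intro F c h1 h2 h3
  have := h F c (h1.trans hK) (fun i => (h2 i).trans hL) (h3.trans hD)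
  linarith

end Crest.Agent.R177
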