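import Crest.Agent.R177.Defs74

/-!
# Row 184 (S0274): the explicit type system and its Perron certificate (helper891)

Node types, `M = 2 J + 1`: `a`-nodes `15 M`, positions `{0,k}`: `4 M` each, `{1,2,3}`: `2 M`,
`{0}`: `3 M`, `{1}`: `9 M - 1`, `{2}`, `{3}`: `9 M`, nodes with two incoming letters `y`:
`(25 M - 1) / 2`, `(25 M - 1) / 2`, `(25 M + 1) / 2`, and the marked node.
-/

set_option autoImplicit false

open scoped Classical

namespace Crest.Agent.R177

open Crest.Agent.R199 (PAct)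

namespace D74

/-- incoming `τ`-letters of a type -/
def ps : Fin 13 → List (Fin 4) :=
  ![[], [0, 1], [0, 2], [0, 3], [1, 2, 3], [0], [1], [2], [3], [], [], [], [1]]

/-- incoming `y`-letters of a type -/
def pr : Fin 13 → List (Fin 3) :=
  ![[], [], [], [], [], [], [], [], [], [0, 1], [0, 2], [1, 2], []]

/-- multiplicities: `mA t * J + mB t` -/
def mA : Fin 13 → ℕ := ![30, 8, 8, 8, 4, 6, 18, 18, 18, 25, 25, 25, 0]

def mB : Fin 13 → ℕ := ![15, 4, 4, 4, 2, 3, 8, 9, 9, 12, 12, 13, 1]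

/-- the half-edges of a type -/
def hasT (t : Fin 13) : L74 × Bool → Bool
  | (Sum.inl _, true) => decide (t = 0)
  | (Sum.inl k, false) => decide (k ∈ ps t)
  | (Sum.inr Q, true) =>
      if t = 12 then decide (Q = 1)
      else decide (((ps t).filter fun k => decide (k.val ≠ 3 - Q.val)).length % 2 = 1)
  | (Sum.inr y, false) => decide (y ∈ pr t)

/-- number of nodes with two given half-edges -/
def cA (h h' : L74 × Bool) : ℕ := ∑ t : Fin 13, if hasT t h = true ∧ hasT t h' = true then mA t else 0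

def cB (h h' : L74 × Bool) : ℕ := ∑ t : Fin 13, if hasT t h = true ∧ hasT t h' = true then mB t else 0

/-- number of nodes with a given half-edge -/
def cA1 (h : L74 × Bool) : ℕ := ∑ t : Fin 13, if hasT t h = true then mA t else 0

def cB1 (h : L74 × Bool) : ℕ := ∑ t : Fin 13, if hasT t h = true then mB t else 0

def NQ : L74 → ℚ
  | Sum.inl _ => 15
  | Sum.inr _ => 12499 / 500

def nQ (h h' : L74 × Bool) : ℚ :=
  (cA h h' : ℚ) / 2 + (if h.1.isRight && h'.1.isRight && !h.2 && !h'.2 then 1 / 1000 else 0)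

def dQ : L74 → ℚ
  | Sum.inl k => if k = 0 then 2 / 3 else 6 / 11
  | Sum.inr _ => 5 / 7

def uQ : L74 × Bool → ℚ
  | (Sum.inl k, _) => if k = 0 then 11 / 10 else 1
  | (Sum.inr _, _) => 17 / 16

def qQ (h h' : L74 × Bool) : ℚ :=
  nQ h h' ^ 2 / (NQ h.1 * NQ h'.1) * (if h.2 then dQ h.1 else (dQ h.1)⁻¹) *
    (if h'.2 then dQ h'.1 else (dQ h'.1)⁻¹) / (249 / 250)

theorem N_ok : ∀ h : L74 × Bool, 2 * NQ h.1 ≤ cA1 h ∧
    NQ h.1 - cB1 h ≤ ((cA1 h : ℚ) - 2 * NQ h.1) * 250 := by
  decide +kernel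

theorem n_ok : ∀ h h' : L74 × Bool, h ≠ h' → (cA h h' : ℚ) ≤ 2 * nQ h h' ∧
    (cB h h' : ℚ) - nQ h h' ≤ (2 * nQ h h' - cA h h') * 250 := by
  decide +kernel

theorem bal1 : ∀ s : L74, cA1 (s, true) = cA1 (s, false) ∧ cB1 (s, true) = cB1 (s, false) := by
  decide +kernel

theorem qQ_le : ∀ h h' : L74 × Bool, h ≠ h' → qQ h h' ≤ 1 := by
  decide +kernel

theorem sub : ∀ h : L74 × Bool,
    (∑ h' ∈ Finset.univ.filter (fun h' : L74 × Bool => h' ≠ (h.1, !h.2)),
      nQ (h.1, !h.2) h' ^ 2 / (NQ h.1 * NQ h'.1) * (if h.2 then (dQ h.1)⁻¹ else dQ h.1) *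
      (if h'.2 then dQ h'.1 else (dQ h'.1)⁻¹) / (249 / 250) * uQ h') ≤ uQ h := by
  decide +kernel

/-- nodes of the model -/
abbrev VT (m : ℕ) : Type := Σ t : Fin 13, Fin (mA t * (m + 250) + mB t)

theorem card_VT (m : ℕ) (P : Fin 13 → Prop) [DecidablePred P] :
    Nat.card {v : VT m // P v.1} = (∑ t : Fin 13, if P t then mA t else 0) * (m + 250) +
      ∑ t : Fin 13, if P t then mB t else 0 := by
  rw [Nat.card_eq_fintype_card, Fintype.card_subtype, Finset.card_filter, Fintype.sum_sigma,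
    Finset.sum_mul, ← Finset.sum_add_distrib]
  refine Finset.sum_congr rfl fun t _ => ?_
  by_cases h : P t
  · simp [h]
  · simp [h]

theorem card_V (m : ℕ) : Nat.card (VT m) = (∑ t : Fin 13, mA t) * (m + 250) +
    ∑ t : Fin 13, mB t := by
  rw [Nat.card_eq_fintype_card, Fintype.card_sigma, Finset.sum_mul, ← Finset.sum_add_distrib]
  simp

theorem card_has (m : ℕ) (h : L74 × Bool) :
    Nat.card {v : VT m // hasT v.1 h = true} = cA1 h * (m + 250) + cB1 h := by
  rw [card_VT m fun t => hasT t h = true]; rfl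

theorem card_has2 (m : ℕ) (h h' : L74 × Bool) :
    Nat.card {v : VT m // hasT v.1 h = true ∧ hasT v.1 h' = true} =
      cA h h' * (m + 250) + cB h h' := by
  rw [card_VT m fun t => hasT t h = true ∧ hasT t h' = true]; rfl

theorem nQ_symm (h h' : L74 × Bool) : nQ h h' = nQ h' h := by
  have h1 : cA h h' = cA h' h := by
    unfold cA
    refine Finset.sum_congr rfl fun t _ => ?_
    simp [and_comm]
  unfold nQ
  rw [h1]
  congr 2
  cases h.1.isRight <;> cases h'.1.isRight <;> cases h.2 <;> cases h'.2 <;> rfl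

theorem nQ_nonneg (h h' : L74 × Bool) : 0 ≤ nQ h h' := by
  unfold nQ
  have : (0 : ℚ) ≤ (cA h h' : ℚ) / 2 := by positivity
  split_ifs <;> linarith

theorem NQ_pos (s : L74) : 0 < NQ s := by
  cases s <;> norm_num [NQ]

theorem dQ_pos (s : L74) : 0 < dQ s := by
  rcases s with k | y
  · simp only [dQ]; split_ifs <;> norm_num
  · simp only [dQ]; norm_num

theorem uQ_pos (h : L74 × Bool) : 0 < uQ h := by
  rcases h with ⟨k | y, b⟩
  · simp only [uQ]; split_ifs <;> norm_num
  · simp only [uQ]; norm_num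

theorem filter_inst {α : Type} [Fintype α] (p : α → Prop) (i j : DecidablePred p) :
    @Finset.filter α p i Finset.univ = @Finset.filter α p j Finset.univ := by
  rw [Subsingleton.elim i j]

/-- the model -/
noncomputable def model : Model L74 where
  V := VT
  fin m := inferInstance
  sz m := 2 * m + 501
  sz_large B := ⟨B, by omega⟩
  has m v h := hasT v.1 h = true
  bal m s := by rw [card_has, card_has, (bal1 s).1, (bal1 s).2]
  tot := ((∑ t : Fin 13, mA t : ℕ) : ℝ) + ((∑ t : Fin 13, mB t : ℕ) : ℝ)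
  tot_le m := by
    rw [card_V]
    set a := ∑ t : Fin 13, mA t
    set b := ∑ t : Fin 13, mB t
    have : a * (m + 250) + b ≤ (a + b) * (2 * m + 501) := by nlinarith
    exact_mod_cast this
  N s := ((NQ s : ℚ) : ℝ)
  N_pos s := by exact_mod_cast NQ_pos s
  N_le m s := by
    rw [card_has]
    have h1 := (N_ok (s, true)).1
    have h2 := (N_ok (s, true)).2
    simp only at h1 h2
    have h3 : (NQ s : ℚ) * ((2 * m + 501 : ℕ) : ℚ) ≤ ((cA1 (s, true) * (m + 250) +
        cB1 (s, true) : ℕ) : ℚ) := by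
      push_cast
      have hm : (0 : ℚ) ≤ m := Nat.cast_nonneg m
      nlinarith [mul_nonneg (sub_nonneg.2 h1) hm]
    exact_mod_cast h3
  n h h' := ((nQ h h' : ℚ) : ℝ)
  n_symm h h' := by rw [nQ_symm]
  n_nonneg h h' := by exact_mod_cast nQ_nonneg h h'
  n_le m h h' hne := by
    have := card_has2 m h h'
    rw [this]
    have h1 := (n_ok h h' hne).1
    have h2 := (n_ok h h' hne).2
    have h3 : ((cA h h' * (m + 250) + cB h h' : ℕ) : ℚ) ≤ nQ h h' * ((2 * m + 501 : ℕ) : ℚ) := by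
      push_cast
      have hm : (0 : ℚ) ≤ m := Nat.cast_nonneg m
      nlinarith [mul_nonneg (sub_nonneg.2 h1) hm]
    exact_mod_cast h3
  δ s := ((dQ s : ℚ) : ℝ)
  δ_pos s := by exact_mod_cast dQ_pos s
  u h := ((uQ h : ℚ) : ℝ)
  u_pos h := by exact_mod_cast uQ_pos h
  ρ := 249 / 250
  ρ_pos := by norm_num
  ρ_lt := by norm_num
  q_le_one h h' hne := by
    have := qQ_le h h' hne
    unfold qQ at this
    have h2 : ((nQ h h' ^ 2 / (NQ h.1 * NQ h'.1) * (if h.2 then dQ h.1 else (dQ h.1)⁻¹) *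
      (if h'.2 then dQ h'.1 else (dQ h'.1)⁻¹) / (249 / 250) : ℚ) : ℝ) ≤ ((1 : ℚ) : ℝ) := by
      exact_mod_cast this
    simp only [Rat.cast_mul, Rat.cast_div, Rat.cast_pow, Rat.cast_one,
      Rat.cast_ofNat, apply_ite (Rat.cast : ℚ → ℝ), Rat.cast_inv] at h2
    exact h2
  sub h := by
    have := sub h
    have h2 : ((∑ h' ∈ Finset.univ.filter (fun h' : L74 × Bool => h' ≠ (h.1, !h.2)),
      nQ (h.1, !h.2) h' ^ 2 / (NQ h.1 * NQ h'.1) * (if h.2 then (dQ h.1)⁻¹ else dQ h.1) *
      (if h'.2 then dQ h'.1 else (dQ h'.1)⁻¹) / (249 / 250) * uQ h' : ℚ) : ℝ) ≤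
        ((uQ h : ℚ) : ℝ) := by
      exact_mod_cast this
    simp only [Rat.cast_mul, Rat.cast_div, Rat.cast_pow,
      Rat.cast_sum, Rat.cast_ofNat, apply_ite (Rat.cast : ℚ → ℝ), Rat.cast_inv] at h2
    exact le_trans (le_of_eq (Finset.sum_congr (filter_inst _ _ _) fun x _ => rfl)) h2

/-- the marked node -/
def mk (m : ℕ) : VT m := ⟨12, ⟨0, by simp [mA, mB]⟩⟩

theorem eq_mk (m : ℕ) (v : VT m) (h : v.1 = 12) : v = mk m := by
  obtain ⟨t, i⟩ := v
  simp only at h
  subst h
  have : i.val = 0 := by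
    have := i.isLt
    have h1 : mA 12 * (m + 250) + mB 12 = 1 := by simp [mA, mB]
    omega
  exact Sigma.ext rfl (heq_of_eq (Fin.ext this))

theorem ztyp : ∀ t : Fin 13,
    (Finset.univ.filter fun y : Fin 3 => hasT t (Sum.inr y, false) = true).card % 2 = 0 := by
  decide +kernel

theorem ytyp : ∀ t : Fin 13, t ≠ 12 → ∀ Q : Fin 3, (hasT t (Sum.inr Q, true) = true) ↔
    (Finset.univ.filter fun k : Fin 4 => k.val ≠ 3 - Q.val ∧
      hasT t (Sum.inl k, false) = true).card % 2 = 1 := by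
  decide +kernel

theorem ttyp : ∀ (t : Fin 13) (k l : Fin 4), hasT t (Sum.inl k, true) = true →
    hasT t (Sum.inl l, true) = true := by
  decide +kernel

theorem otau : ∀ k : Fin 4, hasT 12 (Sum.inl k, false) = true ↔ k = 1 := by
  decide +kernel

theorem oy : ∀ Q : Fin 3, hasT 12 (Sum.inr Q, true) = true ↔ Q = 1 := by
  decide +kernel

theorem t123 : ∀ t : Fin 13, hasT t (Sum.inl 1, false) = true → hasT t (Sum.inl 2, false) = true →
    hasT t (Sum.inl 3, false) = true := by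
  decide +kernel

end D74

open D74 in
/-- DESIGN74 -/
theorem design74 : ∃ (M : Model L74) (o : ∀ m, M.V m),
    ∀ m (A : PAct L74 (M.V m)), M.Adm m A → Typed74 A (o m) := by
  refine ⟨model, mk, fun m A hA => ?_⟩
  have hA' : ∀ (v : VT m) h, (A.st h v).isSome ↔ hasT v.1 h = true := fun v h => hA v h
  refine ⟨fun v k l hk => (hA' v _).2 (ttyp _ _ _ ((hA' v _).1 hk)), fun p hp Q => ?_,
    fun z => ?_, fun k => ?_, fun Q => ?_, fun p h1 h2 => ?_⟩
  · rw [hA' p, ytyp _ (fun h => hp (eq_mk m p h)), Nat.odd_iff]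
    have : Nat.card {k : Fin 4 // inc74 Q k ∧ (A.st (Sum.inl k, false) p).isSome} =
        (Finset.univ.filter fun k : Fin 4 => k.val ≠ 3 - Q.val ∧
          hasT p.1 (Sum.inl k, false) = true).card := by
      rw [Nat.card_congr (Equiv.subtypeEquivRight (q := fun k : Fin 4 => k.val ≠ 3 - Q.val ∧
          hasT p.1 (Sum.inl k, false) = true) fun k => by rw [hA' p]; rfl),
        Nat.card_eq_fintype_card, Fintype.card_subtype]
    rw [this]
  · have : Nat.card {y : Fin 3 // (A.st (Sum.inr y, false) z).isSome} =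
        (Finset.univ.filter fun y : Fin 3 => hasT z.1 (Sum.inr y, false) = true).card := by
      rw [Nat.card_congr (Equiv.subtypeEquivRight (q := fun y : Fin 3 =>
          hasT z.1 (Sum.inr y, false) = true) fun y => hA' z _),
        Nat.card_eq_fintype_card, Fintype.card_subtype]
    rw [this, Nat.even_iff]
    convert ztyp z.1
  · rw [hA']; exact otau k
  · rw [hA']; exact oy Q
  · exact (hA' p _).2 (t123 _ ((hA' p _).1 h1) ((hA' p _).1 h2))

end Crest.Agent.R177
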