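import Crest.Agent.R177.DiagInit
import Crest.Agent.R177.DiagReduce
import Crest.Agent.R177.GrpDiag

/-!
# Row 177: a cellular cycle with trivial image is carried by a reduced spherical diagram (helper595)
-/

set_option autoImplicit false

open scoped Classical

namespace Crest.Agent.R177

open Crest.Agent.R199 (PAct)
open GS

variable {S V : Type}

/-- DIAG2 (file DiagChain.lean): a cellular cycle with trivial image is carried by a reduced
spherical diagram. -/
theorem diag_of_chain (A : PAct S V) (z : (Grp A × V × S) →₀ ℤ)
    (hz : ∀ e ∈ z.support, (A.st (e.2.2, true) e.2.1).isSome)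
    (h1 : cbd A z = 0) (h2 : push A z = 0) :
    ∃ (X : Type) (_ : Fintype X) (D : Diag A X), D.Reduced ∧ (∀ x, ¬ D.out x) ∧ D.cls = z := by
  rcases isEmpty_or_nonempty V with hV | hV
  · have hX : IsEmpty Empty := inferInstance
    refine ⟨Empty, inferInstance,
      { φ := 1, α := 1, inv := fun x => x.elim, ne := fun x => x.elim,
        planar := fun a _ => ⟨fun _ => 0, fun _ => 0, fun x => x.elim, fun x => x.elim,
          fun x => x.elim⟩,
        lab := fun x => x.elim, pos := fun x => x.elim, out := fun x => x.elim,
        node := fun x => x.elim, lab_α := fun x => x.elim, pos_φ := fun x => x.elim,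
        pos_α := fun x => x.elim, out_φ := fun x => x.elim,
        node_step := fun x => x.elim }, ⟨fun x => x.elim, fun x => x.elim⟩, fun x => x.elim, ?_⟩
    ext e
    exact (hV.false e.2.1).elim
  obtain ⟨L, h3, h4, h5⟩ := exists_identity A z hz h1 h2
  obtain ⟨X, _, D, h6, h7⟩ := diag_of_identity A [] L h3 (by
    have : (FreeGroup.mk [] : FreeGroup S) = 1 := rfl
    rw [this, one_mul, h4])
  obtain ⟨X', i, D', h8, h9, h10⟩ := exists_reduced_diag [] (by simp) _ X D rfl h7
  refine ⟨X', i, D', h8, ?_, by rw [h9, h6, h5]⟩
  intro x hx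
  obtain ⟨e, _, he, _⟩ := h10
  obtain ⟨k, _⟩ := (he x).1 hx
  exact k.elim0

end Crest.Agent.R177
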