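import Crest.Agent.R177.NC
import Crest.Agent.R177.Defs2

/-!
# I1: a free identity gives a planar diagram

`w · ∏ uᵢ rᵢ uᵢ⁻¹ = 1` in the free group, `rᵢ` closed at the node `vᵢ`. The map of `NC.lean` on the
positions of the word has the faces `w` (outer), `rᵢ` and bigons for the letters of `uᵢ` ("sticks");
the sticks are removed one after the other by `rem`.
-/

set_option autoImplicit false

open scoped Classical

namespace Crest.Agent.R177

namespace PM681

open Crest.Agent.R199 (PAct)
open Equiv

variable {S V : Type}

/-- kinds of darts: `none` = stick, `some (inl i)` = outer dart with index `i`, `some (inr v)` =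
inner dart starting at the node `v` -/
abbrev Kind (V : Type) : Type := Option (ℕ ⊕ V)

/-- successor relation of labelled darts -/
def RR (A : PAct S V) (n : ℕ) (e e' : (S × Bool) × Kind V) : Prop :=
  match e.2, e'.2 with
  | none, none => e'.1 = hinv e.1
  | some (Sum.inl i), some (Sum.inl j) => j = (i + 1) % n
  | some (Sum.inr v), some (Sum.inr v') => A.st e.1 v = some v'
  | _, _ => False

/-- contribution of a labelled dart to the chain -/
noncomputable def FF (A : PAct S V) (p : Grp A) (e : (S × Bool) × Kind V) :
    (Grp A × V × S) →₀ ℤ :=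
  match e.2 with
  | some (Sum.inr v) =>
    match A.st e.1 v with
    | some v' => if e.1.2 then Finsupp.single (p, v, e.1.1) 1
        else - Finsupp.single (p * gw A [e.1], v', e.1.1) 1
    | none => 0
  | _ => 0

lemma hinv_hinv (a : S × Bool) : hinv (hinv a) = a := by simp [hinv]

lemma hinv_ne (a : S × Bool) : hinv a ≠ a := by
  intro h
  have := congrArg Prod.snd h
  simp [hinv] at this

lemma gw_append (A : PAct S V) (u v : List (S × Bool)) : gw A (u ++ v) = gw A u * gw A v := by
  unfold gw
  rw [← FreeGroup.mul_mk, map_mul]

lemma gw_nil (A : PAct S V) : gw A [] = 1 := by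
  unfold gw
  rw [← FreeGroup.one_eq_mk, map_one]

lemma gw_hinv (A : PAct S V) (a : S × Bool) : gw A [hinv a] = (gw A [a])⁻¹ := by
  rw [eq_inv_iff_mul_eq_one, ← gw_append, ← gw_nil]
  unfold gw
  congr 1
  rw [FreeGroup.Red.exact]
  refine ⟨[], Relation.ReflTransGen.single ?_, Relation.ReflTransGen.refl⟩
  have := FreeGroup.Red.Step.not_rev (L₁ := []) (L₂ := []) (x := a.1) (b := a.2)
  simpa [hinv] using this

/-- a diagram with sticks -/
structure Pre (A : PAct S V) (w : List (S × Bool)) (X : Type) extends PMap X where
  lab : X → S × Bool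
  pos : X → Grp A
  kind : X → Kind V
  lab_α : ∀ x, lab (α x) = hinv (lab x)
  pos_φ : ∀ x, pos (φ x) = pos x * gw A [lab x]
  pos_α : ∀ x, pos (α x) = pos x * gw A [lab x]
  step : ∀ x, RR A w.length (lab x, kind x) (lab (φ x), kind (φ x))
  out_lab : ∀ x i, kind x = some (Sum.inl i) → ∃ h : i < w.length, lab x = w[i]
  out_uniq : ∀ x y i, kind x = some (Sum.inl i) → kind y = some (Sum.inl i) → x = y
  out_ex : ∀ i, i < w.length → ∃ x, kind x = some (Sum.inl i)

namespace Pre

variable {A : PAct S V} {w : List (S × Bool)} {X : Type} (P : Pre A w X)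

noncomputable def cls [Fintype X] : (Grp A × V × S) →₀ ℤ := ∑ x, FF A (P.pos x) (P.lab x, P.kind x)

lemma step_stick {x : X} (h : P.kind x = none) :
    P.kind (P.φ x) = none ∧ P.lab (P.φ x) = hinv (P.lab x) := by
  have := P.step x
  rw [h] at this
  unfold RR at this
  rcases hk : P.kind (P.φ x) with _ | (i | v)
  · rw [hk] at this; exact ⟨rfl, this⟩
  · rw [hk] at this; exact this.elim
  · rw [hk] at this; exact this.elim

lemma step_ne_stick {x : X} (h : P.kind x ≠ none) : P.kind (P.φ x) ≠ none := by
  intro hk
  have := P.step x
  rw [hk] at this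
  unfold RR at this
  rcases hk' : P.kind x with _ | (i | v)
  · exact h hk'
  · rw [hk'] at this; exact this.elim
  · rw [hk'] at this; exact this.elim

lemma step_out {x : X} {i : ℕ} (h : P.kind x = some (Sum.inl i)) :
    P.kind (P.φ x) = some (Sum.inl ((i + 1) % w.length)) := by
  have := P.step x
  rw [h] at this
  unfold RR at this
  rcases hk : P.kind (P.φ x) with _ | (j | v)
  · rw [hk] at this; exact this.elim
  · rw [hk] at this
    have : j = (i + 1) % w.length := this
    rw [this]
  · rw [hk] at this; exact this.elim

lemma step_in {x : X} {v : V} (h : P.kind x = some (Sum.inr v)) :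
    ∃ v', P.kind (P.φ x) = some (Sum.inr v') ∧ A.st (P.lab x) v = some v' := by
  have := P.step x
  rw [h] at this
  unfold RR at this
  rcases hk : P.kind (P.φ x) with _ | (j | v')
  · rw [hk] at this; exact this.elim
  · rw [hk] at this; exact this.elim
  · rw [hk] at this
    exact ⟨v', rfl, this⟩

lemma op_of_ne {Y : Type} [DecidableEq Y] {x x' y : Y} {ψ : Perm Y} (hy : y ≠ x) (hy' : y ≠ x')
    (h : ψ y ≠ x) (h' : ψ y ≠ x') : op x x' ψ y = ψ y := by
  have e3 : (ψ * swap x x') y = ψ y := by simp [swap_apply_of_ne_of_ne hy hy']
  have e4 : skip x (ψ * swap x x') y = ψ y := by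
    rw [skip_ne hy (by rw [e3]; exact h), e3]
  unfold op
  rw [skip_ne hy' (by rw [e4]; exact h'), e4]

/-- remove two consecutive darts of a stick -/
theorem remove {x : X} (hx : P.kind x = none) :
    ∃ P' : Pre A w (Rem x (P.φ x)), (∀ y, P'.pos y = P.pos y) ∧ (∀ y, P'.lab y = P.lab y) ∧
      ∀ y, P'.kind y = P.kind y := by
  obtain ⟨hk', hl'⟩ := P.step_stick hx
  set x' := P.φ x with hx'
  have hne : x ≠ x' := by
    intro h
    rw [← h] at hl'
    exact hinv_ne _ hl'.symm
  obtain ⟨ri1, ri2⟩ := rem_invol P.inv P.ne hne
  have hPφ : ∀ y : Rem x x', P.pos (rem hne P.φ y) = P.pos y * gw A [P.lab y] := by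
    intro y
    refine rem_transfer hne P.pos (fun y => P.pos y * gw A [P.lab y]) P.pos_φ (P.pos_φ x) ?_ y
    show P.pos x' * gw A [P.lab x'] = P.pos x
    rw [hl', gw_hinv, hx', P.pos_φ x]
    group
  have hPα : ∀ y : Rem x x', P.pos (rem hne P.α y) = P.pos y * gw A [P.lab y] := by
    intro y
    refine rem_transfer hne P.pos (fun y => P.pos y * gw A [P.lab y]) P.pos_α (P.pos_φ x) ?_ y
    show P.pos x' * gw A [P.lab x'] = P.pos x
    rw [hl', gw_hinv, hx', P.pos_φ x]
    group
  have hLα : ∀ y : Rem x x', P.lab (rem hne P.α y) = hinv (P.lab y) := by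
    intro y
    refine rem_transfer hne P.lab (fun y => hinv (P.lab y)) P.lab_α hl' ?_ y
    show hinv (P.lab x') = P.lab x
    rw [hl', hinv_hinv]
  refine ⟨{ φ := rem hne P.φ, α := rem hne P.α, inv := ri1, ne := ri2,
            planar := propP_rem P.inv P.ne P.planar hne (Or.inr rfl)
            lab := fun y => P.lab y, pos := fun y => P.pos y, kind := fun y => P.kind y
            lab_α := hLα, pos_φ := hPφ, pos_α := hPα
            step := ?_, out_lab := fun y i hy => P.out_lab y i hy
            out_uniq := fun y z i hy hz => Subtype.ext (P.out_uniq y z i hy hz)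
            out_ex := ?_ }, fun _ => rfl, fun _ => rfl, fun _ => rfl⟩
  · intro y
    by_cases hy : P.kind y = none
    · have key := rem_transfer hne
        (fun z => if P.kind z = none then some (P.lab z) else none)
        (fun z => if P.kind z = none then some (hinv (P.lab z)) else none) (ψ := P.φ) (by
          intro z
          by_cases hz : P.kind z = none
          · obtain ⟨h1, h2⟩ := P.step_stick hz
            simp only [h1, h2, hz, if_true]
          · have := P.step_ne_stick hz
            simp only [if_neg this, if_neg hz]) (by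
          simp only [hx, hk', if_true, hl']) (by
          simp only [hx, hk', if_true, hl', hinv_hinv]) y
      simp only [hy, if_true] at key
      by_cases hz : P.kind (rem hne P.φ y) = none
      · rw [if_pos hz, Option.some.injEq] at key
        show RR A w.length (P.lab y, P.kind y) (P.lab (rem hne P.φ y), P.kind (rem hne P.φ y))
        rw [hz, hy, key]
        rfl
      · rw [if_neg hz] at key
        exact absurd key (by simp)
    · have h1 := P.step_ne_stick hy
      have e : ((rem hne P.φ y : Rem x x') : X) = P.φ y := by
        rw [rem_coe]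
        apply op_of_ne y.2.1 y.2.2
        · intro h; rw [h] at h1; exact h1 hx
        · intro h; rw [h] at h1; exact h1 hk'
      show RR A w.length (P.lab y, P.kind y) (P.lab (rem hne P.φ y), P.kind (rem hne P.φ y))
      rw [e]
      exact P.step y
  · intro i hi
    obtain ⟨z, hz⟩ := P.out_ex i hi
    refine ⟨⟨z, ?_, ?_⟩, hz⟩
    · intro h; rw [h, hx] at hz; exact absurd hz (by simp)
    · intro h; rw [h, hk'] at hz; exact absurd hz (by simp)

lemma FF_stick (p : Grp A) (a : S × Bool) : FF A p (a, none) = 0 := rfl

/-- remove all sticks -/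
theorem clean : ∀ (n : ℕ) (X : Type) [Fintype X] (P : Pre A w X), Fintype.card X = n →
    ∃ (X' : Type) (_ : Fintype X') (P' : Pre A w X'), (∀ x, P'.kind x ≠ none) ∧
      P'.cls = P.cls := by
  intro n
  induction n using Nat.strong_induction_on with
  | _ n ih =>
    intro X _ P hn
    by_cases h : ∀ x, P.kind x ≠ none
    · exact ⟨X, inferInstance, P, h, rfl⟩
    · push Not at h
      obtain ⟨x, hx⟩ := h
      obtain ⟨P', h1, h2, h3⟩ := P.remove hx
      have hne : x ≠ P.φ x := by
        intro h
        have := (P.step_stick hx).2
        rw [← h] at this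
        exact hinv_ne _ this.symm
      have hcard : Fintype.card (Rem x (P.φ x)) < n := by
        rw [← hn]
        apply Fintype.card_subtype_lt (x := x)
        simp
      obtain ⟨X', hX', P'', h4, h5⟩ := ih _ hcard (Rem x (P.φ x)) P' rfl
      refine ⟨X', hX', P'', h4, ?_⟩
      rw [h5]
      unfold Pre.cls
      rw [← Finset.sum_subset (Finset.subset_univ
        (Finset.univ.filter fun y : X => y ≠ x ∧ y ≠ P.φ x))]
      · rw [Finset.sum_subtype (p := fun y => y ≠ x ∧ y ≠ P.φ x)]
        · apply Finset.sum_congr rfl
          intro y _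
          rw [h1, h2, h3]
        · intro y; simp
      · intro y _ hy
        have : y = x ∨ y = P.φ x := by
          by_contra hc
          rw [not_or] at hc
          exact hy (by simp [hc])
        rcases this with rfl | rfl
        · rw [hx, FF_stick]
        · rw [(P.step_stick hx).1, FF_stick]

/-- the diagram -/
theorem toDiag [Nonempty V] [Fintype X] (P : Pre A w X) (h : ∀ x, P.kind x ≠ none) :
    ∃ D : Diag A X, D.cls = P.cls ∧ OutW D w := by
  have hk : ∀ x, (¬ ∃ i, P.kind x = some (Sum.inl i)) → ∃ v, P.kind x = some (Sum.inr v) := by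
    intro x hx
    rcases hk : P.kind x with _ | (i | v)
    · exact absurd hk (h x)
    · exact absurd ⟨i, hk⟩ hx
    · exact ⟨v, rfl⟩
  set node : X → V := fun x => match P.kind x with
    | some (Sum.inr v) => v
    | _ => Classical.arbitrary V with hnode
  have hn : ∀ x v, P.kind x = some (Sum.inr v) → node x = v := by
    intro x v hx
    simp only [hnode, hx]
  refine ⟨{ toPMap := P.toPMap, lab := P.lab, pos := P.pos
            out := fun x => ∃ i, P.kind x = some (Sum.inl i)
            node := node, lab_α := P.lab_α, pos_φ := P.pos_φ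
            pos_α := fun x => (P.pos_α x).trans (P.pos_φ x).symm
            out_φ := ?_, node_step := ?_ }, ?_, ?_⟩
  · intro x
    constructor
    · rintro ⟨i, hi⟩
      by_contra hx
      obtain ⟨v, hv⟩ := hk x hx
      obtain ⟨v', h1, -⟩ := P.step_in hv
      rw [h1] at hi
      simp at hi
    · rintro ⟨i, hi⟩
      exact ⟨_, P.step_out hi⟩
  · intro x hx
    obtain ⟨v, hv⟩ := hk x hx
    obtain ⟨v', h1, h2⟩ := P.step_in hv
    rw [hn x v hv, hn _ v' h1]
    exact h2
  · unfold Diag.cls Pre.cls
    apply Finset.sum_congr rfl
    intro x _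
    unfold Diag.cel
    by_cases hx : ∃ i, P.kind x = some (Sum.inl i)
    · rw [if_pos hx]
      obtain ⟨i, hi⟩ := hx
      rw [hi]
      rfl
    · rw [if_neg hx]
      obtain ⟨v, hv⟩ := hk x hx
      obtain ⟨v', h1, h2⟩ := P.step_in hv
      simp only [FF, hv, h2, hn x v hv, hn _ v' h1, P.pos_φ]
  · choose e he using P.out_ex
    refine ⟨fun i => e i i.2, ?_, ?_, ?_, ?_⟩
    · intro i j hij
      have h1 := he i i.2
      have h2 := he j j.2
      simp only at hij
      rw [hij, h2] at h1
      simp only [Option.some.injEq, Sum.inl.injEq] at h1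
      exact Fin.ext h1.symm
    · intro x
      constructor
      · rintro ⟨i, hi⟩
        obtain ⟨hiw, -⟩ := P.out_lab x i hi
        exact ⟨⟨i, hiw⟩, P.out_uniq _ _ i (he i hiw) hi⟩
      · rintro ⟨i, rfl⟩
        exact ⟨i, he i i.2⟩
    · intro i
      obtain ⟨h1, h2⟩ := P.out_lab _ _ (he i i.2)
      exact h2
    · intro i j hij
      apply P.out_uniq _ _ j _ (he j j.2)
      rw [P.step_out (he i i.2)]
      have hi := i.2
      have hj := j.2
      rcases hij with h | ⟨h, h'⟩
      · rw [Nat.mod_eq_of_lt (by omega), h]
      · rw [h', Nat.mod_self, h]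

end Pre

/-! ## The word -/

/-- the labels of the path `r` from the node `v` -/
noncomputable def pathLab (A : PAct S V) : V → List (S × Bool) → List ((S × Bool) × Kind V)
  | _, [] => []
  | v, a :: r => (a, some (Sum.inr v)) ::
      (match A.st a v with
      | some v' => pathLab A v' r
      | none => [])

/-- the block `u r u⁻¹` -/
noncomputable def block (A : PAct S V) (v : V) (r : List (S × Bool)) :
    List (S × Bool) → List ((S × Bool) × Kind V)
  | [] => pathLab A v r
  | a :: u => (a, none) :: (block A v r u ++ [(hinv a, none)])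

/-- the outer word with indices -/
noncomputable def outL (V : Type) (w : List (S × Bool)) : List ((S × Bool) × Kind V) :=
  w.zipIdx.map fun p => (p.1, some (Sum.inl p.2))

/-- chain of a labelled word, developed from `p` -/
noncomputable def chW (A : PAct S V) : Grp A → List ((S × Bool) × Kind V) → ((Grp A × V × S) →₀ ℤ)
  | _, [] => 0
  | p, e :: l => FF A p e + chW A (p * gw A [e.1]) l

lemma read_cons {A : PAct S V} {a : S × Bool} {r : List (S × Bool)} {v z : V}
    (h : A.read (a :: r) v = some z) : ∃ v', A.st a v = some v' ∧ A.read r v' = some z := by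
  simp only [PAct.read] at h
  rcases hv : A.st a v with _ | v'
  · rw [hv] at h; simp at h
  · rw [hv] at h; exact ⟨v', rfl, h⟩

lemma pathLab_cons {A : PAct S V} {a : S × Bool} {r : List (S × Bool)} {v v' : V}
    (h : A.st a v = some v') : pathLab A v (a :: r) = (a, some (Sum.inr v)) :: pathLab A v' r := by
  simp only [pathLab, h]

lemma pathLab_letters {A : PAct S V} (r : List (S × Bool)) (v z : V) (h : A.read r v = some z) :
    (pathLab A v r).map Prod.fst = r := by
  induction r generalizing v with
  | nil => simp [pathLab]
  | cons a r ih =>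
    obtain ⟨v', h1, h2⟩ := read_cons h
    rw [pathLab_cons h1, List.map_cons, ih v' h2]

lemma pathLab_chain {A : PAct S V} (n : ℕ) (r : List (S × Bool)) (v z : V)
    (h : A.read r v = some z) (c : S × Bool) :
    List.IsChain (RR A n) (pathLab A v r ++ [(c, some (Sum.inr z))]) := by
  induction r generalizing v with
  | nil => simp [pathLab]
  | cons a r ih =>
    obtain ⟨v', h1, h2⟩ := read_cons h
    rw [pathLab_cons h1]
    have h3 := ih v' h2
    have key : ∃ c' l, pathLab A v' r ++ [(c, some (Sum.inr z))] = (c', some (Sum.inr v')) :: l := by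
      cases r with
      | nil =>
        simp only [PAct.read, Option.some.injEq] at h2
        subst h2
        exact ⟨c, [], by simp [pathLab]⟩
      | cons b r =>
        obtain ⟨v'', h4, h5⟩ := read_cons h2
        rw [pathLab_cons h4]
        exact ⟨b, _, rfl⟩
    obtain ⟨c', l, hl⟩ := key
    rw [List.cons_append, hl, List.isChain_cons_cons]
    rw [hl] at h3
    exact ⟨h1, h3⟩

lemma closedChain_cons_iff {Λ : Type*} (R : Λ → Λ → Prop) (e : Λ) (l : List Λ) :
    ClosedChain R (e :: l) ↔ List.IsChain R (e :: (l ++ [e])) := by
  rw [List.isChain_iff_getElem]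
  constructor
  · intro h i hi
    simp only [List.length_cons, List.length_append, List.length_nil] at hi
    have h1 : i < (e :: l).length := by simp; omega
    have := h i h1
    have e1 : (e :: (l ++ [e]))[i] = (e :: l)[i] := by
      rw [← List.getElem_append_left (bs := [e]) h1]
      rfl
    rw [e1]
    convert this using 1
    by_cases h2 : i + 1 < (e :: l).length
    · simp only [Nat.mod_eq_of_lt h2]
      rw [← List.getElem_append_left (bs := [e]) h2]
      rfl
    · have h' : i + 1 = (e :: l).length := by omega
      simp only [h', Nat.mod_self, List.getElem_cons_zero]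
      simp
  · intro h i hi
    have hi' : i + 1 < (e :: (l ++ [e])).length := by simpa using hi
    have := h i hi'
    have e1 : (e :: (l ++ [e]))[i] = (e :: l)[i] := by
      rw [← List.getElem_append_left (bs := [e]) hi]
      rfl
    rw [e1] at this
    convert this using 1
    by_cases h2 : i + 1 < (e :: l).length
    · simp only [Nat.mod_eq_of_lt h2]
      rw [← List.getElem_append_left (bs := [e]) h2]
      rfl
    · have h' : i + 1 = (e :: l).length := by omega
      simp only [h', Nat.mod_self, List.getElem_cons_zero]
      simp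

lemma pathLab_closed {A : PAct S V} (n : ℕ) (r : List (S × Bool)) (v : V)
    (h : A.read r v = some v) : ClosedChain (RR A n) (pathLab A v r) := by
  cases r with
  | nil =>
    intro i hi
    simp [pathLab] at hi
  | cons a r =>
    obtain ⟨v', h1, h2⟩ := read_cons h
    have := pathLab_chain n (a :: r) v v h a
    rw [pathLab_cons h1] at this ⊢
    rw [closedChain_cons_iff]
    exact this

lemma outL_length (w : List (S × Bool)) : (outL V w).length = w.length := by simp [outL]

lemma outL_getElem (w : List (S × Bool)) (i : ℕ) (h : i < (outL V w).length) :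
    (outL V w)[i] = (w[i]'(by simpa [outL] using h), some (Sum.inl i)) := by
  simp [outL]

lemma outL_letters (w : List (S × Bool)) : (outL V w).map Prod.fst = w := by
  apply List.ext_getElem
  · simp [outL]
  · intro i h1 h2
    simp [outL]

lemma outL_closed (A : PAct S V) (w : List (S × Bool)) :
    ClosedChain (RR A w.length) (outL V w) := by
  intro i hi
  rw [outL_getElem, outL_getElem]
  simp [RR, outL_length]

lemma block_letters {A : PAct S V} {v : V} {r : List (S × Bool)} (h : A.read r v = some v)
    (u : List (S × Bool)) : (FreeGroup.mk ((block A v r u).map Prod.fst) : FreeGroup S) =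
      FreeGroup.mk u * FreeGroup.mk r * (FreeGroup.mk u)⁻¹ := by
  induction u with
  | nil =>
    simp only [block]
    rw [pathLab_letters r v v h, ← FreeGroup.one_eq_mk]
    simp
  | cons a u ih =>
    have e1 : (FreeGroup.mk (a :: u) : FreeGroup S) = FreeGroup.mk [a] * FreeGroup.mk u := by
      rw [FreeGroup.mul_mk]; rfl
    have e2 : (FreeGroup.mk [hinv a] : FreeGroup S) = (FreeGroup.mk [a])⁻¹ := by
      rw [FreeGroup.inv_mk]; rfl
    have e3 : (block A v r (a :: u)).map Prod.fst =
        [a] ++ (block A v r u).map Prod.fst ++ [hinv a] := by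
      simp [block]
    rw [e3, ← FreeGroup.mul_mk, ← FreeGroup.mul_mk, ih, e1, e2]
    group

lemma gw_congr {A : PAct S V} {u v : List (S × Bool)}
    (h : (FreeGroup.mk u : FreeGroup S) = FreeGroup.mk v) : gw A u = gw A v := by
  unfold gw; rw [h]

lemma gw_rel {A : PAct S V} {v : V} {r : List (S × Bool)} (h : A.read r v = some v) :
    gw A r = 1 := PresentedGroup.one_of_mem ⟨v, r, h, rfl⟩

lemma gw_block {A : PAct S V} {v : V} {r : List (S × Bool)} (h : A.read r v = some v)
    (u : List (S × Bool)) : gw A ((block A v r u).map Prod.fst) = 1 := by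
  have h1 := gw_rel h
  unfold gw at h1 ⊢
  rw [block_letters h, map_mul, map_mul, h1, map_inv]
  group

lemma gw_cons (A : PAct S V) (a : S × Bool) (l : List (S × Bool)) :
    gw A (a :: l) = gw A [a] * gw A l := by
  rw [← gw_append]; rfl

lemma chW_append (A : PAct S V) (p : Grp A) (l m : List ((S × Bool) × Kind V)) :
    chW A p (l ++ m) = chW A p l + chW A (p * gw A (l.map Prod.fst)) m := by
  induction l generalizing p with
  | nil => simp [chW, gw_nil]
  | cons e l ih =>
    rw [List.cons_append, chW, chW, ih, List.map_cons, gw_cons A e.1 (l.map Prod.fst), add_assoc,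
      mul_assoc]

lemma chW_pathLab {A : PAct S V} (p : Grp A) (r : List (S × Bool)) (v z : V)
    (h : A.read r v = some z) : chW A p (pathLab A v r) = pathCh A p v r := by
  induction r generalizing p v with
  | nil => simp [pathLab, chW, pathCh]
  | cons a r ih =>
    obtain ⟨v', h1, h2⟩ := read_cons h
    rw [pathLab_cons h1, chW, ih _ _ h2]
    simp only [pathCh, h1, FF]

lemma chW_block {A : PAct S V} {v : V} {r : List (S × Bool)} (h : A.read r v = some v)
    (p : Grp A) (u : List (S × Bool)) :
    chW A p (block A v r u) = pathCh A (p * gw A u) v r := by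
  induction u generalizing p with
  | nil => simp only [block]; rw [chW_pathLab p r v v h, gw_nil, mul_one]
  | cons a u ih =>
    simp only [block]
    rw [chW, chW_append, ih, gw_cons A a u, mul_assoc]
    simp [chW, FF]

lemma chW_outL (A : PAct S V) (p : Grp A) (w : List (S × Bool)) : chW A p (outL V w) = 0 := by
  have : ∀ (l : List ((S × Bool) × Kind V)) (p : Grp A), (∀ e ∈ l, ∃ i, e.2 = some (Sum.inl i)) →
      chW A p l = 0 := by
    intro l
    induction l with
    | nil => intro p _; rfl
    | cons e l ih =>
      intro p h
      obtain ⟨i, hi⟩ := h e (by simp)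
      rw [chW, ih _ (fun e he => h e (by simp [he])), add_zero]
      unfold FF
      rw [hi]
  apply this
  intro e he
  simp only [outL, List.mem_map] at he
  obtain ⟨q, -, rfl⟩ := he
  exact ⟨q.2, rfl⟩

lemma sum_FF_eq_chW (A : PAct S V) (W : List ((S × Bool) × Kind V)) (p : Grp A) :
    (∑ x : Fin W.length, FF A (p * ((W.take x).map (fun e => gw A [e.1])).prod) (W.get x)) =
      chW A p W := by
  induction W generalizing p with
  | nil => simp [chW]
  | cons e W ih =>
    rw [chW, ← ih]
    simp only [List.length_cons]
    rw [Fin.sum_univ_succ]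
    congr 1
    · simp
    · apply Finset.sum_congr rfl
      intro x _
      simp [mul_assoc]

lemma gw_eq_prod (A : PAct S V) (l : List (S × Bool)) : gw A l = (l.map fun a => gw A [a]).prod := by
  induction l with
  | nil => simp [gw_nil]
  | cons a l ih => rw [List.map_cons, List.prod_cons, ← ih, ← gw_append]; rfl

lemma ncw_block {A : PAct S V} {v : V} {r : List (S × Bool)}
    {C : List ((S × Bool) × Kind V) → Prop} (h : C (pathLab A v r)) (u : List (S × Bool)) :
    NCw (fun e : (S × Bool) × Kind V => (hinv e.1, e.2)) (fun e => e.2 = none) C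
      (block A v r u) := by
  induction u with
  | nil => exact NCw.cell h
  | cons a u ih => exact NCw.conj (a, none) rfl ih

lemma block_kind {A : PAct S V} {v : V} {r : List (S × Bool)} (u : List (S × Bool)) :
    ∀ e ∈ block A v r u, ∀ i, e.2 ≠ some (Sum.inl i) := by
  induction u with
  | nil =>
    simp only [block]
    induction r generalizing v with
    | nil => simp [pathLab]
    | cons a r ih =>
      intro e he i
      simp only [pathLab, List.mem_cons] at he
      rcases he with rfl | he
      · simp
      · rcases hv : A.st a v with _ | v'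
        · rw [hv] at he; simp at he
        · rw [hv] at he
          exact ih e he i
  | cons a u ih =>
    intro e he i
    simp only [block, List.mem_cons, List.mem_append, List.not_mem_nil, or_false] at he
    rcases he with rfl | he | rfl
    · simp
    · exact ih e he i
    · simp

end PM681

open PM681
open Crest.Agent.R199 (PAct)
open Equiv

variable {S V : Type}

/-- I1: a free identity gives a planar diagram. -/
theorem diag_of_identity [Nonempty V] (A : PAct S V) (w : List (S × Bool))
    (L : List (List (S × Bool) × V × List (S × Bool)))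
    (hL : ∀ t ∈ L, A.read t.2.2 t.2.1 = some t.2.1)
    (hid : (FreeGroup.mk w : FreeGroup S) * (L.map fun t =>
      (FreeGroup.mk t.1 : FreeGroup S) * FreeGroup.mk t.2.2 * (FreeGroup.mk t.1)⁻¹).prod = 1) :
    ∃ (X : Type) (_ : Fintype X) (D : Diag A X),
      D.cls = (L.map fun t => pathCh A (gw A t.1) t.2.1 t.2.2).sum ∧ OutW D w := by
  set Bl : List ((S × Bool) × Kind V) := (L.map fun t => block A t.2.1 t.2.2 t.1).flatten with hBl
  set W : List ((S × Bool) × Kind V) := outL V w ++ Bl with hW
  set C : List ((S × Bool) × Kind V) → Prop := fun ρ => ρ = outL V w ∨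
    ∃ v r, A.read r v = some v ∧ ρ = pathLab A v r with hC
  -- the word in the letters
  have hBlmk : (FreeGroup.mk (Bl.map Prod.fst) : FreeGroup S) = (L.map fun t =>
      (FreeGroup.mk t.1 : FreeGroup S) * FreeGroup.mk t.2.2 * (FreeGroup.mk t.1)⁻¹).prod := by
    rw [hBl]
    clear hid hBl Bl hW W
    induction L with
    | nil => simp [FreeGroup.one_eq_mk]
    | cons t L ih =>
      rw [List.map_cons, List.flatten_cons, List.map_append, ← FreeGroup.mul_mk,
        ih (fun t ht => hL t (by simp [ht])), block_letters (hL t (by simp)), List.map_cons,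
        List.prod_cons]
  have hWmk : (FreeGroup.mk (W.map Prod.fst) : FreeGroup S) = 1 := by
    rw [hW, List.map_append, ← FreeGroup.mul_mk, outL_letters, hBlmk]
    exact hid
  have hgwBl : gw A (Bl.map Prod.fst) = 1 := by
    rw [hBl]
    clear hid hBl Bl hW W hBlmk hWmk
    induction L with
    | nil => simp [gw_nil]
    | cons t L ih =>
      rw [List.map_cons, List.flatten_cons, List.map_append, gw_append,
        ih (fun t ht => hL t (by simp [ht])), gw_block (hL t (by simp)), mul_one]
  have hgww : gw A w = 1 := by
    have : gw A (W.map Prod.fst) = 1 := by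
      unfold gw; rw [hWmk, map_one]
    rw [hW, List.map_append, gw_append, outL_letters, hgwBl, mul_one] at this
    exact this
  have hncBl : NCw (fun e : (S × Bool) × Kind V => (hinv e.1, e.2)) (fun e => e.2 = none) C Bl := by
    rw [hBl]
    clear hid hBl Bl hW W hBlmk hWmk hgwBl
    induction L with
    | nil => exact NCw.nil
    | cons t L ih =>
      rw [List.map_cons, List.flatten_cons]
      exact NCw.append (ncw_block (Or.inr ⟨t.2.1, t.2.2, hL t (by simp), rfl⟩) t.1)
        (ih (fun t ht => hL t (by simp [ht])))
  have hnc : NCw (fun e : (S × Bool) × Kind V => (hinv e.1, e.2)) (fun e => e.2 = none) C W :=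
    NCw.append (NCw.cell (Or.inl rfl)) hncBl
  have hBlkind : ∀ e ∈ Bl, ∀ i, e.2 ≠ some (Sum.inl i) := by
    intro e he i
    rw [hBl, List.mem_flatten] at he
    obtain ⟨l, hl, he⟩ := he
    rw [List.mem_map] at hl
    obtain ⟨t, -, rfl⟩ := hl
    exact block_kind t.1 e he i
  obtain ⟨φ, α, h2, h1, hP, hR, hlab, hpos⟩ := exists_map (S := S)
    (fun e : (S × Bool) × Kind V => e.1) (inv := fun e => (hinv e.1, e.2))
    (B := fun e => e.2 = none) (C := C) (R := RR A w.length) (by
      rintro ρ (rfl | ⟨v, r, hr, rfl⟩)
      · exact outL_closed A w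
      · exact pathLab_closed _ r v hr) (by
      rintro ⟨a, k⟩ hk
      simp only at hk
      subst hk
      rfl) (by
      rintro ⟨a, k⟩ hk
      simp only at hk
      subst hk
      exact (hinv_hinv a).symm) (fun _ => rfl) hnc hWmk
  have hpos' := hpos (Grp A) (fun a => gw A [a]) (fun s => gw_hinv A s) (by
      rintro ρ (rfl | ⟨v, r, hr, rfl⟩)
      · have := gw_eq_prod A ((outL V w).map Prod.fst)
        rw [outL_letters, hgww] at this
        conv at this => rhs; rw [← outL_letters (V := V) w]
        rw [List.map_map] at this
        exact this.symm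
      · have := gw_eq_prod A ((pathLab A v r).map Prod.fst)
        rw [List.map_map, pathLab_letters r v v hr, gw_rel hr] at this
        exact this.symm)
  -- outer darts
  have hWlen : w.length ≤ W.length := by rw [hW, List.length_append, outL_length]; omega
  have hWget : ∀ (i : ℕ) (h : i < W.length) (hi : i < w.length),
      W[i] = (w[i], some (Sum.inl i)) := by
    intro i h hi
    have h' : i < (outL V w).length := by rw [outL_length]; exact hi
    have : W[i] = (outL V w)[i] := List.getElem_append_left h'
    rw [this, outL_getElem]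
  have hWget' : ∀ (x : ℕ) (h : x < W.length) (i : ℕ), W[x].2 = some (Sum.inl i) →
      x = i ∧ i < w.length := by
    intro x h i hi
    by_cases hx : x < w.length
    · rw [hWget x h hx] at hi
      simp only [Option.some.injEq, Sum.inl.injEq] at hi
      exact ⟨hi, hi ▸ hx⟩
    · exfalso
      have h' : (outL V w).length ≤ x := by rw [outL_length]; omega
      have : W[x] = Bl[x - (outL V w).length]'(by
          rw [hW, List.length_append] at h; omega) := List.getElem_append_right h'
      rw [this] at hi
      exact hBlkind _ (List.getElem_mem _) i hi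
  let P : Pre A w (Fin W.length) :=
    { φ := φ, α := α, inv := h2, ne := h1, planar := hP
      lab := fun x => (W.get x).1
      pos := fun x => ((W.take x).map (fun e => gw A [e.1])).prod
      kind := fun x => (W.get x).2
      lab_α := hlab
      pos_φ := fun x => (hpos' x).1
      pos_α := fun x => (hpos' x).2
      step := hR
      out_lab := by
        intro x i hx
        obtain ⟨h3, h4⟩ := hWget' x x.2 i hx
        refine ⟨h4, ?_⟩
        show (W[(x : ℕ)]).1 = w[i]
        rw [hWget x x.2 (h3 ▸ h4)]
        simp only [h3]
      out_uniq := by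
        intro x y i hx hy
        have h3 := (hWget' x x.2 i hx).1
        have h4 := (hWget' y y.2 i hy).1
        exact Fin.ext (h3.trans h4.symm)
      out_ex := by
        intro i hi
        refine ⟨⟨i, by omega⟩, ?_⟩
        show (W[i]).2 = _
        rw [hWget i (by omega) hi] }
  obtain ⟨X', hX', P', hk, hc⟩ := Pre.clean (A := A) (w := w) _ (Fin W.length) P rfl
  obtain ⟨D, hD, hout⟩ := P'.toDiag hk
  refine ⟨X', hX', D, ?_, hout⟩
  rw [hD, hc]
  have : P.cls = chW A 1 W := by
    rw [← sum_FF_eq_chW A W 1]
    unfold Pre.cls
    apply Finset.sum_congr rfl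
    intro x _
    rw [one_mul]
  rw [this, hW, chW_append, chW_outL, zero_add, outL_letters, hgww, mul_one, hBl]
  have key : ∀ (L : List (List (S × Bool) × V × List (S × Bool))),
      (∀ t ∈ L, A.read t.2.2 t.2.1 = some t.2.1) →
      chW A 1 (L.map fun t => block A t.2.1 t.2.2 t.1).flatten =
        (L.map fun t => pathCh A (gw A t.1) t.2.1 t.2.2).sum := by
    intro L
    induction L with
    | nil => intro _; simp [chW]
    | cons t L ih =>
      intro hL
      rw [List.map_cons, List.flatten_cons, chW_append, gw_block (hL t (by simp)), mul_one,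
        ih (fun t ht => hL t (by simp [ht])), chW_block (hL t (by simp)), one_mul, List.map_cons,
        List.sum_cons]
  exact key L hL

end Crest.Agent.R177

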