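import Crest.Agent.R177.Defs

/-!
# Rows 177 / 184, module REMOVE (helper132)

Planarity (`H¹(·;𝔽₂) = 0`) is preserved by removing an edge and by folding two consecutive darts.

Method: maps with *dead* darts. `PP φ α` is the planarity property for a map in which the fixed
points of `α` are dead darts of length zero. The two moves are compositions of three elementary
steps on a fixed set of darts (`PP.cut`, `PP.fold`, `PP.kill`).
-/

set_option autoImplicit false

open scoped Classical
open Equiv

namespace Crest.Agent.R177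

namespace Remove

variable {X : Type}

/-- remove `z` from the permutation `ψ` (it becomes a fixed point) -/
noncomputable def kill (ψ : Perm X) (z : X) : Perm X := swap z (ψ z) * ψ

theorem kill_self (ψ : Perm X) (z : X) : kill ψ z z = z := by
  unfold kill
  rw [Perm.mul_apply, swap_apply_right]

theorem kill_of_ne (ψ : Perm X) {z y : X} (h : y ≠ z) :
    kill ψ z y = if ψ y = z then ψ z else ψ y := by
  unfold kill
  rw [Perm.mul_apply, swap_apply_def]
  have h1 : ψ y ≠ ψ z := fun e => h (ψ.injective e)
  by_cases h2 : ψ y = z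
  · rw [if_pos h2, if_pos h2]
  · rw [if_neg h2, if_neg h1, if_neg h2]

theorem rem2_eq (ψ : Perm X) (x x' : X) :
    rem2 ψ x x' = kill (kill (ψ * swap x x') x) x' := rfl

/-- planarity for maps with dead darts (`α z = z`) -/
def PP (φ α : Perm X) : Prop :=
  ∀ a : X → ZMod 2, (∀ x, α x ≠ x → a x + a (φ x) + a (α x) + a (φ (α x)) = 0) →
    (∀ x, α x = x → a (φ x) = a x) →
    ∃ b h : X → ZMod 2, (∀ x, b (φ (α x)) = b x) ∧ (∀ x, h (φ x) = h x) ∧ ∀ x, a x = b x + h x

theorem two_cancel (u : ZMod 2) : u + u = 0 := by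
  have : ∀ u : ZMod 2, u + u = 0 := by decide
  exact this u

theorem eq_of_add_eq_zero (u v : ZMod 2) (h : u + v = 0) : u = v := by
  have : ∀ u v : ZMod 2, u + v = 0 → u = v := by decide
  exact this u v h

/-- removing the edge `x, x'` (the darts become dead) -/
theorem PP.cut {φ α : Perm X} (h : PP φ α) {x x' : X} (hx : x ≠ x') (h1 : α x = x')
    (h2 : α x' = x) : PP (φ * swap x x') (α * swap x x') := by
  have s1 : swap x x' x = x' := swap_apply_left x x'
  have s2 : swap x x' x' = x := swap_apply_right x x'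
  have s3 : ∀ y, y ≠ x → y ≠ x' → swap x x' y = y := fun y => swap_apply_of_ne_of_ne
  intro a ha hd
  have e1 : a (φ x') = a x := by
    have := hd x (by rw [Perm.mul_apply, s1, h2])
    rwa [Perm.mul_apply, s1] at this
  have e2 : a (φ x) = a x' := by
    have := hd x' (by rw [Perm.mul_apply, s2, h1])
    rwa [Perm.mul_apply, s2] at this
  have hαne : ∀ y, y ≠ x → y ≠ x' → α y ≠ x ∧ α y ≠ x' := by
    intro y hy hy'
    constructor
    · intro e
      exact hy' (α.injective (e.trans h2.symm))
    · intro e
      exact hy (α.injective (e.trans h1.symm))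
  have hA1 : ∀ y, α y ≠ y → a y + a (φ y) + a (α y) + a (φ (α y)) = 0 := by
    intro y hy
    by_cases hy1 : y = x
    · subst hy1
      rw [h1, e1, e2]
      have : ∀ u v : ZMod 2, u + v + v + u = 0 := by decide
      exact this _ _
    · by_cases hy2 : y = x'
      · subst hy2
        rw [h2, e1, e2]
        have : ∀ u v : ZMod 2, u + v + v + u = 0 := by decide
        exact this _ _
      · obtain ⟨n1, n2⟩ := hαne y hy1 hy2
        have := ha y (by rw [Perm.mul_apply, s3 y hy1 hy2]; exact hy)
        rwa [Perm.mul_apply, Perm.mul_apply, s3 y hy1 hy2, Perm.mul_apply, s3 _ n1 n2] at this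
  have hA2 : ∀ y, α y = y → a (φ y) = a y := by
    intro y hy
    have hy1 : y ≠ x := by
      rintro rfl
      exact hx (hy.symm.trans h1)
    have hy2 : y ≠ x' := by
      rintro rfl
      exact hx (h2.symm.trans hy)
    have := hd y (by rw [Perm.mul_apply, s3 y hy1 hy2, hy])
    rwa [Perm.mul_apply, s3 y hy1 hy2] at this
  obtain ⟨b, k, hb, hk, hab⟩ := h a hA1 hA2
  have f1 : b (φ x') = b x := by
    have := hb x
    rwa [h1] at this
  have f2 : b (φ x) = b x' := by
    have := hb x'
    rwa [h2] at this
  have g1 : k x = k x' := by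
    have u1 := hab x
    have u2 := hab (φ x')
    rw [e1, f1, hk] at u2
    exact add_left_cancel (u1.symm.trans u2)
  refine ⟨b, k, ?_, ?_, hab⟩
  · intro y
    rw [Perm.mul_apply, Perm.mul_apply]
    by_cases hy1 : y = x
    · subst hy1
      rw [s1, h2, s1, f1]
    · by_cases hy2 : y = x'
      · subst hy2
        rw [s2, h1, s2, f2]
      · obtain ⟨n1, n2⟩ := hαne y hy1 hy2
        rw [s3 y hy1 hy2, s3 _ n1 n2, hb]
  · intro y
    rw [Perm.mul_apply]
    by_cases hy1 : y = x
    · subst hy1
      rw [s1, hk, g1]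
    · by_cases hy2 : y = x'
      · subst hy2
        rw [s2, hk, g1]
      · rw [s3 y hy1 hy2, hk]

/-- a dead dart can be removed from its face -/
theorem PP.kill {φ α : Perm X} (h : PP φ α) {z : X} (hz : α z = z) :
    PP (Remove.kill φ z) α := by
  have k1 : Remove.kill φ z z = z := kill_self φ z
  have k2 : ∀ y, y ≠ z → Remove.kill φ z y = if φ y = z then φ z else φ y :=
    fun y hy => kill_of_ne φ hy
  intro a ha hd
  -- the modified function
  set a' : X → ZMod 2 := fun y => if y = z then a (φ z) else a y with ha'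
  have a1 : a' z = a (φ z) := by simp [ha']
  have a2 : ∀ y, y ≠ z → a' y = a y := fun y hy => by simp [ha', hy]
  have a3 : ∀ y, y ≠ z → a' (φ y) = a (Remove.kill φ z y) := by
    intro y hy
    rw [k2 y hy]
    by_cases h1 : φ y = z
    · rw [if_pos h1, h1, a1]
    · rw [if_neg h1, a2 _ h1]
  have a4 : a' (φ z) = a' z := by
    by_cases h1 : φ z = z
    · rw [h1]
    · rw [a1, a2 _ h1]
  have hαne : ∀ y, y ≠ z → α y ≠ z := by
    intro y hy e
    exact hy (α.injective (e.trans hz.symm))
  obtain ⟨b, k, hb, hk, hab⟩ := h a' (by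
    intro y hy
    have hyz : y ≠ z := by
      rintro rfl
      exact hy hz
    rw [a2 y hyz, a3 y hyz, a2 _ (hαne y hyz), a3 _ (hαne y hyz)]
    exact ha y hy) (by
    intro y hy
    by_cases hyz : y = z
    · subst hyz
      exact a4
    · rw [a3 y hyz, a2 y hyz]
      exact hd y hy)
  have bz : b (φ z) = b z := by
    have := hb z
    rwa [hz] at this
  set b' : X → ZMod 2 := fun y => if y = z then a z + k z else b y with hb'
  have b1 : b' z = a z + k z := by simp [hb']
  have b2 : ∀ y, y ≠ z → b' y = b y := fun y hy => by simp [hb', hy]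
  have kne : ∀ y, y ≠ z → Remove.kill φ z y ≠ z := by
    intro y hy e
    exact hy ((Remove.kill φ z).injective (e.trans k1.symm))
  refine ⟨b', k, ?_, ?_, ?_⟩
  · intro y
    by_cases hyz : y = z
    · subst hyz
      rw [hz, k1]
    · have n := hαne y hyz
      rw [b2 _ (kne _ n), b2 y hyz, k2 _ n]
      by_cases h1 : φ (α y) = z
      · rw [if_pos h1, bz, ← h1, hb]
      · rw [if_neg h1, hb]
  · intro y
    by_cases hyz : y = z
    · subst hyz
      rw [k1]
    · rw [k2 y hyz]
      by_cases h1 : φ y = z
      · rw [if_pos h1, hk, ← h1, hk]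
      · rw [if_neg h1, hk]
  · intro y
    by_cases hyz : y = z
    · subst hyz
      rw [b1, add_assoc, two_cancel, add_zero]
    · rw [b2 y hyz, ← a2 y hyz]
      exact hab y

/-- folding two consecutive darts `x`, `x' = φ x`; the new edge is `y, y'`. -/
theorem PP.fold {φ α β : Perm X} (h : PP φ α) {x x' y y' : X} (hx : x ≠ x') (hφ : φ x = x')
    (h1 : α x = y) (h2 : α x' = y') (h3 : α y = x) (h4 : α y' = x') (hxy : y ≠ x) (hxy' : y ≠ x')
    (hyx : y' ≠ x) (hyx' : y' ≠ x') (hyy : y ≠ y')
    (b1 : β x = x) (b2 : β x' = x') (b3 : β y = y') (b4 : β y' = y)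
    (b5 : ∀ z, z ≠ x → z ≠ x' → z ≠ y → z ≠ y' → β z = α z) : PP φ β := by
  intro a ha hd
  have e1 : a x' = a x := by
    have := hd x b1
    rwa [hφ] at this
  have e2 : a (φ x') = a x' := hd x' b2
  have e3 : a y + a (φ y) + a y' + a (φ y') = 0 := by
    have := ha y (by rw [b3]; exact hyy.symm)
    rwa [b3] at this
  set d : ZMod 2 := a y + a (φ y) with hdd
  have hd' : a y' + a (φ y') = d := by
    apply eq_of_add_eq_zero
    rw [hdd]
    have : ∀ p q r s : ZMod 2, p + q + r + s = 0 → r + s + (p + q) = 0 := by decide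
    exact this _ _ _ _ e3
  set a' : X → ZMod 2 := fun z => if z = x' then a z + d else a z with ha'
  have a1 : a' x' = a x' + d := by simp [ha']
  have a2 : ∀ z, z ≠ x' → a' z = a z := fun z hz => by simp [ha', hz]
  have φne : ∀ z, z ≠ x → φ z ≠ x' := by
    intro z hz e
    exact hz (φ.injective (e.trans hφ.symm))
  have hαne : ∀ z, z ≠ x → z ≠ x' → z ≠ y → z ≠ y' →
      α z ≠ x ∧ α z ≠ x' ∧ α z ≠ y ∧ α z ≠ y' := by
    intro z z1 z2 z3 z4
    refine ⟨fun e => z3 (α.injective (e.trans h3.symm)), fun e => z4 (α.injective (e.trans h4.symm)),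
      fun e => z1 (α.injective (e.trans h1.symm)), fun e => z2 (α.injective (e.trans h2.symm))⟩
  obtain ⟨b, k, hb, hk, hab⟩ := h a' (by
    intro z hz
    by_cases z1 : z = x
    · subst z1
      rw [h1, hφ, a1, a2 z hx, a2 y hxy', a2 _ (φne y hxy), e1]
      have : ∀ p q r : ZMod 2, p + (p + (q + r)) + q + r = 0 := by decide
      exact this _ _ _
    · by_cases z2 : z = x'
      · subst z2
        rw [h2, a1, a2 _ (φne z z1), a2 y' hyx', a2 _ (φne y' hyx), e2, ← hd']
        have : ∀ p q r : ZMod 2, p + (q + r) + p + q + r = 0 := by decide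
        exact this _ _ _
      · by_cases z3 : z = y
        · subst z3
          rw [h3, hφ, a1, a2 z hxy', a2 _ (φne z hxy), a2 x hx, e1]
          have : ∀ p q r : ZMod 2, q + r + p + (p + (q + r)) = 0 := by decide
          exact this _ _ _
        · by_cases z4 : z = y'
          · subst z4
            rw [h4, a2 z hyx', a2 _ (φne z hyx), a1, a2 _ (φne x' (Ne.symm hx)), e2, ← hd']
            have : ∀ p q r : ZMod 2, q + r + (p + (q + r)) + p = 0 := by decide
            exact this _ _ _
          · obtain ⟨n1, n2, n3, n4⟩ := hαne z z1 z2 z3 z4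
            rw [a2 z z2, a2 _ (φne z z1), a2 _ n2, a2 _ (φne _ n1)]
            have := ha z (by rw [b5 z z1 z2 z3 z4]; exact hz)
            rwa [b5 z z1 z2 z3 z4] at this) (by
    intro z hz
    have z1 : z ≠ x := by
      rintro rfl
      exact hxy (h1.symm.trans hz)
    have z2 : z ≠ x' := by
      rintro rfl
      exact hyx' (h2.symm.trans hz)
    have z3 : z ≠ y := by
      rintro rfl
      exact hxy (hz.symm.trans h3)
    have z4 : z ≠ y' := by
      rintro rfl
      exact hyx' (hz.symm.trans h4)
    rw [a2 _ (φne z z1), a2 z z2]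
    exact hd z (by rw [b5 z z1 z2 z3 z4, hz]))
  -- the new vertex function is `a + k`
  have f1 : b x' = b y := by
    have := hb y
    rwa [h3, hφ] at this
  have f2 : b (φ y) = b x := by
    have := hb x
    rwa [h1] at this
  have f3 : b (φ y') = b x' := by
    have := hb x'
    rwa [h2] at this
  have f4 : b (φ x') = b y' := by
    have := hb y'
    rwa [h4] at this
  have kx : k x' = k x := by
    rw [← hφ, hk]
  have hb' : ∀ z, z ≠ x' → a z + k z = b z := by
    intro z hz
    rw [← a2 z hz, hab z, add_assoc, two_cancel, add_zero]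
  have hbx : a x' + k x' = b x := by
    rw [e1, kx, hb' x hx]
  refine ⟨fun z => a z + k z, k, ?_, hk, ?_⟩
  · intro z
    show a (φ (β z)) + k (φ (β z)) = a z + k z
    by_cases z1 : z = x
    · subst z1
      rw [b1, hφ, hbx, hb' z hx]
    · by_cases z2 : z = x'
      · subst z2
        rw [b2, hk, e2]
      · by_cases z3 : z = y
        · subst z3
          rw [b3, hb' _ (φne _ hyx), hb' z hxy', f3, f1]
        · by_cases z4 : z = y'
          · subst z4
            rw [b4, hb' _ (φne _ hxy), hb' z hyx', f2, ← f4, ← hbx, ← hb' _ (φne x' (Ne.symm hx)),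
              e2, hk]
          · obtain ⟨n1, n2, n3, n4⟩ := hαne z z1 z2 z3 z4
            rw [b5 z z1 z2 z3 z4, hb' _ (φne _ n1), hb' z z2, hb]
  · intro z
    show a z = a z + k z + k z
    rw [add_assoc, two_cancel, add_zero]

/-- `PP` for a map with an actual edge involution -/
theorem PP.of_pmap (M : PMap X) : PP M.φ M.α := by
  intro a ha _
  exact M.planar a fun x => ha x (M.ne x)

end Remove

open Remove

theorem rem2_left {X : Type} (ψ : Equiv.Perm X) (x x' : X) (hx : x ≠ x') :
    rem2 ψ x x' x = x := by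
  rw [rem2_eq, kill_of_ne _ hx, kill_self, if_neg hx]

set_option linter.unusedVariables false in
theorem rem2_right {X : Type} (ψ : Equiv.Perm X) (x x' : X) (hx : x ≠ x') :
    rem2 ψ x x' x' = x' := by
  rw [rem2_eq, kill_self]

theorem rem2_apply {X : Type} (ψ : Equiv.Perm X) (x x' y : X) (hx : x ≠ x') (hy : y ≠ x)
    (hy' : y ≠ x') :
    rem2 ψ x x' y = if ψ y = x then (if ψ x' = x' then ψ x else ψ x')
      else if ψ y = x' then (if ψ x = x then ψ x' else ψ x) else ψ y := by
  have e1 : (ψ * swap x x') y = ψ y := by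
    rw [Perm.mul_apply, swap_apply_of_ne_of_ne hy hy']
  have e2 : (ψ * swap x x') x = ψ x' := by rw [Perm.mul_apply, swap_apply_left]
  have e3 : (ψ * swap x x') x' = ψ x := by rw [Perm.mul_apply, swap_apply_right]
  rw [rem2_eq, kill_of_ne _ hy', kill_of_ne _ hy, kill_of_ne _ hx.symm, e1, e2, e3]
  by_cases h1 : ψ y = x
  · rw [if_pos h1, if_pos h1]
    have h2 : ψ x ≠ x := fun e => hy (ψ.injective (h1.trans e.symm))
    rw [if_neg h2]
  · rw [if_neg h1, if_neg h1]

theorem exists_remove {X : Type} [Finite X] (M : PMap X) (x x' : X) (hx : x ≠ x')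
    (h : M.α x = x' ∨ M.φ x = x') :
    ∃ M' : PMap {y // y ≠ x ∧ y ≠ x'},
      (∀ y, ((M'.φ y : _) : X) = rem2 M.φ x x' y) ∧ ∀ y, ((M'.α y : _) : X) = rem2 M.α x x' y := by
  have hinv := M.inv
  have hne := M.ne
  -- values of the new edge permutation
  have hα : ∀ z, z ≠ x → z ≠ x' → rem2 M.α x x' z =
      if M.α z = x then M.α x' else if M.α z = x' then M.α x else M.α z := by
    intro z z1 z2
    rw [rem2_apply _ x x' z hx z1 z2, if_neg (hne x'), if_neg (hne x)]
  have hPP : PP (rem2 M.φ x x') (rem2 M.α x x') := by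
    have hfixx : rem2 M.α x x' x = x := rem2_left _ x x' hx
    have hfixx' : rem2 M.α x x' x' = x' := rem2_right _ x x' hx
    by_cases hα1 : M.α x = x'
    · have hα2 : M.α x' = x := by rw [← hα1, hinv]
      have h1 : rem2 M.α x x' = M.α * swap x x' := by
        ext z
        by_cases z1 : z = x
        · subst z1
          rw [hfixx, Perm.mul_apply, swap_apply_left, hα2]
        · by_cases z2 : z = x'
          · subst z2
            rw [hfixx', Perm.mul_apply, swap_apply_right, hα1]
          · have n1 : M.α z ≠ x := fun e => z2 (by rw [← hα1, ← e, hinv])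
            have n2 : M.α z ≠ x' := fun e => z1 (by rw [← hα2, ← e, hinv])
            rw [hα z z1 z2, if_neg n1, if_neg n2, Perm.mul_apply, swap_apply_of_ne_of_ne z1 z2]
      have h2 := (PP.of_pmap M).cut hx hα1 hα2
      rw [← h1] at h2
      exact (h2.kill hfixx).kill hfixx'
    · have hφ : M.φ x = x' := by
        rcases h with h | h
        · exact absurd h hα1
        · exact h
      have hx'1 : M.α x' ≠ x := fun e => hα1 (by rw [← e, hinv])
      have h2 : PP M.φ (rem2 M.α x x') := by
        refine (PP.of_pmap M).fold (y := M.α x) (y' := M.α x') hx hφ rfl rfl (hinv x) (hinv x')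
          (hne x) hα1 hx'1 (hne x') (fun e => hx (M.α.injective e)) hfixx hfixx' ?_ ?_ ?_
        · rw [hα _ (hne x) hα1, if_pos (hinv x)]
        · rw [hα _ hx'1 (hne x'), if_neg (by rw [hinv]; exact hx.symm), if_pos (hinv x')]
        · intro z z1 z2 z3 z4
          have n1 : M.α z ≠ x := fun e => z3 (by rw [← e, hinv])
          have n2 : M.α z ≠ x' := fun e => z4 (by rw [← e, hinv])
          rw [hα z z1 z2, if_neg n1, if_neg n2]
      have h3 : M.φ * swap x x' = kill M.φ x' := by
        ext z
        by_cases z2 : z = x'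
        · subst z2
          rw [kill_self, Perm.mul_apply, swap_apply_right, hφ]
        · rw [kill_of_ne _ z2, Perm.mul_apply]
          by_cases z1 : z = x
          · subst z1
            rw [swap_apply_left, if_pos hφ]
          · rw [swap_apply_of_ne_of_ne z1 z2,
              if_neg (fun e => z1 (M.φ.injective (e.trans hφ.symm)))]
      rw [rem2_eq M.φ, h3]
      exact ((h2.kill hfixx').kill hfixx).kill hfixx'
  have hp : ∀ ψ : Perm X, ψ x = x → ψ x' = x' → ∀ y, (ψ y ≠ x ∧ ψ y ≠ x') ↔ (y ≠ x ∧ y ≠ x') := by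
    intro ψ h1 h2 y
    have e1 : ψ y = x ↔ y = x := ⟨fun e => ψ.injective (e.trans h1.symm), fun e => by rw [e, h1]⟩
    have e2 : ψ y = x' ↔ y = x' := ⟨fun e => ψ.injective (e.trans h2.symm), fun e => by rw [e, h2]⟩
    simp only [ne_eq, e1, e2]
  set φ' : Perm {y // y ≠ x ∧ y ≠ x'} := (rem2 M.φ x x').subtypePerm
    (hp _ (rem2_left _ x x' hx) (rem2_right _ x x' hx)) with hφ'
  set α' : Perm {y // y ≠ x ∧ y ≠ x'} := (rem2 M.α x x').subtypePerm
    (hp _ (rem2_left _ x x' hx) (rem2_right _ x x' hx)) with hα'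
  have vφ : ∀ y, ((φ' y : _) : X) = rem2 M.φ x x' y := fun y => rfl
  have vα : ∀ y, ((α' y : _) : X) = rem2 M.α x x' y := fun y => rfl
  -- values on the subtype
  have nx : M.α x ≠ M.α x' := fun e => hx (M.α.injective e)
  have hinv' : ∀ z, z ≠ x → z ≠ x' → rem2 M.α x x' (rem2 M.α x x' z) = z := by
    intro z z1 z2
    by_cases z3 : M.α z = x
    · have z3' : z = M.α x := by rw [← z3, hinv]
      have n1 : M.α x' ≠ x := fun e => z2 (by rw [z3', ← e, hinv])
      rw [hα z z1 z2, if_pos z3, hα _ n1 (hne x'), hinv, if_neg hx.symm, if_pos rfl, ← z3']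
    · by_cases z4 : M.α z = x'
      · have z4' : z = M.α x' := by rw [← z4, hinv]
        have n1 : M.α x ≠ x' := fun e => z1 (by rw [z4', ← e, hinv])
        rw [hα z z1 z2, if_neg z3, if_pos z4, hα _ (hne x) n1, hinv, if_pos rfl, ← z4']
      · rw [hα z z1 z2, if_neg z3, if_neg z4, hα _ z3 z4, hinv, if_neg z1, if_neg z2]
  have hne' : ∀ z, z ≠ x → z ≠ x' → rem2 M.α x x' z ≠ z := by
    intro z z1 z2
    rw [hα z z1 z2]
    by_cases z3 : M.α z = x
    · have z3' : z = M.α x := by rw [← z3, hinv]
      rw [if_pos z3, z3']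
      exact nx.symm
    · by_cases z4 : M.α z = x'
      · have z4' : z = M.α x' := by rw [← z4, hinv]
        rw [if_neg z3, if_pos z4, z4']
        exact nx
      · rw [if_neg z3, if_neg z4]
        exact hne z
  refine ⟨⟨φ', α', ?_, ?_, ?_⟩, vφ, vα⟩
  · intro z
    apply Subtype.ext
    rw [vα, vα]
    exact hinv' _ z.2.1 z.2.2
  · intro z e
    have := congrArg Subtype.val e
    rw [vα] at this
    exact hne' _ z.2.1 z.2.2 this
  · intro a ha
    set a' : X → ZMod 2 := fun y => if h : y ≠ x ∧ y ≠ x' then a ⟨y, h⟩ else 0 with ha'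
    have a1 : ∀ y : {y // y ≠ x ∧ y ≠ x'}, a' y = a y := by
      intro y
      simp only [ha']
      rw [dif_pos y.2]
    have a2 : a' x = 0 := by simp [ha']
    have a3 : a' x' = 0 := by simp [ha']
    obtain ⟨b, k, hb, hk, hab⟩ := hPP a' (by
      intro y hy
      have y1 : y ≠ x := by
        rintro rfl
        exact hy (rem2_left _ _ x' hx)
      have y2 : y ≠ x' := by
        rintro rfl
        exact hy (rem2_right _ x _ hx)
      have := ha ⟨y, y1, y2⟩
      rw [← a1, ← a1, ← a1, ← a1, vφ, vφ, vα] at this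
      exact this) (by
      intro y hy
      by_cases y1 : y = x
      · subst y1
        rw [rem2_left _ _ x' hx]
      · by_cases y2 : y = x'
        · subst y2
          rw [rem2_right _ x _ hx]
        · exact absurd hy (hne' y y1 y2))
    refine ⟨fun y => b y, fun y => k y, ?_, ?_, ?_⟩
    · intro y
      show b (φ' (α' y)) = b y
      rw [vφ, vα]
      exact hb y
    · intro y
      show k (φ' y) = k y
      rw [vφ]
      exact hk y
    · intro y
      show a y = b y + k y
      rw [← a1]
      exact hab y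

end Crest.Agent.R177
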