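import Crest.Agent.R177.Defs2
import Crest.Agent.R177.Remove

/-!
# Rows 177 / 184, module REDUCTION (helper132)

`reduce_step`: a diagram which is not reduced can be made smaller, with the same chain and the same
outer word.
-/

set_option autoImplicit false

open scoped Classical

namespace Crest.Agent.R177

open Crest.Agent.R199 (PAct)

variable {S V : Type}

namespace DiagRed

theorem hinv_hinv (a : S × Bool) : hinv (hinv a) = a := by
  simp [hinv]

theorem hinv_ne (a : S × Bool) : hinv a ≠ a := by
  intro h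
  have := congrArg Prod.snd h
  simp [hinv] at this

theorem gw_append (A : PAct S V) (u v : List (S × Bool)) : gw A (u ++ v) = gw A u * gw A v := by
  unfold gw
  rw [← map_mul, FreeGroup.mul_mk]

theorem gw_hinv (A : PAct S V) (a : S × Bool) : gw A [a] * gw A [hinv a] = 1 := by
  rw [← gw_append]
  unfold gw
  have : (FreeGroup.mk ([a] ++ [hinv a]) : FreeGroup S) = 1 := by
    rw [FreeGroup.one_eq_mk]
    apply Quot.sound
    exact FreeGroup.Red.Step.cons_not
  rw [this, map_one]

variable {A : PAct S V} {X : Type}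

/-- `x, x'` is a pair of inner darts mapped to the same edge in opposite directions -/
structure Opp (D : Diag A X) (x x' : X) : Prop where
  outx : ¬ D.out x
  outx' : ¬ D.out x'
  lab : D.lab x' = hinv (D.lab x)
  pos : D.pos x' = D.pos (D.φ x)
  pos' : D.pos (D.φ x') = D.pos x
  node : D.node x' = D.node (D.φ x)
  node' : D.node (D.φ x') = D.node x

theorem Opp.ne {D : Diag A X} {x x' : X} (h : Opp D x x') : x ≠ x' := by
  intro e
  have := h.lab
  rw [← e] at this
  exact hinv_ne _ this.symm

/-- the values of `pos`, `node`, `out` at the next dart do not change -/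
theorem next_val {D : Diag A X} {x x' : X} (h : Opp D x x') {y : X} (h1 : y ≠ x) (h2 : y ≠ x') :
    D.pos (rem2 D.φ x x' y) = D.pos (D.φ y) ∧ (D.out (rem2 D.φ x x' y) ↔ D.out y) ∧
      D.node (rem2 D.φ x x' y) = D.node (D.φ y) ∧ (D.out y → rem2 D.φ x x' y = D.φ y) := by
  have hxx := h.ne
  have o1 : ¬ D.out (D.φ x) := fun e => h.outx ((D.out_φ x).1 e)
  have o2 : ¬ D.out (D.φ x') := fun e => h.outx' ((D.out_φ x').1 e)
  rw [rem2_apply _ _ _ _ hxx h1 h2]
  by_cases c1 : D.φ y = x
  · rw [if_pos c1]
    have oy : ¬ D.out y := by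
      intro e
      exact h.outx (c1 ▸ (D.out_φ y).2 e)
    by_cases c2 : D.φ x' = x'
    · rw [if_pos c2, c1]
      have e1 : D.pos (D.φ x) = D.pos x := by rw [← h.pos, ← c2, h.pos']
      have e2 : D.node (D.φ x) = D.node x := by rw [← h.node, ← c2, h.node']
      exact ⟨e1, iff_of_false o1 oy, e2, fun e => absurd e oy⟩
    · rw [if_neg c2, c1]
      exact ⟨h.pos', iff_of_false o2 oy, h.node', fun e => absurd e oy⟩
  · rw [if_neg c1]
    by_cases c2 : D.φ y = x'
    · rw [if_pos c2]
      have oy : ¬ D.out y := by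
        intro e
        exact h.outx' (c2 ▸ (D.out_φ y).2 e)
      by_cases c3 : D.φ x = x
      · rw [if_pos c3, c2]
        have e1 : D.pos (D.φ x') = D.pos x' := by rw [h.pos', h.pos, c3]
        have e2 : D.node (D.φ x') = D.node x' := by rw [h.node', h.node, c3]
        exact ⟨e1, iff_of_false o2 oy, e2, fun e => absurd e oy⟩
      · rw [if_neg c3, c2]
        exact ⟨h.pos.symm, iff_of_false o1 oy, h.node.symm, fun e => absurd e oy⟩
    · rw [if_neg c2]
      exact ⟨rfl, D.out_φ y, rfl, fun _ => rfl⟩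

theorem node_back {D : Diag A X} {x x' : X} (o : ¬ D.out x) (o' : ¬ D.out x')
    (hl : D.lab x' = hinv (D.lab x)) (hn : D.node x' = D.node (D.φ x)) :
    D.node (D.φ x') = D.node x := by
  have h1 := D.node_step x o
  have h2 := D.node_step x' o'
  have h3 := A.symm _ _ _ h1
  rw [hl, hn] at h2
  have h4 : A.st (hinv (D.lab x)) (D.node (D.φ x)) = some (D.node x) := h3
  rw [h4] at h2
  exact (Option.some.inj h2).symm

theorem pos_back {D : Diag A X} {x x' : X} (hl : D.lab x' = hinv (D.lab x))
    (hp : D.pos x' = D.pos (D.φ x)) : D.pos (D.φ x') = D.pos x := by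
  rw [D.pos_φ, hp, D.pos_φ, hl, mul_assoc, gw_hinv, mul_one]

/-- `i` embeds the smaller diagram `D'` into `D` -/
structure Emb {X' : Type} (D : Diag A X) (D' : Diag A X') (i : X' → X) : Prop where
  inj : Function.Injective i
  lab : ∀ y, D'.lab y = D.lab (i y)
  pos : ∀ y, D'.pos y = D.pos (i y)
  node : ∀ y, D'.node y = D.node (i y)
  out : ∀ y, D'.out y ↔ D.out (i y)
  /-- outer darts are not touched -/
  out_mem : ∀ x, D.out x → x ∈ Set.range i
  φ_out : ∀ y, D'.out y → i (D'.φ y) = D.φ (i y)
  /-- positions and nodes of the next darts agree -/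
  pos_next : ∀ y, D.pos (i (D'.φ y)) = D.pos (D.φ (i y))
  node_next : ∀ y, D.node (i (D'.φ y)) = D.node (D.φ (i y))

/-- both kinds of reduction moves; the removed darts are `x` and `x'` -/
theorem reduce_pair [Fintype X] (D : Diag A X) (w : List (S × Bool)) (hw : OutW D w)
    {x x' : X} (h : Opp D x x') (hm : D.α x = x' ∨ D.φ x = x') :
    ∃ (X' : Type) (_ : Fintype X') (D' : Diag A X') (i : X' → X),
      Fintype.card X' < Fintype.card X ∧ D'.cls = D.cls ∧ OutW D' w ∧ Emb D D' i ∧
        ∀ y, y ∈ Set.range i ↔ y ≠ x ∧ y ≠ x' := by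
  have hxx := h.ne
  obtain ⟨M', hφ, hα⟩ := exists_remove D.toPMap x x' hxx hm
  have nv : ∀ y : {y // y ≠ x ∧ y ≠ x'}, D.pos (M'.φ y) = D.pos (D.φ y) ∧
      (D.out (M'.φ y) ↔ D.out y) ∧ D.node (M'.φ y) = D.node (D.φ y) ∧
      (D.out y → (M'.φ y : X) = D.φ y) := by
    intro y
    rw [hφ]
    exact next_val h y.2.1 y.2.2
  have hlα : ∀ y : {y // y ≠ x ∧ y ≠ x'}, D.lab (M'.α y) = hinv (D.lab y) := by
    intro y
    rw [hα, rem2_apply _ _ _ _ hxx y.2.1 y.2.2, if_neg (D.ne x'), if_neg (D.ne x)]
    by_cases c1 : D.α y = x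
    · rw [if_pos c1, D.lab_α, h.lab, hinv_hinv]
      have : (y : X) = D.α x := by
        have e := D.inv y
        rw [c1] at e
        exact e.symm
      rw [this, D.lab_α, hinv_hinv]
    · rw [if_neg c1]
      by_cases c2 : D.α y = x'
      · rw [if_pos c2, D.lab_α]
        have : (y : X) = D.α x' := by
          have e := D.inv y
          rw [c2] at e
          exact e.symm
        rw [this, D.lab_α, h.lab, hinv_hinv]
      · rw [if_neg c2, D.lab_α]
  have hpα : ∀ y : {y // y ≠ x ∧ y ≠ x'}, D.pos (M'.α y) = D.pos (M'.φ y) := by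
    intro y
    rw [(nv y).1, hα, rem2_apply _ _ _ _ hxx y.2.1 y.2.2, if_neg (D.ne x'), if_neg (D.ne x)]
    by_cases c1 : D.α y = x
    · rw [if_pos c1, D.pos_α, h.pos', ← D.pos_α, c1]
    · rw [if_neg c1]
      by_cases c2 : D.α y = x'
      · rw [if_pos c2, D.pos_α, ← h.pos, ← D.pos_α, c2]
      · rw [if_neg c2, D.pos_α]
  let D' : Diag A {y // y ≠ x ∧ y ≠ x'} :=
    { M' with
      lab := fun y => D.lab y
      pos := fun y => D.pos y
      out := fun y => D.out y
      node := fun y => D.node y
      lab_α := hlα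
      pos_φ := fun y => by rw [(nv y).1, D.pos_φ]
      pos_α := hpα
      out_φ := fun y => (nv y).2.1
      node_step := fun y hy => by rw [(nv y).2.2.1]; exact D.node_step y hy }
  refine ⟨{y // y ≠ x ∧ y ≠ x'}, inferInstance, D', fun y => y, ?_, ?_, ?_, ?_, ?_⟩
  · exact Fintype.card_subtype_lt (x := x) (by simp)
  · -- the chain
    have hcel : ∀ y : {y // y ≠ x ∧ y ≠ x'}, D'.cel y = D.cel y := by
      intro y
      have e1 : D.pos (M'.φ y) = D.pos (D.φ y) := (nv y).1
      have e2 : D.node (M'.φ y) = D.node (D.φ y) := (nv y).2.2.1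
      unfold Diag.cel
      show (if D.out y then 0 else if (D.lab y).2 then Finsupp.single (D.pos y, D.node y,
        (D.lab y).1) 1 else - Finsupp.single (D.pos (M'.φ y), D.node (M'.φ y), (D.lab y).1) 1) = _
      rw [e1, e2]
    have hsum : ∀ f : X → ((Grp A × V × S) →₀ ℤ), f x + f x' = 0 →
        ∑ y : {y // y ≠ x ∧ y ≠ x'}, f y = ∑ y, f y := by
      intro f hf
      rw [← Finset.sum_subtype (s := Finset.univ.filter fun y => y ≠ x ∧ y ≠ x')
        (p := fun y => y ≠ x ∧ y ≠ x') (by simp) f]
      have e1 : (Finset.univ : Finset X) = insert x (insert x'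
          (Finset.univ.filter fun y => y ≠ x ∧ y ≠ x')) := by
        ext y
        simp only [Finset.mem_univ, Finset.mem_insert, Finset.mem_filter, true_and, true_iff]
        tauto
      conv_rhs => rw [e1]
      rw [Finset.sum_insert (by simp [hxx]), Finset.sum_insert (by simp), ← add_assoc, hf, zero_add]
    unfold Diag.cls
    rw [Finset.sum_congr rfl fun y _ => hcel y, hsum D.cel ?_]
    unfold Diag.cel
    rw [if_neg h.outx, if_neg h.outx', h.lab, h.pos, h.pos', h.node, h.node']
    cases hb : (D.lab x).2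
    · simp [hinv, hb]
    · simp [hinv, hb]
  · obtain ⟨e, he1, he2, he3, he4⟩ := hw
    have hne : ∀ i, e i ≠ x ∧ e i ≠ x' := by
      intro i
      have : D.out (e i) := (he2 _).2 ⟨i, rfl⟩
      refine ⟨?_, ?_⟩
      · intro e'
        exact h.outx (e' ▸ this)
      · intro e'
        exact h.outx' (e' ▸ this)
    refine ⟨fun i => ⟨e i, hne i⟩, ?_, ?_, he3, ?_⟩
    · intro i j hij
      exact he1 (congrArg Subtype.val hij)
    · intro y
      show D.out y ↔ _
      rw [he2]
      constructor
      · rintro ⟨i, hi⟩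
        exact ⟨i, Subtype.ext hi⟩
      · rintro ⟨i, hi⟩
        exact ⟨i, congrArg Subtype.val hi⟩
    · intro i j hij
      apply Subtype.ext
      show (M'.φ ⟨e i, hne i⟩ : X) = e j
      rw [(nv ⟨e i, hne i⟩).2.2.2 ((he2 _).2 ⟨i, rfl⟩)]
      exact he4 i j hij
  · refine ⟨Subtype.val_injective, fun _ => rfl, fun _ => rfl, fun _ => rfl, fun _ => Iff.rfl, ?_,
      fun y hy => (nv y).2.2.2 hy, fun y => (nv y).1, fun y => (nv y).2.2.1⟩
    intro y hy
    refine ⟨⟨y, ?_, ?_⟩, rfl⟩
    · rintro rfl
      exact h.outx hy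
    · rintro rfl
      exact h.outx' hy
  · intro y
    constructor
    · rintro ⟨z, rfl⟩
      exact z.2
    · intro hy
      exact ⟨⟨y, hy⟩, rfl⟩

open DiagRed

/-- cyclically consecutive letters of a cyclically reduced word are not inverse -/
theorem cyc_not_inv (w : List (S × Bool)) (hred : FreeGroup.IsReduced (w ++ w))
    (i j : Fin w.length) (hij : j.val = i.val + 1 ∨ (j.val = 0 ∧ i.val + 1 = w.length)) :
    w.get j ≠ hinv (w.get i) := by
  have key : ∀ (l : List (S × Bool)), FreeGroup.IsReduced l → ∀ (n : ℕ) (h : n + 1 < l.length),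
      l[n + 1] ≠ hinv l[n] := by
    intro l hl n h e
    have h1 := List.isChain_iff_getElem.1 hl n h
    have h2 : l[n].1 = l[n + 1].1 := by rw [e]; rfl
    have h3 := h1 h2
    rw [e] at h3
    simp [hinv] at h3
  have hi := i.2
  have hj := j.2
  have h1 : i.val + 1 < (w ++ w).length := by
    rw [List.length_append]
    omega
  have h2 := key _ hred i.val h1
  rw [List.getElem_append_left hi] at h2
  rcases hij with hij | ⟨hij, hij'⟩
  · have h3 : i.val + 1 < w.length := by omega
    rw [List.getElem_append_left h3] at h2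
    have : j = ⟨i.val + 1, h3⟩ := Fin.ext hij
    rw [this]
    exact h2
  · rw [List.getElem_append_right (by omega)] at h2
    have h4 : j = ⟨i.val + 1 - w.length, by omega⟩ := by
      apply Fin.ext
      show j.val = i.val + 1 - w.length
      omega
    rw [h4]
    exact h2

/-- I2, strong form: a non-reduced diagram can be made smaller, by removing one pair of inner
darts. -/
theorem reduce_step_emb {A : PAct S V} {X : Type} [Fintype X] (D : Diag A X)
    (w : List (S × Bool)) (hred : FreeGroup.IsReduced (w ++ w)) (hw : OutW D w)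
    (hD : ¬ D.Reduced) :
    ∃ (X' : Type) (_ : Fintype X') (D' : Diag A X') (i : X' → X),
      Fintype.card X' < Fintype.card X ∧ D'.cls = D.cls ∧ OutW D' w ∧ Emb D D' i := by
  unfold Diag.Reduced at hD
  rw [not_and_or] at hD
  rcases hD with hD | hD
  · push Not at hD
    obtain ⟨x, o1, o2, hn⟩ := hD
    have hopp : Opp D x (D.α x) :=
      { outx := o1
        outx' := o2
        lab := D.lab_α x
        pos := D.pos_α x
        pos' := pos_back (D.lab_α x) (D.pos_α x)
        node := hn
        node' := node_back o1 o2 (D.lab_α x) hn }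
    obtain ⟨X', inst, D', i, h1, h2, h3, h4, _⟩ := reduce_pair D w hw hopp (Or.inl rfl)
    exact ⟨X', inst, D', i, h1, h2, h3, h4⟩
  · push Not at hD
    obtain ⟨x, hl⟩ := hD
    have o1 : ¬ D.out x := by
      intro ho
      obtain ⟨e, he1, he2, he3, he4⟩ := hw
      obtain ⟨i, rfl⟩ := (he2 x).1 ho
      have hi := i.2
      -- the successor index
      obtain ⟨j, hj⟩ : ∃ j : Fin w.length,
          j.val = i.val + 1 ∨ (j.val = 0 ∧ i.val + 1 = w.length) := by
        by_cases h : i.val + 1 < w.length
        · exact ⟨⟨i.val + 1, h⟩, Or.inl rfl⟩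
        · exact ⟨⟨0, by omega⟩, Or.inr ⟨rfl, by omega⟩⟩
      rw [he4 i j hj, he3, he3] at hl
      exact cyc_not_inv w hred i j hj hl
    have o2 : ¬ D.out (D.φ x) := fun h => o1 ((D.out_φ x).1 h)
    have hopp : Opp D x (D.φ x) :=
      { outx := o1
        outx' := o2
        lab := hl
        pos := rfl
        pos' := pos_back hl rfl
        node := rfl
        node' := node_back o1 o2 hl rfl }
    obtain ⟨X', inst, D', i, h1, h2, h3, h4, _⟩ := reduce_pair D w hw hopp (Or.inr rfl)
    exact ⟨X', inst, D', i, h1, h2, h3, h4⟩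

end DiagRed

open DiagRed

/-- I2: a non-reduced diagram can be made smaller. -/
theorem reduce_step {A : PAct S V} {X : Type} [Fintype X] (D : Diag A X) (w : List (S × Bool))
    (hred : FreeGroup.IsReduced (w ++ w)) (hw : OutW D w) (hD : ¬ D.Reduced) :
    ∃ (X' : Type) (_ : Fintype X') (D' : Diag A X'),
      Fintype.card X' < Fintype.card X ∧ D'.cls = D.cls ∧ OutW D' w := by
  obtain ⟨X', inst, D', _, h1, h2, h3, _⟩ := reduce_step_emb D w hred hw hD
  exact ⟨X', inst, D', h1, h2, h3⟩

end Crest.Agent.R177
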