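import Crest.Agent.R177.DefsO
import Crest.Agent.R177.Asph

/-!
# Row 184 (S0274): the fresh letter (helper323)

`geomO`: the local inequality with a marked node gives the isoperimetric inequality of `A` and
controls short words closing a path from the marked node `o`. The geometry is applied to
`aug A v o` (one more letter with one edge `v → o`).
-/

set_option autoImplicit false

open scoped Classical

namespace Crest.Agent.R177

open Crest.Agent.R199 (PAct)
open FreeGroup (IsReduced invRev)

namespace Far

variable {S V : Type} (A : PAct S V) (v o : V)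

/-- words of `A` as words of `aug A v o` -/
def up (w : List (S × Bool)) : List (Option S × Bool) := w.map fun a => (some a.1, a.2)

@[simp] theorem up_nil : up ([] : List (S × Bool)) = [] := rfl

@[simp] theorem up_cons (a : S × Bool) (w : List (S × Bool)) :
    up (a :: w) = (some a.1, a.2) :: up w := rfl

theorem up_append (u w : List (S × Bool)) : up (u ++ w) = up u ++ up w := List.map_append

@[simp] theorem up_length (w : List (S × Bool)) : (up w).length = w.length := List.length_map _

theorem up_invRev (w : List (S × Bool)) : up (invRev w) = invRev (up w) := by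
  simp [up, invRev, Function.comp_def]

theorem up_eq_nil {w : List (S × Bool)} (h : up w = []) : w = [] := List.map_eq_nil_iff.1 h

theorem mk_up (w : List (S × Bool)) : FreeGroup.mk (up w) = FreeGroup.map some (FreeGroup.mk w) :=
  (FreeGroup.map.mk).symm

theorem invRev_isReduced {T : Type} {w : List (T × Bool)} (h : IsReduced w) :
    IsReduced (invRev w) := by
  rw [FreeGroup.isReduced_iff_reduce_eq] at h ⊢
  rw [FreeGroup.reduce_invRev, h]

theorem up_isReduced {w : List (S × Bool)} : IsReduced (up w) ↔ IsReduced w := by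
  unfold up FreeGroup.IsReduced
  rw [List.isChain_map]
  constructor
  · exact fun h => h.imp (fun a b h1 h2 => h1 (congrArg some h2))
  · exact fun h => h.imp (fun a b h1 h2 => h1 (Option.some.inj h2))

theorem exists_up : ∀ {w : List (Option S × Bool)}, (∀ a ∈ w, a.1 ≠ none) → ∃ u, w = up u
  | [], _ => ⟨[], rfl⟩
  | (none, b) :: w, h => absurd rfl (h (none, b) (by simp))
  | (some s, b) :: w, h => by
    obtain ⟨u, rfl⟩ := exists_up (w := w) fun a ha => h a (List.mem_cons_of_mem _ ha)
    exact ⟨(s, b) :: u, rfl⟩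

/-- split at the first `ζ` -/
theorem split (w : List (Option S × Bool)) :
    (∃ u, w = up u) ∨ ∃ u b w', w = up u ++ (none, b) :: w' := by
  induction w with
  | nil => exact Or.inl ⟨[], rfl⟩
  | cons a w ih =>
    obtain ⟨_ | s, b⟩ := a
    · exact Or.inr ⟨[], b, w, rfl⟩
    · rcases ih with ⟨u, rfl⟩ | ⟨u, b', w', rfl⟩
      · exact Or.inl ⟨(s, b) :: u, rfl⟩
      · exact Or.inr ⟨(s, b) :: u, b', w', rfl⟩

theorem read_up (w : List (S × Bool)) (x : V) : (aug A v o).read (up w) x = A.read w x := by
  induction w generalizing x with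
  | nil => rfl
  | cons a w ih =>
    rw [up_cons, PAct.read_cons, PAct.read_cons]
    have : (aug A v o).st (some a.1, a.2) x = A.st a x := rfl
    rw [this]
    congr 1
    funext y
    exact ih y

theorem st_true {x y : V} (h : (aug A v o).st (none, true) x = some y) : x = v ∧ y = o := by
  have h' : (if x = v then some o else none) = some y := h
  split_ifs at h' with h1
  exact ⟨h1, (Option.some.inj h').symm⟩

theorem st_false {x y : V} (h : (aug A v o).st (none, false) x = some y) : x = o ∧ y = v := by
  have h' : (if x = o then some v else none) = some y := h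
  split_ifs at h' with h1
  exact ⟨h1, (Option.some.inj h').symm⟩

/-- relations of `A` hold in `aug A v o` -/
theorem gw_up {w : List (S × Bool)} (h : gw A w = 1) : gw (aug A v o) (up w) = 1 := by
  rw [GS.gw_eq, GS.piA_eq_one_iff] at h ⊢
  rw [mk_up]
  have : rels A ⊆ ((Subgroup.normalClosure (rels (aug A v o))).comap (FreeGroup.map some) :
      Subgroup (FreeGroup S)) := by
    rintro r ⟨x, u, hu, rfl⟩
    show FreeGroup.map some (FreeGroup.mk u) ∈ Subgroup.normalClosure (rels (aug A v o))
    rw [← mk_up]
    exact Subgroup.subset_normalClosure ⟨x, up u, by rw [read_up]; exact hu, rfl⟩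
  exact Subgroup.normalClosure_le_normal this h

theorem girth_aug (g' : ℕ) (hg : Girth A g')
    (hfar : ∀ q, IsReduced q → A.read q o = some v → g' ≤ q.length) : Girth (aug A v o) g' := by
  intro x w hred hne hr
  have hfar' : ∀ q : List (S × Bool), A.read q o = some v → g' ≤ q.length := by
    intro q hq
    obtain ⟨q', h1, -, -, h2, h3⟩ := A.exists_reduced hq
    exact (hfar q' h1 h3).trans h2
  have hfar2 : ∀ q : List (S × Bool), A.read q v = some o → g' ≤ q.length := by
    intro q hq
    have := hfar' _ (A.read_invRev hq)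
    simpa [invRev] using this
  rcases split w with ⟨u, rfl⟩ | ⟨u, b, w', rfl⟩
  · rw [read_up] at hr
    have := hg x u (up_isReduced.1 hred) (fun h => hne (by rw [h]; rfl)) hr
    simpa using this
  rw [PAct.read_append_some] at hr
  obtain ⟨y, hy, hr⟩ := hr
  rw [read_up] at hy
  rw [PAct.read_cons] at hr
  obtain ⟨z, hz, hr⟩ := Option.bind_eq_some_iff.1 hr
  have hlen : (up u ++ (none, b) :: w').length = u.length + (w'.length + 1) := by simp
  rw [hlen]
  rcases split w' with ⟨u', rfl⟩ | ⟨u', b', w'', rfl⟩
  · rw [read_up] at hr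
    rw [up_length]
    have hru : A.read (u' ++ u) z = some y := PAct.read_append_some _ |>.2 ⟨x, hr, hy⟩
    cases b
    · obtain ⟨rfl, rfl⟩ := st_false A v o hz
      have := hfar2 _ hru
      simp only [List.length_append] at this
      omega
    · obtain ⟨rfl, rfl⟩ := st_true A v o hz
      have := hfar' _ hru
      simp only [List.length_append] at this
      omega
  · rw [PAct.read_append_some] at hr
    obtain ⟨z', hz', hr⟩ := hr
    rw [read_up] at hz'
    rw [PAct.read_cons] at hr
    obtain ⟨z'', hz'', -⟩ := Option.bind_eq_some_iff.1 hr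
    have hlen' : (up u' ++ (none, b') :: w'').length = u'.length + (w''.length + 1) := by simp
    rw [hlen']
    have hred' : IsReduced ((none, b) :: up u' ++ (none, b') :: w'') := by
      have := hred.infix (L₁ := (none, b) :: (up u' ++ (none, b') :: w''))
        (List.suffix_append (up u) _).isInfix
      simpa using this
    have hu' : IsReduced u' := by
      apply up_isReduced.1
      exact hred'.infix ⟨[(none, b)], (none, b') :: w'', by simp⟩
    have hne' : b ≠ b' → u' ≠ [] := by
      rintro hb rfl
      have h1 : IsReduced ((none, b) :: (none, b') :: w'') := by simpa using hred'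
      have h2 := (List.isChain_cons_cons.1 h1).1 rfl
      exact hb h2
    have key : g' ≤ u'.length := by
      cases b <;> cases b'
      · have h1 := (st_false A v o hz).2
        have h2 := (st_false A v o hz'').1
        rw [h1, h2] at hz'
        exact hfar2 _ hz'
      · have h1 := (st_false A v o hz).2
        have h2 := (st_true A v o hz'').1
        rw [h1, h2] at hz'
        exact hg _ _ hu' (hne' (by simp)) hz'
      · have h1 := (st_true A v o hz).2
        have h2 := (st_false A v o hz'').1
        rw [h1, h2] at hz'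
        exact hg _ _ hu' (hne' (by simp)) hz'
      · have h1 := (st_true A v o hz).2
        have h2 := (st_true A v o hz'').1
        rw [h1, h2] at hz'
        exact hfar' _ hz'
    omega

/-- the far case -/
theorem far_contra {C n : ℕ} (h : Iso (aug A v o) C) (hg : Girth (aug A v o) (C * (n + 1) + 1))
    {c p : List (S × Bool)} (hc : IsReduced c) (hl : c.length ≤ n)
    (hp : A.read p o = some v) (hw : gw A (c ++ p) = 1) : False := by
  have h1 : gw (aug A v o) (up c) * gw (aug A v o) (up p) = 1 := by
    rw [← GS.gw_append, ← up_append]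
    exact gw_up A v o hw
  have h2 : gw (aug A v o) (up p) * gw (aug A v o) [(none, true)] = 1 := by
    rw [← GS.gw_append]
    apply GS.gw_closed _ (v := o)
    rw [PAct.read_append_some]
    refine ⟨v, by rw [read_up]; exact hp, ?_⟩
    rw [PAct.read_singleton]
    show (if v = v then some o else none) = some o
    simp
  have hinv : gw (aug A v o) (invRev (up c)) = (gw (aug A v o) (up c))⁻¹ := by
    rw [GS.gw_eq, GS.gw_eq, ← map_inv, FreeGroup.inv_mk]
  refine short_of_iso (aug A v o) C (n + 1) h hg (invRev (up c) ++ [(none, true)]) (by simp) ?_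
    (by simp [invRev]; omega) ?_
  · rw [← up_invRev]
    have hc' : IsReduced (up (invRev c)) := up_isReduced.2 (invRev_isReduced hc)
    unfold FreeGroup.IsReduced at hc' ⊢
    rw [List.isChain_append]
    refine ⟨hc', List.isChain_singleton _, ?_⟩
    intro a ha b hb
    have hb' : b = (none, true) := by simpa using hb.symm
    have ha' : a ∈ up (invRev c) := List.mem_of_getLast? ha
    obtain ⟨a', -, rfl⟩ := List.mem_map.1 ha'
    intro h
    rw [hb'] at h
    exact absurd h (by simp)
  · rw [GS.gw_append, hinv]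
    have h3 : gw (aug A v o) (up p) = (gw (aug A v o) (up c))⁻¹ := eq_inv_of_mul_eq_one_right h1
    rw [← h3]
    exact h2

/-- the near case -/
theorem near {C n m : ℕ} (h : Iso A C) (hg : Girth A (C * (n + m) + 1))
    {c p q : List (S × Bool)} (hc : IsReduced c) (hl : c.length ≤ n)
    (hp : A.read p o = some v) (hw : gw A (c ++ p) = 1) (hq : IsReduced q)
    (hq' : A.read q o = some v) (hql : q.length ≤ m) : A.read (invRev c) o = some v := by
  have hpq : gw A p = gw A q := by
    have h1 : gw A (p ++ invRev q) = 1 :=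
      GS.gw_closed A (v := o) ((PAct.read_append_some _).2 ⟨v, hp, A.read_invRev hq'⟩)
    have hinv : gw A (invRev q) = (gw A q)⁻¹ := by
      rw [GS.gw_eq, GS.gw_eq, ← map_inv, FreeGroup.inv_mk]
    rw [GS.gw_append, hinv] at h1
    exact mul_inv_eq_one.1 h1
  have h2 : gw A (c ++ q) = 1 := by
    rw [GS.gw_append, ← hpq, ← GS.gw_append]
    exact hw
  have h3 : FreeGroup.reduce (c ++ q) = [] := by
    by_contra hne
    refine short_of_iso A C (n + m) h hg _ hne
      (FreeGroup.isReduced_iff_reduce_eq.mpr (by simp)) ?_ ?_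
    · have := (FreeGroup.Red.sublist (FreeGroup.reduce.red (L := c ++ q))).length_le
      simp only [List.length_append] at this
      omega
    · rw [GS.gw_eq, FreeGroup.reduce.self, ← GS.gw_eq]
      exact h2
  have h4 : (FreeGroup.mk q : FreeGroup S) = FreeGroup.mk (invRev c) := by
    have h5 : (FreeGroup.mk (c ++ q) : FreeGroup S) = 1 := by
      rw [← FreeGroup.reduce.self (L := c ++ q), h3]
      rfl
    rw [← FreeGroup.mul_mk] at h5
    rw [← FreeGroup.inv_mk]
    exact eq_inv_of_mul_eq_one_right h5
  rw [← PAct.reduced_eq hq (invRev_isReduced hc) h4]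
  exact hq'

/-- the statement of `geom` -/
abbrev GeomStmt : Prop := ∀ (κ C P : ℝ), 0 < κ → 0 < C → 0 < P →
    ∃ (L K D0 C' g₀ : ℕ) (η : ℝ), 0 < η ∧ ∀ (S V : Type) (A : PAct S V) (g : ℕ), g₀ ≤ g →
      Girth A g → LocalIneq A K D0 (L * g) κ C (P * g) (η * g) → Iso A C'

/-- the statement of `cut` -/
abbrev CutStmt : Prop := ∀ {S V : Type} (A : PAct S V) (v o : V) (g' K K' D0 L : ℕ)
    (κ C P η : ℝ), 2 ≤ g' → Girth (aug A v o) g' → 0 ≤ κ → 0 ≤ C → 0 ≤ P →
    K * (L / g' + 2) ≤ K' → LocalIneqO A o K' D0 L κ C P η →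
    LocalIneq (aug A v o) K D0 L κ C P η

theorem geomO_of (hgeom : GeomStmt) (hcut : CutStmt) (κ C P : ℝ) (n : ℕ) (hκ : 0 < κ) (hC : 0 < C)
    (hP : 0 < P) :
    ∃ (L K D0 C' g₀ : ℕ) (η : ℝ), 0 < η ∧ ∀ (S V : Type) (A : PAct S V) (o : V) (g : ℕ), g₀ ≤ g →
      Girth A g → LocalIneqO A o K D0 (L * g) κ C (P * g) (η * g) → Iso A C' ∧
        (∀ w : List (S × Bool), w ≠ [] → FreeGroup.IsReduced w → w.length ≤ n → gw A w ≠ 1) ∧
        ∀ (c p : List (S × Bool)) (v : V), FreeGroup.IsReduced c → c.length ≤ n →
          A.read p o = some v → gw A (c ++ p) = 1 → A.read (FreeGroup.invRev c) o = some v := by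
  obtain ⟨L₁, K₁, D₁, C₁, g₁, η₁, hη₁, h₁⟩ := hgeom κ C P hκ hC hP
  obtain ⟨m, hm⟩ : ∃ m, m = C₁ + 1 := ⟨_, rfl⟩
  have hmpos : 0 < m := by omega
  have hmR : (0 : ℝ) < 4 * m := by positivity
  obtain ⟨L₂, K₂, D₂, C₂, g₂, η₂, hη₂, h₂⟩ := hgeom κ C (P * (4 * m)) hκ hC (by positivity)
  refine ⟨max L₁ L₂, max K₁ (K₂ * (L₂ + 2)), max D₁ D₂, C₁,
    g₁ + 2 * m * (g₂ + 2 + (C₂ * (n + 1) + 1)) + 2 * (m * n + 1), min η₁ (η₂ / (4 * m)),
    lt_min hη₁ (by positivity), ?_⟩
  intro S V A o g hg hgir hloc
  obtain ⟨g', hg'⟩ : ∃ g', g' = g / (2 * m) := ⟨_, rfl⟩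
  have hg'1 : g₂ + 2 + (C₂ * (n + 1) + 1) ≤ g' := by
    rw [hg', Nat.le_div_iff_mul_le (by omega)]
    have : (g₂ + 2 + (C₂ * (n + 1) + 1)) * (2 * m) = 2 * m * (g₂ + 2 + (C₂ * (n + 1) + 1)) := by
      ring
    omega
  have hg'2 : 2 * m * g' ≤ g := by
    rw [hg']
    exact Nat.mul_div_le _ _
  have hg'3 : g ≤ 4 * m * g' := by
    have h3 : g < 2 * m * (g' + 1) := by
      rw [hg']
      exact Nat.lt_mul_div_succ _ (by omega)
    have h4 : 2 * m * (g' + 1) ≤ 4 * m * g' := by
      have : 2 * m * (g' + 1) ≤ 2 * m * (g' + g') := Nat.mul_le_mul_left _ (by omega)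
      calc _ ≤ _ := this
        _ = _ := by ring
    omega
  have hg'4 : g' ≤ g := by
    rw [hg']
    exact Nat.div_le_self _ _
  have hgR : (g : ℝ) ≤ 4 * m * g' := by exact_mod_cast hg'3
  have hg0 : (0 : ℝ) ≤ g := Nat.cast_nonneg _
  have hgir' : ∀ k, k ≤ g → Girth A k := fun k hk x w a b c => hk.trans (hgir x w a b c)
  have hiso : Iso A C₁ := by
    refine h₁ S V A g (by omega) hgir (LocalIneqO.toLocal (o := o) (by positivity) ?_)
    exact hloc.mono (le_max_left _ _) (le_max_left _ _) (Nat.mul_le_mul_right _ (le_max_left _ _))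
      (mul_le_mul_of_nonneg_right (min_le_left _ _) hg0)
  have hnear : C₁ * (n + g') + 1 ≤ g := by
    have h5 : C₁ * (n + g') ≤ m * (n + g') := Nat.mul_le_mul_right _ (by omega)
    have h6 : m * (n + g') = m * n + m * g' := by ring
    have h7 : 2 * m * g' = m * g' + m * g' := by ring
    omega
  refine ⟨hiso, ?_, ?_⟩
  · intro w hw hwr hwl
    refine short_of_iso A C₁ n hiso (hgir' _ ?_) w hw hwr hwl
    have : C₁ * n ≤ C₁ * (n + g') := Nat.mul_le_mul_left _ (by omega)
    omega
  intro c p v hc hl hp hw
  by_cases hfar : ∀ q, IsReduced q → A.read q o = some v → g' ≤ q.length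
  · exfalso
    have hga : Girth (aug A v o) g' := girth_aug A v o g' (hgir' _ hg'4) hfar
    have hloc' : LocalIneq (aug A v o) K₂ D₂ (L₂ * g') κ C (P * g) (η₂ * g') := by
      refine hcut A v o g' K₂ (K₂ * (L₂ + 2)) D₂ (L₂ * g') κ C (P * g) (η₂ * g') (by omega) hga
        hκ.le hC.le (by positivity) ?_ ?_
      · rw [Nat.mul_div_cancel _ (by omega)]
      · refine hloc.mono (le_max_right _ _) (le_max_right _ _)
          (Nat.mul_le_mul (le_max_right _ _) hg'4) ?_
        calc min η₁ (η₂ / (4 * m)) * g ≤ (η₂ / (4 * m)) * g :=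
              mul_le_mul_of_nonneg_right (min_le_right _ _) hg0
          _ ≤ (η₂ / (4 * m)) * (4 * m * g') :=
              mul_le_mul_of_nonneg_left hgR (by positivity)
          _ = η₂ * g' := by field_simp
    have hiso2 : Iso (aug A v o) C₂ := by
      refine h₂ (Option S) V (aug A v o) g' (by omega) hga ?_
      intro F cc hF1 hF2 hF3
      have h8 := hloc' F cc hF1 hF2 hF3
      have h9 : P * g * F.openN ≤ P * (4 * m) * g' * F.openN := by
        have : P * g ≤ P * (4 * m) * g' := by
          calc P * (g : ℝ) ≤ P * (4 * m * g') := mul_le_mul_of_nonneg_left hgR hP.le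
            _ = _ := by ring
        exact mul_le_mul_of_nonneg_right this (Nat.cast_nonneg _)
      linarith
    exact far_contra A v o hiso2 (fun x w a b d => (by omega : C₂ * (n + 1) + 1 ≤ g').trans
      (hga x w a b d)) hc hl hp hw
  · push Not at hfar
    obtain ⟨q, hq, hq', hql⟩ := hfar
    exact near A v o hiso (hgir' _ hnear) hc hl hp hw hq hq' hql.le

end Far

end Crest.Agent.R177
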