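import Crest.Agent.R177.Defs

/-!
# Row 177: the group of a finite folded graph is finitely presented (helper209)
-/

set_option autoImplicit false

namespace Crest.Agent.R177

open Crest.Agent.R199 (PAct)

variable {S V : Type}

namespace FinPres

theorem read_append (A : PAct S V) (u w : List (S × Bool)) (x : V) :
    A.read (u ++ w) x = (A.read u x).bind (A.read w) := by
  induction u generalizing x with
  | nil => simp [PAct.read]
  | cons a u ih =>
    simp only [List.cons_append, PAct.read]
    cases A.st a x with
    | none => rfl
    | some y => simpa using ih y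

theorem read_singleton (A : PAct S V) (a : S × Bool) (x : V) : A.read [a] x = A.st a x := by
  simp only [PAct.read]
  cases A.st a x <;> rfl

theorem read_invRev (A : PAct S V) (w : List (S × Bool)) (x y : V) (h : A.read w x = some y) :
    A.read (FreeGroup.invRev w) y = some x := by
  induction w generalizing x with
  | nil =>
    simp only [PAct.read, Option.some.injEq] at h
    simp [FreeGroup.invRev, PAct.read, h]
  | cons a w ih =>
    simp only [PAct.read] at h
    cases hz : A.st a x with
    | none => rw [hz] at h; simp at h
    | some z =>
      rw [hz] at h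
      have h1 := ih z h
      have e : FreeGroup.invRev (a :: w) = FreeGroup.invRev w ++ [(a.1, !a.2)] := by
        simp [FreeGroup.invRev]
      rw [e, read_append, h1]
      simp only [Option.bind_some, read_singleton]
      exact A.symm a x z hz

end FinPres

open FinPres in
/-- FP -/
theorem finitelyPresented (A : PAct S V) [Finite S] [Finite V] :
    Group.IsFinitelyPresented (Grp A) := by
  classical
  -- chosen words
  let P : V → V → List (S × Bool) := fun v x =>
    if h : ∃ w, A.read w v = some x then h.choose else []
  have hP : ∀ v x w, A.read w v = some x → A.read (P v x) v = some x := by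
    intro v x w hw
    have h : ∃ w, A.read w v = some x := ⟨w, hw⟩
    simp only [P, dif_pos h]
    exact h.choose_spec
  let f : V × V × V × (S × Bool) → FreeGroup S := fun t =>
    if A.st t.2.2.2 t.2.1 = some t.2.2.1 ∧ ∃ w, A.read w t.1 = some t.2.1 then
      FreeGroup.mk (P t.1 t.2.1) * FreeGroup.mk [t.2.2.2] * (FreeGroup.mk (P t.1 t.2.2.1))⁻¹
    else 1
  let R : Set (FreeGroup S) := Set.range f ∪ Set.range fun v : V => FreeGroup.mk (P v v)
  have hRfin : R.Finite := (Set.finite_range f).union (Set.finite_range _)
  have key : ∀ (v : V) (w : List (S × Bool)) (x : V), A.read w v = some x →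
      FreeGroup.mk w * (FreeGroup.mk (P v x))⁻¹ ∈ Subgroup.normalClosure R := by
    intro v w
    induction w using List.reverseRecOn with
    | nil =>
      intro x hx
      simp only [PAct.read, Option.some.injEq] at hx
      subst hx
      have : (FreeGroup.mk (P v v))⁻¹ ∈ Subgroup.normalClosure R :=
        inv_mem (Subgroup.subset_normalClosure (Or.inr ⟨v, rfl⟩))
      simpa [← FreeGroup.one_eq_mk] using this
    | append_singleton w a ih =>
      intro y hy
      rw [read_append] at hy
      cases hx : A.read w v with
      | none => rw [hx] at hy; simp at hy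
      | some x =>
        rw [hx] at hy
        simp only [Option.bind_some, read_singleton] at hy
        have h1 := ih x hx
        have h2 : f (v, x, y, a) ∈ Subgroup.normalClosure R :=
          Subgroup.subset_normalClosure (Or.inl ⟨_, rfl⟩)
        have h3 : f (v, x, y, a) = FreeGroup.mk (P v x) * FreeGroup.mk [a] *
            (FreeGroup.mk (P v y))⁻¹ := if_pos ⟨hy, w, hx⟩
        rw [h3] at h2
        have h4 := mul_mem h1 h2
        convert h4 using 1
        rw [← FreeGroup.mul_mk]
        group
  have hle : rels A ⊆ Subgroup.normalClosure R := by
    rintro r ⟨x, w, hw, rfl⟩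
    have h1 := key x w x hw
    have h2 : FreeGroup.mk (P x x) ∈ Subgroup.normalClosure R :=
      Subgroup.subset_normalClosure (Or.inr ⟨x, rfl⟩)
    have h3 := mul_mem h1 h2
    rwa [inv_mul_cancel_right] at h3
  have hRle : R ⊆ Subgroup.normalClosure (rels A) := by
    rintro r (⟨⟨v, x, y, a⟩, rfl⟩ | ⟨v, rfl⟩)
    · by_cases h : A.st a x = some y ∧ ∃ w, A.read w v = some x
      · have h3 : f (v, x, y, a) = FreeGroup.mk (P v x) * FreeGroup.mk [a] *
            (FreeGroup.mk (P v y))⁻¹ := if_pos h
        rw [h3]
        obtain ⟨h1, w, hw⟩ := h
        have hx := hP v x w hw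
        have hy : A.read (P v x ++ [a]) v = some y := by
          rw [read_append, hx]; simpa [read_singleton] using h1
        have hy' := hP v y _ hy
        have hc : A.read (P v x ++ [a] ++ FreeGroup.invRev (P v y)) v = some v := by
          rw [read_append, hy]
          exact read_invRev A _ _ _ hy'
        refine Subgroup.subset_normalClosure ⟨v, _, hc, ?_⟩
        rw [← FreeGroup.mul_mk, ← FreeGroup.mul_mk, FreeGroup.inv_mk]
      · have h3 : f (v, x, y, a) = 1 := if_neg h
        rw [h3]; exact one_mem _
    · by_cases h : ∃ w, A.read w v = some v
      · obtain ⟨w, hw⟩ := h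
        exact Subgroup.subset_normalClosure ⟨v, _, hP v v w hw, rfl⟩
      · exact absurd ⟨[], rfl⟩ h
  have heq : Subgroup.normalClosure (rels A) = Subgroup.normalClosure R :=
    le_antisymm (Subgroup.normalClosure_le_normal hle) (Subgroup.normalClosure_le_normal hRle)
  exact Group.IsFinitelyPresented.of_surjective (PresentedGroup.mk (rels A))
    (PresentedGroup.mk_surjective (rels A))
    ⟨R, hRfin, heq.symm.trans (QuotientGroup.ker_mk' (Subgroup.normalClosure (rels A))).symm⟩

end Crest.Agent.R177
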