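import Crest.Agent.R177.SectorsBase

/-!
# Row 177: the previous start
-/

set_option autoImplicit false

namespace Crest.Agent.R177

variable {X : Type*} {φ : Equiv.Perm X} {start : X → Prop}

/-- `sec` is the last start: characterisation by powers of `φ` -/
lemma sec_spec {x : X} (h : HasStart φ start x) :
    ∃ n : ℕ, (φ ^ n) (sec φ start x) = x ∧
      ∀ j, 0 < j → j ≤ n → ¬ start ((φ ^ j) (sec φ start x)) := by
  classical
  have hk : ∀ (a b : ℕ) (y : X), b ≤ a → (φ ^ b) ((φ⁻¹ ^ a) y) = (φ⁻¹ ^ (a - b)) y := by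
    intro a b y hab
    obtain ⟨c, rfl⟩ := Nat.exists_eq_add_of_le hab
    rw [Nat.add_sub_cancel_left, pow_add, Equiv.Perm.mul_apply, inv_pow, inv_pow]
    simp
  refine ⟨Nat.find h, ?_, ?_⟩
  · rw [sec, dif_pos h, hk _ _ _ le_rfl]
    simp
  · intro j hj0 hj
    rw [sec, dif_pos h, hk _ _ _ hj]
    exact Nat.find_min h (m := Nat.find h - j) (by omega)

variable [Fintype X]

/-- the spoke of `b` is followed by the spoke of the previous start `b₀` -/
theorem starφ_in_spec (b : {x // start x}) :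
    ∃ b₀ : {x // start x}, starφ φ start (Sum.inr (b, true)) = Sum.inr (b₀, false) ∧
      ∃ n : ℕ, 0 < n ∧ (φ ^ n) b₀.1 = b.1 ∧ ∀ j, 0 < j → j < n → ¬ start ((φ ^ j) b₀.1) := by
  refine ⟨_, starφ_in b, ?_⟩
  obtain ⟨n, hn, hn'⟩ := sec_spec (hasStart_inv (φ := φ) b.2)
  refine ⟨n + 1, Nat.succ_pos n, ?_, ?_⟩
  · change (φ ^ (n + 1)) (sec φ start (φ⁻¹ b.1)) = b.1
    rw [pow_succ', Equiv.Perm.mul_apply, hn]
    simp
  · intro j hj hj'
    exact hn' j hj (by omega)

end Crest.Agent.R177
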