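import Crest.Agent.R177.GeomDefs
import Crest.Agent.R177.SectorsPrev

/-!
# Rows 177/184, GEOM (G3): bounds for the frame of a group (helper516)
-/

set_option autoImplicit false

open scoped Classical

namespace Crest.Agent.R177.Geom

open Equiv

section

variable {X : Type} [Fintype X] {φ α : Perm X} {O head glued : X → Prop} {grp : X → ℕ} {L K : ℕ}

omit [Fintype X] in
theorem not_O_pow (hO : ∀ x, O (φ x) ↔ O x) {x : X} (hx : ¬ O x) (n : ℕ) : ¬ O ((φ ^ n) x) := by
  induction n with
  | zero => simpa using hx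
  | succ n ih => rw [pow_succ', Perm.mul_apply, hO]; exact ih

theorem hasStart_of_not_O (hG : Grouping φ α O head glued grp L K) {x : X} (hx : ¬ O x) :
    HasStart φ head x := by
  obtain ⟨i, _, hi⟩ := hG.head_lt x hx
  have key : ∀ i : ℕ, ∀ x : X, HasStart φ head ((φ ^ i) x) → HasStart φ head x := by
    intro i
    induction i with
    | zero => intro x h; simpa using h
    | succ i ih =>
      intro x h
      rw [pow_succ, Perm.mul_apply] at h
      exact hasStart_of_apply (ih _ h)
  exact key i x (hasStart_of_start hi)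

theorem head_sec (hG : Grouping φ α O head glued grp L K) {x : X} (hx : ¬ O x) :
    head (sec φ head x) := start_sec (hasStart_of_not_O hG hx)

/-- the index of a dart in its sector -/
theorem sec_index (hO : ∀ x, O (φ x) ↔ O x) (hG : Grouping φ α O head glued grp L K) {x : X}
    (hx : ¬ O x) : ∃ n < 2 * L, (φ ^ n) (sec φ head x) = x ∧
      ∀ j, 0 < j → j ≤ n → ¬ head ((φ ^ j) (sec φ head x)) := by
  obtain ⟨n, hn, hn'⟩ := sec_spec (hasStart_of_not_O hG hx)
  refine ⟨n, ?_, hn, hn'⟩
  by_contra hcon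
  rw [not_lt] at hcon
  have h1 : ¬ O (φ (sec φ head x)) := by rw [hO]; exact hG.head_out _ (head_sec hG hx)
  obtain ⟨i, hi, hh⟩ := hG.head_lt _ h1
  refine hn' (i + 1) (Nat.succ_pos i) (by omega) ?_
  rwa [pow_succ, Perm.mul_apply]

omit [Fintype X] in
/-- the group is constant along a sector -/
theorem grp_sec (hO : ∀ x, O (φ x) ↔ O x) (hG : Grouping φ α O head glued grp L K) {x : X}
    (hx : ¬ O x) (n : ℕ) (hn : ∀ j, 0 < j → j ≤ n → ¬ head ((φ ^ j) x)) :
    grp ((φ ^ n) x) = grp x := by
  induction n with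
  | zero => simp
  | succ n ih =>
    rw [← ih (fun j h1 h2 => hn j h1 (by omega)), pow_succ', Perm.mul_apply]
    refine hG.grp_const _ (not_O_pow hO hx n) ?_
    have := hn (n + 1) (Nat.succ_pos n) le_rfl
    rwa [pow_succ', Perm.mul_apply] at this

/-- the sector head is constant along `nx` -/
theorem sec_nx (hG : Grouping φ α O head glued grp L K) {x y : X}
    (hx : ¬ O x) (hxy : φ x = y) (hy : ¬ head y ∨ Sgl φ head y) :
    sec φ head x = sec φ head y := by
  subst hxy
  by_cases h : head (φ x)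
  · rcases hy with h' | h'
    · exact absurd h h'
    · rw [sec_start (φ := φ) h]
      obtain ⟨k, hk⟩ := sec_eq_pow (φ := φ) (start := head) x
      have hh := head_sec hG hx
      -- `sec x = φ⁻¹^k x = φ⁻¹^(k+1) (φ x)` is a power of `φ x`
      have h1 : sec φ head x = (φ⁻¹ ^ (k + 1)) (φ x) := by
        rw [pow_succ, Perm.mul_apply, hk]
        simp
      obtain ⟨i, hi⟩ : ∃ i : ℕ, (φ ^ i) (φ x) = (φ⁻¹ ^ (k + 1)) (φ x) := by
        have hs : φ.SameCycle (φ x) ((φ⁻¹ ^ (k + 1)) (φ x)) := by
          refine ⟨-((k + 1 : ℕ) : ℤ), ?_⟩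
          rw [zpow_neg, zpow_natCast, inv_pow]
        obtain ⟨i, _, hi⟩ := hs.exists_pow_eq'
        exact ⟨i, hi⟩
      have h2 := h'.2 i (by rw [hi, ← h1]; exact hh)
      rw [h1, ← hi, h2]
  · exact (sec_apply (hasStart_of_not_O hG hx) h).symm

/-- (G3) bounds for the frame of a group -/
theorem frame_bounds (hO : ∀ x, O (φ x) ↔ O x) (hG : Grouping φ α O head glued grp L K) (c : ℕ)
    (nx : GD O grp c → Option (GD O grp c))
    (hnx : ∀ x y, nx x = some y ↔ (φ x.1 = y.1 ∧ (¬ head y.1 ∨ Sgl φ head y.1)))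
    (F : Frame) (e : GD O grp c ≃ F.Dart) (hN : ∀ x y, F.Next (e x) (e y) ↔ nx x = some y) :
    F.K ≤ K ∧ ∀ i, F.len i ≤ 2 * L := by
  constructor
  · -- the head of the sector of a dart of the group, as an element of the group
    have hd : ∀ x : GD O grp c, ∃ h : GD O grp c, h.1 = sec φ head x.1 ∧ (e h).1 = (e x).1 := by
      intro x
      obtain ⟨n, _, hn, hn'⟩ := sec_index hO hG x.2.1
      have hOh : ¬ O (sec φ head x.1) := hG.head_out _ (head_sec hG x.2.1)
      have hmem : ∀ j ≤ n, ¬ O ((φ ^ j) (sec φ head x.1)) ∧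
          grp ((φ ^ j) (sec φ head x.1)) = c := by
        intro j hj
        refine ⟨not_O_pow hO hOh j, ?_⟩
        have h1 := grp_sec hO hG hOh n hn'
        have h2 := grp_sec hO hG hOh j (fun i h3 h4 => hn' i h3 (by omega))
        rw [hn] at h1
        rw [h2, ← h1]
        exact x.2.2
      have key : ∀ j (hj : j ≤ n), (e ⟨_, hmem j hj⟩).1 = (e ⟨_, hmem 0 (Nat.zero_le n)⟩).1 := by
        intro j
        induction j with
        | zero => intro _; rfl
        | succ j ih =>
          intro hj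
          rw [← ih (by omega)]
          have h1 : nx ⟨_, hmem j (by omega)⟩ = some ⟨_, hmem (j + 1) hj⟩ := by
            rw [hnx]
            refine ⟨?_, Or.inl (hn' (j + 1) (Nat.succ_pos j) hj)⟩
            simp only
            rw [pow_succ', Perm.mul_apply]
          rw [← hN] at h1
          exact h1.1.symm
      refine ⟨⟨_, hmem 0 (Nat.zero_le n)⟩, by simp, ?_⟩
      rw [← key n le_rfl]
      congr 2
      exact Subtype.ext hn
    choose hdf hdf1 hdf2 using hd
    let f : Fin F.K → {x : X | head x ∧ grp x = c} := fun i =>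
      ⟨(hdf (e.symm ⟨i, ⟨0, F.len_pos i⟩⟩)).1, by
        constructor
        · rw [hdf1]
          exact head_sec hG (e.symm ⟨i, ⟨0, F.len_pos i⟩⟩).2.1
        · exact (hdf (e.symm ⟨i, ⟨0, F.len_pos i⟩⟩)).2.2⟩
    have hf : Function.Injective f := by
      intro i j hij
      have h0 : (f i).1 = (f j).1 := by rw [hij]
      have h1 : hdf (e.symm ⟨i, ⟨0, F.len_pos i⟩⟩) = hdf (e.symm ⟨j, ⟨0, F.len_pos j⟩⟩) :=
        Subtype.ext h0
      have h2 := hdf2 (e.symm ⟨i, ⟨0, F.len_pos i⟩⟩)
      have h3 := hdf2 (e.symm ⟨j, ⟨0, F.len_pos j⟩⟩)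
      rw [h1, h3, Equiv.apply_symm_apply, Equiv.apply_symm_apply] at h2
      exact h2.symm
    have h1 := Nat.card_le_card_of_injective f hf
    rw [Nat.card_eq_fintype_card, Fintype.card_fin] at h1
    refine h1.trans ?_
    have h2 := hG.grp_card c
    rwa [← Nat.card_coe_set_eq] at h2
  · refine Frame.len_le_of e hN (fun x => sec φ head x.1) ?_ (2 * L) ?_
    · intro x y hxy
      rw [hnx] at hxy
      exact sec_nx hG x.2.1 hxy.1 hxy.2
    · intro h
      have hidx : ∀ x : {x : GD O grp c // sec φ head x.1 = h}, ∃ n : Fin (2 * L),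
          (φ ^ n.1) h = x.1.1 := by
        rintro ⟨x, hx⟩
        obtain ⟨n, hn, hn', _⟩ := sec_index hO hG x.2.1
        rw [hx] at hn'
        exact ⟨⟨n, hn⟩, hn'⟩
      choose fn hfn using hidx
      have hinj : Function.Injective fn := by
        intro x y hxy
        apply Subtype.ext
        apply Subtype.ext
        rw [← hfn x, ← hfn y, hxy]
      have h1 := Nat.card_le_card_of_injective fn hinj
      rwa [Nat.card_eq_fintype_card (α := Fin (2 * L)), Fintype.card_fin] at h1

end

end Crest.Agent.R177.Geom
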