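/-
Row 177/184 : interface between the planar part and the local lemma (helper603).
A "map" is a finite set `X` of darts with the face permutation `φ` and the edge involution `α`.
`O` = darts of the outer faces (empty for spherical diagrams).
-/
import Mathlib

set_option autoImplicit false

namespace Crest.Agent.R177

open Equiv

/-- Property (P) : `H^1( ; F_2) = 0`.  `b` is a function of the vertex at which the dart starts,
`h` is a function of the face of the dart. -/
def PropP {X : Type*} (φ α : Perm X) : Prop :=
  ∀ a : X → ZMod 2, (∀ x, a x + a (φ x) + a (α x) + a (φ (α x)) = 0) →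
    ∃ b h : X → ZMod 2, (∀ x, b (φ (α x)) = b x) ∧ (∀ x, h (φ x) = h x) ∧ ∀ x, a x = b x + h x

/-- the corner between `x` and `φ x` is *regular* : we are inside a sector, `x` and `φ x` are both
glued, their partners are consecutive, inside a sector. -/
def RegularCorner {X : Type*} (φ α : Perm X) (head glued : X → Prop) (x : X) : Prop :=
  ¬ head (φ x) ∧ ¬ head (α x) ∧ glued x ∧ glued (φ x) ∧ φ (α (φ x)) = α x

/-- output of the planar part: a subdivision of the faces outside `O` in sectors
(`head x` : `x` is the first dart of a sector), a grouping `grp` of the sectors,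
and the set of darts which stay glued (to a dart of the same group). -/
structure Grouping {X : Type*} (φ α : Perm X) (O head glued : X → Prop) (grp : X → ℕ)
    (L K : ℕ) : Prop where
  /-- heads are outside `O` -/
  head_out : ∀ x, head x → ¬ O x
  /-- sectors have less than `2 L` darts -/
  head_lt : ∀ x, ¬ O x → ∃ i < 2 * L, head ((φ ^ i) x)
  /-- sectors have at least `L` darts, except when the sector is a whole face -/
  head_ge : ∀ x, head x → ∀ i, 0 < i → i < L → head ((φ ^ i) x) → (φ ^ i) x = x
  /-- the group is constant on sectors -/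
  grp_const : ∀ x, ¬ O x → ¬ head (φ x) → grp (φ x) = grp x
  /-- at most `K` sectors in a group -/
  grp_card : ∀ c, {x | head x ∧ grp x = c}.ncard ≤ K
  glued_out : ∀ x, glued x → ¬ O x
  glued_symm : ∀ x, glued x → glued (α x)
  glued_grp : ∀ x, glued x → grp (α x) = grp x
  /-- at most `K` breaks in a group -/
  breaks : ∀ c, {x | ¬ O x ∧ grp x = c ∧ (glued x ∨ glued (φ x)) ∧
    ¬ RegularCorner φ α head glued x}.ncard ≤ K

/-- FROZEN STATEMENT of the planar part. -/
def HypStatement : Prop :=
  ∀ (ε : ℝ) (C : ℕ), 0 < ε → ∃ K : ℕ, ∀ (X : Type) [Fintype X] (φ α : Perm X)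
    (O : X → Prop) (g L : ℕ), 0 < g → g ≤ L → L ≤ C * g →
    (∀ x, α (α x) = x) → (∀ x, α x ≠ x) → PropP φ α →
    (∀ x, O (φ x) ↔ O x) → (∀ x y, O x → O y → φ.SameCycle x y) →
    (∀ x, φ x ≠ α x) →
    (∀ x, ¬ O x → ∀ i, 0 < i → i < g → (φ ^ i) x ≠ x) →
    ∃ (head glued : X → Prop) (grp : X → ℕ), Grouping φ α O head glued grp L K ∧
      ({x | ¬ O x ∧ ¬ glued x}.ncard : ℝ) ≤ ε * ({x | ¬ O x}.ncard : ℝ) + K * ({x | O x}.ncard : ℝ)

end Crest.Agent.R177
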