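/-
Row 177/184 : choice of the sector heads (helper603).
-/
import Mathlib

set_option autoImplicit false

namespace Crest.Agent.R177

namespace HM

open Equiv

section Cycles

variable {X : Type*} [Finite X] (φ : Perm X) (a₀ : Option X)

/-- base point of the cycle -/
noncomputable def base0 (x : X) : X := Quotient.out (Quotient.mk (Perm.SameCycle.setoid φ) x)

omit [Finite X] in
theorem base0_same (x : X) : φ.SameCycle (base0 φ x) x :=
  Quotient.exact (s := Perm.SameCycle.setoid φ) (Quotient.out_eq _)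

omit [Finite X] in
theorem base0_eq {x y : X} (h : φ.SameCycle x y) : base0 φ x = base0 φ y := by
  unfold base0
  rw [Quotient.sound (s := Perm.SameCycle.setoid φ) h]

open Classical in
/-- base point of the cycle (the designated dart `a₀` on its cycle) -/
noncomputable def base (x : X) : X :=
  if φ.SameCycle (a₀.getD (base0 φ x)) x then a₀.getD (base0 φ x) else base0 φ x

omit [Finite X] in
theorem base_same (x : X) : φ.SameCycle (base φ a₀ x) x := by
  unfold base
  split_ifs with h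
  · exact h
  · exact base0_same φ x

omit [Finite X] in
theorem base_eq {x y : X} (h : φ.SameCycle x y) : base φ a₀ x = base φ a₀ y := by
  unfold base
  rw [base0_eq φ h]
  have h1 : φ.SameCycle (a₀.getD (base0 φ y)) x ↔ φ.SameCycle (a₀.getD (base0 φ y)) y :=
    ⟨fun h2 => h2.trans h, fun h2 => h2.trans h.symm⟩
  by_cases h2 : φ.SameCycle (a₀.getD (base0 φ y)) y
  · rw [if_pos h2, if_pos (h1.2 h2)]
  · rw [if_neg h2, if_neg (fun h3 => h2 (h1.1 h3))]

omit [Finite X] in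
theorem base_some (a : X) (h : a₀ = some a) : base φ a₀ a = a := by
  subst h
  unfold base
  rw [Option.getD_some, if_pos (Perm.SameCycle.refl _ _)]

omit [Finite X] in
theorem base_pow (x : X) (i : ℕ) : base φ a₀ ((φ ^ i) x) = base φ a₀ x :=
  base_eq φ a₀ ⟨-(i : ℤ), by simp⟩

/-- length of the cycle -/
noncomputable def clen (x : X) : ℕ := Function.minimalPeriod φ (base φ a₀ x)

omit [Finite X] in
theorem clen_pow (x : X) (i : ℕ) : clen φ a₀ ((φ ^ i) x) = clen φ a₀ x := by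
  unfold clen; rw [base_pow]

theorem exists_pow (x : X) : ∃ k : ℕ, (φ ^ k) (base φ a₀ x) = x := by
  have := Fintype.ofFinite X
  classical
  obtain ⟨i, hi, h⟩ := (base_same φ a₀ x).exists_pow_eq'
  exact ⟨i, h⟩

open Classical in
/-- position on the cycle -/
noncomputable def cpos (x : X) : ℕ := Nat.find (exists_pow φ a₀ x)

theorem cpos_spec (x : X) : (φ ^ cpos φ a₀ x) (base φ a₀ x) = x := by
  classical
  exact Nat.find_spec (exists_pow φ a₀ x)

theorem clen_pos (x : X) : 0 < clen φ a₀ x := by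
  have := Fintype.ofFinite X
  classical
  apply Function.minimalPeriod_pos_of_mem_periodicPts
  refine ⟨orderOf φ, orderOf_pos _, ?_⟩
  unfold Function.IsPeriodicPt Function.IsFixedPt
  rw [Perm.iterate_eq_pow, pow_orderOf_eq_one]
  rfl

theorem cpos_lt (x : X) : cpos φ a₀ x < clen φ a₀ x := by
  classical
  by_contra hcon
  push Not at hcon
  have h1 : (φ ^ (cpos φ a₀ x % clen φ a₀ x)) (base φ a₀ x) = x := by
    rw [← Perm.iterate_eq_pow]
    unfold clen
    rw [Function.iterate_mod_minimalPeriod_eq, Perm.iterate_eq_pow]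
    exact cpos_spec φ a₀ x
  have h2 : cpos φ a₀ x ≤ cpos φ a₀ x % clen φ a₀ x := Nat.find_min' (exists_pow φ a₀ x) h1
  have h3 := Nat.mod_lt (cpos φ a₀ x) (clen_pos φ a₀ x)
  omega

theorem cpos_unique {x : X} {k : ℕ} (hk : k < clen φ a₀ x) (h : (φ ^ k) (base φ a₀ x) = x) :
    cpos φ a₀ x = k := by
  have h1 : φ^[k] (base φ a₀ x) = φ^[cpos φ a₀ x] (base φ a₀ x) := by
    rw [Perm.iterate_eq_pow, Perm.iterate_eq_pow, h, cpos_spec]
  exact ((Function.iterate_eq_iterate_iff_of_lt_minimalPeriod hk (cpos_lt φ a₀ x)).1 h1).symm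

theorem cpos_pow (x : X) (i : ℕ) : cpos φ a₀ ((φ ^ i) x) = (cpos φ a₀ x + i) % clen φ a₀ x := by
  apply cpos_unique
  · rw [clen_pow]; exact Nat.mod_lt _ (clen_pos φ a₀ x)
  · rw [base_pow, ← Perm.iterate_eq_pow]
    unfold clen
    rw [Function.iterate_mod_minimalPeriod_eq, Perm.iterate_eq_pow, add_comm, pow_add,
      Perm.mul_apply, cpos_spec]

theorem pow_clen (x : X) : (φ ^ clen φ a₀ x) x = x := by
  have h : cpos φ a₀ ((φ ^ clen φ a₀ x) x) = cpos φ a₀ x := by
    rw [cpos_pow, Nat.add_mod_right, Nat.mod_eq_of_lt (cpos_lt φ a₀ x)]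
  have h1 := cpos_spec φ a₀ ((φ ^ clen φ a₀ x) x)
  rw [h, base_pow, cpos_spec] at h1
  exact h1.symm

theorem eq_of_cpos {x y : X} (h : φ.SameCycle x y) (hp : cpos φ a₀ x = cpos φ a₀ y) : x = y := by
  rw [← cpos_spec φ a₀ x, ← cpos_spec φ a₀ y, hp, base_eq φ a₀ h]

theorem pow_ne {x : X} {i : ℕ} (h0 : 0 < i) (h1 : i < clen φ a₀ x) : (φ ^ i) x ≠ x := by
  intro h
  have h2 : cpos φ a₀ ((φ ^ i) x) = cpos φ a₀ x := by rw [h]
  rw [cpos_pow] at h2
  have h3 := cpos_lt φ a₀ x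
  rcases lt_or_ge (cpos φ a₀ x + i) (clen φ a₀ x) with h4 | h4
  · rw [Nat.mod_eq_of_lt h4] at h2; omega
  · rw [Nat.mod_eq_sub_mod h4, Nat.mod_eq_of_lt (by omega)] at h2; omega

end Cycles

section Head

variable {X : Type*} [Finite X] (φ : Perm X) (a₀ : Option X) (O : X → Prop) (L : ℕ)

/-- sector heads -/
def head (x : X) : Prop :=
  ¬ O x ∧ (cpos φ a₀ x = 0 ∨ (2 * L ≤ clen φ a₀ x ∧ L ∣ cpos φ a₀ x ∧ cpos φ a₀ x + L ≤ clen φ a₀ x))

/-- starts of proper sectors -/
def start (x : X) : Prop := head φ a₀ O L x ∧ 2 * L ≤ clen φ a₀ x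

variable {φ a₀ O L}

omit [Finite X] in
theorem O_pow (hO : ∀ x, O (φ x) ↔ O x) (x : X) (i : ℕ) : O ((φ ^ i) x) ↔ O x := by
  induction i with
  | zero => simp
  | succ n ih => rw [pow_succ', Perm.mul_apply, hO, ih]

theorem head_lt (hO : ∀ x, O (φ x) ↔ O x) (hL : 0 < L) (x : X) (hx : ¬ O x) :
    ∃ i < 2 * L, head φ a₀ O L ((φ ^ i) x) := by
  have hc := cpos_lt φ a₀ x
  rcases lt_or_ge (clen φ a₀ x - cpos φ a₀ x) (2 * L) with h1 | h1
  · refine ⟨clen φ a₀ x - cpos φ a₀ x, h1, by rwa [O_pow hO], Or.inl ?_⟩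
    rw [cpos_pow, Nat.add_sub_cancel' hc.le, Nat.mod_self]
  · -- next multiple of L
    have h2 := Nat.div_add_mod (cpos φ a₀ x) L
    have h3 := Nat.mod_lt (cpos φ a₀ x) hL
    refine ⟨(L - cpos φ a₀ x % L), by omega, by rwa [O_pow hO], Or.inr ?_⟩
    rw [clen_pow, cpos_pow]
    have h4 : cpos φ a₀ x + (L - cpos φ a₀ x % L) = L * (cpos φ a₀ x / L + 1) := by
      rw [mul_add, mul_one]; omega
    have h5 : cpos φ a₀ x + (L - cpos φ a₀ x % L) ≤ cpos φ a₀ x + L := by omega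
    rw [Nat.mod_eq_of_lt (by omega)]
    refine ⟨by omega, ⟨_, h4⟩, by omega⟩

theorem head_ge (x : X) (hx : head φ a₀ O L x) (i : ℕ) (h0 : 0 < i) (hi : i < L)
    (h : head φ a₀ O L ((φ ^ i) x)) : (φ ^ i) x = x := by
  have hc := cpos_lt φ a₀ x
  obtain ⟨hx1, hx2⟩ := hx
  obtain ⟨hy1, hy2⟩ := h
  rw [clen_pow, cpos_pow] at hy2
  apply eq_of_cpos φ a₀ ⟨-(i : ℤ), by simp⟩
  rw [cpos_pow]
  rcases lt_or_ge (clen φ a₀ x) (2 * L) with h1 | h1
  · have h2 : cpos φ a₀ x = 0 := by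
      rcases hx2 with h | h
      · exact h
      · omega
    rcases hy2 with h | h
    · rw [h, h2]
    · omega
  · have hx3 : L ∣ cpos φ a₀ x ∧ cpos φ a₀ x + L ≤ clen φ a₀ x := by
      rcases hx2 with h | h
      · rw [h]; exact ⟨dvd_zero _, by omega⟩
      · exact h.2
    exfalso
    have h5 : (cpos φ a₀ x + i) % clen φ a₀ x = cpos φ a₀ x + i := Nat.mod_eq_of_lt (by omega)
    rw [h5] at hy2
    have h6 : L ∣ cpos φ a₀ x + i := by
      rcases hy2 with h | h
      · omega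
      · exact h.2.1
    have h7 : L ∣ i := (Nat.dvd_add_right hx3.1).1 h6
    exact absurd (Nat.le_of_dvd h0 h7) (by omega)

/-- a head which is not a start is the only head of its cycle -/
theorem head_unique (x : X) (hx : head φ a₀ O L x) (hs : ¬ start φ a₀ O L x) (y : X)
    (hy : head φ a₀ O L y) (h : φ.SameCycle x y) : y = x := by
  have hlen : clen φ a₀ x < 2 * L := by
    by_contra hcon
    exact hs ⟨hx, by omega⟩
  have hlen' : clen φ a₀ y < 2 * L := by
    unfold clen at hlen ⊢; rwa [← base_eq φ a₀ h]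
  apply eq_of_cpos φ a₀ h.symm
  rcases hx.2 with h1 | h1
  · rcases hy.2 with h2 | h2
    · rw [h1, h2]
    · omega
  · omega

theorem start_of_head (x : X) (hx : head φ a₀ O L x) (y : X) (hy : start φ a₀ O L y)
    (h : φ.SameCycle x y) : start φ a₀ O L x := by
  refine ⟨hx, ?_⟩
  have := hy.2
  unfold clen at this ⊢; rwa [base_eq φ a₀ h]

/-- a cycle with a start has another start -/
theorem start_two (hO : ∀ x, O (φ x) ↔ O x) (hL : 0 < L) (x : X) (hx : start φ a₀ O L x) :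
    ∃ i, 0 < i ∧ i < clen φ a₀ x ∧ start φ a₀ O L ((φ ^ i) x) := by
  have hc := cpos_lt φ a₀ x
  have h2 := hx.2
  rcases Nat.eq_zero_or_pos (cpos φ a₀ x) with h0 | h0
  · refine ⟨L, hL, by omega, ⟨by rw [O_pow hO]; exact hx.1.1, Or.inr ?_⟩, by rwa [clen_pow]⟩
    rw [clen_pow, cpos_pow, h0, zero_add, Nat.mod_eq_of_lt (by omega)]
    exact ⟨h2, dvd_refl _, by omega⟩
  · refine ⟨clen φ a₀ x - cpos φ a₀ x, by omega, by omega,
      ⟨by rw [O_pow hO]; exact hx.1.1, Or.inl ?_⟩, by rwa [clen_pow]⟩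
    rw [cpos_pow, Nat.add_sub_cancel' hc.le, Nat.mod_self]

theorem head_base (a : X) (h : a₀ = some a) (ha : ¬ O a) : head φ a₀ O L a := by
  refine ⟨ha, Or.inl ?_⟩
  apply cpos_unique
  · exact clen_pos φ a₀ a
  · rw [base_some φ a₀ a h]; simp

end Head

end HM

end Crest.Agent.R177
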