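/-
Row 177/184 : last marked element before a point on a cycle (helper603).
-/
import Mathlib

set_option autoImplicit false

namespace Crest.Agent.R177

namespace HM

open Equiv

section Last

variable {X : Type*} (φ : Perm X) (p : X → Prop)

open Classical in
/-- distance to the last marked point (at or before `x`) -/
noncomputable def back (x : X) : ℕ :=
  if h : ∃ k : ℕ, p ((φ⁻¹ ^ k) x) then Nat.find h else 0

/-- last marked point at or before `x` -/
noncomputable def lst (x : X) : X := (φ⁻¹ ^ (back φ p x)) x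

theorem lst_spec {x : X} (h : ∃ k : ℕ, p ((φ⁻¹ ^ k) x)) : p (lst φ p x) := by
  classical
  unfold lst back
  rw [dif_pos h]
  exact Nat.find_spec h

theorem back_min {x : X} (h : ∃ k : ℕ, p ((φ⁻¹ ^ k) x)) {j : ℕ} (hj : j < back φ p x) :
    ¬ p ((φ⁻¹ ^ j) x) := by
  classical
  unfold back at hj
  rw [dif_pos h] at hj
  exact Nat.find_min h hj

theorem back_eq_zero {x : X} (h : p x) : back φ p x = 0 := by
  classical
  have h' : ∃ k : ℕ, p ((φ⁻¹ ^ k) x) := ⟨0, by simpa using h⟩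
  unfold back
  rw [dif_pos h']
  exact (Nat.find_eq_zero h').2 (by simpa using h)

theorem lst_of_mem {x : X} (h : p x) : lst φ p x = x := by
  unfold lst
  rw [back_eq_zero φ p h]
  rfl

theorem back_succ {x : X} (hx : ¬ p x) (h : ∃ k : ℕ, p ((φ⁻¹ ^ k) x)) :
    back φ p x = back φ p (φ⁻¹ x) + 1 := by
  classical
  have h' : ∃ k : ℕ, p ((φ⁻¹ ^ k) (φ⁻¹ x)) := by
    obtain ⟨k, hk⟩ := h
    cases k with
    | zero => exact absurd (by simpa using hk) hx
    | succ k => exact ⟨k, by rwa [pow_succ, Perm.mul_apply] at hk⟩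
  unfold back
  rw [dif_pos h, dif_pos h']
  rw [Nat.find_comp_succ h h' ?_]
  · congr 1
  · simpa using hx

theorem lst_step {x : X} (hx : ¬ p x) (h : ∃ k : ℕ, p ((φ⁻¹ ^ k) x)) :
    lst φ p x = lst φ p (φ⁻¹ x) := by
  unfold lst
  rw [back_succ φ p hx h, pow_succ, Perm.mul_apply]

omit p in
theorem appInv (x : X) : φ (φ⁻¹ x) = x := φ.apply_symm_apply x

omit p in
theorem invApp (x : X) : φ⁻¹ (φ x) = x := φ.symm_apply_apply x

theorem pow_back (x : X) : (φ ^ back φ p x) (lst φ p x) = x := by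
  unfold lst
  rw [inv_pow, appInv]

omit p in
theorem inv_pow_pow {m n : ℕ} (h : m ≤ n) (s : X) : (φ⁻¹ ^ m) ((φ ^ n) s) = (φ ^ (n - m)) s := by
  obtain ⟨k, rfl⟩ := Nat.exists_eq_add_of_le h
  rw [pow_add, Perm.mul_apply, inv_pow, invApp, Nat.add_sub_cancel_left]

theorem exists_back [Finite X] {b : X} (hb : p b) : ∃ k : ℕ, p ((φ⁻¹ ^ k) (φ⁻¹ b)) := by
  have := Fintype.ofFinite X
  classical
  have h1 : 0 < orderOf φ⁻¹ := orderOf_pos _
  refine ⟨orderOf φ⁻¹ - 1, ?_⟩
  rw [← Perm.mul_apply, ← pow_succ, Nat.sub_add_cancel h1, pow_orderOf_eq_one]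
  simpa using hb

end Last

end HM

end Crest.Agent.R177
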