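/-
Row 177/184 : geometry of the star subdivision at the sector heads (helper603).
-/
import Crest.Agent.R177.Defs
import Crest.Agent.R177.GroupingDefs
import Crest.Agent.R177.HypLast
import Crest.Agent.R177.HypHeads

set_option autoImplicit false

namespace Crest.Agent.R177

namespace HM

open Equiv

/-- a function invariant under one step is constant on cycles -/
theorem sameCycle_const {X β : Type*} (φ : Perm X) (f : X → β) (h : ∀ x, f (φ x) = f x)
    {x y : X} (hxy : φ.SameCycle x y) : f x = f y := by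
  have h1 : ∀ (n : ℕ) (z : X), f ((φ ^ n) z) = f z := by
    intro n
    induction n with
    | zero => intro z; simp
    | succ n ih => intro z; rw [pow_succ', Perm.mul_apply, h, ih]
  obtain ⟨i, rfl⟩ := hxy
  cases i with
  | ofNat n => exact (h1 n x).symm
  | negSucc n =>
    have e : (φ ^ (n + 1)) ((φ ^ Int.negSucc n) x) = x := by
      rw [← zpow_natCast, ← Perm.mul_apply, ← zpow_add]
      simp [Int.negSucc_eq]
    have h2 := h1 (n + 1) ((φ ^ Int.negSucc n) x)
    rw [e] at h2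
    exact h2

/-- the formulas of the star subdivision -/
structure StarOf {X : Type} (M : PMap X) (I : Set X) (M' : PMap (X ⊕ (I × Bool))) : Prop where
  inl_not : ∀ y, M.φ y ∉ I → M'.φ (Sum.inl y) = Sum.inl (M.φ y)
  inl_st : ∀ (y : X) (h : M.φ y ∈ I), M'.φ (Sum.inl y) = Sum.inr (⟨M.φ y, h⟩, true)
  out : ∀ x : I, M'.φ (Sum.inr (x, false)) = Sum.inl (x : X)
  cen : ∀ (x y : I) (n : ℕ), 0 < n → (∀ j, 0 < j → j < n → (M.φ ^ j) (x : X) ∉ I) →
        (M.φ ^ n) (x : X) = y → M'.φ (Sum.inr (y, true)) = Sum.inr (x, false)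
  α_inl : ∀ y : X, M'.α (Sum.inl y) = Sum.inl (M.α y)
  α_inr : ∀ (x : I) (b : Bool), M'.α (Sum.inr (x, b)) = Sum.inr (x, !b)

section

variable {X : Type} [Finite X] (φ : Perm X) (a₀ : Option X) (O : X → Prop) (L : ℕ)

/-- the head of the sector -/
noncomputable def hd (x : X) : X := lst φ (head φ a₀ O L) x

variable {φ a₀ O L}

theorem ex_back (hO : ∀ x, O (φ x) ↔ O x) (hL : 0 < L) {x : X} (hx : ¬ O x) :
    ∃ k : ℕ, head φ a₀ O L ((φ⁻¹ ^ k) x) := by
  have := Fintype.ofFinite X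
  classical
  obtain ⟨i, -, hi⟩ := head_lt (φ := φ) (a₀ := a₀) hO hL x hx
  have h1 : φ⁻¹.SameCycle x ((φ ^ i) x) := Perm.sameCycle_inv.2 ⟨i, by simp⟩
  obtain ⟨k, -, hk⟩ := h1.exists_pow_eq'
  exact ⟨k, by rw [hk]; exact hi⟩

theorem hd_head (hO : ∀ x, O (φ x) ↔ O x) (hL : 0 < L) {x : X} (hx : ¬ O x) :
    head φ a₀ O L (hd φ a₀ O L x) := lst_spec φ _ (ex_back hO hL hx)

theorem hd_of_head {x : X} (hx : head φ a₀ O L x) : hd φ a₀ O L x = x := lst_of_mem φ _ hx

theorem hd_inv (hO : ∀ x, O (φ x) ↔ O x) (hL : 0 < L) {x : X} (hx : ¬ O x)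
    (h : ¬ head φ a₀ O L x) : hd φ a₀ O L x = hd φ a₀ O L (φ⁻¹ x) := lst_step φ _ h (ex_back hO hL hx)

theorem hd_step (hO : ∀ x, O (φ x) ↔ O x) (hL : 0 < L) {x : X} (hx : ¬ O x)
    (h : ¬ head φ a₀ O L (φ x)) : hd φ a₀ O L (φ x) = hd φ a₀ O L x := by
  rw [hd_inv hO hL (by rwa [hO]) h, invApp]

theorem hd_pow (x : X) : (φ ^ back φ (head φ a₀ O L) x) (hd φ a₀ O L x) = x := pow_back φ _ x

theorem hd_same (x : X) : φ.SameCycle (hd φ a₀ O L x) x :=
  ⟨back φ (head φ a₀ O L) x, by rw [zpow_natCast]; exact hd_pow x⟩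

/-- no head strictly between the head of the sector and `x` -/
theorem no_head (hO : ∀ x, O (φ x) ↔ O x) (hL : 0 < L) {x : X} (hx : ¬ O x) {j : ℕ}
    (h0 : 0 < j) (hj : j ≤ back φ (head φ a₀ O L) x) : ¬ head φ a₀ O L ((φ ^ j) (hd φ a₀ O L x)) := by
  have h1 := back_min φ (head φ a₀ O L) (ex_back hO hL hx) (j := back φ (head φ a₀ O L) x - j) (by omega)
  have h2 := inv_pow_pow φ (m := back φ (head φ a₀ O L) x - j) (n := back φ (head φ a₀ O L) x)
    (by omega) (hd φ a₀ O L x)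
  rw [hd_pow] at h2
  rw [h2] at h1
  rwa [show back φ (head φ a₀ O L) x - (back φ (head φ a₀ O L) x - j) = j by omega] at h1

theorem back_lt (hO : ∀ x, O (φ x) ↔ O x) (hL : 0 < L) {x : X} (hx : ¬ O x) :
    back φ (head φ a₀ O L) x < 2 * L := by
  by_contra hcon
  push Not at hcon
  have h1 : ¬ O (φ (hd φ a₀ O L x)) := by
    rw [hO]; exact (hd_head hO hL hx).1
  obtain ⟨i, hi, h⟩ := head_lt (φ := φ) (a₀ := a₀) hO hL _ h1
  rw [← Perm.mul_apply, ← pow_succ] at h
  exact no_head hO hL hx (Nat.succ_pos i) (by omega) h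

omit [Finite X] in
theorem inv_O (hO : ∀ x, O (φ x) ↔ O x) (x : X) : O (φ⁻¹ x) ↔ O x := by
  rw [← hO, appInv]

end

section

variable {X : Type} [Finite X] (M : PMap X) (a₀ : Option X) (O : X → Prop) (L : ℕ)

/-- the set of starts -/
abbrev St : Set X := {x | start M.φ a₀ O L x}

variable (M' : PMap (X ⊕ (St M a₀ O L × Bool)))

/-- outer darts of the subdivision -/
def out' : X ⊕ (St M a₀ O L × Bool) → Prop
  | Sum.inl x => O x
  | Sum.inr _ => False

/-- head of the sector of a dart of the subdivision -/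
noncomputable def hd' : X ⊕ (St M a₀ O L × Bool) → X
  | Sum.inl x => hd M.φ a₀ O L x
  | Sum.inr (b, true) => hd M.φ a₀ O L (M.φ⁻¹ b.1)
  | Sum.inr (b, false) => b.1

variable {M a₀ O L M'}

theorem prev_start (hO : ∀ x, O (M.φ x) ↔ O x) (hL : 0 < L) (b : St M a₀ O L) :
    hd M.φ a₀ O L (M.φ⁻¹ b.1) ∈ St M a₀ O L := by
  have hb : ¬ O (M.φ⁻¹ b.1) := by rw [inv_O hO]; exact b.2.1.1
  refine start_of_head _ (hd_head hO hL hb) b.1 b.2 ?_
  refine (hd_same (M.φ⁻¹ b.1)).trans ⟨1, ?_⟩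
  rw [zpow_one, appInv]

theorem cen_prev (hO : ∀ x, O (M.φ x) ↔ O x) (hL : 0 < L) (hS : StarOf M (St M a₀ O L) M')
    (b : St M a₀ O L) :
    M'.φ (Sum.inr (b, true)) = Sum.inr (⟨hd M.φ a₀ O L (M.φ⁻¹ b.1), prev_start hO hL b⟩, false) := by
  have hb : ¬ O (M.φ⁻¹ b.1) := by rw [inv_O hO]; exact b.2.1.1
  refine hS.cen _ _ (back M.φ (head M.φ a₀ O L) (M.φ⁻¹ b.1) + 1) (Nat.succ_pos _) ?_ ?_
  · intro j h0 hj hst
    exact no_head hO hL hb h0 (by omega) hst.1
  · rw [pow_succ', Perm.mul_apply]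
    have := hd_pow (φ := M.φ) (a₀ := a₀) (O := O) (L := L) (M.φ⁻¹ b.1)
    simp only
    rw [this, appInv]

theorem out'_inv (hO : ∀ x, O (M.φ x) ↔ O x) (hL : 0 < L) (hS : StarOf M (St M a₀ O L) M')
    (y) : out' M a₀ O L (M'.φ y) ↔ out' M a₀ O L y := by
  rcases y with x | ⟨b, _ | _⟩
  · by_cases h : M.φ x ∈ St M a₀ O L
    · rw [hS.inl_st x h]
      have h1 : ¬ O (M.φ x) := h.1.1
      rw [hO] at h1
      simp [out', h1]
    · rw [hS.inl_not x h]; exact hO x
  · rw [hS.out b]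
    simp only [out', iff_false]
    exact b.2.1.1
  · rw [cen_prev hO hL hS b]
    simp [out']

theorem hd'_inv (hO : ∀ x, O (M.φ x) ↔ O x) (hL : 0 < L) (hS : StarOf M (St M a₀ O L) M')
    (y) (hy : ¬ out' M a₀ O L y) : hd' M a₀ O L (M'.φ y) = hd' M a₀ O L y := by
  rcases y with x | ⟨b, _ | _⟩
  · have hx : ¬ O x := hy
    by_cases h : M.φ x ∈ St M a₀ O L
    · rw [hS.inl_st x h]
      simp only [hd', invApp]
    · rw [hS.inl_not x h]
      simp only [hd']
      by_cases hh : head M.φ a₀ O L (M.φ x)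
      · rw [hd_of_head hh]
        refine (head_unique _ hh h _ (hd_head hO hL hx) ?_).symm
        exact (hd_same x |>.trans ⟨1, by simp⟩).symm
      · exact hd_step hO hL hx hh
  · rw [hS.out b]
    simp only [hd']
    exact hd_of_head b.2.1
  · rw [cen_prev hO hL hS b]
    simp only [hd']

theorem sameCycle_step {Y : Type*} (ψ : Perm Y) (y : Y) : ψ.SameCycle y (ψ y) := ⟨1, by simp⟩

theorem inl_hd (hO : ∀ x, O (M.φ x) ↔ O x) (hL : 0 < L) (hS : StarOf M (St M a₀ O L) M')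
    (x : X) (hx : ¬ O x) : M'.φ.SameCycle (Sum.inl x) (Sum.inl (hd M.φ a₀ O L x)) := by
  induction hn : back M.φ (head M.φ a₀ O L) x generalizing x with
  | zero =>
    have : hd M.φ a₀ O L x = x := by
      have := hd_pow (φ := M.φ) (a₀ := a₀) (O := O) (L := L) x
      rw [hn] at this
      simpa using this
    rw [this]
  | succ n ih =>
    have hnh : ¬ head M.φ a₀ O L x := by
      intro h
      rw [back_eq_zero _ _ h] at hn
      omega
    have h1 := back_succ M.φ _ hnh (ex_back hO hL hx)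
    have hx' : ¬ O (M.φ⁻¹ x) := by rwa [inv_O hO]
    rw [hd_inv hO hL hx hnh]
    have h2 := ih (M.φ⁻¹ x) hx' (by omega)
    refine Perm.SameCycle.trans ?_ h2
    have h3 : M.φ (M.φ⁻¹ x) ∉ St M a₀ O L := by
      rw [appInv]; exact fun h => hnh h.1
    have h4 := hS.inl_not _ h3
    rw [appInv] at h4
    rw [← h4]
    exact (sameCycle_step _ _).symm

theorem same_hd' (hO : ∀ x, O (M.φ x) ↔ O x) (hL : 0 < L) (hS : StarOf M (St M a₀ O L) M')
    (y) (hy : ¬ out' M a₀ O L y) : M'.φ.SameCycle y (Sum.inl (hd' M a₀ O L y)) := by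
  rcases y with x | ⟨b, _ | _⟩
  · exact inl_hd hO hL hS x hy
  · have := sameCycle_step M'.φ (Sum.inr (b, false))
    rw [hS.out b] at this
    exact this
  · have hb : ¬ O (M.φ⁻¹ b.1) := by rw [inv_O hO]; exact b.2.1.1
    have h1 := inl_hd hO hL hS _ hb
    refine Perm.SameCycle.trans ?_ h1
    have h2 : M.φ (M.φ⁻¹ b.1) ∈ St M a₀ O L := by rw [appInv]; exact b.2
    have h3 := hS.inl_st _ h2
    have h4 : (⟨M.φ (M.φ⁻¹ b.1), h2⟩ : St M a₀ O L) = b := Subtype.ext (appInv _ _)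
    rw [h4] at h3
    rw [← h3]
    exact (sameCycle_step _ _).symm

theorem out_same (hO : ∀ x, O (M.φ x) ↔ O x) (hS : StarOf M (St M a₀ O L) M')
    (h1 : ∀ x y, O x → O y → M.φ.SameCycle x y) (y z) (hy : out' M a₀ O L y) (hz : out' M a₀ O L z) :
    M'.φ.SameCycle y z := by
  rcases y with x | b
  swap
  · exact hy.elim
  rcases z with x' | b
  swap
  · exact hz.elim
  have hx : O x := hy
  have := Fintype.ofFinite X
  classical
  obtain ⟨i, -, hi⟩ := (h1 x x' hy hz).exists_pow_eq'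
  rw [← hi]
  clear hi hz
  induction i with
  | zero => exact Perm.SameCycle.refl _ _
  | succ n ih =>
    refine ih.trans ?_
    have h2 : O ((M.φ ^ n) x) := (O_pow hO x n).2 hx
    have h3 : M.φ ((M.φ ^ n) x) ∉ St M a₀ O L := fun h => h.1.1 ((hO _).2 h2)
    rw [pow_succ', Perm.mul_apply, ← hS.inl_not _ h3]
    exact sameCycle_step _ _

/-- the map from faces of the subdivision to heads -/
theorem card_face_le (hO : ∀ x, O (M.φ x) ↔ O x) (hL : 0 < L) (hS : StarOf M (St M a₀ O L) M')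
    (h1 : ∀ x y, O x → O y → M.φ.SameCycle x y) :
    Nat.card M'.Face ≤ Nat.card {x // head M.φ a₀ O L x} + 1 := by
  classical
  let f : X ⊕ (St M a₀ O L × Bool) → Option {x // head M.φ a₀ O L x} := fun y =>
    if h : head M.φ a₀ O L (hd' M a₀ O L y) ∧ ¬ out' M a₀ O L y then some ⟨hd' M a₀ O L y, h.1⟩ else none
  have hh : ∀ y, ¬ out' M a₀ O L y → head M.φ a₀ O L (hd' M a₀ O L y) := by
    intro y hy
    rcases y with x | ⟨b, _ | _⟩
    · exact hd_head hO hL hy
    · exact b.2.1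
    · exact hd_head hO hL (by rw [inv_O hO]; exact b.2.1.1)
  have hf : ∀ y, f (M'.φ y) = f y := by
    intro y
    by_cases hy : out' M a₀ O L y
    · have h2 := (out'_inv hO hL hS y).2 hy
      simp [f, hy, h2]
    · have h2 : ¬ out' M a₀ O L (M'.φ y) := fun h => hy ((out'_inv hO hL hS y).1 h)
      simp only [f, hd'_inv hO hL hS y hy, hy, h2]
  let F : M'.Face → Option {x // head M.φ a₀ O L x} :=
    Quotient.lift f fun y z h => sameCycle_const M'.φ f hf h
  have hF : Function.Injective F := by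
    intro q q'
    refine Quotient.inductionOn₂ q q' ?_
    intro y z (h : f y = f z)
    apply Quotient.sound
    by_cases hy : out' M a₀ O L y <;> by_cases hz : out' M a₀ O L z
    · exact out_same hO hS h1 y z hy hz
    · simp [f, hy, hz, hh z hz] at h
    · simp [f, hy, hz, hh y hy] at h
    · have h3 : hd' M a₀ O L y = hd' M a₀ O L z := by
        simpa [f, hy, hz, hh y hy, hh z hz] using h
      refine (same_hd' hO hL hS y hy).trans ?_
      rw [h3]
      exact (same_hd' hO hL hS z hz).symm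
  have := Nat.card_le_card_of_injective F hF
  rwa [Finite.card_option] at this

/-- no vertex of degree one in the subdivision -/
theorem star_deg (hO : ∀ x, O (M.φ x) ↔ O x) (hL : 0 < L) (hS : StarOf M (St M a₀ O L) M')
    (hd1 : ∀ x, M.φ x ≠ M.α x) (y) : M'.σ y ≠ y := by
  unfold PMap.σ
  rcases y with x | ⟨b, _ | _⟩
  · rw [hS.α_inl]
    by_cases h : M.φ (M.α x) ∈ St M a₀ O L
    · rw [hS.inl_st _ h]; simp
    · rw [hS.inl_not _ h]
      intro h2
      have h3 : M.φ (M.α x) = x := Sum.inl.inj h2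
      apply hd1 (M.α x)
      rw [h3, M.inv]
  · rw [hS.α_inr]
    simp only [Bool.not_false]
    rw [cen_prev hO hL hS b]
    intro h2
    have h3 : hd M.φ a₀ O L (M.φ⁻¹ b.1) = b.1 := by
      have := congrArg Prod.fst (Sum.inr.inj h2)
      exact congrArg Subtype.val this
    have hb : ¬ O (M.φ⁻¹ b.1) := by rw [inv_O hO]; exact b.2.1.1
    obtain ⟨i, i0, i1, i2⟩ := start_two (φ := M.φ) (a₀ := a₀) hO hL b.1 b.2
    have h4 := hd_pow (φ := M.φ) (a₀ := a₀) (O := O) (L := L) (M.φ⁻¹ b.1)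
    rw [h3] at h4
    have h5 : (M.φ ^ (back M.φ (head M.φ a₀ O L) (M.φ⁻¹ b.1) + 1)) b.1 = b.1 := by
      rw [pow_succ', Perm.mul_apply, h4, appInv]
    have h6 : clen M.φ a₀ b.1 ≤ back M.φ (head M.φ a₀ O L) (M.φ⁻¹ b.1) + 1 := by
      by_contra hcon
      push Not at hcon
      exact pow_ne M.φ a₀ (Nat.succ_pos _) hcon h5
    have h7 := no_head (φ := M.φ) (a₀ := a₀) hO hL hb i0 (by omega)
    rw [h3] at h7
    exact h7 i2.1
  · rw [hS.α_inr]
    simp only [Bool.not_true]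
    rw [hS.out b]
    simp

/-- smooth corners inside a sector -/
theorem smooth_reg (hS : StarOf M (St M a₀ O L) M') (x : X) (h : ¬ head M.φ a₀ O L (M.φ x))
    (hs : M'.Smooth (Sum.inl (M.φ x))) :
    M.φ (M.α (M.φ x)) = M.α x ∧ M.α x ∉ St M a₀ O L := by
  unfold PMap.Smooth PMap.σ at hs
  rw [hS.α_inl] at hs
  by_cases h1 : M.φ (M.α (M.φ x)) ∈ St M a₀ O L
  · exfalso
    rw [hS.inl_st _ h1, hS.α_inr] at hs
    simp only [Bool.not_true] at hs
    rw [hS.out] at hs
    have h2 : M.φ (M.α (M.φ x)) = M.φ x := Sum.inl.inj hs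
    rw [h2] at h1
    exact h h1.1
  · rw [hS.inl_not _ h1, hS.α_inl] at hs
    by_cases h2 : M.φ (M.α (M.φ (M.α (M.φ x)))) ∈ St M a₀ O L
    · rw [hS.inl_st _ h2] at hs
      simp at hs
    · rw [hS.inl_not _ h2] at hs
      have h3 := M.φ.injective (Sum.inl.inj hs)
      have h4 : M.φ (M.α (M.φ x)) = M.α x := by
        rw [← M.inv (M.φ (M.α (M.φ x))), h3]
      exact ⟨h4, h4 ▸ h1⟩

theorem face_inl (hS : StarOf M (St M a₀ O L) M') (x : X) (h : ¬ head M.φ a₀ O L (M.φ x)) :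
    M'.face (Sum.inl (M.φ x)) = M'.face (Sum.inl x) := by
  have h1 : M.φ x ∉ St M a₀ O L := fun h2 => h h2.1
  rw [← hS.inl_not _ h1]
  exact Quotient.sound (sameCycle_step _ _).symm

theorem face_hd (hO : ∀ x, O (M.φ x) ↔ O x) (hL : 0 < L) (hS : StarOf M (St M a₀ O L) M')
    (x : X) (hx : ¬ O x) : M'.face (Sum.inl (hd M.φ a₀ O L x)) = M'.face (Sum.inl x) :=
  Quotient.sound (inl_hd hO hL hS x hx).symm

/-- two heads in the same face are equal -/
theorem head_inj (hO : ∀ x, O (M.φ x) ↔ O x) (hL : 0 < L) (hS : StarOf M (St M a₀ O L) M')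
    {x y : X} (hx : head M.φ a₀ O L x) (hy : head M.φ a₀ O L y)
    (h : M'.face (Sum.inl x) = M'.face (Sum.inl y)) : x = y := by
  classical
  have h1 : M'.φ.SameCycle (Sum.inl x) (Sum.inl y) := Quotient.exact h
  let f : X ⊕ (St M a₀ O L × Bool) → Option X := fun y =>
    if out' M a₀ O L y then none else some (hd' M a₀ O L y)
  have hf : ∀ y, f (M'.φ y) = f y := by
    intro y
    by_cases hy : out' M a₀ O L y
    · have h2 := (out'_inv hO hL hS y).2 hy
      simp [f, hy, h2]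
    · have h2 : ¬ out' M a₀ O L (M'.φ y) := fun h => hy ((out'_inv hO hL hS y).1 h)
      simp only [f, hd'_inv hO hL hS y hy, hy, h2]
  have h2 := sameCycle_const M'.φ f hf h1
  have h3 : ¬ out' M a₀ O L (Sum.inl x) := hx.1
  have h4 : ¬ out' M a₀ O L (Sum.inl y) := hy.1
  simp only [f, h3, h4, if_false, Option.some.injEq] at h2
  simp only [hd'] at h2
  rwa [hd_of_head hx, hd_of_head hy] at h2

end

section Count

variable {X : Type} [Finite X] {φ : Perm X} {a₀ : Option X} {O : X → Prop} {L : ℕ}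

theorem heads_card (hO : ∀ x, O (φ x) ↔ O x) (g : ℕ) (hgL : g ≤ L)
    (hg : ∀ x, ¬ O x → ∀ i, 0 < i → i < g → (φ ^ i) x ≠ x) :
    g * Nat.card {x // head φ a₀ O L x} ≤ Nat.card {x // ¬ O x} := by
  let F : Fin g × {x // head φ a₀ O L x} → {x // ¬ O x} := fun p =>
    ⟨(φ ^ (p.1 : ℕ)) p.2.1, by rw [O_pow hO]; exact p.2.2.1⟩
  have key : ∀ (i j : ℕ) (h h' : X), i ≤ j → j < g → head φ a₀ O L h → head φ a₀ O L h' →
      (φ ^ i) h = (φ ^ j) h' → i = j ∧ h = h' := by
    intro i j h h' hij hj hh hh' he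
    obtain ⟨k, rfl⟩ := Nat.exists_eq_add_of_le hij
    rw [pow_add, Perm.mul_apply] at he
    have h1 : h = (φ ^ k) h' := (φ ^ i).injective he
    rcases Nat.eq_zero_or_pos k with rfl | hk
    · exact ⟨rfl, by simpa using h1⟩
    · exfalso
      rw [h1] at hh
      have h2 := head_ge h' hh' k hk (by omega) hh
      exact hg h' hh'.1 k hk (by omega) h2
  have hF : Function.Injective F := by
    rintro ⟨i, h, hh⟩ ⟨j, h', hh'⟩ he
    have he' : (φ ^ (i : ℕ)) h = (φ ^ (j : ℕ)) h' := congrArg Subtype.val he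
    rcases le_total (i : ℕ) (j : ℕ) with hij | hij
    · obtain ⟨h1, h2⟩ := key i j h h' hij j.2 hh hh' he'
      subst h2
      have : i = j := Fin.ext h1
      subst this; rfl
    · obtain ⟨h1, h2⟩ := key j i h' h hij i.2 hh' hh he'.symm
      subst h2
      have : i = j := Fin.ext h1.symm
      subst this; rfl
  have := Nat.card_le_card_of_injective F hF
  rwa [Nat.card_prod, Nat.card_fin] at this

/-- darts of the sectors with a property ↔ heads -/
theorem sector_card (hO : ∀ x, O (φ x) ↔ O x) (hL : 0 < L) (B : X → Prop)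
    (hB : ∀ x, ¬ O x → B x → B (hd φ a₀ O L x)) :
    Nat.card {x // ¬ O x ∧ B x} ≤ 2 * L * Nat.card {x // head φ a₀ O L x ∧ B x} := by
  let F : {x // ¬ O x ∧ B x} → Fin (2 * L) × {x // head φ a₀ O L x ∧ B x} := fun p =>
    (⟨back φ (head φ a₀ O L) p.1, back_lt hO hL p.2.1⟩,
      ⟨hd φ a₀ O L p.1, hd_head hO hL p.2.1, hB p.1 p.2.1 p.2.2⟩)
  have hF : Function.Injective F := by
    rintro ⟨x, hx⟩ ⟨y, hy⟩ he
    have h1 : back φ (head φ a₀ O L) x = back φ (head φ a₀ O L) y := by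
      simpa using congrArg (fun t => (t.1 : ℕ)) he
    have h2 : hd φ a₀ O L x = hd φ a₀ O L y := by
      simpa using congrArg (fun t => (t.2.1 : X)) he
    apply Subtype.ext
    change x = y
    rw [← hd_pow (φ := φ) (a₀ := a₀) (O := O) (L := L) x, ← hd_pow (φ := φ) (a₀ := a₀) (O := O) (L := L) y, h1, h2]
  have := Nat.card_le_card_of_injective F hF
  rwa [Nat.card_prod, Nat.card_fin] at this

/-- sector ends ↔ heads -/
theorem ends_card (hO : ∀ x, O (φ x) ↔ O x) (hL : 0 < L) (B : X → Prop)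
    (hB : ∀ x, ¬ O x → B x → B (hd φ a₀ O L x)) :
    Nat.card {x // ¬ O x ∧ head φ a₀ O L (φ x) ∧ B x} ≤ Nat.card {x // head φ a₀ O L x ∧ B x} := by
  let F : {x // ¬ O x ∧ head φ a₀ O L (φ x) ∧ B x} → {x // head φ a₀ O L x ∧ B x} := fun p =>
    ⟨hd φ a₀ O L p.1, hd_head hO hL p.2.1, hB p.1 p.2.1 p.2.2.2⟩
  have key : ∀ x y, ¬ O x → ¬ O y → head φ a₀ O L (φ x) → head φ a₀ O L (φ y) →
      hd φ a₀ O L x = hd φ a₀ O L y → back φ (head φ a₀ O L) x < back φ (head φ a₀ O L) y → False := by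
    intro x y hx hy hhx hhy h1 h2
    have h3 := no_head (a₀ := a₀) hO hL hy (Nat.succ_pos (back φ (head φ a₀ O L) x)) (by omega)
    apply h3
    rw [← h1, pow_succ', Perm.mul_apply, hd_pow]
    exact hhx
  have hF : Function.Injective F := by
    rintro ⟨x, hx⟩ ⟨y, hy⟩ he
    have h2 : hd φ a₀ O L x = hd φ a₀ O L y := congrArg Subtype.val he
    apply Subtype.ext
    change x = y
    rcases lt_trichotomy (back φ (head φ a₀ O L) x) (back φ (head φ a₀ O L) y) with h | h | h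
    · exact (key x y hx.1 hy.1 hx.2.1 hy.2.1 h2 h).elim
    · rw [← hd_pow (φ := φ) (a₀ := a₀) (O := O) (L := L) x, ← hd_pow (φ := φ) (a₀ := a₀) (O := O) (L := L) y, h, h2]
    · exact (key y x hy.1 hx.1 hy.2.1 hx.2.1 h2.symm h).elim
  exact Nat.card_le_card_of_injective F hF

end Count

end HM

end Crest.Agent.R177
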