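import Crest.Agent.R177.HyperMap
import Crest.Agent.R177.Defs

/-!
# Hyperfiniteness of maps with `H^1(.;F_2) = 0`: the final statement
-/

set_option linter.unusedSectionVars false
set_option linter.unusedTactic false

namespace Crest.Agent.R177.Hyper

open Finset

/-- **Hyperfiniteness.**  For every `ε` there is `K` such that in each closed map with
`H^1(.;F_2) = 0` one can remove at most `ε |F|` faces and divide the others into groups of at most
`K` faces such that faces in different groups share no edge. -/
theorem hyperfinite (ε : ℝ) (hε : 0 < ε) : ∃ K : ℕ, ∀ (X F : Type) [Fintype X] [Fintype F]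
    (φ α : Equiv.Perm X) (f : X → F), (∀ x, α (α x) = x) → (∀ x, α x ≠ x) → PropP φ α →
    (∀ x y, f x = f y ↔ φ.SameCycle x y) → Function.Surjective f →
    ∃ (R : Finset F) (g : F → ℕ), (R.card : ℝ) ≤ ε * Fintype.card F ∧
      (∀ x, f x ∉ R → f (α x) ∉ R → g (f x) = g (f (α x))) ∧
      ∀ (n : ℕ) (A : Finset F), (∀ m ∈ A, m ∉ R ∧ g m = n) → A.card ≤ K := by
  classical
  obtain ⟨k, hk⟩ := exists_nat_ge (4 / ε + 1)
  have hkpos : 0 < k := by
    have : (0 : ℝ) < k := lt_of_lt_of_le (by positivity) hk
    exact_mod_cast this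
  obtain ⟨K', hK'⟩ := exists_nat_ge (8 * k / ε + 1)
  have hK'pos : 0 < K' := by
    have : (0 : ℝ) < K' := lt_of_lt_of_le (by positivity) hK'
    exact_mod_cast this
  refine ⟨max 1 (2 * K' + 4 * k), ?_⟩
  intro X F _ _ φ α f hinv hfpf hP hf hsurj
  let V := Quotient (Equiv.Perm.SameCycle.setoid (φ * α))
  let v : X → V := fun x => Quotient.mk _ x
  have hv : ∀ x y, v x = v y ↔ (φ * α).SameCycle x y := by
    intro x y
    exact Quotient.eq (r := Equiv.Perm.SameCycle.setoid (φ * α))
  have hM : IsMap φ α f v := ⟨hinv, hfpf, hP, hf, hv⟩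
  let B : BFS (fun x => (Sum.inl (f x) : F ⊕ V)) (fun x => (Sum.inr (v x) : F ⊕ V)) :=
    Classical.choice (exists_BFS _ _)
  let lev : F → ℕ := fun m => B.lev (Sum.inl m)
  let Rem : ℕ → Finset F := fun c => univ.filter (fun m => (∃ x, f x = m) ∧ ((lev m + c) % k = 0 ∨ (lev m + c) % k = 1))
  obtain ⟨c, hc⟩ : ∃ c, k * (Rem c).card ≤ 2 * Fintype.card F := by
    by_contra hcon
    push Not at hcon
    have h1 : ∑ c ∈ range k, (Rem c).card ≤ 2 * Fintype.card F := by
      have h2 : ∀ c, (Rem c).card ≤ ∑ m : F, (if ((lev m + c) % k = 0 ∨ (lev m + c) % k = 1) then 1 else 0) := by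
        intro c
        rw [← Finset.card_filter]
        apply Finset.card_le_card
        intro m hm
        simp only [Rem, Finset.mem_filter, Finset.mem_univ, true_and] at hm ⊢
        exact hm.2
      refine (Finset.sum_le_sum (fun c _ => h2 c)).trans ?_
      rw [Finset.sum_comm, mul_comm, ← Finset.card_univ, ← smul_eq_mul, ← Finset.sum_const]
      refine Finset.sum_le_sum (fun m _ => ?_)
      rw [← Finset.card_filter]
      have h3 : ((range k).filter (fun c => (lev m + c) % k = 0 ∨ (lev m + c) % k = 1)).card ≤ ({0, 1} : Finset ℕ).card := by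
        refine Finset.card_le_card_of_injOn (fun c => (lev m + c) % k) ?_ ?_
        · intro c hc
          rw [Finset.mem_coe, Finset.mem_filter] at hc
          simp only [Finset.coe_insert, Finset.coe_singleton, Set.mem_insert_iff, Set.mem_singleton_iff]
          exact hc.2
        · intro c hc c' hc' hcc
          rw [Finset.mem_coe, Finset.mem_filter, Finset.mem_range] at hc hc'
          simp only at hcc
          have : (lev m + c) ≡ (lev m + c') [MOD k] := hcc
          have := Nat.ModEq.add_left_cancel' _ this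
          rwa [Nat.ModEq, Nat.mod_eq_of_lt hc.1, Nat.mod_eq_of_lt hc'.1] at this
      exact h3.trans (by decide)
    have h2 : ∑ c ∈ range k, (2 * Fintype.card F) < k * ∑ c ∈ range k, (Rem c).card := by
      rw [Finset.mul_sum]
      exact Finset.sum_lt_sum_of_nonempty (by simpa using hkpos.ne') (fun c _ => hcon c)
    rw [Finset.sum_const, Finset.card_range, smul_eq_mul] at h2
    have h3 := Nat.mul_le_mul_left k h1
    omega
  let band : F → ℕ := fun m => (lev m + c) / k
  let Vi : ℕ → Finset F := fun i => univ.filter (fun m => (∃ x, f x = m) ∧ m ∉ Rem c ∧ band m = i)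
  have hcut : ∀ i, Cut (fun m => SS B α (Sum.inl m)) (4 * k) K' (Vi i) := by
    intro i
    refine treedec_cut (acyc hM B) (4 * k) K' (Vi i) _ ?_ ?_
    · intro m hm
      refine ⟨?_, conn hM B _⟩
      simp only [Vi, Finset.mem_filter, Finset.mem_univ, true_and] at hm
      obtain ⟨⟨x, rfl⟩, _⟩ := hm
      exact ⟨de α x, (mem_SS B _ _).mpr ⟨x, Or.inl (B.desc_refl _), rfl⟩⟩
    · intro e
      obtain ⟨x, hx⟩ : ∃ x, de α x = e := Quotient.exists_rep e
      let D : F ⊕ V → Finset F := fun u => (Vi i).filter (fun m => B.Desc u (Sum.inl m))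
      have hD : ∀ u, (D u).card ≤ k := by
        intro u
        calc (D u).card ≤ (range k).card := by
              refine Finset.card_le_card_of_injOn (fun m => (lev m + c) % k) ?_ ?_
              · intro m _
                rw [Finset.mem_coe, Finset.mem_range]
                exact Nat.mod_lt _ hkpos
              · intro m hm m' hm' hmm
                simp only [D, Vi, band, Finset.coe_filter, Set.mem_ofPred_eq, Finset.mem_filter,
                  Finset.mem_univ, true_and] at hm hm'
                simp only at hmm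
                have h1 : lev m + c = lev m' + c := by
                  rw [← Nat.div_add_mod (lev m + c) k, ← Nat.div_add_mod (lev m' + c) k, hmm,
                    hm.1.2.2, hm'.1.2.2]
                have h2 : lev m = lev m' := by omega
                exact Sum.inl_injective (B.desc_lev_inj hm.2 hm'.2 h2)
          _ = k := Finset.card_range k
      have hsub : (Vi i).filter (fun m => e ∈ SS B α (Sum.inl m)) ⊆
          (D (Sum.inl (f x)) ∪ D (Sum.inr (v x))) ∪ (D (Sum.inl (f (α x))) ∪ D (Sum.inr (v (α x)))) := by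
        intro m hm
        rw [Finset.mem_filter] at hm
        obtain ⟨hm1, hm2⟩ := hm
        obtain ⟨y, hy1, hy2⟩ := (mem_SS B _ _).mp hm2
        rw [← hx, eq_comm, de_eq α hinv] at hy2
        simp only [Finset.mem_union, D, Finset.mem_filter]
        rcases hy2 with rfl | rfl
        · rcases hy1 with h | h
          · exact Or.inl (Or.inl ⟨hm1, h⟩)
          · exact Or.inl (Or.inr ⟨hm1, h⟩)
        · rcases hy1 with h | h
          · exact Or.inr (Or.inl ⟨hm1, h⟩)
          · exact Or.inr (Or.inr ⟨hm1, h⟩)
      refine (Finset.card_le_card hsub).trans ?_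
      refine (Finset.card_union_le _ _).trans ?_
      have h1 := Finset.card_union_le (D (Sum.inl (f x))) (D (Sum.inr (v x)))
      have h2 := Finset.card_union_le (D (Sum.inl (f (α x)))) (D (Sum.inr (v (α x))))
      have h3 := hD (Sum.inl (f x))
      have h4 := hD (Sum.inr (v x))
      have h5 := hD (Sum.inl (f (α x)))
      have h6 := hD (Sum.inr (v (α x)))
      omega
  choose Ri gi hRi hcost hgi hsz using hcut
  set I : Finset ℕ := univ.image band with hI
  refine ⟨Rem c ∪ I.biUnion Ri, fun m => Nat.pair (band m) (if (∃ x, f x = m) then gi (band m) m else 0), ?_, ?_, ?_⟩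
  · -- size of the removed set
    have h1 : (Rem c ∪ I.biUnion Ri).card ≤ (Rem c).card + ∑ i ∈ I, (Ri i).card :=
      (Finset.card_union_le _ _).trans (Nat.add_le_add_left Finset.card_biUnion_le _)
    have h2 : K' * ∑ i ∈ I, (Ri i).card ≤ 4 * k * Fintype.card F := by
      rw [Finset.mul_sum]
      refine (Finset.sum_le_sum (fun i _ => hcost i)).trans ?_
      rw [← Finset.mul_sum]
      refine Nat.mul_le_mul_left _ ?_
      rw [← Finset.card_univ, Finset.card_eq_sum_card_fiberwise (f := band) (t := I)
        (by intro m _; simp [hI])]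
      refine Finset.sum_le_sum (fun i _ => Finset.card_le_card ?_)
      intro m hm
      simp only [Vi, Finset.mem_filter, Finset.mem_univ, true_and] at hm ⊢
      exact hm.2.2
    have h1' : ((Rem c ∪ I.biUnion Ri).card : ℝ) ≤ (Rem c).card + (∑ i ∈ I, (Ri i).card : ℕ) := by
      exact_mod_cast h1
    have h2' : (K' : ℝ) * (∑ i ∈ I, (Ri i).card : ℕ) ≤ 4 * k * Fintype.card F := by exact_mod_cast h2
    have h3' : (k : ℝ) * (Rem c).card ≤ 2 * Fintype.card F := by exact_mod_cast hc
    have hk0 : (0 : ℝ) < k := by exact_mod_cast hkpos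
    have hK0 : (0 : ℝ) < K' := by exact_mod_cast hK'pos
    have hF : (0 : ℝ) ≤ Fintype.card F := by positivity
    have hk4 : 4 ≤ ε * k := by
      have : 4 / ε ≤ k := by linarith
      rwa [div_le_iff₀ hε, mul_comm] at this
    have hK8 : 8 * k ≤ ε * K' := by
      have : 8 * k / ε ≤ K' := by linarith
      rwa [div_le_iff₀ hε, mul_comm (K' : ℝ)] at this
    have ha : ((Rem c).card : ℝ) ≤ ε / 2 * Fintype.card F := by
      have : (k : ℝ) * (Rem c).card ≤ k * (ε / 2 * Fintype.card F) := by
        refine h3'.trans ?_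
        have : (2 : ℝ) ≤ k * (ε / 2) := by linarith
        calc (2 : ℝ) * Fintype.card F ≤ (k * (ε / 2)) * Fintype.card F :=
              mul_le_mul_of_nonneg_right this hF
          _ = _ := by ring
      exact le_of_mul_le_mul_left this hk0
    have hb : ((∑ i ∈ I, (Ri i).card : ℕ) : ℝ) ≤ ε / 2 * Fintype.card F := by
      have : (K' : ℝ) * (∑ i ∈ I, (Ri i).card : ℕ) ≤ K' * (ε / 2 * Fintype.card F) := by
        refine h2'.trans ?_
        have : (4 : ℝ) * k ≤ K' * (ε / 2) := by linarith
        calc (4 : ℝ) * k * Fintype.card F ≤ (K' * (ε / 2)) * Fintype.card F :=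
              mul_le_mul_of_nonneg_right this hF
          _ = _ := by ring
      exact le_of_mul_le_mul_left this hK0
    linarith
  · -- adjacency
    intro x hx hx'
    simp only [Finset.mem_union, not_or, Finset.mem_biUnion, not_exists, not_and] at hx hx'
    have hex : ∃ y, f y = f x := ⟨x, rfl⟩
    have hex' : ∃ y, f y = f (α x) := ⟨α x, rfl⟩
    have hl1 : lev (f x) ≤ B.lev (Sum.inr (v x)) + 1 := B.lev_le1 x
    have hl2 : B.lev (Sum.inr (v x)) ≤ lev (f x) + 1 := B.lev_le2 x
    have hl3 : lev (f (α x)) ≤ B.lev (Sum.inr (v x)) + 1 := by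
      have := B.lev_le1 (φ (α x))
      simp only [hM.f_phi, hM.v_phi] at this
      exact this
    have hl4 : B.lev (Sum.inr (v x)) ≤ lev (f (α x)) + 1 := by
      have := B.lev_le2 (φ (α x))
      simp only [hM.f_phi, hM.v_phi] at this
      exact this
    have hr1 : 2 ≤ (lev (f x) + c) % k := by
      by_contra hlt
      apply hx.1
      simp only [Rem, Finset.mem_filter, Finset.mem_univ, true_and]
      exact ⟨hex, by omega⟩
    have hr2 : 2 ≤ (lev (f (α x)) + c) % k := by
      by_contra hlt
      apply hx'.1
      simp only [Rem, Finset.mem_filter, Finset.mem_univ, true_and]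
      exact ⟨hex', by omega⟩
    have hband : band (f x) = band (f (α x)) := by
      simp only [band]
      have e1 := Nat.div_add_mod (lev (f x) + c) k
      have e2 := Nat.div_add_mod (lev (f (α x)) + c) k
      have m1 := Nat.mod_lt (lev (f x) + c) hkpos
      have m2 := Nat.mod_lt (lev (f (α x)) + c) hkpos
      rcases lt_trichotomy ((lev (f x) + c) / k) ((lev (f (α x)) + c) / k) with h | h | h
      · exfalso
        have : k * ((lev (f x) + c) / k + 1) ≤ k * ((lev (f (α x)) + c) / k) := Nat.mul_le_mul_left _ h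
        rw [Nat.mul_add] at this
        omega
      · exact h
      · exfalso
        have : k * ((lev (f (α x)) + c) / k + 1) ≤ k * ((lev (f x) + c) / k) := Nat.mul_le_mul_left _ h
        rw [Nat.mul_add] at this
        omega
    have hbI : ∀ m, band m ∈ I := fun m => by simp [hI]
    simp only [hex, hex', if_true, ← hband]
    congr 1
    refine hgi (band (f x)) (f x) ?_ (f (α x)) ?_ ?_
    · rw [Finset.mem_sdiff]
      refine ⟨?_, hx.2 _ (hbI _)⟩
      simp only [Vi, Finset.mem_filter, Finset.mem_univ, true_and]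
      exact ⟨hex, hx.1, trivial⟩
    · rw [Finset.mem_sdiff]
      refine ⟨?_, hx'.2 _ (hbI _)⟩
      simp only [Vi, Finset.mem_filter, Finset.mem_univ, true_and]
      exact ⟨hex', hx'.1, hband.symm⟩
    · refine ⟨de α x, (mem_SS B _ _).mpr ⟨x, Or.inl (B.desc_refl _), rfl⟩,
        (mem_SS B _ _).mpr ⟨α x, Or.inl (B.desc_refl _), de_alpha α hinv x⟩⟩
  · -- sizes
    intro n A hA
    refine le_trans (le_trans (Finset.card_le_card ?_) (hsz n.unpair.1 n.unpair.2)) (by
      have : 2 * K' + 4 * k ≤ max 1 (2 * K' + 4 * k) := le_max_right _ _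
      exact this)
    intro m hm
    obtain ⟨hmR, hmn⟩ := hA m hm
    have hex : ∃ y, f y = m := hsurj m
    simp only [hex, if_true] at hmn
    rw [← hmn, Nat.unpair_pair]
    simp only [Finset.mem_union, not_or, Finset.mem_biUnion, not_exists, not_and] at hmR
    rw [Finset.mem_filter, Finset.mem_sdiff]
    refine ⟨⟨?_, hmR.2 _ (by simp [hI])⟩, rfl⟩
    simp only [Vi, Finset.mem_filter, Finset.mem_univ, true_and]
    exact ⟨hex, hmR.1, trivial⟩

end Crest.Agent.R177.Hyper

namespace Crest.Agent.R177

open scoped Classical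

/-- HYPER: planar maps are hyperfinite. -/
theorem hyper (ε : ℝ) (hε : 0 < ε) : ∃ K : ℕ, ∀ (X : Type) [Finite X] (M : PMap X),
    ∃ grp : M.Face → Option ℕ,
      (∀ x, grp (M.face x) ≠ none → grp (M.face (M.α x)) ≠ none →
        grp (M.face (M.α x)) = grp (M.face x)) ∧
      (Nat.card {f // grp f = none} : ℝ) ≤ ε * Nat.card M.Face ∧
      ∀ i : ℕ, Nat.card {f // grp f = some i} ≤ K := by
  obtain ⟨K, hK⟩ := Hyper.hyperfinite ε hε
  refine ⟨K, ?_⟩
  intro X _ M
  have := Fintype.ofFinite X
  have : Finite M.Face := inferInstanceAs (Finite (Quotient _))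
  have := Fintype.ofFinite M.Face
  obtain ⟨R, g, h1, h2, h3⟩ := hK X M.Face M.φ M.α M.face M.inv M.ne
    (fun a ha => by
      obtain ⟨b, h, hb, hh, hab⟩ := M.planar a ha
      exact ⟨b, h, hab, hb, hh⟩)
    (fun x y => Quotient.eq (r := Equiv.Perm.SameCycle.setoid M.φ))
    (fun f => Quotient.exists_rep f)
  refine ⟨fun f => if f ∈ R then none else some (g f), ?_, ?_, ?_⟩
  · intro x hx hx'
    have h4 : M.face x ∉ R := by
      intro hc; simp [hc] at hx
    have h5 : M.face (M.α x) ∉ R := by
      intro hc; simp [hc] at hx'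
    simp only [h4, h5, if_false, h2 x h4 h5]
  · have h4 : Nat.card {f // (if f ∈ R then none else some (g f)) = none} = R.card := by
      rw [Nat.card_eq_fintype_card, Fintype.card_subtype]
      congr 1
      ext f
      simp
    rw [h4, Nat.card_eq_fintype_card]
    exact h1
  · intro i
    rw [Nat.card_eq_fintype_card, Fintype.card_subtype]
    refine h3 i _ ?_
    intro f hf
    simp only [Finset.mem_filter, Finset.mem_univ, true_and, ite_eq_iff] at hf
    rcases hf with hf | hf
    · exact absurd hf.2 (by simp)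
    · exact ⟨hf.1, Option.some_injective _ hf.2⟩

end Crest.Agent.R177
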