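import Crest.Agent.R177.Defs
import Crest.Agent.R177.SectorsBase

/-!
# Row 177: SECTORS (interface theorem)
-/

set_option autoImplicit false

open scoped Classical

namespace Crest.Agent.R177

lemma sec_pow {X : Type*} {φ : Equiv.Perm X} {start : X → Prop} {x : X} (hx : start x) (n : ℕ)
    (h : ∀ j, 0 < j → j < n → ¬ start ((φ ^ j) x)) (m : ℕ) (hm : m < n) :
    sec φ start ((φ ^ m) x) = x := by
  induction m with
  | zero => simpa using sec_start (φ := φ) hx
  | succ m ih =>
    have hp : ∀ k : ℕ, HasStart φ start ((φ ^ k) x) := by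
      intro k
      induction k with
      | zero => simpa using hasStart_of_start (φ := φ) hx
      | succ k ih' => rw [pow_succ', Equiv.Perm.mul_apply]; exact hasStart_apply ih'
    have h1 := h (m + 1) (Nat.succ_pos m) hm
    rw [pow_succ', Equiv.Perm.mul_apply] at h1 ⊢
    rw [sec_apply (hp m) h1]
    exact ih (by omega)

/-- SECTORS (file Sectors.lean): star subdivision of the faces at the darts of `I`. In the new map
`inr (x, true)` runs from the start vertex of `x` to the centre of the face, `inr (x, false)`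
back. -/
theorem sectors {X : Type} [Finite X] (M : PMap X) (I : Set X) :
    ∃ M' : PMap (X ⊕ (I × Bool)),
      (∀ y, M.φ y ∉ I → M'.φ (Sum.inl y) = Sum.inl (M.φ y)) ∧
      (∀ (y : X) (h : M.φ y ∈ I), M'.φ (Sum.inl y) = Sum.inr (⟨M.φ y, h⟩, true)) ∧
      (∀ x : I, M'.φ (Sum.inr (x, false)) = Sum.inl (x : X)) ∧
      (∀ (x y : I) (n : ℕ), 0 < n → (∀ j, 0 < j → j < n → (M.φ ^ j) (x : X) ∉ I) →
        (M.φ ^ n) (x : X) = y → M'.φ (Sum.inr (y, true)) = Sum.inr (x, false)) ∧
      (∀ y : X, M'.α (Sum.inl y) = Sum.inl (M.α y)) ∧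
      (∀ (x : I) (b : Bool), M'.α (Sum.inr (x, b)) = Sum.inr (x, !b)) := by
  have : Fintype X := Fintype.ofFinite X
  refine ⟨⟨starφ M.φ (fun x => x ∈ I), starα M.α (fun x => x ∈ I), starα_invol M.inv,
    starα_ne M.ne, propP_star M.planar⟩, ?_, ?_, ?_, ?_, ?_, ?_⟩
  · intro y hy
    exact starφ_inl_of_not hy
  · intro y h
    exact starφ_inl_of_start h
  · intro x
    rfl
  · intro x y n hn h hxy
    change starφ M.φ (fun x => x ∈ I) (Sum.inr (y, true)) = _
    have e : sec M.φ (fun x => x ∈ I) (M.φ⁻¹ (y : X)) = (x : X) := by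
      have h1 : M.φ⁻¹ (y : X) = (M.φ ^ (n - 1)) (x : X) := by
        rw [← hxy]
        obtain ⟨k, rfl⟩ : ∃ k, n = k + 1 := ⟨n - 1, by omega⟩
        rw [pow_succ', Equiv.Perm.mul_apply]
        simp
      rw [h1]
      exact sec_pow (start := fun x => x ∈ I) x.2 n h (n - 1) (by omega)
    have e2 := starφ_in (φ := M.φ) (start := fun x => x ∈ I) y
    refine e2.trans ?_
    congr 2
    exact Subtype.ext e
  · intro y; rfl
  · intro x b; rfl

end Crest.Agent.R177
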