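/-
Row 177/184 : the planar part: assembly of hyperfiniteness, Euler bound and sector subdivision
(helper603).
-/
import Crest.Agent.R177.Hyper
import Crest.Agent.R177.Euler
import Crest.Agent.R177.Sectors
import Crest.Agent.R177.HypStar

set_option autoImplicit false

namespace Crest.Agent.R177

open Equiv

/-- generalised statement: `E` is an exceptional inner face which may be shorter than `g`, `a₀` a
designated dart which has to be a head. -/
def HypStatementE : Prop :=
  ∀ (ε : ℝ) (C : ℕ), 0 < ε → ∃ K : ℕ, ∀ (X : Type) [Fintype X] (φ α : Perm X)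
    (O E : X → Prop) (a₀ : Option X) (g L : ℕ), 0 < g → g ≤ L → L ≤ C * g →
    (∀ x, α (α x) = x) → (∀ x, α x ≠ x) → PropP φ α →
    (∀ x, O (φ x) ↔ O x) → (∀ x y, O x → O y → φ.SameCycle x y) →
    (∀ x, E (φ x) ↔ E x) → (∀ x y, E x → E y → φ.SameCycle x y) →
    ((∃ x, ¬ E x ∧ ¬ O x) ∨ ∀ x, ¬ E x) →
    (∀ x, φ x ≠ α x) →
    (∀ x, ¬ O x → ¬ E x → ∀ i, 0 < i → i < g → (φ ^ i) x ≠ x) →
    ∃ (head glued : X → Prop) (grp : X → ℕ), Grouping φ α O head glued grp L K ∧
      (∀ a, a₀ = some a → ¬ O a → head a) ∧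
      ({x | ¬ O x ∧ ¬ glued x}.ncard : ℝ) ≤ ε * ({x | ¬ O x}.ncard : ℝ) + K * ({x | O x}.ncard : ℝ)

namespace HM

section Cards

variable {X : Type} [Finite X]

theorem ncard_eq {Y : Type} (p : Y → Prop) : {x | p x}.ncard = Nat.card {x // p x} :=
  (Nat.card_coe_set_eq _).symm

theorem card_mono {Y : Type} [Finite Y] {p q : Y → Prop} (h : ∀ x, p x → q x) :
    Nat.card {x // p x} ≤ Nat.card {x // q x} :=
  Nat.card_le_card_of_injective (fun x : {x // p x} => (⟨x.1, h x.1 x.2⟩ : {x // q x}))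
    (fun a b hab => Subtype.ext (by simpa using congrArg Subtype.val hab))

theorem card_or {Y : Type} [Finite Y] (p q : Y → Prop) :
    Nat.card {x // p x ∨ q x} ≤ Nat.card {x // p x} + Nat.card {x // q x} := by
  rw [← ncard_eq, ← ncard_eq, ← ncard_eq]
  exact Set.ncard_union_le {x | p x} {x | q x}

theorem card_map {Y Z : Type} [Finite Z] {p : Y → Prop} {q : Z → Prop} (f : Y → Z)
    (hf : ∀ x, p x → q (f x)) (hi : ∀ x y, p x → p y → f x = f y → x = y) :
    Nat.card {x // p x} ≤ Nat.card {z // q z} :=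
  Nat.card_le_card_of_injective (fun x : {x // p x} => (⟨f x.1, hf x.1 x.2⟩ : {z // q z}))
    (fun a b hab => Subtype.ext (hi _ _ a.2 b.2 (by simpa using congrArg Subtype.val hab)))

/-- counting by fibres, upper bound -/
theorem card_fib {Y F : Type} [Finite Y] [Finite F] (f : Y → F) (p : Y → Prop) (q : F → Prop)
    (hpq : ∀ y, p y → q (f y)) (D : ℕ) (hD : ∀ a, q a → Nat.card {y // p y ∧ f y = a} ≤ D) :
    Nat.card {y // p y} ≤ Nat.card {a // q a} * D := by
  classical
  have := Fintype.ofFinite {a // q a}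
  have e : {y // p y} ≃ Σ a : {a // q a}, {y // p y ∧ f y = a.1} :=
    { toFun := fun y => ⟨⟨f y.1, hpq _ y.2⟩, ⟨y.1, y.2, rfl⟩⟩
      invFun := fun z => ⟨z.2.1, z.2.2.1⟩
      left_inv := fun y => rfl
      right_inv := by
        rintro ⟨⟨a, ha⟩, ⟨y, hy, h⟩⟩
        have h' : f y = a := h
        subst h'
        rfl }
  rw [Nat.card_congr e, Nat.card_sigma]
  calc ∑ a : {a // q a}, Nat.card {y // p y ∧ f y = a.1} ≤ ∑ _a : {a // q a}, D :=
        Finset.sum_le_sum fun a _ => hD a.1 a.2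
    _ = Nat.card {a // q a} * D := by
        rw [Finset.sum_const, Finset.card_univ, Nat.card_eq_fintype_card, smul_eq_mul]

/-- counting by fibres, lower bound -/
theorem card_fib_ge {Y F : Type} [Finite Y] [Finite F] (f : Y → F) (p : Y → Prop) (D : ℕ) :
    D * Nat.card {a // D < Nat.card {y // p y ∧ f y = a}} ≤ Nat.card {y // p y} := by
  classical
  have := Fintype.ofFinite {a // D < Nat.card {y // p y ∧ f y = a}}
  let g : (Σ a : {a // D < Nat.card {y // p y ∧ f y = a}}, {y // p y ∧ f y = a.1}) → {y // p y} :=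
    fun z => ⟨z.2.1, z.2.2.1⟩
  have hg : Function.Injective g := by
    rintro ⟨⟨a, ha⟩, ⟨y, hy, h1⟩⟩ ⟨⟨a', ha'⟩, ⟨y', hy', h2⟩⟩ h
    have h1' : f y = a := h1
    have h2' : f y' = a' := h2
    have : y = y' := congrArg Subtype.val h
    subst this
    subst h1'
    subst h2'
    rfl
  have h1 := Nat.card_le_card_of_injective g hg
  rw [Nat.card_sigma] at h1
  refine le_trans ?_ h1
  calc D * Nat.card {a // D < Nat.card {y // p y ∧ f y = a}}
      = ∑ _a : {a // D < Nat.card {y // p y ∧ f y = a}}, D := by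
        rw [Finset.sum_const, Finset.card_univ, Nat.card_eq_fintype_card, smul_eq_mul, mul_comm]
    _ ≤ _ := Finset.sum_le_sum fun a _ => a.2.le

end Cards

section Heads2

variable {X : Type} [Finite X] {φ : Perm X} {a₀ : Option X} {O E : X → Prop} {L : ℕ}

omit [Finite X] in
theorem E_pow (hE : ∀ x, E (φ x) ↔ E x) (x : X) (i : ℕ) : E ((φ ^ i) x) ↔ E x :=
  O_pow (φ := φ) hE x i

/-- `g * #heads ≤ #inner + g` -/
theorem heads_card_E (hO : ∀ x, O (φ x) ↔ O x) (hE : ∀ x, E (φ x) ↔ E x)
    (hE1 : ∀ x y, E x → E y → φ.SameCycle x y) (g : ℕ) (hgL : g ≤ L)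
    (hx0 : (∃ x, ¬ E x ∧ ¬ O x) ∨ ∀ x, ¬ E x)
    (hg : ∀ x, ¬ O x → ¬ E x → ∀ i, 0 < i → i < g → (φ ^ i) x ≠ x) :
    g * Nat.card {x // head φ a₀ O L x} ≤ 2 * Nat.card {x // ¬ O x} := by
  by_cases hcase : ∀ x, ¬ O x → ∀ i, 0 < i → i < g → (φ ^ i) x ≠ x
  · have := heads_card (φ := φ) (a₀ := a₀) hO g hgL hcase
    omega
  · push Not at hcase
    obtain ⟨x₁, hx₁, i₁, hi₁, hi₁', hfix⟩ := hcase
    have hE₁ : E x₁ := by
      by_contra h
      exact hg x₁ hx₁ h i₁ hi₁ hi₁' hfix
    -- heads in `E` are unique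
    have huniq : ∀ x y, head φ a₀ O L x ∧ E x → head φ a₀ O L y ∧ E y → x = y := by
      intro x y hx hy
      have hlen : clen φ a₀ x₁ < 2 * L := by
        by_contra hcon
        exact pow_ne φ a₀ hi₁ (by omega) hfix
      have hlx : clen φ a₀ x < 2 * L := by
        unfold clen at hlen ⊢
        rwa [base_eq φ a₀ (hE1 x x₁ hx.2 hE₁)]
      exact head_unique y hy.1 (fun hs => by
        have h1 := hs.2
        unfold clen at h1 hlx
        rw [base_eq φ a₀ (hE1 y x hy.2 hx.2)] at h1
        omega) x hx.1 (hE1 y x hy.2 hx.2)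
    have h1 : Nat.card {x // head φ a₀ O L x ∧ E x} ≤ 1 := by
      have : Subsingleton {x // head φ a₀ O L x ∧ E x} :=
        ⟨fun a b => Subtype.ext (huniq _ _ a.2 b.2)⟩
      exact Finite.card_le_one_iff_subsingleton.2 this
    -- other heads: treat `E` as outer
    have h2 : g * Nat.card {x // head φ a₀ O L x ∧ ¬ E x} ≤ Nat.card {x // ¬ O x ∧ ¬ E x} := by
      have hO' : ∀ x, (O (φ x) ∨ E (φ x)) ↔ (O x ∨ E x) := fun x => by rw [hO, hE]
      have h3 := heads_card (φ := φ) (a₀ := a₀) (O := fun x => O x ∨ E x) (L := L) hO' g hgL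
        (fun x hx => hg x (fun h => hx (Or.inl h)) (fun h => hx (Or.inr h)))
      have h4 : Nat.card {x // head φ a₀ O L x ∧ ¬ E x} ≤
          Nat.card {x // head φ a₀ (fun x => O x ∨ E x) L x} :=
        card_mono (fun x hx => ⟨fun h => h.elim hx.1.1 hx.2, hx.1.2⟩)
      have h5 : Nat.card {x // ¬ (O x ∨ E x)} ≤ Nat.card {x // ¬ O x ∧ ¬ E x} :=
        card_mono (fun x hx => ⟨fun h => hx (Or.inl h), fun h => hx (Or.inr h)⟩)
      calc _ ≤ g * Nat.card {x // head φ a₀ (fun x => O x ∨ E x) L x} :=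
            Nat.mul_le_mul_left _ h4
        _ ≤ _ := h3.trans h5
    have h3 : Nat.card {x // head φ a₀ O L x} ≤
        Nat.card {x // head φ a₀ O L x ∧ E x} + Nat.card {x // head φ a₀ O L x ∧ ¬ E x} := by
      refine le_trans (card_mono fun x hx => ?_) (card_or _ _)
      by_cases h : E x
      · exact Or.inl ⟨hx, h⟩
      · exact Or.inr ⟨hx, h⟩
    have h4 : Nat.card {x // ¬ O x ∧ ¬ E x} ≤ Nat.card {x // ¬ O x} := card_mono fun x hx => hx.1
    -- `g ≤ #{¬ O, ¬ E}`
    have h5 : g ≤ Nat.card {x // ¬ O x ∧ ¬ E x} := by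
      rcases hx0 with ⟨x, hxE, hxO⟩ | h
      · have : Function.Injective (fun i : Fin g => (⟨(φ ^ (i : ℕ)) x,
            by rw [O_pow hO, E_pow hE]; exact ⟨hxO, hxE⟩⟩ : {x // ¬ O x ∧ ¬ E x})) := by
          intro i j hij
          have hij' : (φ ^ (i : ℕ)) x = (φ ^ (j : ℕ)) x := congrArg Subtype.val hij
          have key : ∀ m n : ℕ, m < n → n < g → (φ ^ m) x ≠ (φ ^ n) x := by
            intro m n hmn hn h
            obtain ⟨k, rfl⟩ := Nat.exists_eq_add_of_lt hmn
            rw [add_assoc, pow_add, Perm.mul_apply] at h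
            exact hg x hxO hxE (k + 1) (Nat.succ_pos _) (by omega) ((φ ^ m).injective h).symm
          rcases lt_trichotomy (i : ℕ) (j : ℕ) with h | h | h
          · exact (key _ _ h j.2 hij').elim
          · exact Fin.ext h
          · exact (key _ _ h i.2 hij'.symm).elim
        have := Nat.card_le_card_of_injective _ this
        rwa [Nat.card_fin] at this
      · exact (h x₁ hE₁).elim
    have h6 : g * Nat.card {x // head φ a₀ O L x} ≤
        g * (1 + Nat.card {x // head φ a₀ O L x ∧ ¬ E x}) :=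
      Nat.mul_le_mul_left _ (by omega)
    rw [mul_add, mul_one] at h6
    omega

end Heads2

section Main

variable {X : Type} [Finite X] {M : PMap X} {a₀ : Option X} {O : X → Prop} {L : ℕ}
  {M' : PMap (X ⊕ (St M a₀ O L × Bool))}

instance : Finite M'.Face := inferInstanceAs (Finite (Quotient _))

/-- the sector (face of the subdivision) of a dart -/
def fc (M' : PMap (X ⊕ (St M a₀ O L × Bool))) (x : X) : M'.Face := M'.face (Sum.inl x)

/-- bad faces of the subdivision -/
def badF (M' : PMap (X ⊕ (St M a₀ O L × Bool))) (grp' : M'.Face → Option ℕ) (D : ℕ)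
    (f : M'.Face) : Prop :=
  grp' f = none ∨ D < Nat.card {y // ¬ M'.Smooth y ∧ M'.face y = f}

/-- darts which stay glued -/
def gl (M' : PMap (X ⊕ (St M a₀ O L × Bool))) (grp' : M'.Face → Option ℕ) (D : ℕ) (x : X) : Prop :=
  ¬ O x ∧ ¬ O (M.α x) ∧ ¬ badF M' grp' D (fc M' x) ∧ ¬ badF M' grp' D (fc M' (M.α x))

/-- injective numbering of the faces -/
noncomputable def enc (M' : PMap (X ⊕ (St M a₀ O L × Bool))) (f : M'.Face) : ℕ :=
  (Finite.equivFin M'.Face f : ℕ)

theorem enc_inj {f f' : M'.Face} (h : enc M' f = enc M' f') : f = f' :=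
  (Finite.equivFin M'.Face).injective (Fin.ext h)

open Classical in
/-- the group number -/
noncomputable def gp (M' : PMap (X ⊕ (St M a₀ O L × Bool))) (grp' : M'.Face → Option ℕ) (D : ℕ)
    (x : X) : ℕ :=
  if O x ∨ badF M' grp' D (fc M' x) then 2 * enc M' (fc M' x) + 1
  else 2 * (grp' (fc M' x)).getD 0

theorem gp_good {grp' : M'.Face → Option ℕ} {D : ℕ} {x : X} (h1 : ¬ O x)
    (h2 : ¬ badF M' grp' D (fc M' x)) : gp M' grp' D x = 2 * (grp' (fc M' x)).getD 0 := by
  unfold gp
  rw [if_neg]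
  rintro (h | h)
  · exact h1 h
  · exact h2 h

theorem gp_even {grp' : M'.Face → Option ℕ} {D : ℕ} {x : X} {k : ℕ}
    (h : gp M' grp' D x = 2 * k) :
    ¬ O x ∧ ¬ badF M' grp' D (fc M' x) ∧ grp' (fc M' x) = some k := by
  unfold gp at h
  split_ifs at h with h1
  · omega
  · push Not at h1
    refine ⟨h1.1, h1.2, ?_⟩
    have h2 : grp' (fc M' x) ≠ none := fun h3 => h1.2 (Or.inl h3)
    obtain ⟨m, hm⟩ := Option.ne_none_iff_exists'.1 h2
    rw [hm] at h ⊢
    simp at h
    rw [h]

theorem gp_odd {grp' : M'.Face → Option ℕ} {D : ℕ} {x : X} {k : ℕ}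
    (h : gp M' grp' D x = 2 * k + 1) :
    (O x ∨ badF M' grp' D (fc M' x)) ∧ enc M' (fc M' x) = k := by
  unfold gp at h
  split_ifs at h with h1
  · exact ⟨h1, by omega⟩
  · omega

theorem gp_congr {grp' : M'.Face → Option ℕ} {D : ℕ} {x y : X} (h1 : O x ↔ O y)
    (h2 : fc M' x = fc M' y) : gp M' grp' D x = gp M' grp' D y := by
  unfold gp
  rw [h2]
  by_cases h3 : O x ∨ badF M' grp' D (fc M' y)
  · rw [if_pos h3, if_pos (h3.imp_left h1.1)]
  · rw [if_neg h3, if_neg (fun h4 => h3 (h4.imp_left h1.2))]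

variable (hO : ∀ x, O (M.φ x) ↔ O x) (hL : 0 < L) (hS : StarOf M (St M a₀ O L) M')
  (grp' : M'.Face → Option ℕ) (D K₁ : ℕ)
  (hK₁ : ∀ i : ℕ, Nat.card {f // grp' f = some i} ≤ K₁)

include hO hL hS hK₁ in
theorem heads_in_group (c : ℕ) :
    Nat.card {x // head M.φ a₀ O L x ∧ gp M' grp' D x = c} ≤ K₁ + 1 := by
  rcases Nat.even_or_odd' c with ⟨k, rfl | rfl⟩
  · refine le_trans (card_map (q := fun f => grp' f = some k) (fc M') ?_ ?_)
      ((hK₁ k).trans (Nat.le_succ _))
    · rintro x ⟨-, hx⟩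
      exact (gp_even hx).2.2
    · rintro x y ⟨hx, -⟩ ⟨hy, -⟩ h
      exact head_inj hO hL hS hx hy h
  · have : Subsingleton {x // head M.φ a₀ O L x ∧ gp M' grp' D x = 2 * k + 1} := by
      refine ⟨fun a b => Subtype.ext ?_⟩
      have h1 := (gp_odd a.2.2).2
      have h2 := (gp_odd b.2.2).2
      exact head_inj hO hL hS a.2.1 b.2.1 (enc_inj (h1.trans h2.symm))
    exact (Finite.card_le_one_iff_subsingleton.2 this).trans (by omega)

include hO hL hS in
theorem gp_hd (x : X) (hx : ¬ O x) : gp M' grp' D (hd M.φ a₀ O L x) = gp M' grp' D x :=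
  gp_congr (by simp [hx, (hd_head (a₀ := a₀) hO hL hx).1]) (face_hd hO hL hS x hx)

variable (hadj : ∀ y, grp' (M'.face y) ≠ none → grp' (M'.face (M'.α y)) ≠ none →
        grp' (M'.face (M'.α y)) = grp' (M'.face y))

include hS hadj in
theorem gl_grp (x : X) (h : gl M' grp' D x) : gp M' grp' D (M.α x) = gp M' grp' D x := by
  obtain ⟨h1, h2, h3, h4⟩ := h
  rw [gp_good h1 h3, gp_good h2 h4]
  have := hadj (Sum.inl x) (fun h => h3 (Or.inl h)) (by
    rw [hS.α_inl]
    exact fun h => h4 (Or.inl h))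
  rw [hS.α_inl] at this
  unfold fc
  rw [this]

include hO hL hS hK₁ hadj in
theorem breaks_bound (c : ℕ) :
    Nat.card {x // ¬ O x ∧ gp M' grp' D x = c ∧ (gl M' grp' D x ∨ gl M' grp' D (M.φ x)) ∧
      ¬ RegularCorner M.φ M.α (head M.φ a₀ O L) (gl M' grp' D) x} ≤ K₁ * D + 2 * (K₁ + 1) := by
  -- the three kinds of breaks
  have hA : Nat.card {x // ¬ O x ∧ head M.φ a₀ O L (M.φ x) ∧ gp M' grp' D x = c} ≤ K₁ + 1 := by
    refine (ends_card (φ := M.φ) (a₀ := a₀) hO hL (fun x => gp M' grp' D x = c) ?_).trans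
      (heads_in_group hO hL hS grp' D K₁ hK₁ c)
    intro x hx h
    rw [gp_hd hO hL hS grp' D x hx, h]
  have hB2 : Nat.card {x // gl M' grp' D x ∧ gp M' grp' D x = c ∧ head M.φ a₀ O L (M.α x)} ≤
      K₁ + 1 := by
    refine (card_map (q := fun x => head M.φ a₀ O L x ∧ gp M' grp' D x = c) M.α ?_ ?_).trans
      (heads_in_group hO hL hS grp' D K₁ hK₁ c)
    · rintro x ⟨h1, h2, h3⟩
      exact ⟨h3, by rw [gl_grp hS grp' D hadj x h1, h2]⟩
    · intro x y _ _ h
      exact M.α.injective h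
  have hB1 : Nat.card {x // ¬ M'.Smooth (Sum.inl (M.φ x)) ∧ ¬ head M.φ a₀ O L (M.φ x) ∧
      ¬ O x ∧ gp M' grp' D x = c ∧ ¬ badF M' grp' D (fc M' x)} ≤ K₁ * D := by
    rcases Nat.even_or_odd' c with ⟨k, rfl | rfl⟩
    · have h1 : Nat.card {x // ¬ M'.Smooth (Sum.inl (M.φ x)) ∧ ¬ head M.φ a₀ O L (M.φ x) ∧
          ¬ O x ∧ gp M' grp' D x = 2 * k ∧ ¬ badF M' grp' D (fc M' x)} ≤
          Nat.card {y // ¬ M'.Smooth y ∧ grp' (M'.face y) = some k ∧
            ¬ badF M' grp' D (M'.face y)} := by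
        refine card_map (fun x => Sum.inl (M.φ x)) ?_ ?_
        · rintro x ⟨h1, h2, h3, h4, h5⟩
          have h6 := face_inl hS x h2
          rw [h6]
          exact ⟨h1, (gp_even h4).2.2, h5⟩
        · intro x y _ _ h
          exact M.φ.injective (Sum.inl.inj h)
      refine h1.trans ?_
      refine (card_fib M'.face (fun y => ¬ M'.Smooth y ∧ grp' (M'.face y) = some k ∧
            ¬ badF M' grp' D (M'.face y)) (fun f => grp' f = some k ∧ ¬ badF M' grp' D f)
            (fun y hy => hy.2) D ?_).trans ?_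
      · intro f hf
        refine le_trans (card_mono (q := fun y => ¬ M'.Smooth y ∧ M'.face y = f)
          fun y hy => ⟨hy.1.1, hy.2⟩) ?_
        by_contra hcon
        push Not at hcon
        exact hf.2 (Or.inr hcon)
      · exact Nat.mul_le_mul_right _ ((card_mono fun f hf => hf.1).trans (hK₁ k))
    · have : IsEmpty {x // ¬ M'.Smooth (Sum.inl (M.φ x)) ∧ ¬ head M.φ a₀ O L (M.φ x) ∧
          ¬ O x ∧ gp M' grp' D x = 2 * k + 1 ∧ ¬ badF M' grp' D (fc M' x)} := by
        refine ⟨?_⟩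
        rintro ⟨x, -, -, h3, h4, h5⟩
        rcases (gp_odd h4).1 with h | h
        · exact h3 h
        · exact h5 h
      rw [Nat.card_of_isEmpty]
      exact Nat.zero_le _
  refine le_trans (card_mono (q := fun x => (¬ O x ∧ head M.φ a₀ O L (M.φ x) ∧
      gp M' grp' D x = c) ∨ ((gl M' grp' D x ∧ gp M' grp' D x = c ∧ head M.φ a₀ O L (M.α x)) ∨
      (¬ M'.Smooth (Sum.inl (M.φ x)) ∧ ¬ head M.φ a₀ O L (M.φ x) ∧
      ¬ O x ∧ gp M' grp' D x = c ∧ ¬ badF M' grp' D (fc M' x)))) ?_) ?_
  · rintro x ⟨h1, h2, h3, h4⟩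
    by_cases h5 : head M.φ a₀ O L (M.φ x)
    · exact Or.inl ⟨h1, h5, h2⟩
    right
    have h6 : fc M' (M.φ x) = fc M' x := face_inl hS x h5
    by_cases h7 : M'.Smooth (Sum.inl (M.φ x))
    · left
      obtain ⟨h8, h9⟩ := smooth_reg hS x h5 h7
      -- the partners are consecutive in the same sector
      have h10 : M.φ (M.α (M.φ x)) ∉ St M a₀ O L := by rw [h8]; exact h9
      have h11 : fc M' (M.α x) = fc M' (M.α (M.φ x)) := by
        unfold fc
        rw [← h8, ← hS.inl_not _ h10]
        exact Quotient.sound (sameCycle_step _ _).symm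
      have h12 : O (M.α (M.φ x)) ↔ O (M.α x) := by rw [← h8, hO]
      have h13 : gl M' grp' D (M.φ x) ↔ gl M' grp' D x := by
        unfold gl
        rw [h6, ← h11, h12, hO]
      have h14 : gl M' grp' D x := by
        rcases h3 with h | h
        · exact h
        · exact h13.1 h
      refine ⟨h14, h2, ?_⟩
      by_contra h15
      exact h4 ⟨h5, h15, h14, h13.2 h14, h8⟩
    · right
      refine ⟨h7, h5, h1, h2, ?_⟩
      rcases h3 with h | h
      · exact h.2.2.1
      · rw [← h6]; exact h.2.2.1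
  · refine (card_or _ _).trans ?_
    have := card_or (fun x => gl M' grp' D x ∧ gp M' grp' D x = c ∧ head M.φ a₀ O L (M.α x))
      (fun x => ¬ M'.Smooth (Sum.inl (M.φ x)) ∧ ¬ head M.φ a₀ O L (M.φ x) ∧
      ¬ O x ∧ gp M' grp' D x = c ∧ ¬ badF M' grp' D (fc M' x))
    omega

include hO hL hS in
theorem unglued_bound :
    Nat.card {x // ¬ O x ∧ ¬ gl M' grp' D x} ≤
      Nat.card {x // O x} + 4 * L * Nat.card {f // badF M' grp' D f} := by
  have h1 : Nat.card {x // ¬ O x ∧ badF M' grp' D (fc M' x)} ≤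
      2 * L * Nat.card {f // badF M' grp' D f} := by
    refine (sector_card (φ := M.φ) (a₀ := a₀) hO hL (fun x => badF M' grp' D (fc M' x)) ?_).trans
      (Nat.mul_le_mul_left _ ?_)
    · intro x hx h
      have := face_hd hO hL hS x hx
      unfold fc
      rw [this]
      exact h
    · refine card_map (fc M') (fun x hx => hx.2) ?_
      rintro x y ⟨hx, -⟩ ⟨hy, -⟩ h
      exact head_inj hO hL hS hx hy h
  have h2 : Nat.card {x // ¬ O x ∧ ¬ gl M' grp' D x} ≤
      Nat.card {x // O (M.α x)} + (Nat.card {x // ¬ O x ∧ badF M' grp' D (fc M' x)} +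
        Nat.card {x // ¬ O (M.α x) ∧ badF M' grp' D (fc M' (M.α x))}) := by
    refine le_trans (card_mono (q := fun x => O (M.α x) ∨ ((¬ O x ∧ badF M' grp' D (fc M' x)) ∨
      (¬ O (M.α x) ∧ badF M' grp' D (fc M' (M.α x))))) ?_) ((card_or _ _).trans
      (Nat.add_le_add_left (card_or _ _) _))
    rintro x ⟨h1, h2⟩
    by_cases h3 : O (M.α x)
    · exact Or.inl h3
    right
    by_cases h4 : badF M' grp' D (fc M' x)
    · exact Or.inl ⟨h1, h4⟩
    right
    refine ⟨h3, ?_⟩
    by_contra h5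
    exact h2 ⟨h1, h3, h4, h5⟩
  have h3 : Nat.card {x // O (M.α x)} ≤ Nat.card {x // O x} :=
    card_map M.α (fun x hx => hx) (fun x y _ _ h => M.α.injective h)
  have h4 : Nat.card {x // ¬ O (M.α x) ∧ badF M' grp' D (fc M' (M.α x))} ≤
      Nat.card {x // ¬ O x ∧ badF M' grp' D (fc M' x)} :=
    card_map M.α (fun x hx => hx) (fun x y _ _ h => M.α.injective h)
  have h5 : 4 * L * Nat.card {f // badF M' grp' D f} =
      2 * L * Nat.card {f // badF M' grp' D f} + 2 * L * Nat.card {f // badF M' grp' D f} := by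
    ring
  omega

end Main

end HM

open HM in
theorem hypStatementE : HypStatementE := by
  intro ε C hε
  -- constants
  have hC1 : (0 : ℝ) < C + 1 := by positivity
  obtain ⟨K₁, hK₁⟩ := hyper (ε / (24 * (C + 1))) (by positivity)
  obtain ⟨D, hD⟩ := exists_nat_gt (144 * (C + 1) / ε)
  have hD0 : (0 : ℝ) < D := lt_trans (by positivity) hD
  refine ⟨K₁ * D + 2 * (K₁ + 1), ?_⟩
  intro X _ φ α O E a₀ g L hg0 hgL hLC hinv hne hP hO hO1 hE hE1 hE2 hd1 hg
  have hL : 0 < L := lt_of_lt_of_le hg0 hgL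
  let M : PMap X := ⟨φ, α, hinv, hne, hP⟩
  obtain ⟨M', s1, s2, s3, s4, s5, s6⟩ := sectors M (St M a₀ O L)
  have hS : StarOf M (St M a₀ O L) M' := ⟨s1, s2, s3, s4, s5, s6⟩
  obtain ⟨grp', hadj, hnone, hsome⟩ := hK₁ _ M'
  have hOM : ∀ x, O (M.φ x) ↔ O x := hO
  refine ⟨head φ a₀ O L, gl M' grp' D, gp M' grp' D, ?_, ?_, ?_⟩
  · constructor
    · intro x hx; exact hx.1
    · intro x hx; exact head_lt hO hL x hx
    · intro x hx i h0 hi h; exact head_ge x hx i h0 hi h
    · intro x hx h
      exact gp_congr (hO x) (face_inl hS x h)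
    · intro c
      rw [ncard_eq]
      refine (heads_in_group hOM hL hS grp' D K₁ hsome c).trans ?_
      have := Nat.zero_le (K₁ * D)
      omega
    · intro x hx; exact hx.1
    · intro x hx
      refine ⟨hx.2.1, ?_, hx.2.2.2, ?_⟩
      · change ¬ O (α (α x)); rw [hinv]; exact hx.1
      · change ¬ badF M' grp' D (fc M' (α (α x))); rw [hinv]; exact hx.2.2.1
    · intro x hx
      exact gl_grp hS grp' D hadj x hx
    · intro c
      rw [ncard_eq]
      exact breaks_bound hOM hL hS grp' D K₁ hsome hadj c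
  · intro a ha h
    exact head_base a ha h
  · rw [ncard_eq, ncard_eq, ncard_eq]
    have h1 := unglued_bound (M := M) hOM hL hS grp' D
    -- number of bad faces
    have h2 : Nat.card {f // badF M' grp' D f} ≤ Nat.card {f // grp' f = none} +
        Nat.card {f // D < Nat.card {y // ¬ M'.Smooth y ∧ M'.face y = f}} := card_or _ _
    have h3 : D * Nat.card {f // D < Nat.card {y // ¬ M'.Smooth y ∧ M'.face y = f}} ≤
        6 * Nat.card M'.Face :=
      (card_fib_ge M'.face (fun y => ¬ M'.Smooth y) D).trans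
        (euler_corners M' (star_deg hOM hL hS hd1))
    have h4 := card_face_le hOM hL hS hO1
    have h5 : g * Nat.card {x // head φ a₀ O L x} ≤ 2 * Nat.card {x // ¬ O x} :=
      heads_card_E hO hE hE1 g hgL hE2 hg
    rcases Nat.eq_zero_or_pos (Nat.card {x // ¬ O x}) with h0 | h0
    · -- no inner dart
      have h6 : Nat.card {x // ¬ O x ∧ ¬ gl M' grp' D x} ≤ Nat.card {x // ¬ O x} :=
        card_mono fun x hx => hx.1
      have h7 : Nat.card {x // ¬ O x ∧ ¬ gl M' grp' D x} = 0 := by omega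
      have h8 : (Nat.card {x // ¬ O x ∧ ¬ gl M' grp' D x} : ℝ) = 0 := by exact_mod_cast h7
      refine le_trans (le_of_eq h8) ?_
      positivity
    · -- number of faces
      have h6 : g ≤ Nat.card {x // ¬ O x} := by
        have key : ∀ x, ¬ O x → ¬ E x → g ≤ Nat.card {x // ¬ O x} := by
          intro x hxO hxE
          have : Function.Injective (fun i : Fin g => (⟨(φ ^ (i : ℕ)) x,
              by rw [O_pow hO]; exact hxO⟩ : {x // ¬ O x})) := by
            intro i j hij
            have hij' : (φ ^ (i : ℕ)) x = (φ ^ (j : ℕ)) x := congrArg Subtype.val hij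
            have key : ∀ m n : ℕ, m < n → n < g → (φ ^ m) x ≠ (φ ^ n) x := by
              intro m n hmn hn h
              obtain ⟨k, rfl⟩ := Nat.exists_eq_add_of_lt hmn
              rw [add_assoc, pow_add, Perm.mul_apply] at h
              exact hg x hxO hxE (k + 1) (Nat.succ_pos _) (by omega) ((φ ^ m).injective h).symm
            rcases lt_trichotomy (i : ℕ) (j : ℕ) with h | h | h
            · exact (key _ _ h j.2 hij').elim
            · exact Fin.ext h
            · exact (key _ _ h i.2 hij'.symm).elim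
          have := Nat.card_le_card_of_injective _ this
          rwa [Nat.card_fin] at this
        rcases hE2 with ⟨x, hxE, hxO⟩ | h
        · exact key x hxO hxE
        · obtain ⟨⟨x, hx⟩⟩ := (Nat.card_pos_iff.1 h0).1
          exact key x hx (h x)
      have h7 : g * Nat.card M'.Face ≤ 3 * Nat.card {x // ¬ O x} := by
        have h8 : g * Nat.card M'.Face ≤ g * (Nat.card {x // head φ a₀ O L x} + 1) :=
          Nat.mul_le_mul_left _ h4
        rw [mul_add, mul_one] at h8
        omega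
      -- real computation
      set n : ℝ := (Nat.card {x // ¬ O x} : ℝ) with hn
      set F : ℝ := (Nat.card M'.Face : ℝ) with hF
      have r1 : (Nat.card {x // ¬ O x ∧ ¬ gl M' grp' D x} : ℝ) ≤
          Nat.card {x // O x} + 4 * L * Nat.card {f // badF M' grp' D f} := by exact_mod_cast h1
      have r2 : (Nat.card {f // badF M' grp' D f} : ℝ) ≤ Nat.card {f // grp' f = none} +
        Nat.card {f // D < Nat.card {y // ¬ M'.Smooth y ∧ M'.face y = f}} := by exact_mod_cast h2
      have r3 : (D : ℝ) * Nat.card {f // D < Nat.card {y // ¬ M'.Smooth y ∧ M'.face y = f}} ≤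
        6 * F := by rw [hF]; exact_mod_cast h3
      have r7 : (g : ℝ) * F ≤ 3 * n := by rw [hF, hn]; exact_mod_cast h7
      have rL : (L : ℝ) ≤ C * g := by exact_mod_cast hLC
      have hF0 : 0 ≤ F := by positivity
      have hn0 : 0 ≤ n := by positivity
      have r3' : (Nat.card {f // D < Nat.card {y // ¬ M'.Smooth y ∧ M'.face y = f}} : ℝ) ≤
          6 * F / D := by
        rw [le_div_iff₀ hD0]; linarith
      have r4 : (Nat.card {f // badF M' grp' D f} : ℝ) ≤
          ε / (24 * (C + 1)) * F + 6 * F / D := by linarith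
      have r5 : 6 * F / D ≤ ε / (24 * (C + 1)) * F := by
        rw [div_le_iff₀ hD0]
        have h9 : 144 * (C + 1) < D * ε := by
          rw [div_lt_iff₀ hε] at hD
          exact hD
        have h10 : 6 ≤ ε / (24 * (C + 1)) * D := by
          rw [div_mul_eq_mul_div, le_div_iff₀ (by positivity)]
          nlinarith
        nlinarith
      have r6 : (Nat.card {f // badF M' grp' D f} : ℝ) ≤ ε / (12 * (C + 1)) * F := by
        have h9 : ε / (12 * (C + 1)) = 2 * (ε / (24 * (C + 1))) := by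
          field_simp
          ring
        rw [h9]
        linarith
      have r8 : (4 * L * Nat.card {f // badF M' grp' D f} : ℝ) ≤ ε * n := by
        have hLr : (0 : ℝ) ≤ L := by positivity
        calc (4 * L * Nat.card {f // badF M' grp' D f} : ℝ)
            ≤ 4 * (C * g) * (ε / (12 * (C + 1)) * F) := by
              apply mul_le_mul _ r6 (by positivity) (by positivity)
              linarith
          _ = ε * (C / (C + 1)) * ((g * F) / 3) := by
              field_simp
              ring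
          _ ≤ ε * 1 * ((3 * n) / 3) := by
              apply mul_le_mul
              · apply mul_le_mul_of_nonneg_left _ hε.le
                rw [div_le_one hC1]
                linarith
              · linarith
              · positivity
              · positivity
          _ = ε * n := by ring
      have hK1 : (1 : ℝ) ≤ ((K₁ * D + 2 * (K₁ + 1) : ℕ) : ℝ) := by
        have : 1 ≤ K₁ * D + 2 * (K₁ + 1) := by omega
        exact_mod_cast this
      have hOc : (0 : ℝ) ≤ Nat.card {x // O x} := by positivity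
      nlinarith

theorem hypStatement : HypStatement := by
  intro ε C hε
  obtain ⟨K, hK⟩ := hypStatementE ε C hε
  refine ⟨K, ?_⟩
  intro X _ φ α O g L hg0 hgL hLC hinv hne hP hO hO1 hd1 hg
  obtain ⟨head, glued, grp, h1, -, h3⟩ := hK X φ α O (fun _ => False) none g L hg0 hgL hLC hinv hne
    hP hO hO1 (fun _ => Iff.rfl) (fun _ _ h => h.elim) (Or.inr fun _ h => h) hd1
    (fun x hx _ => hg x hx)
  exact ⟨head, glued, grp, h1, h3⟩

end Crest.Agent.R177
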