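import Crest.Agent.R177.GeomOpen
import Crest.Agent.R177.GeomFrame
import Crest.Agent.R177.HypMain

/-!
# Rows 177/184, GEOM (captain helper427): from the local inequality to the isoperimetric inequality
-/

set_option autoImplicit false

open scoped Classical

namespace Crest.Agent.R177.Geom

open Equiv
open Crest.Agent.R199 (PAct)

section Group

variable {S V X : Type} [Fintype X] {A : PAct S V} (D : Diag A X) {head glued : X → Prop}
  {grp : X → ℕ} {L K : ℕ} (hG : Grouping D.φ D.α D.out head glued grp L K)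

include hG in
theorem grp_of_sgl {y : X} (hy : Sgl D.φ head y) : ∀ i : ℕ, grp ((D.φ ^ i) y) = grp y ∧
    ¬ D.out ((D.φ ^ i) y) := by
  intro i
  induction i with
  | zero => exact ⟨rfl, hG.head_out _ hy.1⟩
  | succ i ih =>
    have e : (D.φ ^ (i + 1)) y = D.φ ((D.φ ^ i) y) := by rw [pow_succ']; rfl
    refine ⟨?_, ?_⟩
    · by_cases h : head ((D.φ ^ (i + 1)) y)
      · rw [hy.2 _ h]
      · rw [e] at h ⊢
        rw [hG.grp_const _ ih.2 h, ih.1]
    · rw [e, D.out_φ]; exact ih.2

include hG in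
theorem grp_step {x : X} (hx : ¬ D.out x) (h : ¬ head (D.φ x) ∨ Sgl D.φ head (D.φ x)) :
    grp (D.φ x) = grp x := by
  rcases h with h | h
  · exact hG.grp_const _ hx h
  · have h1 := (grp_of_sgl D hG h (orderOf D.φ - 1)).1
    have h2 : (D.φ ^ (orderOf D.φ - 1)) (D.φ x) = x := by
      have h3 : D.φ ^ (orderOf D.φ - 1) * D.φ = 1 := by
        rw [← pow_succ, Nat.sub_add_cancel (orderOf_pos D.φ), pow_orderOf_eq_one]
      have := congrArg (fun p : Perm X => p x) h3
      simpa using this
    rw [h2] at h1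
    exact h1.symm

include hG in
theorem reg_mem {c : ℕ} {x : X} (hx : ¬ D.out x ∧ grp x = c)
    (h : RegularCorner D.φ D.α head glued (D.φ.symm x)) :
    ¬ D.out (D.α (D.φ.symm x)) ∧ grp (D.α (D.φ.symm x)) = c := by
  obtain ⟨h1, h2, h3, h4, h5⟩ := h
  refine ⟨hG.glued_out _ (hG.glued_symm _ h3), ?_⟩
  rw [hG.glued_grp _ h3]
  have h6 := hG.grp_const (D.φ.symm x) (hG.glued_out _ h3) h1
  rw [Equiv.apply_symm_apply] at h6
  rw [← h6, hx.2]

/-- successor -/
noncomputable def nxt (c : ℕ) (x : GD D.out grp c) : Option (GD D.out grp c) :=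
  if h : ¬ head (D.φ x.1) ∨ Sgl D.φ head (D.φ x.1) then
    some ⟨D.φ x.1, fun ho => x.2.1 ((D.out_φ _).1 ho), (grp_step D hG x.2.1 h).trans x.2.2⟩
  else none

/-- mate -/
noncomputable def mt (c : ℕ) (x : GD D.out grp c) : Option (GD D.out grp c) :=
  if h : RegularCorner D.φ D.α head glued (D.φ.symm x.1) then
    some ⟨D.α (D.φ.symm x.1), reg_mem D hG x.2 h⟩
  else none

theorem nxt_some {c : ℕ} (x y : GD D.out grp c) : nxt D hG c x = some y ↔
    (D.φ x.1 = y.1 ∧ (¬ head y.1 ∨ Sgl D.φ head y.1)) := by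
  unfold nxt
  split_ifs with h
  · constructor
    · intro h1
      have h2 : D.φ x.1 = y.1 := congrArg Subtype.val (Option.some_injective _ h1)
      exact ⟨h2, h2 ▸ h⟩
    · rintro ⟨h1, h2⟩
      exact congrArg some (Subtype.ext h1)
  · constructor
    · intro h1; cases h1
    · rintro ⟨h1, h2⟩
      rw [← h1] at h2
      exact absurd h2 h

theorem mt_some {c : ℕ} (x y : GD D.out grp c) : mt D hG c x = some y ↔
    (RegularCorner D.φ D.α head glued (D.φ.symm x.1) ∧ D.α (D.φ.symm x.1) = y.1) := by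
  unfold mt
  split_ifs with h
  · constructor
    · intro h1
      exact ⟨h, congrArg Subtype.val (Option.some_injective _ h1)⟩
    · rintro ⟨h1, h2⟩
      exact congrArg some (Subtype.ext h2)
  · constructor
    · intro h1; cases h1
    · rintro ⟨h1, h2⟩
      exact absurd h1 h

theorem mt_ne_none {c : ℕ} (x : GD D.out grp c) : mt D hG c x ≠ none ↔
    RegularCorner D.φ D.α head glued (D.φ.symm x.1) := by
  unfold mt
  split_ifs with h
  · simp [h]
  · simp [h]

/-- the pre-configuration of a group -/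
noncomputable def pre (hR : D.Reduced) (c : ℕ) : Pre A (GD D.out grp c) where
  nx := nxt D hG c
  inj := by
    intro x y z hx hy
    rw [nxt_some] at hx hy
    exact Subtype.ext (D.φ.injective (hx.1.trans hy.1.symm))
  nd := fun x => D.node x.1
  nd' := fun x => D.node (D.φ x.1)
  lab := fun x => D.lab x.1
  mate := mt D hG c
  step := fun x => D.node_step x.1 x.2.1
  glueN := by
    intro x y h
    rw [nxt_some] at h
    rw [h.1]
  red := by
    intro x y h
    rw [nxt_some] at h
    rw [← h.1]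
    exact hR.2 x.1
  mate_symm := by
    intro x x' h
    rw [mt_some] at h ⊢
    obtain ⟨⟨h1, h2, h3, h4, h5⟩, h6⟩ := h
    set y := D.φ.symm x.1 with hy
    have hyx : D.φ y = x.1 := Equiv.apply_symm_apply _ _
    -- the corner before `x' = α y` is at `y' = α x`
    have h7 : D.φ.symm x'.1 = D.α x.1 := by
      rw [← h6, Equiv.symm_apply_eq, ← hyx]
      exact h5.symm
    rw [h7]
    refine ⟨⟨?_, ?_, ?_, ?_, ?_⟩, ?_⟩
    · rw [← hyx, h5]; exact h2
    · rw [D.inv, ← hyx]; exact h1
    · rw [← hyx]; exact hG.glued_symm _ h4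
    · rw [← hyx, h5]; exact hG.glued_symm _ h3
    · rw [← hyx, h5, D.inv, D.inv]
    · rw [D.inv]
  mate_corner := by
    intro x x' h
    rw [mt_some] at h
    obtain ⟨⟨h1, h2, h3, h4, h5⟩, h6⟩ := h
    have hyx : D.φ (D.φ.symm x.1) = x.1 := Equiv.apply_symm_apply _ _
    have h7 : ¬ D.out (D.φ.symm x.1) := hG.glued_out _ h3
    have h8 := hG.grp_const _ h7 h1
    rw [hyx] at h8 h1
    refine ⟨⟨D.φ.symm x.1, h7, h8.symm.trans x.2.2⟩, ?_⟩
    rw [nxt_some]
    exact ⟨hyx, Or.inl h1⟩
  mate_lab := by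
    intro x x' y h hy
    rw [mt_some] at h
    rw [nxt_some] at hy
    have h1 : D.φ.symm x.1 = y.1 := by rw [Equiv.symm_apply_eq]; exact hy.1.symm
    rw [← h.2, h1, D.lab_α]
  mate_node := by
    intro x x' h
    rw [mt_some] at h
    obtain ⟨⟨h1, h2, h3, h4, h5⟩, h6⟩ := h
    rw [← h6]
    have h7 := hR.1 (D.φ.symm x.1) (hG.glued_out _ h3) (hG.glued_out _ (hG.glued_symm _ h3))
    rw [Equiv.apply_symm_apply] at h7
    exact fun h8 => h7 h8.symm
  mate_coh := by
    intro x x' y y' h h1 h2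
    rw [mt_some] at h h2
    rw [nxt_some] at h1 ⊢
    have h3 : D.φ.symm y.1 = x.1 := by rw [Equiv.symm_apply_eq]; exact h1.1.symm
    obtain ⟨⟨k1, k2, k3, k4, k5⟩, k6⟩ := h
    rw [Equiv.apply_symm_apply] at k5
    rw [h3] at h2
    rw [← h2.2, ← k6]
    exact ⟨k5, Or.inl k2⟩

/-! ### counts -/

/-- unglued darts of a group -/
noncomputable def ugD (O glued : X → Prop) (grp : X → ℕ) (c : ℕ) : ℕ :=
  (Finset.univ.filter fun x => (¬ O x ∧ ¬ glued x) ∧ grp x = c).card

include hG in
/-- breaks of a group -/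
theorem breaks_card (c : ℕ) : Nat.card {x : X // ¬ D.out x ∧ grp x = c ∧ (glued x ∨ glued (D.φ x)) ∧
    ¬ RegularCorner D.φ D.α head glued x} ≤ K := hG.breaks c

theorem pre_ends (hR : D.Reduced) (c : ℕ) : (pre D hG hR c).ends ≤ K := by
  refine le_trans ?_ (breaks_card D hG c)
  refine Nat.card_le_card_of_injective
    (fun x : {x : GD D.out grp c // (pre D hG hR c).mate x ≠ none ∧
      ∀ y, (pre D hG hR c).nx x = some y → (pre D hG hR c).mate y = none} =>
      (⟨x.1.1, ?_⟩ : {x : X // ¬ D.out x ∧ grp x = c ∧ (glued x ∨ glued (D.φ x)) ∧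
        ¬ RegularCorner D.φ D.α head glued x})) ?_
  · obtain ⟨⟨x, hx1, hx2⟩, h1, h2⟩ := x
    have h3 : RegularCorner D.φ D.α head glued (D.φ.symm x) := (mt_ne_none D hG _).1 h1
    have h4 : glued x := by
      have := h3.2.2.2.1
      rwa [Equiv.apply_symm_apply] at this
    refine ⟨hx1, hx2, Or.inl h4, fun h5 => ?_⟩
    have h6 : ¬ D.out (D.φ x) := fun ho => hx1 ((D.out_φ _).1 ho)
    have h7 : nxt D hG c ⟨x, hx1, hx2⟩ = some ⟨D.φ x, h6, (hG.grp_const _ hx1 h5.1).trans hx2⟩ := by
      rw [nxt_some]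
      exact ⟨rfl, Or.inl h5.1⟩
    have h8 := h2 _ h7
    have h9 : mt D hG c ⟨D.φ x, h6, (hG.grp_const _ hx1 h5.1).trans hx2⟩ ≠ none := by
      rw [mt_ne_none]
      show RegularCorner D.φ D.α head glued (D.φ.symm (D.φ x))
      rw [Equiv.symm_apply_apply]
      exact h5
    exact h9 h8
  · intro x y h
    have h' := congrArg (fun z => z.1) h
    exact Subtype.ext (Subtype.ext h')

theorem pre_unglued (hR : D.Reduced) (c : ℕ) :
    (pre D hG hR c).unglued ≤ K + ugD D.out glued grp c := by
  have h0 : ugD D.out glued grp c =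
      Nat.card {x : X // (¬ D.out x ∧ ¬ glued x) ∧ grp x = c} := by
    rw [Nat.card_eq_fintype_card, Fintype.card_subtype]; rfl
  rw [h0]
  refine le_trans ?_ (Nat.add_le_add_right (breaks_card D hG c) _)
  rw [← Nat.card_sum]
  refine Nat.card_le_card_of_injective
    (fun x : {x : GD D.out grp c // (∃ y, (pre D hG hR c).nx y = some x) ∧
      (pre D hG hR c).mate x = none} =>
      if h : glued (D.φ.symm x.1.1) then
        (Sum.inl ⟨D.φ.symm x.1.1, ?_⟩ : {x : X // ¬ D.out x ∧ grp x = c ∧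
          (glued x ∨ glued (D.φ x)) ∧ ¬ RegularCorner D.φ D.α head glued x} ⊕
          {x : X // (¬ D.out x ∧ ¬ glued x) ∧ grp x = c})
      else Sum.inr ⟨D.φ.symm x.1.1, ?_⟩) ?_
  · obtain ⟨⟨x, hx1, hx2⟩, ⟨y, hy⟩, h2⟩ := x
    have hy' : nxt D hG c y = some ⟨x, hx1, hx2⟩ := hy
    rw [nxt_some] at hy'
    have h3 : D.φ.symm x = y.1 := by rw [Equiv.symm_apply_eq]; exact hy'.1.symm
    have h4 : ¬ RegularCorner D.φ D.α head glued (D.φ.symm x) := fun h5 =>
      ((mt_ne_none D hG (⟨x, hx1, hx2⟩ : GD D.out grp c)).2 h5) h2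
    refine ⟨?_, ?_, Or.inl h, h4⟩
    · rw [h3]; exact y.2.1
    · rw [h3]; exact y.2.2
  · obtain ⟨⟨x, hx1, hx2⟩, ⟨y, hy⟩, h2⟩ := x
    have hy' : nxt D hG c y = some ⟨x, hx1, hx2⟩ := hy
    rw [nxt_some] at hy'
    have h3 : D.φ.symm x = y.1 := by rw [Equiv.symm_apply_eq]; exact hy'.1.symm
    refine ⟨⟨?_, h⟩, ?_⟩
    · rw [h3]; exact y.2.1
    · rw [h3]; exact y.2.2
  · intro x y hxy
    have key : D.φ.symm x.1.1 = D.φ.symm y.1.1 := by
      by_cases hx : glued (D.φ.symm x.1.1)
      · by_cases hy : glued (D.φ.symm y.1.1)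
        · simp only [hx, hy, dif_pos] at hxy
          exact congrArg Subtype.val (Sum.inl_injective hxy)
        · simp only [hx, hy, dif_pos, dif_neg, not_false_iff] at hxy
          cases hxy
      · by_cases hy : glued (D.φ.symm y.1.1)
        · simp only [hx, hy, dif_pos, dif_neg, not_false_iff] at hxy
          cases hxy
        · simp only [hx, hy, dif_neg, not_false_iff] at hxy
          exact congrArg Subtype.val (Sum.inr_injective hxy)
    exact Subtype.ext (Subtype.ext (D.φ.symm.injective key))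

theorem card_le (hR : D.Reduced) (c : ℕ) :
    Nat.card (GD D.out grp c) ≤ (pre D hG hR c).glued + (K + ugD D.out glued grp c) := by
  have h0 : ugD D.out glued grp c =
      Nat.card {x : X // (¬ D.out x ∧ ¬ glued x) ∧ grp x = c} := by
    rw [Nat.card_eq_fintype_card, Fintype.card_subtype]; rfl
  rw [h0]
  refine le_trans ?_ (Nat.add_le_add_left (Nat.add_le_add_right (breaks_card D hG c) _) _)
  rw [← Nat.card_sum]
  unfold Pre.glued
  rw [← Nat.card_sum]
  refine Nat.card_le_card_of_injective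
    (fun x : GD D.out grp c =>
      if h : RegularCorner D.φ D.α head glued x.1 then
        (Sum.inl ⟨⟨D.φ x.1, ?_⟩, ?_⟩ : {x : GD D.out grp c // (pre D hG hR c).mate x ≠ none} ⊕
          ({x : X // ¬ D.out x ∧ grp x = c ∧ (glued x ∨ glued (D.φ x)) ∧
            ¬ RegularCorner D.φ D.α head glued x} ⊕
          {x : X // (¬ D.out x ∧ ¬ glued x) ∧ grp x = c}))
      else if h' : glued x.1 then Sum.inr (Sum.inl ⟨x.1, x.2.1, x.2.2, Or.inl h', h⟩)
      else Sum.inr (Sum.inr ⟨x.1, ⟨x.2.1, h'⟩, x.2.2⟩)) ?_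
  · exact ⟨fun ho => x.2.1 ((D.out_φ _).1 ho), (hG.grp_const _ x.2.1 h.1).trans x.2.2⟩
  · show mt D hG c _ ≠ none
    rw [mt_ne_none]
    show RegularCorner D.φ D.α head glued (D.φ.symm (D.φ x.1))
    rw [Equiv.symm_apply_apply]
    exact h
  · intro x y hxy
    have key : x.1 = y.1 := by
      by_cases hx : RegularCorner D.φ D.α head glued x.1
      · by_cases hy : RegularCorner D.φ D.α head glued y.1
        · simp only [hx, hy, dif_pos] at hxy
          exact D.φ.injective (congrArg (fun z => z.1.1) (Sum.inl_injective hxy))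
        · simp only [hx, hy, dif_pos, dif_neg, not_false_iff] at hxy
          split_ifs at hxy
      · by_cases hy : RegularCorner D.φ D.α head glued y.1
        · simp only [hx, hy, dif_pos, dif_neg, not_false_iff] at hxy
          split_ifs at hxy
        · simp only [hx, hy, dif_neg, not_false_iff] at hxy
          split_ifs at hxy with h1 h2 h2
          · simpa using hxy
          · exact absurd (Sum.inr_injective hxy) (by simp)
          · exact absurd (Sum.inr_injective hxy) (by simp)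
          · simpa using hxy
    exact Subtype.ext key

theorem pre_openN (hR : D.Reduced) (c : ℕ) : (pre D hG hR c).openN ≤
    (Finset.univ.filter fun x => (head x ∧ ¬ Sgl D.φ head x) ∧ grp x = c).card := by
  have h0 : (Finset.univ.filter fun x => (head x ∧ ¬ Sgl D.φ head x) ∧ grp x = c).card =
      Nat.card {x : X // (head x ∧ ¬ Sgl D.φ head x) ∧ grp x = c} := by
    rw [Nat.card_eq_fintype_card, Fintype.card_subtype]
  rw [h0]
  refine Nat.card_le_card_of_injective
    (fun x : {x : GD D.out grp c // ∀ y, (pre D hG hR c).nx y ≠ some x} =>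
      (⟨x.1.1, ?_⟩ : {x : X // (head x ∧ ¬ Sgl D.φ head x) ∧ grp x = c})) ?_
  · obtain ⟨⟨x, hx1, hx2⟩, h1⟩ := x
    have hyx : D.φ (D.φ.symm x) = x := Equiv.apply_symm_apply _ _
    have ho : ¬ D.out (D.φ.symm x) := fun h => hx1 (by
      have := (D.out_φ (D.φ.symm x)).2 h
      rwa [hyx] at this)
    have key : ¬ (¬ head x ∨ Sgl D.φ head x) := by
      intro h2
      have h3 : grp x = grp (D.φ.symm x) := by
        have := grp_step D hG ho (by rw [hyx]; exact h2)
        rwa [hyx] at this
      refine h1 ⟨D.φ.symm x, ho, h3.symm.trans hx2⟩ ?_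
      show nxt D hG c _ = _
      rw [nxt_some]
      exact ⟨hyx, h2⟩
    rw [not_or, not_not] at key
    exact ⟨key, hx2⟩
  · intro x y h
    have h' := congrArg (fun z => z.1) h
    exact Subtype.ext (Subtype.ext h')

include hG in
/-- the inequality of one group -/
theorem group_ineq (hR : D.Reduced) (c : ℕ) {κ C P' η' : ℝ} (hκ : 0 < κ) (hC : 0 < C) (hP : 0 < P')
    (hloc : LocalIneq A K K (2 * L) κ C P' η') :
    κ * ((Nat.card (GD D.out grp c) : ℝ) - (K + ugD D.out glued grp c)) ≤
      C * (K + ugD D.out glued grp c) + P' *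
        ((Finset.univ.filter fun x => (head x ∧ ¬ Sgl D.φ head x) ∧ grp x = c).card : ℝ) + η' := by
  obtain ⟨F, cf, e, hN, -, -, -, -, -, h1, h2, h3, h4, -⟩ := (pre D hG hR c).exists_conf
  have hfb := frame_bounds (L := L) (K := K) D.out_φ hG c (pre D hG hR c).nx
    (fun x y => nxt_some D hG x y) F e hN
  have h5 := hloc F cf hfb.1 hfb.2 (by rw [h3]; exact pre_ends D hG hR c)
  rw [h1, h2, h4] at h5
  have h6 : ((pre D hG hR c).unglued : ℝ) ≤ K + ugD D.out glued grp c := by
    exact_mod_cast pre_unglued D hG hR c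
  have h7 : (Nat.card (GD D.out grp c) : ℝ) ≤
      (pre D hG hR c).glued + (K + ugD D.out glued grp c) := by
    exact_mod_cast card_le D hG hR c
  have h8 : ((pre D hG hR c).openN : ℝ) ≤
      ((Finset.univ.filter fun x => (head x ∧ ¬ Sgl D.φ head x) ∧ grp x = c).card : ℝ) := by
    exact_mod_cast pre_openN D hG hR c
  have h9 := mul_le_mul_of_nonneg_left h6 hC.le
  have h10 := mul_le_mul_of_nonneg_left h8 hP.le
  have h11 : κ * ((Nat.card (GD D.out grp c) : ℝ) - (K + ugD D.out glued grp c)) ≤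
      κ * (pre D hG hR c).glued := mul_le_mul_of_nonneg_left (by linarith) hκ.le
  linarith

end Group

end Crest.Agent.R177.Geom

namespace Crest.Agent.R177

open Geom
open Crest.Agent.R199 (PAct)

/-- a closed face path is a closed reduced path of `A` -/
theorem Geom.face_len {S V X : Type} {A : PAct S V} (D : Diag A X) (hR : D.Reduced) {g : ℕ}
    (hg : Girth A g) (x : X) (hx : ¬ D.out x) (i : ℕ) (h0 : 0 < i) (hi : i < g) :
    (D.φ ^ i) x ≠ x := by
  intro hcon
  have hout : ∀ j : ℕ, ¬ D.out ((D.φ ^ j) x) := by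
    intro j
    induction j with
    | zero => exact hx
    | succ j ih =>
      have e : (D.φ ^ (j + 1)) x = D.φ ((D.φ ^ j) x) := by rw [pow_succ']; rfl
      rw [e, D.out_φ]; exact ih
  -- the word read from `x`
  let w : X → ℕ → List (S × Bool) := fun y n => (List.range n).map fun j => D.lab ((D.φ ^ j) y)
  have hw : ∀ (n : ℕ) (y : X), w y (n + 1) = D.lab y :: w (D.φ y) n := by
    intro n y
    simp only [w, List.range_succ_eq_map, List.map_cons, List.map_map]
    rfl
  have hread : ∀ (n : ℕ) (y : X), (∀ j, ¬ D.out ((D.φ ^ j) y)) →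
      A.read (w y n) (D.node y) = some (D.node ((D.φ ^ n) y)) := by
    intro n
    induction n with
    | zero => intro y _; rfl
    | succ n ih =>
      intro y hy
      rw [hw, PAct.read, D.node_step y (hy 0)]
      show A.read (w (D.φ y) n) (D.node (D.φ y)) = _
      rw [ih (D.φ y) (fun j => by
        have := hy (j + 1)
        rwa [pow_succ] at this)]
      rfl
  have hred : ∀ (n : ℕ) (y : X), FreeGroup.IsReduced (w y n) := by
    intro n
    induction n with
    | zero => intro y; exact FreeGroup.IsReduced.nil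
    | succ n ih =>
      intro y
      cases n with
      | zero => rw [hw]; exact FreeGroup.IsReduced.singleton
      | succ n =>
        rw [hw, hw]
        rw [FreeGroup.isReduced_cons_cons]
        refine ⟨?_, ?_⟩
        · intro h1
          by_contra h2
          apply hR.2 y
          apply Prod.ext
          · exact h1.symm
          · show (D.lab (D.φ y)).2 = !(D.lab y).2
            revert h2
            cases (D.lab y).2 <;> cases (D.lab (D.φ y)).2 <;> simp
        · rw [← hw]; exact ih _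
  have h1 := hread i x hout
  rw [hcon] at h1
  have h2 := hg _ _ (hred i x) (by
    obtain ⟨j, rfl⟩ : ∃ j, i = j + 1 := ⟨i - 1, by omega⟩
    rw [hw]; simp) h1
  simp only [w, List.length_map, List.length_range] at h2
  omega

/-- **GEOM**: from the local inequality to the isoperimetric inequality. -/
theorem geom (κ C P : ℝ) (hκ : 0 < κ) (hC : 0 < C) (hP : 0 < P) :
    ∃ (L K D0 C' g₀ : ℕ) (η : ℝ), 0 < η ∧ ∀ (S V : Type) (A : PAct S V) (g : ℕ), g₀ ≤ g →
      Girth A g → LocalIneq A K D0 (L * g) κ C (P * g) (η * g) → Iso A C' := by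
  obtain ⟨L₁, hL₁⟩ := exists_nat_ge (8 * P / κ + 1)
  have hL₁0 : (0 : ℝ) < L₁ := lt_of_lt_of_le (by positivity) hL₁
  have hL₁1 : 1 ≤ L₁ := by exact_mod_cast hL₁0
  set ε : ℝ := κ / (8 * (κ + C)) with hε
  have hε0 : 0 < ε := by positivity
  obtain ⟨K, hK⟩ := hypStatement ε L₁ hε0
  obtain ⟨g₀, hg₀⟩ := exists_nat_ge (8 * (κ + C) * K / κ + 1)
  obtain ⟨C', hC'⟩ := exists_nat_ge (2 * (κ + C) * K / κ)
  refine ⟨2 * L₁, K, K, C', g₀, κ / 8, by positivity, ?_⟩
  intro S V A g hg hgir hloc X _ D hR hone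
  have := Fintype.ofFinite X
  have hg0 : (0 : ℝ) < g := by
    have h1 : (g₀ : ℝ) ≤ g := by exact_mod_cast hg
    have h2 : (0 : ℝ) ≤ 8 * (κ + C) * K / κ := by positivity
    linarith
  have hg1 : 0 < g := by exact_mod_cast hg0
  obtain ⟨head, glued, grp, hG, hcount⟩ := hK X D.φ D.α D.out g (L₁ * g) hg1
    (Nat.le_mul_of_pos_left g hL₁1) le_rfl D.inv D.ne (fun a ha => D.planar a ha)
    (fun x => D.out_φ x) hone
    (fun x h => hR.2 x (by rw [h, D.lab_α]))
    (fun x hx i h0 hi => face_len D hR hgir x hx i h0 hi)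
  -- numbers
  set M : Finset X := Finset.univ.filter fun x => ¬ D.out x with hM
  set T : Finset ℕ := M.image grp with hT
  set Ng : Finset X := Finset.univ.filter fun x => ¬ D.out x ∧ ¬ glued x with hNg
  set Op : Finset X := Finset.univ.filter fun x => head x ∧ ¬ Sgl D.φ head x with hOp
  have hMT : ∀ x ∈ M, grp x ∈ T := fun x hx => Finset.mem_image_of_mem _ hx
  have hNgT : ∀ x ∈ Ng, grp x ∈ T := fun x hx => by
    rw [hNg, Finset.mem_filter] at hx
    exact hMT x (by rw [hM, Finset.mem_filter]; exact ⟨hx.1, hx.2.1⟩)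
  have hOpT : ∀ x ∈ Op, grp x ∈ T := fun x hx => by
    rw [hOp, Finset.mem_filter] at hx
    exact hMT x (by rw [hM, Finset.mem_filter]; exact ⟨hx.1, hG.head_out _ hx.2.1⟩)
  have sM := Finset.card_eq_sum_card_fiberwise hMT
  have sNg := Finset.card_eq_sum_card_fiberwise hNgT
  have sOp := Finset.card_eq_sum_card_fiberwise hOpT
  have fM : ∀ c, (M.filter fun x => grp x = c).card = Nat.card (GD D.out grp c) := by
    intro c
    rw [Nat.card_eq_fintype_card, Fintype.card_subtype, hM, Finset.filter_filter]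
  have fNg : ∀ c, (Ng.filter fun x => grp x = c).card = ugD D.out glued grp c := by
    intro c
    rw [hNg, Finset.filter_filter]; rfl
  have fOp : ∀ c, (Op.filter fun x => grp x = c).card =
      (Finset.univ.filter fun x => (head x ∧ ¬ Sgl D.φ head x) ∧ grp x = c).card := by
    intro c
    rw [hOp, Finset.filter_filter]
  -- the sum of the inequalities
  have hloc' : LocalIneq A K K (2 * (L₁ * g)) κ C (P * g) (κ / 8 * g) := by
    have e : 2 * (L₁ * g) = 2 * L₁ * g := by ring
    rw [e]; exact hloc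
  have hsum : ∑ c ∈ T, κ * (((M.filter fun x => grp x = c).card : ℝ) -
        (K + ((Ng.filter fun x => grp x = c).card : ℝ))) ≤
      ∑ c ∈ T, (C * (K + ((Ng.filter fun x => grp x = c).card : ℝ)) + P * g *
        ((Op.filter fun x => grp x = c).card : ℝ) + κ / 8 * g) := by
    refine Finset.sum_le_sum fun c _ => ?_
    rw [fM, fNg, fOp]
    exact group_ineq D hG hR c hκ hC (by positivity) hloc'
  have e1 : ∑ c ∈ T, κ * (((M.filter fun x => grp x = c).card : ℝ) -
        (K + ((Ng.filter fun x => grp x = c).card : ℝ))) =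
      κ * ((M.card : ℝ) - (K * T.card + Ng.card)) := by
    rw [← Finset.mul_sum, Finset.sum_sub_distrib, Finset.sum_add_distrib, sM, sNg,
      Finset.sum_const, nsmul_eq_mul]
    push_cast
    ring
  have e2 : ∑ c ∈ T, (C * (K + ((Ng.filter fun x => grp x = c).card : ℝ)) + P * g *
        ((Op.filter fun x => grp x = c).card : ℝ) + κ / 8 * g) =
      C * (K * T.card + Ng.card) + P * g * Op.card + κ / 8 * g * T.card := by
    rw [Finset.sum_add_distrib, Finset.sum_add_distrib, ← Finset.mul_sum, ← Finset.mul_sum,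
      Finset.sum_add_distrib, sNg, sOp, Finset.sum_const, Finset.sum_const, nsmul_eq_mul,
      nsmul_eq_mul]
    push_cast
    ring
  rw [e1, e2] at hsum
  -- bounds
  have b1 : (T.card : ℝ) * g ≤ M.card := by
    have h1 : ∀ c ∈ T, g ≤ (M.filter fun x => grp x = c).card := by
      intro c hc
      rw [fM]
      refine group_card D.out_φ hG (Nat.le_mul_of_pos_left g hL₁1)
        (fun x hx i h0 hi => face_len D hR hgir x hx i h0 hi) c ?_
      rw [hT, Finset.mem_image] at hc
      obtain ⟨x, hx, hxc⟩ := hc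
      rw [hM, Finset.mem_filter] at hx
      exact ⟨x, hx.2, hxc⟩
    have h2 : ∑ c ∈ T, g ≤ ∑ c ∈ T, (M.filter fun x => grp x = c).card := Finset.sum_le_sum h1
    rw [← sM, Finset.sum_const, smul_eq_mul] at h2
    exact_mod_cast h2
  have b2 : (Op.card : ℝ) * (L₁ * g) ≤ M.card := by
    have h1 := open_card D.out_φ hG
    rw [Nat.card_eq_fintype_card, Fintype.card_subtype, Nat.card_eq_fintype_card,
      Fintype.card_subtype] at h1
    exact_mod_cast h1
  have b3 : (Ng.card : ℝ) ≤ ε * M.card + K * (Nat.card {x // D.out x} : ℝ) := by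
    have h1 : {x | ¬ D.out x ∧ ¬ glued x}.ncard = Ng.card := by
      rw [← Nat.card_coe_set_eq]
      rw [Nat.card_eq_fintype_card]
      exact Fintype.card_subtype _
    have h2 : {x | ¬ D.out x}.ncard = M.card := by
      rw [← Nat.card_coe_set_eq]
      rw [Nat.card_eq_fintype_card]
      exact Fintype.card_subtype _
    have h3 : {x | D.out x}.ncard = Nat.card {x // D.out x} := (Nat.card_coe_set_eq _).symm
    rw [h1, h2, h3] at hcount
    exact hcount
  have hMc : Nat.card {x // ¬ D.out x} = M.card := by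
    rw [Nat.card_eq_fintype_card, Fintype.card_subtype]
  rw [hMc]
  set m : ℝ := (M.card : ℝ) with hm
  set o : ℝ := (Nat.card {x // D.out x} : ℝ) with ho
  set t : ℝ := (T.card : ℝ) with ht
  have hm0 : 0 ≤ m := Nat.cast_nonneg _
  have ho0 : 0 ≤ o := Nat.cast_nonneg _
  have ht0 : 0 ≤ t := Nat.cast_nonneg _
  have c1 : (κ + C) * (K * t) ≤ κ / 8 * m := by
    have h1 : 8 * (κ + C) * K / κ ≤ g := by
      have : (g₀ : ℝ) ≤ g := by exact_mod_cast hg
      linarith
    rw [div_le_iff₀ hκ] at h1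
    have h2 : 8 * (κ + C) * K * t ≤ g * κ * t := mul_le_mul_of_nonneg_right h1 ht0
    have h3 : κ * (t * g) ≤ κ * m := mul_le_mul_of_nonneg_left b1 hκ.le
    nlinarith
  have c2 : P * g * (Op.card : ℝ) ≤ κ / 8 * m := by
    have h1 : 8 * P / κ ≤ L₁ := by linarith
    rw [div_le_iff₀ hκ] at h1
    have h2 : 8 * P * ((Op.card : ℝ) * g) ≤ L₁ * κ * ((Op.card : ℝ) * g) :=
      mul_le_mul_of_nonneg_right h1 (by positivity)
    have h3 : κ * ((Op.card : ℝ) * (L₁ * g)) ≤ κ * m := mul_le_mul_of_nonneg_left b2 hκ.le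
    nlinarith
  have c3 : κ / 8 * g * t ≤ κ / 8 * m := by
    have : κ / 8 * (t * g) ≤ κ / 8 * m := mul_le_mul_of_nonneg_left b1 (by positivity)
    linarith
  have c4 : (κ + C) * (Ng.card : ℝ) ≤ κ / 8 * m + (κ + C) * K * o := by
    have h1 : (κ + C) * (Ng.card : ℝ) ≤ (κ + C) * (ε * m + K * o) :=
      mul_le_mul_of_nonneg_left b3 (by positivity)
    have h2 : (κ + C) * (ε * m + K * o) = κ / 8 * m + (κ + C) * K * o := by
      rw [hε]; field_simp
    linarith
  have c5 : κ / 2 * m ≤ (κ + C) * K * o := by nlinarith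
  have c6 : m ≤ C' * o := by
    have h1 : 2 * (κ + C) * K / κ * o ≤ C' * o := mul_le_mul_of_nonneg_right hC' ho0
    have h2 : m ≤ 2 * (κ + C) * K / κ * o := by
      rw [div_mul_eq_mul_div, le_div_iff₀ hκ]
      nlinarith
    linarith
  rw [hm, ho] at c6
  exact_mod_cast c6

end Crest.Agent.R177
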