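import Crest.Agent.R177.MkFrame
import Crest.Agent.R177.DefsO

/-!
# Rows 177/184: from pre-configurations on a finite type of darts to configurations (helper323)
-/

set_option autoImplicit false

open scoped Classical

namespace Crest.Agent.R177

open Crest.Agent.R199 (PAct)

/-- A configuration on a finite type of darts with a partial successor map `nx`. -/
structure Pre {S V : Type} (A : PAct S V) (D : Type) where
  nx : D → Option D
  inj : ∀ x y z, nx x = some z → nx y = some z → x = y
  /-- start node -/
  nd : D → V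
  /-- end node -/
  nd' : D → V
  lab : D → S × Bool
  mate : D → Option D
  step : ∀ x, A.st (lab x) (nd x) = some (nd' x)
  glueN : ∀ x y, nx x = some y → nd' x = nd y
  red : ∀ x y, nx x = some y → lab y ≠ hinv (lab x)
  mate_symm : ∀ x x', mate x = some x' → mate x' = some x
  mate_corner : ∀ x x', mate x = some x' → ∃ y, nx y = some x
  mate_lab : ∀ x x' y, mate x = some x' → nx y = some x → lab x' = hinv (lab y)
  mate_node : ∀ x x', mate x = some x' → nd x ≠ nd x'
  mate_coh : ∀ x x' y y', mate x = some x' → nx x = some y → mate y = some y' → nx y' = some x'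

namespace Pre

variable {S V : Type} {A : PAct S V} {D : Type} (P : Pre A D)

/-- matched corners -/
noncomputable def glued : ℕ := Nat.card {x : D // P.mate x ≠ none}

/-- unmatched corners -/
noncomputable def unglued : ℕ := Nat.card {x : D // (∃ y, P.nx y = some x) ∧ P.mate x = none}

/-- matched corners whose next corner is unmatched or does not exist -/
noncomputable def ends : ℕ :=
  Nat.card {x : D // P.mate x ≠ none ∧ ∀ y, P.nx x = some y → P.mate y = none}

/-- number of open paths -/
noncomputable def openN : ℕ := Nat.card {x : D // ∀ y, P.nx y ≠ some x}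

/-- ends at `o` -/
noncomputable def endsAt (o : V) : ℕ :=
  Nat.card {x : D // (∀ y, P.nx y ≠ some x) ∧ P.nd x = o} +
    Nat.card {x : D // P.nx x = none ∧ P.nd' x = o}

/-- **Configurations from pre-configurations.** -/
theorem exists_conf [Finite D] : ∃ (F : Frame) (c : Conf A F) (e : D ≃ F.Dart),
    (∀ x y, F.Next (e x) (e y) ↔ P.nx x = some y) ∧
    (∀ x, c.lab (e x) = P.lab x) ∧ (∀ x, c.node (F.start (e x)) = P.nd x) ∧
    (∀ x, c.node (F.stop (e x)) = P.nd' x) ∧ (∀ x, c.mate (e x) = (P.mate x).map e) ∧
    (∀ i, F.cl i = false ↔ ∀ x, P.nx x ≠ some (e.symm ⟨i, ⟨0, F.len_pos i⟩⟩)) ∧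
    c.glued = P.glued ∧ c.unglued = P.unglued ∧ c.ends = P.ends ∧ F.openN = P.openN ∧
    ∀ o, c.endsAt o = P.endsAt o := by
  obtain ⟨F, e, hN, hcl, hcl'⟩ := Mk.exists_frame P.nx P.inj
  have hN' : ∀ a b, F.Next a b ↔ P.nx (e.symm a) = some (e.symm b) := by
    intro a b
    rw [← hN, Equiv.apply_symm_apply, Equiv.apply_symm_apply]
  have hcor : ∀ x, F.IsCorner (e x) ↔ ∃ y, P.nx y = some x := by
    intro x
    constructor
    · rintro ⟨y, hy⟩
      rw [hN', Equiv.symm_apply_apply] at hy
      exact ⟨_, hy⟩
    · rintro ⟨y, hy⟩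
      exact ⟨e y, (hN _ _).2 hy⟩
  let first : ∀ i : Fin F.K, F.Dart := fun i => ⟨i, ⟨0, F.len_pos i⟩⟩
  let last : ∀ i : Fin F.K, F.Dart := fun i => ⟨i, ⟨F.len i - 1, Nat.sub_lt (F.len_pos i) one_pos⟩⟩
  let node : F.Pos → V := fun p =>
    if h : p.2.val < F.len p.1 then P.nd (e.symm ⟨p.1, ⟨p.2.val, h⟩⟩) else P.nd' (e.symm (last p.1))
  have node_start : ∀ a : F.Dart, node (F.start a) = P.nd (e.symm a) := by
    intro a
    have h : (F.start a).2.val < F.len (F.start a).1 := a.2.isLt
    show (if h : (F.start a).2.val < F.len (F.start a).1 then _ else _) = _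
    rw [dif_pos h]
    rfl
  have node_stop : ∀ a : F.Dart, node (F.stop a) = P.nd' (e.symm a) := by
    intro a
    by_cases h : (F.stop a).2.val < F.len (F.stop a).1
    · have h1 : F.Next a ⟨a.1, ⟨a.2.val + 1, h⟩⟩ := ⟨rfl, Or.inl rfl⟩
      rw [hN'] at h1
      show (if h : (F.stop a).2.val < F.len (F.stop a).1 then _ else _) = _
      rw [dif_pos h]
      exact (P.glueN _ _ h1).symm
    · show (if h : (F.stop a).2.val < F.len (F.stop a).1 then _ else _) = _
      rw [dif_neg h]
      have h1 : last a.1 = a := by
        obtain ⟨i, j⟩ := a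
        have h2 : ¬ j.val + 1 < F.len i := h
        have h3 := j.isLt
        show (⟨i, ⟨F.len i - 1, _⟩⟩ : F.Dart) = ⟨i, j⟩
        have h4 : (⟨F.len i - 1, Nat.sub_lt (F.len_pos i) one_pos⟩ : Fin (F.len i)) = j :=
          Fin.ext (by show F.len i - 1 = j.val; omega)
        rw [h4]
      show P.nd' (e.symm (last a.1)) = _
      rw [h1]
  have lastnext : ∀ i, F.cl i = true → F.Next (last i) (first i) := fun i hi =>
    ⟨rfl, Or.inr ⟨rfl, by
      show F.len i - 1 + 1 = F.len i
      have := F.len_pos i
      omega, hi⟩⟩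
  have node_zero : ∀ i, node ⟨i, 0⟩ = P.nd (e.symm (first i)) := by
    intro i
    have := node_start (first i)
    exact this
  have node_last : ∀ i, node ⟨i, Fin.last _⟩ = P.nd' (e.symm (last i)) := by
    intro i
    show (if h : (Fin.last (F.len i)).val < F.len i then _ else _) = _
    rw [dif_neg (by simp)]
  let c : Conf A F :=
    { node := node
      lab := fun a => P.lab (e.symm a)
      mate := fun a => (P.mate (e.symm a)).map e
      step := by
        intro a
        rw [node_start, node_stop]
        exact P.step _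
      closed := by
        intro i hi
        rw [node_zero, node_last]
        exact P.glueN _ _ ((hN' _ _).1 (lastnext i hi))
      red := fun a b h => P.red _ _ ((hN' _ _).1 h)
      mate_symm := by
        intro a a' h
        obtain ⟨u, hu, rfl⟩ := Option.map_eq_some_iff.1 h
        rw [Equiv.symm_apply_apply, P.mate_symm _ _ hu]
        simp
      mate_corner := by
        intro a a' h
        obtain ⟨u, hu, rfl⟩ := Option.map_eq_some_iff.1 h
        have := (hcor (e.symm a)).2 (P.mate_corner _ _ hu)
        rwa [Equiv.apply_symm_apply] at this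
      mate_lab := by
        intro a a' b h hb
        obtain ⟨u, hu, rfl⟩ := Option.map_eq_some_iff.1 h
        rw [Equiv.symm_apply_apply]
        exact P.mate_lab _ _ _ hu ((hN' _ _).1 hb)
      mate_node := by
        intro a a' h
        obtain ⟨u, hu, rfl⟩ := Option.map_eq_some_iff.1 h
        rw [node_start, node_start, Equiv.symm_apply_apply]
        exact P.mate_node _ _ hu
      mate_coh := by
        intro a a' b b' h h1 h2
        obtain ⟨u, hu, rfl⟩ := Option.map_eq_some_iff.1 h
        obtain ⟨v, hv, rfl⟩ := Option.map_eq_some_iff.1 h2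
        rw [hN]
        exact P.mate_coh _ _ _ _ hu ((hN' _ _).1 h1) hv }
  have hmate : ∀ x, c.mate (e x) = (P.mate x).map e := by
    intro x
    show (P.mate (e.symm (e x))).map e = _
    rw [Equiv.symm_apply_apply]
  have hmn : ∀ x, c.mate (e x) = none ↔ P.mate x = none := by
    intro x
    rw [hmate]; simp
  refine ⟨F, c, e, hN, ?_, ?_, ?_, hmate, hcl, ?_, ?_, ?_, ?_, ?_⟩
  · intro x
    show P.lab (e.symm (e x)) = _
    rw [Equiv.symm_apply_apply]
  · intro x
    show node (F.start (e x)) = _
    rw [node_start, Equiv.symm_apply_apply]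
  · intro x
    show node (F.stop (e x)) = _
    rw [node_stop, Equiv.symm_apply_apply]
  · refine (Nat.card_congr (e.subtypeEquiv fun x => ?_)).symm
    exact (not_congr (hmn x)).symm
  · refine (Nat.card_congr (e.subtypeEquiv fun x => ?_)).symm
    rw [hcor, hmn]
  · refine (Nat.card_congr (e.subtypeEquiv fun x => ?_)).symm
    refine and_congr (not_congr (hmn x)).symm ⟨fun h y hy => ?_, fun h y hy => ?_⟩
    · rw [hN', Equiv.symm_apply_apply] at hy
      have := h _ hy
      rwa [← hmn, Equiv.apply_symm_apply] at this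
    · rw [← hmn]
      exact h _ ((hN _ _).2 hy)
  · -- open paths
    refine Nat.card_congr (Equiv.ofBijective (fun i : {i : Fin F.K // F.cl i = false} =>
      (⟨e.symm (first i.1), (hcl i.1).1 i.2⟩ : {x : D // ∀ y, P.nx y ≠ some x})) ⟨?_, ?_⟩)
    · intro i j hij
      have h1 := e.symm.injective (congrArg Subtype.val hij)
      exact Subtype.ext (congrArg Sigma.fst h1)
    · rintro ⟨x, hx⟩
      have h0 : (e x).2.val = 0 := by
        by_contra hne
        have h1 : F.Next ⟨(e x).1, ⟨(e x).2.val - 1, by have := (e x).2.isLt; omega⟩⟩ (e x) :=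
          ⟨rfl, Or.inl (by show (e x).2.val = (e x).2.val - 1 + 1; omega)⟩
        rw [hN', Equiv.symm_apply_apply] at h1
        exact hx _ h1
      have h1 : first (e x).1 = e x := by
        generalize e x = a at h0 ⊢
        obtain ⟨i, j⟩ := a
        show (⟨i, ⟨0, _⟩⟩ : F.Dart) = ⟨i, j⟩
        have : (⟨0, F.len_pos i⟩ : Fin (F.len i)) = j := Fin.ext h0.symm
        rw [this]
      refine ⟨⟨(e x).1, ?_⟩, ?_⟩
      · rw [hcl]
        intro y hy
        have h2 : e.symm (first (e x).1) = x := by rw [h1, Equiv.symm_apply_apply]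
        exact hx y (hy.trans (congrArg some h2))
      · apply Subtype.ext
        show e.symm (first (e x).1) = x
        rw [h1, Equiv.symm_apply_apply]
  · intro o
    unfold Conf.endsAt Pre.endsAt
    congr 1
    · refine Nat.card_congr (Equiv.ofBijective
        (fun i : {i : Fin F.K // F.cl i = false ∧ c.node ⟨i, 0⟩ = o} =>
        (⟨e.symm (first i.1), (hcl i.1).1 i.2.1, (node_zero i.1).symm.trans i.2.2⟩ :
          {x : D // (∀ y, P.nx y ≠ some x) ∧ P.nd x = o})) ⟨?_, ?_⟩)
      · intro i j hij
        have h1 := e.symm.injective (congrArg Subtype.val hij)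
        exact Subtype.ext (congrArg Sigma.fst h1)
      · rintro ⟨x, hx, hxo⟩
        have h0 : (e x).2.val = 0 := by
          by_contra hne
          have h1 : F.Next ⟨(e x).1, ⟨(e x).2.val - 1, by have := (e x).2.isLt; omega⟩⟩ (e x) :=
            ⟨rfl, Or.inl (by show (e x).2.val = (e x).2.val - 1 + 1; omega)⟩
          rw [hN', Equiv.symm_apply_apply] at h1
          exact hx _ h1
        have h1 : first (e x).1 = e x := by
          generalize e x = a at h0 ⊢
          obtain ⟨i, j⟩ := a
          show (⟨i, ⟨0, _⟩⟩ : F.Dart) = ⟨i, j⟩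
          have : (⟨0, F.len_pos i⟩ : Fin (F.len i)) = j := Fin.ext h0.symm
          rw [this]
        have h2 : e.symm (first (e x).1) = x := by rw [h1, Equiv.symm_apply_apply]
        refine ⟨⟨(e x).1, ?_, ?_⟩, Subtype.ext h2⟩
        · rw [hcl]
          intro y hy
          exact hx y (hy.trans (congrArg some h2))
        · show node _ = o
          rw [node_zero, h2, hxo]
    · refine Nat.card_congr (Equiv.ofBijective
        (fun i : {i : Fin F.K // F.cl i = false ∧ c.node ⟨i, Fin.last _⟩ = o} =>
        (⟨e.symm (last i.1), (hcl' i.1).1 i.2.1, (node_last i.1).symm.trans i.2.2⟩ :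
          {x : D // P.nx x = none ∧ P.nd' x = o})) ⟨?_, ?_⟩)
      · intro i j hij
        have h1 := e.symm.injective (congrArg Subtype.val hij)
        exact Subtype.ext (congrArg Sigma.fst h1)
      · rintro ⟨x, hx, hxo⟩
        have h0 : (e x).2.val + 1 = F.len (e x).1 := by
          by_contra hne
          have h1 : F.Next (e x) ⟨(e x).1, ⟨(e x).2.val + 1, by have := (e x).2.isLt; omega⟩⟩ :=
            ⟨rfl, Or.inl rfl⟩
          rw [hN', Equiv.symm_apply_apply, hx] at h1
          cases h1
        have h1 : last (e x).1 = e x := by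
          generalize e x = a at h0 ⊢
          obtain ⟨i, j⟩ := a
          show (⟨i, ⟨F.len i - 1, _⟩⟩ : F.Dart) = ⟨i, j⟩
          have h4 : (⟨F.len i - 1, Nat.sub_lt (F.len_pos i) one_pos⟩ : Fin (F.len i)) = j :=
            Fin.ext (by show F.len i - 1 = j.val; simp only at h0; omega)
          rw [h4]
        have h2 : e.symm (last (e x).1) = x := by rw [h1, Equiv.symm_apply_apply]
        refine ⟨⟨(e x).1, ?_, ?_⟩, Subtype.ext h2⟩
        · rw [hcl']
          show P.nx (e.symm (last (e x).1)) = none
          rw [h2]; exact hx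
        · show node _ = o
          rw [node_last, h2, hxo]

end Pre

end Crest.Agent.R177

namespace Crest.Agent.R177

/-- length bound for the paths of a frame obtained from a successor map -/
theorem Frame.len_le_of {D ι : Type} [Finite D] {nx : D → Option D} {F : Frame}
    (e : D ≃ F.Dart) (hN : ∀ x y, F.Next (e x) (e y) ↔ nx x = some y) (p : D → ι)
    (hp : ∀ x y, nx x = some y → p x = p y) (L : ℕ) (hL : ∀ j, Nat.card {x // p x = j} ≤ L)
    (i : Fin F.K) : F.len i ≤ L := by
  have key : ∀ k (hk : k < F.len i), p (e.symm ⟨i, ⟨k, hk⟩⟩) = p (e.symm ⟨i, ⟨0, F.len_pos i⟩⟩) := by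
    intro k
    induction k with
    | zero => intro _; rfl
    | succ k ih =>
      intro hk
      rw [← ih (by omega)]
      refine (hp _ _ ?_).symm
      rw [← hN, Equiv.apply_symm_apply, Equiv.apply_symm_apply]
      exact ⟨rfl, Or.inl rfl⟩
  let f : Fin (F.len i) → {x // p x = p (e.symm ⟨i, ⟨0, F.len_pos i⟩⟩)} :=
    fun k => ⟨e.symm ⟨i, k⟩, key k.1 k.2⟩
  have hf : Function.Injective f := by
    intro k k' h
    have h1 := e.symm.injective (congrArg Subtype.val h)
    simpa using h1
  have := Nat.card_le_card_of_injective f hf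
  rw [Nat.card_eq_fintype_card, Fintype.card_fin] at this
  exact this.trans (hL _)

/-- the number of paths -/
theorem Frame.K_eq (F : Frame) : F.K = F.openN + Nat.card {i : Fin F.K // F.cl i = true} := by
  have h1 : Nat.card (Fin F.K) = F.K := by simp
  unfold Frame.openN
  conv_lhs => rw [← h1]
  rw [← Nat.card_sum]
  refine Nat.card_congr ?_
  exact
    { toFun := fun i => if h : F.cl i = false then Sum.inl ⟨i, h⟩ else Sum.inr ⟨i, by simpa using h⟩
      invFun := fun s => s.elim (fun i => i.1) (fun i => i.1)
      left_inv := by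
        intro i
        by_cases h : F.cl i = false
        · simp [h]
        · simp [h]
      right_inv := by
        rintro (⟨i, h⟩ | ⟨i, h⟩)
        · simp [h]
        · simp [h] }

end Crest.Agent.R177
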