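import Crest.Agent.R177.GroupingDefs
import Crest.Agent.R177.MkConf

/-!
# Rows 177/184, GEOM: definitions (captain helper427)
-/

set_option autoImplicit false

open scoped Classical

namespace Crest.Agent.R177.Geom

open Equiv

/-- `y` is the only head of its face (the sector is a whole face) -/
def Sgl {X : Type} (φ : Perm X) (head : X → Prop) (y : X) : Prop :=
  head y ∧ ∀ i : ℕ, head ((φ ^ i) y) → (φ ^ i) y = y

/-- the darts of one group -/
abbrev GD {X : Type} (O : X → Prop) (grp : X → ℕ) (c : ℕ) : Type := {x : X // ¬ O x ∧ grp x = c}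

end Crest.Agent.R177.Geom
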