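import Crest.Agent.R177.Defs
import Crest.Agent.R177.GroupingDefs
import Crest.Agent.R177.MkConf

/-!
# Row 177, module GEOM: the local inequality for one group of sectors (helper753)
-/

set_option autoImplicit false

open scoped Classical

namespace Crest.Agent.R177.Geo

open Crest.Agent.R177
open Crest.Agent.R199 (PAct)

variable {S V : Type} {A : PAct S V} {X : Type} (D : Diag A X)
variable {head glued : X → Prop} {grp : X → ℕ} {Ls K : ℕ}

/-- the face of `x` has at most one head -/
def Wh (head : X → Prop) (x : X) : Prop :=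
  ∀ y z, D.φ.SameCycle x y → D.φ.SameCycle x z → head y → head z → y = z

theorem out_pow (x : X) (n : ℕ) : D.out ((D.φ ^ n) x) ↔ D.out x := by
  induction n with
  | zero => rfl
  | succ n ih => rw [pow_succ', Equiv.Perm.mul_apply, D.out_φ, ih]

theorem wh_φ (x : X) (h : Wh D head x) : Wh D head (D.φ x) := by
  intro y z hy hz
  exact h y z ((Equiv.Perm.sameCycle_apply_left).mp hy) ((Equiv.Perm.sameCycle_apply_left).mp hz)

theorem out_symm (x : X) : D.out (D.φ.symm x) ↔ D.out x := by
  rw [← D.out_φ, Equiv.apply_symm_apply]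

variable {D}

section grouping

variable [Finite X] (hG : Grouping D.φ D.α D.out head glued grp Ls K)

include hG

/-- the group is constant on a face with one head -/
theorem grp_whole {x : X} (hx : ¬ D.out x) (hw : Wh D head x) : grp (D.φ x) = grp x := by
  by_cases hh : head (D.φ x)
  · have key : ∀ i : ℕ, grp ((D.φ ^ i) (D.φ x)) = grp (D.φ x) := by
      intro i
      induction i with
      | zero => rfl
      | succ i ih =>
        rw [pow_succ', Equiv.Perm.mul_apply]
        by_cases h2 : head (D.φ ((D.φ ^ i) (D.φ x)))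
        · have h3 : D.φ.SameCycle x (D.φ ((D.φ ^ i) (D.φ x))) :=
            Equiv.Perm.sameCycle_apply_right.mpr (Equiv.Perm.sameCycle_pow_right.mpr
              (Equiv.Perm.sameCycle_apply_right.mpr (Equiv.Perm.SameCycle.refl _ _)))
          have h4 : D.φ.SameCycle x (D.φ x) :=
            Equiv.Perm.sameCycle_apply_right.mpr (Equiv.Perm.SameCycle.refl _ _)
          rw [hw _ _ h3 h4 h2 hh]
        · rw [hG.grp_const _ (by rw [out_pow, D.out_φ]; exact hx) h2, ih]
    have h5 : D.φ.SameCycle (D.φ x) x :=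
      Equiv.Perm.sameCycle_apply_left.mpr (Equiv.Perm.SameCycle.refl _ _)
    obtain ⟨i, -, hi⟩ := h5.exists_pow_eq'
    rw [← key i, hi]
  · exact hG.grp_const _ hx hh

/-- every inner dart is reached from a head without passing heads -/
theorem exists_back {x : X} (hx : ¬ D.out x) : ∃ n : ℕ, head ((D.φ.symm ^ n) x) ∧
    ∀ m < n, ¬ head ((D.φ.symm ^ m) x) := by
  have h1 : ∃ n : ℕ, head ((D.φ.symm ^ n) x) := by
    obtain ⟨i, -, hi⟩ := hG.head_lt x hx
    have h2 : (D.φ⁻¹).SameCycle x ((D.φ ^ i) x) :=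
      (Equiv.Perm.sameCycle_inv).mpr
        (Equiv.Perm.sameCycle_pow_right.mpr (Equiv.Perm.SameCycle.refl _ _))
    obtain ⟨j, -, hj⟩ := h2.exists_pow_eq'
    refine ⟨j, ?_⟩
    have h3 : (D.φ.symm ^ j) x = (D.φ ^ i) x := hj
    rw [h3]
    exact hi
  exact ⟨Nat.find h1, Nat.find_spec h1, fun m hm => Nat.find_min h1 hm⟩

/-- properties of regular corners -/
theorem rc_mate {y : X} (h : RegularCorner D.φ D.α head glued y) :
    ¬ D.out (D.α y) ∧ grp (D.α y) = grp (D.φ y) := by
  obtain ⟨h1, h2, h3, h4, h5⟩ := h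
  refine ⟨hG.glued_out _ (hG.glued_symm _ h3), ?_⟩
  rw [hG.glued_grp _ h3, hG.grp_const _ (hG.glued_out _ h3) h1]

theorem rc_symm {y : X} (h : RegularCorner D.φ D.α head glued y) :
    RegularCorner D.φ D.α head glued (D.φ.symm (D.α y)) ∧
      D.α (D.φ.symm (D.α y)) = D.φ y := by
  obtain ⟨h1, h2, h3, h4, h5⟩ := h
  have h6 : D.φ.symm (D.α y) = D.α (D.φ y) := by
    rw [← h5, Equiv.symm_apply_apply]
  rw [h6, D.inv]
  refine ⟨⟨?_, ?_, ?_, ?_, ?_⟩, rfl⟩
  · rw [h5]; exact h2
  · rw [D.inv]; exact h1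
  · exact hG.glued_symm _ h4
  · rw [h5]; exact hG.glued_symm _ h3
  · rw [h5, D.inv, D.inv]

end grouping

/-- darts of a group -/
abbrev Dg (D : Diag A X) (grp : X → ℕ) (c : ℕ) : Type := {x : X // ¬ D.out x ∧ grp x = c}

section pre

variable [Finite X] (hG : Grouping D.φ D.α D.out head glued grp Ls K) (hred : D.Reduced) (c : ℕ)

/-- successor inside a sector (cyclic if the sector is a whole face) -/
noncomputable def nxt (x : Dg D grp c) : Option (Dg D grp c) :=
  if h : ¬ head (D.φ x.1) ∨ Wh D head x.1 then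
    some ⟨D.φ x.1, by rw [D.out_φ]; exact x.2.1, by
      rcases h with h | h
      · rw [hG.grp_const _ x.2.1 h]; exact x.2.2
      · rw [grp_whole hG x.2.1 h]; exact x.2.2⟩
  else none

/-- the partner of a corner -/
noncomputable def mte (x : Dg D grp c) : Option (Dg D grp c) :=
  if h : RegularCorner D.φ D.α head glued (D.φ.symm x.1) then
    some ⟨D.α (D.φ.symm x.1), (rc_mate hG h).1, by
      rw [(rc_mate hG h).2, Equiv.apply_symm_apply]; exact x.2.2⟩
  else none

theorem nxt_eq {x y : Dg D grp c} : nxt hG c x = some y ↔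
    (¬ head (D.φ x.1) ∨ Wh D head x.1) ∧ D.φ x.1 = y.1 := by
  unfold nxt
  split_ifs with h
  · rw [Option.some.injEq, Subtype.ext_iff]
    exact ⟨fun h1 => ⟨h, h1⟩, fun h1 => h1.2⟩
  · exact ⟨fun h1 => absurd h1 (by simp), fun h1 => absurd h1.1 h⟩

theorem mte_eq {x y : Dg D grp c} : mte hG c x = some y ↔
    RegularCorner D.φ D.α head glued (D.φ.symm x.1) ∧ D.α (D.φ.symm x.1) = y.1 := by
  unfold mte
  split_ifs with h
  · rw [Option.some.injEq, Subtype.ext_iff]
    exact ⟨fun h1 => ⟨h, h1⟩, fun h1 => h1.2⟩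
  · exact ⟨fun h1 => absurd h1 (by simp), fun h1 => absurd h1.1 h⟩

theorem mte_ne_none {x : Dg D grp c} : mte hG c x ≠ none ↔
    RegularCorner D.φ D.α head glued (D.φ.symm x.1) := by
  unfold mte
  split_ifs with h
  · exact ⟨fun _ => h, fun _ => by simp⟩
  · exact ⟨fun h1 => absurd rfl h1, fun h1 => absurd h1 h⟩

include hred in
/-- the configuration of a group -/
theorem exists_pre : ∃ P : Pre A (Dg D grp c), P.nx = nxt hG c ∧ P.mate = mte hG c := by
  refine ⟨{ nx := nxt hG c
            inj := ?_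
            nd := fun x => D.node x.1
            nd' := fun x => D.node (D.φ x.1)
            lab := fun x => D.lab x.1
            mate := mte hG c
            step := fun x => D.node_step x.1 x.2.1
            glueN := ?_
            red := ?_
            mate_symm := ?_
            mate_corner := ?_
            mate_lab := ?_
            mate_node := ?_
            mate_coh := ?_ }, rfl, rfl⟩
  · intro x y z hx hy
    rw [nxt_eq] at hx hy
    exact Subtype.ext (D.φ.injective (hx.2.trans hy.2.symm))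
  · intro x y h
    rw [nxt_eq] at h
    rw [← h.2]
  · intro x y h
    rw [nxt_eq] at h
    rw [← h.2]
    exact hred.2 x.1
  · intro x x' h
    rw [mte_eq] at h ⊢
    obtain ⟨h1, h2⟩ := h
    have h3 := rc_symm hG h1
    rw [h2] at h3
    exact ⟨h3.1, by rw [h3.2, Equiv.apply_symm_apply]⟩
  · intro x x' h
    rw [mte_eq] at h
    obtain ⟨h1, -⟩ := h
    have h2 : ¬ head (D.φ (D.φ.symm x.1)) := h1.1
    have h3 : ¬ D.out (D.φ.symm x.1) := by rw [out_symm]; exact x.2.1
    have h4 : grp (D.φ.symm x.1) = c := by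
      rw [← hG.grp_const _ h3 h2, Equiv.apply_symm_apply]; exact x.2.2
    refine ⟨⟨D.φ.symm x.1, h3, h4⟩, ?_⟩
    rw [nxt_eq]
    exact ⟨Or.inl h2, Equiv.apply_symm_apply _ _⟩
  · intro x x' y h hy
    rw [mte_eq] at h
    rw [nxt_eq] at hy
    rw [← h.2, ← hy.2, Equiv.symm_apply_apply]
    exact D.lab_α _
  · intro x x' h
    rw [mte_eq] at h
    obtain ⟨h1, h2⟩ := h
    have h3 : ¬ D.out (D.φ.symm x.1) := by rw [out_symm]; exact x.2.1
    have h4 := hred.1 (D.φ.symm x.1) h3 (rc_mate hG h1).1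
    rw [Equiv.apply_symm_apply] at h4
    rw [← h2]
    exact h4.symm
  · intro x x' y y' h hxy hy
    rw [mte_eq] at h hy
    rw [nxt_eq] at hxy ⊢
    obtain ⟨h1, h2⟩ := h
    obtain ⟨h3, h4⟩ := hy
    have h5 : D.φ.symm y.1 = x.1 := by rw [← hxy.2, Equiv.symm_apply_apply]
    rw [h5] at h4
    obtain ⟨a1, a2, a3, a4, a5⟩ := h1
    rw [Equiv.apply_symm_apply] at a5
    rw [← h4, a5]
    exact ⟨Or.inl a2, h2⟩

end pre

end Crest.Agent.R177.Geo
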