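import Crest.Agent.R177.GeomDefs

/-! GEOM: frozen statements (NOT imported by proofs) -/

set_option autoImplicit false

open scoped Classical

namespace Crest.Agent.R177.Geom.Iface

open Equiv

variable {X : Type} [Fintype X] {φ α : Perm X} {O head glued : X → Prop} {grp : X → ℕ} {L K g : ℕ}

/-- (G1) open sectors are long -/
theorem open_card (hO : ∀ x, O (φ x) ↔ O x) (hG : Grouping φ α O head glued grp L K) :
    Nat.card {x // head x ∧ ¬ Sgl φ head x} * L ≤ Nat.card {x // ¬ O x} := by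
  sorry

/-- (G2) a non-empty group has at least `g` darts -/
theorem group_card (hO : ∀ x, O (φ x) ↔ O x) (hG : Grouping φ α O head glued grp L K)
    (hgL : g ≤ L) (hg : ∀ x, ¬ O x → ∀ i, 0 < i → i < g → (φ ^ i) x ≠ x) (c : ℕ)
    (hc : ∃ x, ¬ O x ∧ grp x = c) : g ≤ Nat.card (GD O grp c) := by
  sorry

/-- (G3) bounds for the frame of a group -/
theorem frame_bounds (hO : ∀ x, O (φ x) ↔ O x) (hG : Grouping φ α O head glued grp L K) (c : ℕ)
    (nx : GD O grp c → Option (GD O grp c))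
    (hnx : ∀ x y, nx x = some y ↔ (φ x.1 = y.1 ∧ (¬ head y.1 ∨ Sgl φ head y.1)))
    (F : Frame) (e : GD O grp c ≃ F.Dart) (hN : ∀ x y, F.Next (e x) (e y) ↔ nx x = some y) :
    F.K ≤ K ∧ ∀ i, F.len i ≤ 2 * L := by
  sorry

end Crest.Agent.R177.Geom.Iface
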