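import Crest.Agent.R177.GeomGroup
import Crest.Agent.R177.GeomDefs

/-!
# Row 177, module GEOM: the local inequality for one group of sectors, part 2 (helper753)
-/

set_option autoImplicit false

open scoped Classical

namespace Crest.Agent.R177.Geo

open Crest.Agent.R177 Crest.Agent.R177.Geom
open Crest.Agent.R199 (PAct)

variable {S V : Type} {A : PAct S V} {X : Type} [Fintype X] {D : Diag A X}
variable {head glued : X → Prop} {grp : X → ℕ} {Ls K : ℕ}

theorem card_sub_le (p : X → Prop) (Q : {x : X // p x} → Prop) (R : X → Prop)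
    [DecidablePred fun x => p x ∧ R x] (h : ∀ x, Q x → R x.1) :
    Nat.card {x : {x : X // p x} // Q x} ≤ (Finset.univ.filter (fun x => p x ∧ R x)).card := by
  rw [← Fintype.card_subtype, ← Nat.card_eq_fintype_card]
  refine Nat.card_le_card_of_injective
    (fun x : {x : {x : X // p x} // Q x} => (⟨x.1.1, x.1.2, h x.1 x.2⟩ : {x : X // p x ∧ R x})) ?_
  intro x y hxy
  have h1 : x.1.1 = y.1.1 := congrArg (fun z : {x : X // p x ∧ R x} => z.1) hxy
  exact Subtype.ext (Subtype.ext h1)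

theorem le_card_sub (p : X → Prop) (Q : {x : X // p x} → Prop) (R : X → Prop)
    [DecidablePred fun x => p x ∧ R x] (h : ∀ x : {x : X // p x}, R x.1 → Q x) :
    (Finset.univ.filter (fun x => p x ∧ R x)).card ≤ Nat.card {x : {x : X // p x} // Q x} := by
  rw [← Fintype.card_subtype, ← Nat.card_eq_fintype_card]
  refine Nat.card_le_card_of_injective
    (fun x : {x : X // p x ∧ R x} => (⟨⟨x.1, x.2.1⟩, h ⟨x.1, x.2.1⟩ x.2.2⟩ :
      {x : {x : X // p x} // Q x})) ?_
  intro x y hxy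
  exact Subtype.ext (congrArg (fun z => z.1.1) hxy)

/-- a head which is the only head of its face -/
theorem wh_of_sgl {x : X} (h : Sgl D.φ head x) : Wh D head x := by
  intro y z hy hz h1 h2
  obtain ⟨i, -, rfl⟩ := hy.exists_pow_eq'
  obtain ⟨j, -, rfl⟩ := hz.exists_pow_eq'
  rw [h.2 i h1, h.2 j h2]

theorem wh_symm {x : X} (h : Wh D head x) : Wh D head (D.φ.symm x) := by
  have h1 : D.φ.SameCycle (D.φ.symm x) x := by
    have : D.φ.SameCycle (D.φ.symm x) (D.φ (D.φ.symm x)) :=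
      Equiv.Perm.sameCycle_apply_right.mpr (Equiv.Perm.SameCycle.refl _ _)
    rwa [Equiv.apply_symm_apply] at this
  intro y z hy hz
  exact h y z (h1.symm.trans hy) (h1.symm.trans hz)

section

variable (hG : Grouping D.φ D.α D.out head glued grp Ls K) (c : ℕ)

include hG

theorem exists_pred {x : Dg D grp c} (h : ¬ head x.1 ∨ Wh D head x.1) :
    ∃ y, nxt hG c y = some x := by
  have h3 : ¬ D.out (D.φ.symm x.1) := by rw [out_symm]; exact x.2.1
  have h4 : grp (D.φ.symm x.1) = c := by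
    rcases h with h | h
    · rw [← hG.grp_const _ h3 (by rw [Equiv.apply_symm_apply]; exact h), Equiv.apply_symm_apply]
      exact x.2.2
    · have h5 := grp_whole hG h3 (wh_symm h)
      rw [Equiv.apply_symm_apply] at h5
      rw [← h5]; exact x.2.2
  refine ⟨⟨D.φ.symm x.1, h3, h4⟩, ?_⟩
  rw [nxt_eq]
  refine ⟨?_, Equiv.apply_symm_apply _ _⟩
  rcases h with h | h
  · left; rw [Equiv.apply_symm_apply]; exact h
  · right; exact wh_symm h

/-- frame bounds -/
theorem frame_K {F : Frame} (e : Dg D grp c ≃ F.Dart)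
    (hN : ∀ x y, F.Next (e x) (e y) ↔ nxt hG c x = some y) : F.K ≤ K := by
  -- every path contains a head
  have key : ∀ i : Fin F.K, ∃ x : Dg D grp c, (e x).1 = i ∧ head x.1 := by
    intro i
    let x0 : Dg D grp c := e.symm ⟨i, ⟨0, F.len_pos i⟩⟩
    obtain ⟨n, hn, hmin⟩ := exists_back hG x0.2.1
    have h1 : ∀ m ≤ n, ∃ x : Dg D grp c, (e x).1 = i ∧ x.1 = (D.φ.symm ^ m) x0.1 := by
      intro m
      induction m with
      | zero => intro _; exact ⟨x0, by simp [x0], rfl⟩
      | succ m ih =>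
        intro hm
        obtain ⟨x, hx, hx'⟩ := ih (by omega)
        have h2 : ¬ head x.1 := by rw [hx']; exact hmin m (by omega)
        obtain ⟨y, hy⟩ := exists_pred hG c (Or.inl h2)
        refine ⟨y, ?_, ?_⟩
        · have h3 := (hN y x).mpr hy
          rw [h3.1, hx]
        · rw [nxt_eq] at hy
          rw [pow_succ', Equiv.Perm.mul_apply, ← hx', ← hy.2, Equiv.symm_apply_apply]
    obtain ⟨x, hx, hx'⟩ := h1 n le_rfl
    exact ⟨x, hx, by rw [hx']; exact hn⟩
  choose f hf hf' using key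
  have h1 : Function.Injective (fun i => (f i).1) := by
    intro i j hij
    have h2 : f i = f j := Subtype.ext hij
    rw [← hf i, h2, hf j]
  have h3 : Nat.card (Fin F.K) ≤ Nat.card {x // head x ∧ grp x = c} :=
    Nat.card_le_card_of_injective
      (fun i => (⟨(f i).1, hf' i, (f i).2.2⟩ : {x // head x ∧ grp x = c}))
      (fun i j hij => h1 (congrArg (fun z : {x // head x ∧ grp x = c} => z.1) hij))
  have h4 := hG.grp_card c
  rw [← Nat.card_coe_set_eq] at h4
  rw [Nat.card_eq_fintype_card, Fintype.card_fin] at h3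
  exact h3.trans h4

theorem frame_len {F : Frame} (e : Dg D grp c ≃ F.Dart)
    (hN : ∀ x y, F.Next (e x) (e y) ↔ nxt hG c x = some y) (i : Fin F.K) :
    F.len i ≤ 2 * Ls := by
  by_contra hlt
  rw [not_le] at hlt
  let x0 : Dg D grp c := e.symm ⟨i, ⟨0, F.len_pos i⟩⟩
  have h1 : ∀ m (hm : m < F.len i), (e.symm ⟨i, ⟨m, hm⟩⟩).1 = (D.φ ^ m) x0.1 := by
    intro m
    induction m with
    | zero => intro _; rfl
    | succ m ih =>
      intro hm
      have h2 : F.Next ⟨i, ⟨m, by omega⟩⟩ ⟨i, ⟨m + 1, hm⟩⟩ := ⟨rfl, Or.inl rfl⟩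
      have h3 := (hN (e.symm ⟨i, ⟨m, by omega⟩⟩) (e.symm ⟨i, ⟨m + 1, hm⟩⟩)).mp (by
        rw [Equiv.apply_symm_apply, Equiv.apply_symm_apply]; exact h2)
      rw [nxt_eq] at h3
      rw [← h3.2, ih (by omega), pow_succ', Equiv.Perm.mul_apply]
  have hinj : ∀ m, 0 < m → m < F.len i → (D.φ ^ m) x0.1 ≠ x0.1 := by
    intro m h0 hm h
    have h2 : e.symm ⟨i, ⟨m, hm⟩⟩ = e.symm ⟨i, ⟨0, F.len_pos i⟩⟩ := Subtype.ext (by
      rw [h1 m hm, h])
    have h3 := e.symm.injective h2
    simp at h3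
    omega
  obtain ⟨k, hk, hk'⟩ := hG.head_lt (D.φ x0.1) (by rw [D.out_φ]; exact x0.2.1)
  have hk1 : k + 1 < F.len i := by omega
  rw [← Equiv.Perm.mul_apply, ← pow_succ] at hk'
  have h4 : F.Next ⟨i, ⟨k, by omega⟩⟩ ⟨i, ⟨k + 1, hk1⟩⟩ := ⟨rfl, Or.inl rfl⟩
  have h5 := (hN (e.symm ⟨i, ⟨k, by omega⟩⟩) (e.symm ⟨i, ⟨k + 1, hk1⟩⟩)).mp (by
    rw [Equiv.apply_symm_apply, Equiv.apply_symm_apply]; exact h4)
  rw [nxt_eq, h1 k (by omega), h1 (k + 1) hk1] at h5
  obtain ⟨h6 | h6, h7⟩ := h5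
  · rw [h7] at h6
    exact h6 hk'
  · obtain ⟨l, hl, hl'⟩ := hG.head_lt (D.φ ((D.φ ^ (k + 1)) x0.1)) (by
      rw [D.out_φ, out_pow]; exact x0.2.1)
    rw [← Equiv.Perm.mul_apply, ← pow_succ] at hl'
    have s1 : D.φ.SameCycle ((D.φ ^ k) x0.1) ((D.φ ^ (k + 1)) x0.1) := by
      rw [pow_succ', Equiv.Perm.mul_apply]
      exact Equiv.Perm.sameCycle_apply_right.mpr (Equiv.Perm.SameCycle.refl _ _)
    have s2 : D.φ.SameCycle ((D.φ ^ k) x0.1) ((D.φ ^ (l + 1)) ((D.φ ^ (k + 1)) x0.1)) :=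
      Equiv.Perm.sameCycle_pow_right.mpr s1
    have h8 := h6 _ _ s2 s1 hl' hk'
    rw [← Equiv.Perm.mul_apply, ← pow_add, add_comm, pow_add, Equiv.Perm.mul_apply] at h8
    exact hinj (l + 1) (by omega) (by omega) ((D.φ ^ (k + 1)).injective h8)

/-- **The local inequality for a group.** -/
theorem group_ineq (hred : D.Reduced) {κ C P η : ℝ} (hloc : LocalIneq A K K (2 * Ls) κ C P η)
    (hκ : 0 ≤ κ) (hC : 0 ≤ C) (hP : 0 ≤ P) :
    κ * (Finset.univ.filter (fun x => (¬ D.out x ∧ grp x = c) ∧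
      RegularCorner D.φ D.α head glued (D.φ.symm x))).card ≤
    C * (Finset.univ.filter (fun x => (¬ D.out x ∧ grp x = c) ∧
      ¬ RegularCorner D.φ D.α head glued (D.φ.symm x))).card +
    P * (Finset.univ.filter (fun x => (¬ D.out x ∧ grp x = c) ∧
      (head x ∧ ¬ Sgl D.φ head x))).card + η := by
  obtain ⟨Pc, hnx, hmt⟩ := exists_pre hG hred c
  obtain ⟨F, cf, e, hN, -, -, -, -, -, hgl, hug, hen, hop, -⟩ := Pc.exists_conf
  rw [hnx] at hN
  have hends : cf.ends ≤ K := by
    rw [hen]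
    have h1 : Pc.ends ≤ Nat.card {x | ¬ D.out x ∧ grp x = c ∧ (glued x ∨ glued (D.φ x)) ∧
        ¬ RegularCorner D.φ D.α head glued x} := by
      refine Nat.card_le_card_of_injective (fun x => ⟨x.1.1, ?_⟩) ?_
      · obtain ⟨x, hx, hx'⟩ := x
        rw [hmt] at hx
        have h2 := (mte_ne_none hG c).mp hx
        have h3 : glued x.1 := by
          have := h2.2.2.2.1
          rwa [Equiv.apply_symm_apply] at this
        refine ⟨x.2.1, x.2.2, Or.inl h3, fun h4 => ?_⟩
        have h5 : ¬ head (D.φ x.1) := h4.1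
        have h6 : nxt hG c x = some ⟨D.φ x.1, by rw [D.out_φ]; exact x.2.1, by
            rw [hG.grp_const _ x.2.1 h5]; exact x.2.2⟩ := by
          rw [nxt_eq]
          exact ⟨Or.inl h5, rfl⟩
        rw [← hnx] at h6
        have h7 := hx' _ h6
        rw [hmt] at h7
        exact (mte_ne_none hG c).mpr (by
          change RegularCorner D.φ D.α head glued (D.φ.symm (D.φ x.1))
          rw [Equiv.symm_apply_apply]
          exact h4) h7
      · intro x y hxy
        have h1 : x.1.1 = y.1.1 := by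
          have h := Subtype.ext_iff.mp hxy
          exact h
        exact Subtype.ext (Subtype.ext h1)
    rw [Nat.card_coe_set_eq] at h1
    exact h1.trans (hG.breaks c)
  have h1 := hloc F cf (frame_K hG c e hN) (frame_len hG c e hN) hends
  rw [hgl, hug, hop] at h1
  have g1 : (Finset.univ.filter (fun x => (¬ D.out x ∧ grp x = c) ∧
      RegularCorner D.φ D.α head glued (D.φ.symm x))).card ≤ Pc.glued := by
    refine le_card_sub (fun x => ¬ D.out x ∧ grp x = c) (fun x => Pc.mate x ≠ none)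
      (fun x => RegularCorner D.φ D.α head glued (D.φ.symm x)) ?_
    intro x hx
    rw [hmt, mte_ne_none]
    exact hx
  have g2 : Pc.unglued ≤ (Finset.univ.filter (fun x => (¬ D.out x ∧ grp x = c) ∧
      ¬ RegularCorner D.φ D.α head glued (D.φ.symm x))).card := by
    refine card_sub_le (fun x => ¬ D.out x ∧ grp x = c)
      (fun x => (∃ y, Pc.nx y = some x) ∧ Pc.mate x = none)
      (fun x => ¬ RegularCorner D.φ D.α head glued (D.φ.symm x)) ?_
    intro x hx h2
    rw [hmt] at hx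
    exact (mte_ne_none hG c).mpr h2 hx.2
  have g3 : Pc.openN ≤ (Finset.univ.filter (fun x => (¬ D.out x ∧ grp x = c) ∧
      (head x ∧ ¬ Sgl D.φ head x))).card := by
    refine card_sub_le (fun x => ¬ D.out x ∧ grp x = c)
      (fun x => ∀ y, Pc.nx y ≠ some x) (fun x => head x ∧ ¬ Sgl D.φ head x) ?_
    intro x hx
    rw [hnx] at hx
    by_contra h2
    have h3 : ¬ head x.1 ∨ Wh D head x.1 := by
      by_cases h4 : head x.1
      · right
        by_contra h5
        exact h2 ⟨h4, fun h6 => h5 (wh_of_sgl h6)⟩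
      · exact Or.inl h4
    obtain ⟨y, hy⟩ := exists_pred hG c h3
    exact hx y hy
  have g1' := mul_le_mul_of_nonneg_left (Nat.cast_le (α := ℝ).mpr g1) hκ
  have g2' := mul_le_mul_of_nonneg_left (Nat.cast_le (α := ℝ).mpr g2) hC
  have g3' := mul_le_mul_of_nonneg_left (Nat.cast_le (α := ℝ).mpr g3) hP
  linarith

end

end Crest.Agent.R177.Geo
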