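import Crest.Agent.R177.GeomFrame
import Crest.Agent.R177.Sectors

/-!
# Rows 177/184, GEOM (G1), (G2) (helper516)
-/

set_option autoImplicit false

open scoped Classical

namespace Crest.Agent.R177.Geom

open Equiv

section

variable {X : Type} [Fintype X] {φ α : Perm X} {O head glued : X → Prop} {grp : X → ℕ}
  {L K g : ℕ}

omit [Fintype X] in
/-- open sectors have at least `L` darts -/
theorem not_head_pow (hG : Grouping φ α O head glued grp L K) {x : X} (hx : head x)
    (hs : ¬ Sgl φ head x) (i : ℕ) (hi : 0 < i) (hiL : i < L) : ¬ head ((φ ^ i) x) := by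
  intro hh
  apply hs
  refine ⟨hx, ?_⟩
  have h1 := hG.head_ge x hx i hi hiL hh
  have hq : ∀ q : ℕ, (φ ^ (i * q)) x = x := by
    intro q
    induction q with
    | zero => simp
    | succ q ih => rw [Nat.mul_succ, pow_add, Perm.mul_apply, h1, ih]
  have hmod : ∀ k : ℕ, (φ ^ k) x = (φ ^ (k % i)) x := by
    intro k
    conv_lhs => rw [← Nat.mod_add_div k i]
    rw [pow_add, Perm.mul_apply, hq]
  intro k hk
  rw [hmod k] at hk ⊢
  rcases Nat.eq_zero_or_pos (k % i) with h0 | h0
  · rw [h0]; simp
  · have hlt := Nat.mod_lt k hi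
    exact hG.head_ge x hx (k % i) h0 (by omega) hk

/-- (G1) open sectors are long -/
theorem open_card (hO : ∀ x, O (φ x) ↔ O x) (hG : Grouping φ α O head glued grp L K) :
    Nat.card {x // head x ∧ ¬ Sgl φ head x} * L ≤ Nat.card {x // ¬ O x} := by
  let f : {x // head x ∧ ¬ Sgl φ head x} × Fin L → {x // ¬ O x} := fun p =>
    ⟨(φ ^ p.2.1) p.1.1, not_O_pow hO (hG.head_out _ p.1.2.1) _⟩
  have hf : Function.Injective f := by
    rintro ⟨⟨x, hx, hxs⟩, ⟨i, hi⟩⟩ ⟨⟨y, hy, hys⟩, ⟨j, hj⟩⟩ h
    have h1 : (φ ^ i) x = (φ ^ j) y := congrArg Subtype.val h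
    have hx1 := sec_pow (φ := φ) (start := head) hx L
      (fun j h1 h2 => not_head_pow hG hx hxs j h1 h2) i hi
    have hy1 := sec_pow (φ := φ) (start := head) hy L
      (fun j h1 h2 => not_head_pow hG hy hys j h1 h2) j hj
    have hxy : x = y := by rw [← hx1, ← hy1, h1]
    subst hxy
    have key : ∀ i j : ℕ, j < L → i < j → (φ ^ i) x = (φ ^ j) x → False := by
      intro i j hj hij h1
      have h2 : (φ ^ (j - i)) x = x := by
        apply (φ ^ i).injective
        rw [← Perm.mul_apply, ← pow_add, Nat.add_sub_cancel' hij.le]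
        exact h1.symm
      exact not_head_pow hG hx hxs (j - i) (by omega) (by omega) (by rw [h2]; exact hx)
    rcases lt_trichotomy i j with h2 | h2 | h2
    · exact absurd h1 (fun h => key i j hj h2 h)
    · subst h2; rfl
    · exact absurd h1.symm (fun h => key j i hi h2 h)
  have h1 := Nat.card_le_card_of_injective f hf
  rwa [Nat.card_prod, Nat.card_eq_fintype_card (α := Fin L), Fintype.card_fin] at h1

/-- (G2) a non-empty group has at least `g` darts -/
theorem group_card (hO : ∀ x, O (φ x) ↔ O x) (hG : Grouping φ α O head glued grp L K)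
    (hgL : g ≤ L) (hg : ∀ x, ¬ O x → ∀ i, 0 < i → i < g → (φ ^ i) x ≠ x) (c : ℕ)
    (hc : ∃ x, ¬ O x ∧ grp x = c) : g ≤ Nat.card (GD O grp c) := by
  obtain ⟨x, hx, hxc⟩ := hc
  obtain ⟨n, _, hn, hn'⟩ := sec_index hO hG hx
  set h := sec φ head x with hh
  have hhead : head h := head_sec hG hx
  have hOh : ¬ O h := hG.head_out _ hhead
  have hgrp : grp h = c := by
    have h1 := grp_sec hO hG hOh n hn'
    rw [hn] at h1
    rw [← h1, hxc]
  have hno : ∀ i, 0 < i → i < g → ¬ head ((φ ^ i) h) := by
    intro i hi hig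
    by_cases hs : Sgl φ head h
    · intro hk
      exact hg h hOh i hi hig (hs.2 i hk)
    · exact not_head_pow hG hhead hs i hi (by omega)
  let f : Fin g → GD O grp c := fun j => ⟨(φ ^ j.1) h, not_O_pow hO hOh _, by
    rw [grp_sec hO hG hOh j.1 (fun i h1 h2 => hno i h1 (by have := j.2; omega)), hgrp]⟩
  have hf : Function.Injective f := by
    rintro ⟨i, hi⟩ ⟨j, hj⟩ hij
    have h1 : (φ ^ i) h = (φ ^ j) h := congrArg Subtype.val hij
    have key : ∀ i j : ℕ, j < g → i < j → (φ ^ i) h = (φ ^ j) h → False := by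
      intro i j hj hij h1
      have h2 : (φ ^ (j - i)) h = h := by
        apply (φ ^ i).injective
        rw [← Perm.mul_apply, ← pow_add, Nat.add_sub_cancel' hij.le]
        exact h1.symm
      exact hg h hOh (j - i) (by omega) (by omega) h2
    rcases lt_trichotomy i j with h2 | h2 | h2
    · exact absurd h1 (fun h => key i j hj h2 h)
    · subst h2; rfl
    · exact absurd h1.symm (fun h => key j i hi h2 h)
  have h1 := Nat.card_le_card_of_injective f hf
  rwa [Nat.card_eq_fintype_card (α := Fin g), Fintype.card_fin] at h1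

end

end Crest.Agent.R177.Geom
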