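import Crest.Agent.R177.GrpLam
import Crest.Agent.R177.Defs2

/-!
# Row 177, group side: chains
-/

set_option autoImplicit false
set_option linter.unusedSectionVars false

open scoped Classical

namespace Crest.Agent.R177.GS

open Crest.Agent.R199 (PAct)
open Crest.Agent.R199.Chase Crest.Agent.R199.Exact

variable {S V : Type}

/-! ### `cbd` and `push` on singletons -/

theorem cbd_single (A : PAct S V) (p : Grp A) (v v' : V) (s : S) (n : ℤ)
    (h : A.st (s, true) v = some v') :
    cbd A (Finsupp.single (p, v, s) n) =
      Finsupp.single (p * gw A [(s, true)], v') n - Finsupp.single (p, v) n := by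
  unfold cbd
  rw [Finsupp.liftAddHom_apply_single]
  simp only [h, AddMonoidHom.sub_apply, Finsupp.singleAddHom_apply]

theorem push_single (A : PAct S V) (p : Grp A) (v : V) (s : S) (n : ℤ) :
    push A (Finsupp.single (p, v, s) n) = Finsupp.single (p, s) n := by
  unfold push
  rw [Finsupp.liftAddHom_apply_single, Finsupp.singleAddHom_apply]

/-! ### Part 1: `Aspherical` gives injectivity of `d2` -/

/-- a chain with values in the chains of `gA A`, as a chain on `Grp A × V × S` -/
noncomputable def flat (A : PAct S V) :
    (Grp A →₀ ((gA A).Ed →₀ ℤ)) →+ ((Grp A × V × S) →₀ ℤ) :=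
  Finsupp.liftAddHom fun g => Finsupp.liftAddHom fun e =>
    Finsupp.singleAddHom (g * dev A ((gA A).src e), (gA A).src e, (gA A).lab e)

theorem flat_single (A : PAct S V) (g : Grp A) (e : (gA A).Ed) (n : ℤ) :
    flat A (Finsupp.single g (Finsupp.single e n)) =
      Finsupp.single (g * dev A ((gA A).src e), (gA A).src e, (gA A).lab e) n := by
  unfold flat
  rw [Finsupp.liftAddHom_apply_single, Finsupp.liftAddHom_apply_single]
  rfl

theorem flat_apply (A : PAct S V) (F : Grp A →₀ ((gA A).Ed →₀ ℤ)) (g : Grp A) (v : V) (s : S) :
    flat A F (g, v, s) = if h : (A.st (s, true) v).isSome then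
      F (g * (dev A v)⁻¹) (⟨(v, s), h⟩ : (gA A).Ed) else 0 := by
  induction F using Finsupp.induction_linear with
  | zero =>
    rw [map_zero]
    by_cases h : (A.st (s, true) v).isSome
    · rw [dif_pos h]; rfl
    · rw [dif_neg h]; rfl
  | add a b ha hb =>
    rw [map_add, Finsupp.add_apply, ha, hb]
    by_cases h : (A.st (s, true) v).isSome
    · rw [dif_pos h, dif_pos h, dif_pos h]; rfl
    · rw [dif_neg h, dif_neg h, dif_neg h, add_zero]
  | single g' z =>
    induction z using Finsupp.induction_linear with
    | zero =>
      rw [Finsupp.single_zero, map_zero]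
      by_cases h : (A.st (s, true) v).isSome
      · rw [dif_pos h]; rfl
      · rw [dif_neg h]; rfl
    | add a b ha hb =>
      rw [Finsupp.single_add, map_add, Finsupp.add_apply, ha, hb]
      by_cases h : (A.st (s, true) v).isSome
      · rw [dif_pos h, dif_pos h, dif_pos h]; rfl
      · rw [dif_neg h, dif_neg h, dif_neg h, add_zero]
    | single e n =>
      rw [flat_single]
      obtain ⟨⟨v', s'⟩, h'⟩ := e
      show (Finsupp.single (g' * dev A v', v', s') n) (g, v, s) = _
      by_cases hvs : v' = v ∧ s' = s
      · obtain ⟨rfl, rfl⟩ := hvs
        have h : (A.st (s', true) v').isSome := h'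
        rw [dif_pos h]
        by_cases hg : g' = g * (dev A v')⁻¹
        · subst hg
          rw [inv_mul_cancel_right, Finsupp.single_eq_same, Finsupp.single_eq_same]
          exact (Finsupp.single_eq_same).symm
        · rw [Finsupp.single_eq_of_ne (fun h => hg h.symm), Finsupp.single_eq_of_ne]
          · rfl
          · intro h1
            apply hg
            have := congrArg Prod.fst h1
            simp only at this
            rw [this, mul_inv_cancel_right]
      · rw [Finsupp.single_eq_of_ne]
        · by_cases h : (A.st (s, true) v).isSome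
          · rw [dif_pos h]
            by_cases hg : g' = g * (dev A v)⁻¹
            · subst hg
              rw [Finsupp.single_eq_same]
              refine (Finsupp.single_eq_of_ne ?_).symm
              intro h1
              apply hvs
              have h2 := congrArg Subtype.val h1
              simp only [Prod.mk.injEq] at h2
              exact ⟨h2.1.symm, h2.2.symm⟩
            · rw [Finsupp.single_eq_of_ne (fun h => hg h.symm)]
              rfl
          · rw [dif_neg h]
        · intro h1
          apply hvs
          simp only [Prod.mk.injEq] at h1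
          exact ⟨h1.2.1.symm, h1.2.2.symm⟩

theorem flat_injective (A : PAct S V) : Function.Injective (flat A) := by
  rw [injective_iff_map_eq_zero]
  intro F hF
  ext g e
  obtain ⟨⟨v, s⟩, h⟩ := e
  have h1 := flat_apply A F (g * dev A v) v s
  have h0 : (A.st (s, true) v).isSome := h
  rw [hF, dif_pos h0, mul_inv_cancel_right] at h1
  exact h1.symm

theorem flat_supp (A : PAct S V) (F : Grp A →₀ ((gA A).Ed →₀ ℤ)) :
    ∀ e ∈ (flat A F).support, (A.st (e.2.2, true) e.2.1).isSome := by
  rintro ⟨g, v, s⟩ he
  by_contra h
  rw [Finsupp.mem_support_iff, flat_apply, dif_neg h] at he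
  exact he rfl

theorem cbd_flat (A : PAct S V) (g : Grp A) (z : (gA A).Ed →₀ ℤ) :
    cbd A (flat A (Finsupp.single g z)) =
      Finsupp.mapDomain (fun v : V => (g * dev A v, v)) ((gA A).bdry z) := by
  induction z using Finsupp.induction_linear with
  | zero => simp only [Finsupp.single_zero, map_zero]; rfl
  | add a b ha hb =>
    rw [Finsupp.single_add, map_add, map_add, map_add, ha, hb]
    exact Finsupp.mapDomain_add.symm
  | single e n =>
    have h0 : A.st ((gA A).lab e, true) ((gA A).src e) = some ((gA A).tgt e) :=
      gA_st A (e, true)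
    rw [flat_single, cbd_single A _ _ _ _ _ h0, LG.bdry_single]
    have : ∀ a b : (gA A).P →₀ ℤ, Finsupp.mapDomain (fun v : V => (g * dev A v, v)) (a - b) =
        Finsupp.mapDomain (fun v : V => (g * dev A v, v)) a -
          Finsupp.mapDomain (fun v : V => (g * dev A v, v)) b := by
      intro a b
      exact map_sub (Finsupp.mapDomain.addMonoidHom (M := ℤ) (fun v : V => (g * dev A v, v))) a b
    rw [this, Finsupp.mapDomain_single, Finsupp.mapDomain_single, dev_tgt, ← mul_assoc]
    rfl

theorem push_flat_apply (A : PAct S V) (F : Grp A →₀ ((gA A).Ed →₀ ℤ)) (g : Grp A) (s : S) :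
    push A (flat A F) (g, s) = d2x (dev A) F g s := by
  induction F using Finsupp.induction_linear with
  | zero => simp
  | add a b ha hb => rw [map_add, map_add, map_add, Finsupp.add_apply, ha, hb]; rfl
  | single g' z =>
    induction z using Finsupp.induction_linear with
    | zero => simp
    | add a b ha hb =>
      rw [Finsupp.single_add, map_add, map_add, map_add, Finsupp.add_apply, ha, hb]; rfl
    | single e n =>
      rw [flat_single, push_single, d2x_single, d2'_single, E]
      by_cases hg : g' * dev A ((gA A).src e) = g
      · rw [hg, Finsupp.single_eq_same]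
        by_cases hs : (gA A).lab e = s
        · rw [hs, Finsupp.single_eq_same, Finsupp.single_eq_same]
        · rw [Finsupp.single_eq_of_ne (fun h => hs h.symm), Finsupp.single_eq_of_ne]
          intro h
          exact hs (congrArg Prod.snd h).symm
      · rw [Finsupp.single_eq_of_ne (fun h => hg h.symm), Finsupp.single_eq_of_ne]
        · rfl
        · intro h
          exact hg (congrArg Prod.fst h).symm

theorem cbd_flat_incl (A : PAct S V) (f : Grp A →₀ (gA A).Z1) :
    cbd A (flat A (incl f)) = 0 := by
  induction f using Finsupp.induction_linear with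
  | zero => rw [incl_zero, map_zero, map_zero]
  | add a b ha hb => rw [incl_add, map_add, map_add, ha, hb, add_zero]
  | single g z =>
    have hz : (gA A).bdry (z : (gA A).Ed →₀ ℤ) = 0 := z.2
    rw [incl_single, cbd_flat, hz, Finsupp.mapDomain_zero]

/-- **`d2` is injective** -/
theorem d2_injective (A : PAct S V) (hA : Aspherical A) (f : Grp A →₀ (gA A).Z1)
    (hf : d2 (dev A) f = 0) : f = 0 := by
  have h1 : flat A (incl f) = 0 := by
    refine hA _ (flat_supp A _) (cbd_flat_incl A f) ?_
    ext ⟨g, s⟩
    rw [push_flat_apply, d2x_incl, hf]
    rfl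
  have h2 : incl f = 0 := flat_injective A (by rw [h1, map_zero])
  exact incl_injective (by rw [h2, incl_zero])

end Crest.Agent.R177.GS
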