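import Crest.Agent.R199.Exact

/-!
# Row 177, module 6a: free identities from relations and from 2-cycles

* `Fr Γ`: a conjugate `u * (word of a closed walk) * u⁻¹`.
* `exists_list_of_mem`: members of `normalClosure Γ.rels` are products of such conjugates.
* `exists_identity_of_d2_eq_zero`: a 2-cycle is the class of a free identity.
-/

set_option autoImplicit false
set_option linter.unusedSectionVars false

namespace Crest.Agent.R177.GS

open Crest.Agent.R199.Chase Crest.Agent.R199.Exact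

variable {S : Type*} {Γ : LG S}

/-! ### walks -/

/-- reversed oriented edge -/
def drev (d : Γ.Ed × Bool) : Γ.Ed × Bool := (d.1, !d.2)

theorem ds_drev (d : Γ.Ed × Bool) : Γ.ds (drev d) = Γ.dt d := by
  rcases d with ⟨e, b⟩
  cases b <;> simp [drev, LG.ds, LG.dt]

theorem dt_drev (d : Γ.Ed × Bool) : Γ.dt (drev d) = Γ.ds d := by
  rcases d with ⟨e, b⟩
  cases b <;> simp [drev, LG.ds, LG.dt]

theorem isWalk_append {p r : Γ.P} {l m : List (Γ.Ed × Bool)} :
    Γ.IsWalk p (l ++ m) r ↔ ∃ q, Γ.IsWalk p l q ∧ Γ.IsWalk q m r := by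
  induction l generalizing p with
  | nil =>
    constructor
    · intro h
      exact ⟨p, rfl, h⟩
    · rintro ⟨q, h1, h2⟩
      have : p = q := h1
      subst this
      exact h2
  | cons d l ih =>
    constructor
    · rintro ⟨h1, h2⟩
      obtain ⟨q, h3, h4⟩ := ih.1 h2
      exact ⟨q, ⟨h1, h3⟩, h4⟩
    · rintro ⟨q, ⟨h1, h3⟩, h4⟩
      exact ⟨h1, ih.2 ⟨q, h3, h4⟩⟩

/-- reversed walk -/
def wrev (l : List (Γ.Ed × Bool)) : List (Γ.Ed × Bool) := (l.map drev).reverse

theorem isWalk_wrev {p q : Γ.P} {l : List (Γ.Ed × Bool)} (h : Γ.IsWalk p l q) :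
    Γ.IsWalk q (wrev l) p := by
  induction l generalizing p with
  | nil => exact (show p = q from h).symm
  | cons d l ih =>
    obtain ⟨h1, h2⟩ := h
    have h3 : wrev (d :: l) = wrev l ++ [drev d] := by simp [wrev]
    rw [h3, isWalk_append]
    refine ⟨_, ih h2, ?_, ?_⟩
    · exact ds_drev d
    · show Γ.dt (drev d) = p
      rw [dt_drev, h1]

theorem mk_word_append (l m : List (Γ.Ed × Bool)) :
    FreeGroup.mk (Γ.word (l ++ m)) = FreeGroup.mk (Γ.word l) * FreeGroup.mk (Γ.word m) := by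
  rw [FreeGroup.mul_mk]
  simp [LG.word]

theorem mk_word_wrev (l : List (Γ.Ed × Bool)) :
    FreeGroup.mk (Γ.word (wrev l)) = (FreeGroup.mk (Γ.word l))⁻¹ := by
  rw [FreeGroup.inv_mk]
  congr 1
  simp [LG.word, wrev, FreeGroup.invRev, drev, List.map_reverse, Function.comp_def]

theorem chain_nil : Γ.chain [] = 0 := by simp [LG.chain]

theorem chain_append (l m : List (Γ.Ed × Bool)) :
    Γ.chain (l ++ m) = Γ.chain l + Γ.chain m := by
  simp [LG.chain]

theorem chain_cons (d : Γ.Ed × Bool) (m : List (Γ.Ed × Bool)) :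
    Γ.chain (d :: m) = Finsupp.single d.1 (LG.sgn d.2) + Γ.chain m := by
  simp [LG.chain]

theorem sgn_not (b : Bool) : LG.sgn (!b) = - LG.sgn b := by cases b <;> simp [LG.sgn]

theorem chain_wrev (l : List (Γ.Ed × Bool)) : Γ.chain (wrev l) = - Γ.chain l := by
  induction l with
  | nil => simp [wrev, chain_nil]
  | cons d l ih =>
    have h3 : wrev (d :: l) = wrev l ++ [drev d] := by simp [wrev]
    rw [h3, chain_append, ih, chain_cons, chain_cons, chain_nil]
    simp only [drev, sgn_not, Finsupp.single_neg]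
    abel

/-! ### cycles are generated by closed walks -/

/-- `p` and `q` are joined by a walk -/
def Conn (Γ : LG S) (p q : Γ.P) : Prop := ∃ l, Γ.IsWalk p l q

theorem conn_equiv : Equivalence (Conn Γ) where
  refl _ := ⟨[], rfl⟩
  symm := fun ⟨l, h⟩ => ⟨wrev l, isWalk_wrev h⟩
  trans := fun ⟨l, h⟩ ⟨m, h'⟩ => ⟨l ++ m, isWalk_append.2 ⟨_, h, h'⟩⟩

/-- base point of the component -/
noncomputable def root (p : Γ.P) : Γ.P :=
  (Quotient.mk (⟨Conn Γ, conn_equiv⟩ : Setoid Γ.P) p).out

theorem root_conn (p : Γ.P) : Conn Γ (root p) p :=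
  Quotient.exact (s := ⟨Conn Γ, conn_equiv⟩)
    (Quotient.out_eq (Quotient.mk (⟨Conn Γ, conn_equiv⟩ : Setoid Γ.P) p))

theorem root_eq {p q : Γ.P} (h : Conn Γ p q) : root p = root q := by
  unfold root
  congr 1
  exact Quotient.sound h

/-- a walk from the root -/
noncomputable def rwalk (p : Γ.P) : List (Γ.Ed × Bool) := (root_conn p).choose

theorem rwalk_spec (p : Γ.P) : Γ.IsWalk (root p) (rwalk p) p := (root_conn p).choose_spec

/-- the chains which are sums of chains of closed walks -/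
def Wsub (Γ : LG S) : AddSubgroup (Γ.Ed →₀ ℤ) where
  carrier := {z | ∃ L : List (List (Γ.Ed × Bool)), (∀ l ∈ L, ∃ p, Γ.IsWalk p l p) ∧
    (L.map Γ.chain).sum = z}
  zero_mem' := ⟨[], by simp, by simp⟩
  add_mem' := by
    rintro a b ⟨L, h1, h2⟩ ⟨M, h3, h4⟩
    refine ⟨L ++ M, ?_, by simp [h2, h4]⟩
    intro l hl
    rcases List.mem_append.1 hl with h | h
    · exact h1 l h
    · exact h3 l h
  neg_mem' := by
    rintro a ⟨L, h1, h2⟩
    refine ⟨L.map wrev, ?_, ?_⟩
    · intro l hl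
      obtain ⟨m, hm, rfl⟩ := List.mem_map.1 hl
      obtain ⟨p, hp⟩ := h1 m hm
      exact ⟨p, isWalk_wrev hp⟩
    · rw [← h2, List.map_map]
      clear h1 h2
      induction L with
      | nil => simp
      | cons l L ih =>
        simp only [List.map_cons, List.sum_cons, Function.comp_apply]
        rw [ih, chain_wrev, neg_add]

theorem chain_mem_Wsub {l : List (Γ.Ed × Bool)} {p : Γ.P} (h : Γ.IsWalk p l p) :
    Γ.chain l ∈ Wsub Γ :=
  ⟨[l], by simpa using ⟨p, h⟩, by simp⟩

theorem mem_Wsub_of_mem_Z1 (z : Γ.Ed →₀ ℤ) (hz : z ∈ Γ.Z1) : z ∈ Wsub Γ := by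
  let inst : AddCommGroup ((Γ.Ed →₀ ℤ) ⧸ Wsub Γ) := QuotientAddGroup.Quotient.addCommGroup _
  let mk : (Γ.Ed →₀ ℤ) →+ (Γ.Ed →₀ ℤ) ⧸ Wsub Γ := QuotientAddGroup.mk' _
  let h : (Γ.P →₀ ℤ) →+ (Γ.Ed →₀ ℤ) ⧸ Wsub Γ :=
    Finsupp.liftAddHom fun p => zmultiplesHom _ (mk (Γ.chain (rwalk p)))
  have hs : ∀ p n, h (Finsupp.single p n) = n • mk (Γ.chain (rwalk p)) := by
    intro g n
    simp [h]
  have key : ∀ z, h (Γ.bdry z) = mk z := by
    intro z
    induction z using Finsupp.induction_linear with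
    | zero => simp
    | add a b ha hb => rw [map_add, map_add, ha, hb, map_add]
    | single e n =>
      rw [LG.bdry_single, map_sub, hs, hs]
      have hc : Conn Γ (Γ.src e) (Γ.tgt e) := ⟨[(e, true)], by simp [LG.IsWalk, LG.ds, LG.dt]⟩
      have h1 : Γ.IsWalk (root (Γ.src e)) (rwalk (Γ.src e) ++ (e, true) :: wrev (rwalk (Γ.tgt e)))
          (root (Γ.src e)) := by
        rw [isWalk_append]
        refine ⟨_, rwalk_spec _, by simp [LG.ds], ?_⟩
        have := isWalk_wrev (rwalk_spec (Γ.tgt e))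
        rw [root_eq hc]
        simpa [LG.dt] using this
      have h2 := (QuotientAddGroup.eq_zero_iff _).2 (chain_mem_Wsub h1)
      have h3 : mk (Finsupp.single e 1) =
          mk (Γ.chain (rwalk (Γ.tgt e))) - mk (Γ.chain (rwalk (Γ.src e))) := by
        have h4 : mk (Γ.chain (rwalk (Γ.src e) ++ (e, true) :: wrev (rwalk (Γ.tgt e)))) = 0 := h2
        rw [chain_append, chain_cons, chain_wrev, map_add, map_add, map_neg] at h4
        simp only [LG.sgn, if_true] at h4
        rw [eq_sub_iff_add_eq, ← sub_eq_zero, ← h4]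
        abel
      have h5 : Finsupp.single e n = n • Finsupp.single e (1 : ℤ) := by simp
      rw [h5, map_zsmul, h3, smul_sub]
  have h0 : mk z = 0 := by
    rw [← key, show Γ.bdry z = 0 from hz, map_zero]
  exact (QuotientAddGroup.eq_zero_iff z).1 h0

/-! ### lists of conjugates -/

/-- a conjugate of the word of a closed walk -/
structure Fr (Γ : LG S) where
  /-- the conjugator -/
  u : FreeGroup S
  /-- base point of the closed walk -/
  p : Γ.P
  /-- the closed walk -/
  l : List (Γ.Ed × Bool)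
  /-- it is closed -/
  hl : Γ.IsWalk p l p

namespace Fr

/-- its value in the free group -/
def val (t : Fr Γ) : FreeGroup S := t.u * FreeGroup.mk (Γ.word t.l) * t.u⁻¹

/-- the inverse conjugate -/
def inv (t : Fr Γ) : Fr Γ := ⟨t.u, t.p, wrev t.l, isWalk_wrev t.hl⟩

theorem val_inv (t : Fr Γ) : t.inv.val = t.val⁻¹ := by
  simp only [val, inv, mk_word_wrev]
  group

/-- conjugation -/
def conj (g : FreeGroup S) (t : Fr Γ) : Fr Γ := ⟨g * t.u, t.p, t.l, t.hl⟩

theorem val_conj (g : FreeGroup S) (t : Fr Γ) : (t.conj g).val = g * t.val * g⁻¹ := by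
  simp only [val, conj]
  group

end Fr

/-- the product of a list of conjugates -/
def frProd (L : List (Fr Γ)) : FreeGroup S := (L.map Fr.val).prod

theorem frProd_nil : frProd ([] : List (Fr Γ)) = 1 := rfl

theorem frProd_cons (t : Fr Γ) (L : List (Fr Γ)) : frProd (t :: L) = t.val * frProd L := by
  simp [frProd]

theorem frProd_append (L M : List (Fr Γ)) : frProd (L ++ M) = frProd L * frProd M := by
  simp [frProd]

/-- the inverse list -/
def frInv (L : List (Fr Γ)) : List (Fr Γ) := (L.map Fr.inv).reverse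

theorem frInv_cons (t : Fr Γ) (L : List (Fr Γ)) : frInv (t :: L) = frInv L ++ [t.inv] := by
  simp [frInv]

theorem frProd_frInv (L : List (Fr Γ)) : frProd (frInv L) = (frProd L)⁻¹ := by
  induction L with
  | nil => simp [frInv, frProd]
  | cons t L ih => rw [frInv_cons, frProd_append, ih, frProd_cons, frProd_cons, frProd_nil,
      Fr.val_inv, mul_inv_rev, mul_one]

theorem frProd_conj (g : FreeGroup S) (L : List (Fr Γ)) :
    frProd (L.map (Fr.conj g)) = g * frProd L * g⁻¹ := by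
  induction L with
  | nil => simp [frProd]
  | cons t L ih =>
    rw [List.map_cons, frProd_cons, ih, frProd_cons, Fr.val_conj]
    group

/-- **(I)** members of the normal closure are products of conjugates -/
theorem exists_list_of_mem (w : FreeGroup S) (hw : w ∈ Subgroup.normalClosure Γ.rels) :
    ∃ L : List (Fr Γ), frProd L = w := by
  let N : Subgroup (FreeGroup S) :=
    { carrier := {w | ∃ L : List (Fr Γ), frProd L = w}
      one_mem' := ⟨[], frProd_nil⟩
      mul_mem' := by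
        rintro a b ⟨L, rfl⟩ ⟨M, rfl⟩
        exact ⟨L ++ M, frProd_append L M⟩
      inv_mem' := by
        rintro a ⟨L, rfl⟩
        exact ⟨frInv L, frProd_frInv L⟩ }
  have hN : N.Normal := by
    refine ⟨fun n hn g => ?_⟩
    obtain ⟨L, rfl⟩ := hn
    exact ⟨L.map (Fr.conj g), frProd_conj g L⟩
  have hR : Γ.rels ⊆ N := by
    rintro r ⟨p, l, hl, rfl⟩
    refine ⟨[⟨1, p, l, hl⟩], ?_⟩
    simp [frProd, Fr.val]
  exact (Subgroup.normalClosure_le_normal hR) hw

variable {G : Type*} [Group G] (π : FreeGroup S →* G) (γ : Γ.P → G)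

/-- the class of a conjugate -/
noncomputable def Fr.cls (t : Fr Γ) : G →₀ (Γ.Ed →₀ ℤ) :=
  Finsupp.single (π t.u * (γ t.p)⁻¹) (Γ.chain t.l)

/-- the class of a list of conjugates -/
noncomputable def frCls (L : List (Fr Γ)) : G →₀ (Γ.Ed →₀ ℤ) := (L.map (Fr.cls π γ)).sum

theorem frCls_nil : frCls π γ [] = 0 := rfl

theorem frCls_cons (t : Fr Γ) (L : List (Fr Γ)) :
    frCls π γ (t :: L) = t.cls π γ + frCls π γ L := by
  simp [frCls]

theorem frCls_append (L M : List (Fr Γ)) :
    frCls π γ (L ++ M) = frCls π γ L + frCls π γ M := by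
  simp [frCls]

theorem Fr.cls_inv (t : Fr Γ) : t.inv.cls π γ = - t.cls π γ := by
  simp only [Fr.cls, Fr.inv, chain_wrev, Finsupp.single_neg]

theorem frCls_frInv (L : List (Fr Γ)) : frCls π γ (frInv L) = - frCls π γ L := by
  induction L with
  | nil => simp [frInv, frCls]
  | cons t L ih =>
    rw [frInv_cons, frCls_append, ih, frCls_cons, frCls_cons, frCls_nil, Fr.cls_inv]
    abel

/-- forget that the coefficients are cycles -/
noncomputable def incl (f : G →₀ Γ.Z1) : G →₀ (Γ.Ed →₀ ℤ) :=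
  Finsupp.mapRange.addMonoidHom (Γ.Z1.subtype) f

theorem incl_single (g : G) (z : Γ.Z1) :
    incl (Finsupp.single g z) = Finsupp.single g (z : Γ.Ed →₀ ℤ) := by
  simp [incl]

theorem incl_add (f g : G →₀ Γ.Z1) : incl (f + g) = incl f + incl g := by
  simp only [incl, map_add]

theorem incl_zero : incl (0 : G →₀ Γ.Z1) = 0 := by
  simp only [incl, map_zero]

theorem incl_injective : Function.Injective (incl (Γ := Γ) (G := G)) := by
  intro f g h
  ext x e
  have := congrArg (fun F => (F x) e) h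
  simpa [incl] using this

/-- the second boundary on all chains -/
noncomputable def d2x : (G →₀ (Γ.Ed →₀ ℤ)) →+ (G →₀ (S →₀ ℤ)) :=
  Finsupp.liftAddHom fun g => d2' γ g

theorem d2x_single (g : G) (z : Γ.Ed →₀ ℤ) : d2x γ (Finsupp.single g z) = d2' γ g z := by
  simp [d2x]

theorem d2x_incl (f : G →₀ Γ.Z1) : d2x γ (incl f) = d2 γ f := by
  induction f using Finsupp.induction_linear with
  | zero => rw [incl_zero, map_zero, map_zero]
  | add a b ha hb => rw [incl_add, map_add, map_add, ha, hb]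
  | single g z => rw [incl_single, d2x_single, d2_single]

variable (hγ : ∀ e, γ (Γ.tgt e) = γ (Γ.src e) * π (FreeGroup.of (Γ.lab e)))

include hγ in
theorem pi_closed {p : Γ.P} {l : List (Γ.Ed × Bool)} (h : Γ.IsWalk p l p) :
    π (FreeGroup.mk (Γ.word l)) = 1 :=
  mul_eq_left.1 (D_walk π γ hγ l p p h).2

include hγ in
theorem pi_val (t : Fr Γ) : π t.val = 1 := by
  simp only [Fr.val, map_mul, map_inv, pi_closed π γ hγ t.hl, mul_one, mul_inv_cancel]

include hγ in
theorem D_val (t : Fr Γ) : D π t.val = d2x γ (t.cls π γ) := by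
  have h1 := (D_walk π γ hγ t.l t.p t.p t.hl).1
  have h2 : D π (FreeGroup.mk (Γ.word t.l)) =
      gact (S →₀ ℤ) (γ t.p)⁻¹ (d2' γ 1 (Γ.chain t.l)) := by
    rw [← h1, gact_inv_gact]
  have h3 := pi_closed π γ hγ t.hl
  rw [Fr.cls, d2x_single]
  have h4 : d2' γ (π t.u * (γ t.p)⁻¹) (Γ.chain t.l) =
      gact (S →₀ ℤ) (π t.u * (γ t.p)⁻¹) (d2' γ 1 (Γ.chain t.l)) := by
    rw [← d2'_gact, mul_one]
  rw [h4, gact_mul, ← h2, Fr.val, D_mul, D_mul, D_inv, map_mul, h3, mul_one, map_neg,
    gact_gact_inv]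
  abel

include hγ in
theorem D_frProd (L : List (Fr Γ)) : D π (frProd L) = d2x γ (frCls π γ L) ∧ π (frProd L) = 1 := by
  induction L with
  | nil => exact ⟨by rw [frProd_nil, D_one, frCls_nil, map_zero], by rw [frProd_nil, map_one]⟩
  | cons t L ih =>
    refine ⟨?_, by rw [frProd_cons, map_mul, pi_val π γ hγ, ih.2, one_mul]⟩
    rw [frProd_cons, frCls_cons, D_mul, ih.1, D_val π γ hγ, pi_val π γ hγ, gact_one, map_add]

/-- every 2-chain is the class of a list -/
theorem exists_list_cls (hπ : Function.Surjective π) (f : G →₀ Γ.Z1) :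
    ∃ L : List (Fr Γ), frCls π γ L = incl f := by
  induction f using Finsupp.induction_linear with
  | zero => exact ⟨[], by rw [frCls_nil, incl_zero]⟩
  | add a b ha hb =>
    obtain ⟨L, hL⟩ := ha
    obtain ⟨M, hM⟩ := hb
    exact ⟨L ++ M, by rw [frCls_append, hL, hM, incl_add]⟩
  | single g z =>
    obtain ⟨L, h1, h2⟩ := mem_Wsub_of_mem_Z1 (z : Γ.Ed →₀ ℤ) z.2
    rw [incl_single, ← h2]
    clear h2
    induction L with
    | nil => exact ⟨[], by simp [frCls_nil]⟩
    | cons l L ih =>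
      obtain ⟨M, hM⟩ := ih (fun m hm => h1 m (List.mem_cons_of_mem _ hm))
      obtain ⟨p, hp⟩ := h1 l (List.mem_cons_self ..)
      obtain ⟨u, hu⟩ := hπ (g * γ p)
      refine ⟨⟨u, p, l, hp⟩ :: M, ?_⟩
      rw [frCls_cons, hM, Fr.cls, hu, mul_inv_cancel_right, List.map_cons, List.sum_cons,
        Finsupp.single_add]

/-- classes of free identities -/
def Iden : AddSubgroup (G →₀ (Γ.Ed →₀ ℤ)) where
  carrier := {c | ∃ L : List (Fr Γ), frProd L = 1 ∧ frCls π γ L = c}
  zero_mem' := ⟨[], frProd_nil, frCls_nil π γ⟩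
  add_mem' := by
    rintro a b ⟨L, h1, rfl⟩ ⟨M, h3, rfl⟩
    exact ⟨L ++ M, by rw [frProd_append, h1, h3, mul_one], frCls_append π γ L M⟩
  neg_mem' := by
    rintro a ⟨L, h1, rfl⟩
    exact ⟨frInv L, by rw [frProd_frInv, h1, inv_one], frCls_frInv π γ L⟩

open Classical in
/-- the class of an element of the normal closure, modulo identities -/
noncomputable def Phi (w : FreeGroup S) : (G →₀ (Γ.Ed →₀ ℤ)) ⧸ Iden π γ :=
  if h : ∃ L : List (Fr Γ), frProd L = w then QuotientAddGroup.mk (frCls π γ h.choose) else 0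

theorem Phi_eq (L : List (Fr Γ)) :
    Phi π γ (frProd L) = (QuotientAddGroup.mk (frCls π γ L) : (G →₀ (Γ.Ed →₀ ℤ)) ⧸ Iden π γ) := by
  have h : ∃ M : List (Fr Γ), frProd M = frProd L := ⟨L, rfl⟩
  unfold Phi
  rw [dif_pos h]
  rw [QuotientAddGroup.eq]
  refine ⟨frInv h.choose ++ L, ?_, ?_⟩
  · rw [frProd_append, frProd_frInv, h.choose_spec, inv_mul_cancel]
  · rw [frCls_append, frCls_frInv]

theorem Phi_mul {a b : FreeGroup S} (ha : a ∈ Subgroup.normalClosure Γ.rels)
    (hb : b ∈ Subgroup.normalClosure Γ.rels) :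
    Phi π γ (a * b) = Phi π γ a + Phi π γ b := by
  obtain ⟨L, rfl⟩ := exists_list_of_mem a ha
  obtain ⟨M, rfl⟩ := exists_list_of_mem b hb
  rw [← frProd_append, Phi_eq, Phi_eq, Phi_eq, frCls_append]
  rfl

theorem Phi_one : Phi π γ 1 = 0 := by
  have := Phi_eq π γ []
  rw [frProd_nil, frCls_nil] at this
  exact this

theorem Phi_inv {a : FreeGroup S} (ha : a ∈ Subgroup.normalClosure Γ.rels) :
    Phi π γ a⁻¹ = - Phi π γ a := by
  have := Phi_mul π γ (Subgroup.inv_mem _ ha) ha
  rw [inv_mul_cancel, Phi_one] at this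
  exact eq_neg_of_add_eq_zero_left this.symm

include hγ in
/-- **(II)** every 2-cycle is the class of a free identity -/
theorem exists_identity_of_d2_eq_zero (hπ : Function.Surjective π)
    (hker : π.ker ≤ Subgroup.normalClosure Γ.rels) (f : G →₀ Γ.Z1) (hf : d2 γ f = 0) :
    ∃ L : List (Fr Γ), frProd L = 1 ∧ frCls π γ L = incl f := by
  classical
  obtain ⟨σ, hσ, hσ1⟩ : ∃ σ : G → FreeGroup S, (∀ g, π (σ g) = g) ∧ σ 1 = 1 := by
    choose σ hσ using hπ
    refine ⟨fun g => if g = 1 then 1 else σ g, ?_, by simp⟩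
    intro g
    by_cases h : g = 1
    · simp [h]
    · simp [h, hσ]
  let inst : AddCommGroup ((G →₀ (Γ.Ed →₀ ℤ)) ⧸ Iden π γ) :=
    QuotientAddGroup.Quotient.addCommGroup _
  let θ : (G →₀ (S →₀ ℤ)) →+ (G →₀ (Γ.Ed →₀ ℤ)) ⧸ Iden π γ :=
    Finsupp.liftAddHom fun g => Finsupp.liftAddHom fun s =>
      zmultiplesHom _ (Phi π γ (σ g * FreeGroup.of s * (σ (g * π (FreeGroup.of s)))⁻¹))
  have hθ : ∀ g s, θ (E g s 1) =
      Phi π γ (σ g * FreeGroup.of s * (σ (g * π (FreeGroup.of s)))⁻¹) := by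
    intro g s
    show Finsupp.liftAddHom (fun g => Finsupp.liftAddHom fun s =>
      zmultiplesHom _ (Phi π γ (σ g * FreeGroup.of s * (σ (g * π (FreeGroup.of s)))⁻¹)))
      (Finsupp.single g (Finsupp.single s (1 : ℤ))) = _
    rw [Finsupp.liftAddHom_apply_single, Finsupp.liftAddHom_apply_single, zmultiplesHom_apply,
      one_zsmul]
  have hmem : ∀ g w, σ g * w * (σ (g * π w))⁻¹ ∈ Subgroup.normalClosure Γ.rels := by
    intro g w
    apply hker
    rw [MonoidHom.mem_ker, map_mul, map_mul, map_inv, hσ, hσ, mul_inv_cancel]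
  have key : ∀ w g, θ (gact (S →₀ ℤ) g (D π w)) = Phi π γ (σ g * w * (σ (g * π w))⁻¹) := by
    intro w
    refine FreeGroup.induction_on w ?_ ?_ ?_ ?_
    · intro g
      rw [D_one, map_zero, map_zero, map_one, mul_one, mul_one, mul_inv_cancel, Phi_one]
    · intro s g
      rw [D_of, gact_E, mul_one, hθ]
    · intro s _ g
      rw [D_inv, D_of, map_neg, ← gact_mul, gact_E, mul_one, map_neg, hθ, inv_mul_cancel_right,
        ← Phi_inv]
      · rw [map_inv]
        congr 1
        group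
      · have := hmem (g * (π (FreeGroup.of s))⁻¹) (FreeGroup.of s)
        rwa [inv_mul_cancel_right] at this
    · intro a b ha hb g
      rw [D_mul, map_add, map_add, ha, ← gact_mul, hb, ← Phi_mul]
      · rw [map_mul, ← mul_assoc g]
        congr 1
        group
      · exact hmem _ _
      · exact hmem _ _
  obtain ⟨L, hL⟩ := exists_list_cls π γ hπ f
  obtain ⟨h1, h2⟩ := D_frProd π γ hγ L
  rw [hL, d2x_incl, hf] at h1
  have h3 := key (frProd L) 1
  rw [h1, map_zero, map_zero, h2, mul_one, hσ1, inv_one, one_mul, mul_one, Phi_eq] at h3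
  obtain ⟨M, hM1, hM2⟩ := (QuotientAddGroup.eq_zero_iff _).1 h3.symm
  exact ⟨M, hM1, by rw [hM2, hL]⟩

include hγ in
/-- **(6c)** torsion-freeness from injectivity of `d2` -/
theorem torsionFree_of_d2_injective (hπ : Function.Surjective π)
    (hker : π.ker ≤ Subgroup.normalClosure Γ.rels)
    (hinj : ∀ f : G →₀ Γ.Z1, d2 γ f = 0 → f = 0) :
    ∀ g : G, IsOfFinOrder g → g = 1 := by
  have free : ∀ (g x : G), g • x = x → g = 1 := by
    intro g x h
    exact mul_eq_right.1 h
  exact torsionFree_of_exact free free free (d2 γ) (d1 π) eps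
    (d2_gact γ) (d1_gact π) eps_gact
    hinj (dd π γ hγ) (de π) (exact1 π γ hπ hγ hker)
    (exact0 π hπ) ⟨Finsupp.single 1 1, eps_single 1 1⟩

end Crest.Agent.R177.GS
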