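import Crest.Agent.R177.GrpFree
import Crest.Agent.R177.Defs
import Crest.Agent.R199.Words

/-!
# Row 177, group side: the labelled graphs of a folded graph

`gA A`: the folded graph as an `LG`; `lamA A`: its covering with nodes `Grp A × V`.
-/

set_option autoImplicit false
set_option linter.unusedSectionVars false

open scoped Classical

namespace Crest.Agent.R177.GS

open Crest.Agent.R199 (PAct)
open Crest.Agent.R199.Chase Crest.Agent.R199.Exact

variable {S V : Type}

/-- the homomorphism onto the group -/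
abbrev piA (A : PAct S V) : FreeGroup S →* Grp A := PresentedGroup.mk (rels A)

theorem gw_eq (A : PAct S V) (w : List (S × Bool)) : gw A w = piA A (FreeGroup.mk w) := rfl

theorem piA_surjective (A : PAct S V) : Function.Surjective (piA A) :=
  PresentedGroup.mk_surjective _

theorem gw_append (A : PAct S V) (u w : List (S × Bool)) :
    gw A (u ++ w) = gw A u * gw A w := by
  rw [gw_eq, gw_eq, gw_eq, ← map_mul, FreeGroup.mul_mk]

theorem gw_nil (A : PAct S V) : gw A [] = 1 := rfl

theorem gw_cons (A : PAct S V) (a : S × Bool) (w : List (S × Bool)) :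
    gw A (a :: w) = gw A [a] * gw A w := by
  rw [← gw_append]
  rfl

theorem gw_hinv (A : PAct S V) (a : S × Bool) : gw A [hinv a] = (gw A [a])⁻¹ := by
  rw [gw_eq, gw_eq, ← map_inv, FreeGroup.inv_mk]
  rfl

theorem piA_eq_one_iff (A : PAct S V) (w : FreeGroup S) :
    piA A w = 1 ↔ w ∈ Subgroup.normalClosure (rels A) := QuotientGroup.eq_one_iff w

theorem piA_ker (A : PAct S V) : (piA A).ker = Subgroup.normalClosure (rels A) := by
  ext w
  rw [MonoidHom.mem_ker, piA_eq_one_iff]

theorem gw_closed (A : PAct S V) {v : V} {w : List (S × Bool)} (h : A.read w v = some v) :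
    gw A w = 1 := by
  rw [gw_eq, piA_eq_one_iff]
  exact Subgroup.subset_normalClosure ⟨v, w, h, rfl⟩

theorem st_symm (A : PAct S V) {s : S} {b : Bool} {x y : V} (h : A.st (s, b) x = some y) :
    A.st (s, !b) y = some x := A.symm _ _ _ h

/-! ### the graph itself -/

/-- the labelled graph of a folded graph -/
abbrev gA (A : PAct S V) : LG S where
  P := V
  Ed := {e : V × S // (A.st (e.2, true) e.1).isSome}
  src e := e.1.1
  tgt e := (A.st (e.1.2, true) e.1.1).get e.2
  lab e := e.1.2

theorem gA_st (A : PAct S V) (d : (gA A).Ed × Bool) :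
    A.st ((gA A).lab d.1, d.2) ((gA A).ds d) = some ((gA A).dt d) := by
  obtain ⟨⟨⟨v, s⟩, h⟩, b⟩ := d
  have h0 : A.st (s, true) v = some ((A.st (s, true) v).get h) := (Option.some_get h).symm
  cases b with
  | true => exact h0
  | false => exact st_symm A h0

theorem gA_read (A : PAct S V) {l : List ((gA A).Ed × Bool)} : ∀ {p q : V},
    (gA A).IsWalk p l q → A.read ((gA A).word l) p = some q := by
  induction l with
  | nil =>
    intro p q h
    have : p = q := h
    subst this
    rfl
  | cons d l ih =>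
    intro p q h
    obtain ⟨h1, h2⟩ := h
    have h3 := gA_st A d
    subst h1
    show (A.st ((gA A).lab d.1, d.2) ((gA A).ds d)).bind (A.read ((gA A).word l)) = some q
    rw [h3]
    exact ih h2

theorem gA_exists (A : PAct S V) (a : S × Bool) {x y : V} (h : A.st a x = some y) :
    ∃ d : (gA A).Ed × Bool, ((gA A).lab d.1, d.2) = a ∧ (gA A).ds d = x ∧ (gA A).dt d = y := by
  obtain ⟨s, b⟩ := a
  cases b with
  | true =>
    refine ⟨(⟨(x, s), by rw [h]; rfl⟩, true), rfl, rfl, ?_⟩
    show (A.st (s, true) x).get _ = y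
    simp only [h, Option.get_some]
  | false =>
    have h1 : A.st (s, true) y = some x := st_symm A h
    refine ⟨(⟨(y, s), by rw [h1]; rfl⟩, false), rfl, ?_, rfl⟩
    show (A.st (s, true) y).get _ = x
    simp only [h1, Option.get_some]

theorem gA_lift (A : PAct S V) {w : List (S × Bool)} : ∀ {p q : V}, A.read w p = some q →
    ∃ l, (gA A).IsWalk p l q ∧ (gA A).word l = w := by
  induction w with
  | nil =>
    intro p q h
    exact ⟨[], Option.some.inj h, rfl⟩
  | cons a w ih =>
    intro p q h
    rw [PAct.read_cons] at h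
    cases h1 : A.st a p with
    | none => rw [h1] at h; simp at h
    | some z =>
      rw [h1] at h
      obtain ⟨l, h2, h3⟩ := ih (by simpa using h)
      obtain ⟨d, h4, h5, h6⟩ := gA_exists A a h1
      refine ⟨d :: l, ⟨h5, ?_⟩, ?_⟩
      · rw [h6]; exact h2
      · show ((gA A).lab d.1, d.2) :: (gA A).word l = _
        rw [h4, h3]

theorem gA_rels (A : PAct S V) : (gA A).rels = rels A := by
  ext r
  constructor
  · rintro ⟨p, l, hl, rfl⟩
    exact ⟨p, _, gA_read A hl, rfl⟩
  · rintro ⟨p, w, hw, rfl⟩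
    obtain ⟨l, h1, h2⟩ := gA_lift A hw
    exact ⟨p, l, h1, by rw [h2]⟩

/-- the developing map -/
noncomputable def dev (A : PAct S V) (v : (gA A).P) : Grp A :=
  piA A (FreeGroup.mk ((gA A).word (rwalk v)))

theorem dev_tgt (A : PAct S V) (e : (gA A).Ed) :
    dev A ((gA A).tgt e) = dev A ((gA A).src e) * piA A (FreeGroup.of ((gA A).lab e)) := by
  have hc : Conn (gA A) ((gA A).src e) ((gA A).tgt e) :=
    ⟨[(e, true)], by simp [LG.IsWalk, LG.ds, LG.dt]⟩
  have h1 : (gA A).IsWalk (root ((gA A).src e))
      (rwalk ((gA A).src e) ++ (e, true) :: wrev (rwalk ((gA A).tgt e)))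
      (root ((gA A).src e)) := by
    rw [isWalk_append]
    refine ⟨_, rwalk_spec _, by simp [LG.ds], ?_⟩
    have := isWalk_wrev (rwalk_spec ((gA A).tgt e))
    rw [root_eq hc]
    simpa [LG.dt] using this
  have h2 : piA A (FreeGroup.mk ((gA A).word
      (rwalk ((gA A).src e) ++ [(e, true)] ++ wrev (rwalk ((gA A).tgt e))))) = 1 := by
    rw [List.append_assoc]
    exact gw_closed A (gA_read A h1)
  rw [mk_word_append, mk_word_append, mk_word_wrev, map_mul, map_mul, map_inv,
    mul_inv_eq_one] at h2
  exact h2.symm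

/-! ### the developed graph -/

/-- the covering of the graph with nodes `Grp A × V` -/
abbrev lamA (A : PAct S V) : LG S where
  P := Grp A × V
  Ed := {e : Grp A × V × S // (A.st (e.2.2, true) e.2.1).isSome}
  src e := (e.1.1, e.1.2.1)
  tgt e := (e.1.1 * gw A [(e.1.2.2, true)], (A.st (e.1.2.2, true) e.1.2.1).get e.2)
  lab e := e.1.2.2

theorem lamA_st (A : PAct S V) (d : (lamA A).Ed × Bool) :
    A.st ((lamA A).lab d.1, d.2) ((lamA A).ds d).2 = some ((lamA A).dt d).2 ∧
      ((lamA A).dt d).1 = ((lamA A).ds d).1 * gw A [((lamA A).lab d.1, d.2)] := by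
  obtain ⟨⟨⟨p, v, s⟩, h⟩, b⟩ := d
  have h0 : A.st (s, true) v = some ((A.st (s, true) v).get h) := (Option.some_get h).symm
  cases b with
  | true => exact ⟨h0, rfl⟩
  | false =>
    refine ⟨st_symm A h0, ?_⟩
    show p = p * gw A [(s, true)] * gw A [(s, false)]
    have : gw A [(s, false)] = (gw A [(s, true)])⁻¹ := gw_hinv A (s, true)
    rw [this, mul_inv_cancel_right]

theorem lamA_read (A : PAct S V) {l : List ((lamA A).Ed × Bool)} : ∀ {p q : Grp A × V},
    (lamA A).IsWalk p l q → A.read ((lamA A).word l) p.2 = some q.2 ∧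
      q.1 = p.1 * gw A ((lamA A).word l) := by
  induction l with
  | nil =>
    intro p q h
    have : p = q := h
    subst this
    exact ⟨rfl, (mul_one _).symm⟩
  | cons d l ih =>
    intro p q h
    obtain ⟨h1, h2⟩ := h
    obtain ⟨h3, h4⟩ := lamA_st A d
    subst h1
    obtain ⟨h5, h6⟩ := ih h2
    constructor
    · show (A.st ((lamA A).lab d.1, d.2) ((lamA A).ds d).2).bind
        (A.read ((lamA A).word l)) = some q.2
      rw [h3]
      exact h5
    · rw [h6, h4, mul_assoc, ← gw_cons]
      rfl

theorem lamA_exists (A : PAct S V) (a : S × Bool) (g : Grp A) {x y : V}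
    (h : A.st a x = some y) :
    ∃ d : (lamA A).Ed × Bool, ((lamA A).lab d.1, d.2) = a ∧ (lamA A).ds d = (g, x) ∧
      (lamA A).dt d = (g * gw A [a], y) := by
  obtain ⟨s, b⟩ := a
  cases b with
  | true =>
    refine ⟨(⟨(g, x, s), by simp only [h, Option.isSome_some]⟩, true), rfl, rfl, ?_⟩
    show (g * gw A [(s, true)], (A.st (s, true) x).get _) = _
    simp only [h, Option.get_some]
  | false =>
    have h1 : A.st (s, true) y = some x := st_symm A h
    have h2 : gw A [(s, false)] = (gw A [(s, true)])⁻¹ := gw_hinv A (s, true)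
    refine ⟨(⟨(g * gw A [(s, false)], y, s), by simp only [h1, Option.isSome_some]⟩, false),
      rfl, ?_, rfl⟩
    show (g * gw A [(s, false)] * gw A [(s, true)], (A.st (s, true) y).get _) = (g, x)
    simp only [h1, Option.get_some, h2, inv_mul_cancel_right]

theorem lamA_lift (A : PAct S V) {w : List (S × Bool)} : ∀ (g : Grp A) {p q : V},
    A.read w p = some q →
    ∃ l, (lamA A).IsWalk (g, p) l (g * gw A w, q) ∧ (lamA A).word l = w := by
  induction w with
  | nil =>
    intro g p q h
    refine ⟨[], ?_, rfl⟩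
    show (g, p) = (g * gw A [], q)
    rw [gw_nil, mul_one, Option.some.inj h]
  | cons a w ih =>
    intro g p q h
    rw [PAct.read_cons] at h
    cases h1 : A.st a p with
    | none => rw [h1] at h; simp at h
    | some z =>
      rw [h1] at h
      obtain ⟨l, h2, h3⟩ := ih (g * gw A [a]) (p := z) (q := q) (by simpa using h)
      obtain ⟨d, h4, h5, h6⟩ := lamA_exists A a g h1
      refine ⟨d :: l, ⟨h5, ?_⟩, ?_⟩
      · rw [h6, gw_cons A a w, ← mul_assoc]; exact h2
      · show ((lamA A).lab d.1, d.2) :: (lamA A).word l = _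
        rw [h4, h3]

theorem lamA_rels (A : PAct S V) : (lamA A).rels = rels A := by
  ext r
  constructor
  · rintro ⟨p, l, hl, rfl⟩
    exact ⟨p.2, _, (lamA_read A hl).1, rfl⟩
  · rintro ⟨p, w, hw, rfl⟩
    obtain ⟨l, h1, h2⟩ := lamA_lift A 1 hw
    rw [gw_closed A hw, mul_one] at h1
    exact ⟨(1, p), l, h1, by rw [h2]⟩

end Crest.Agent.R177.GS
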