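import Mathlib

/-!
# Greedy cut of a graph with a tree decomposition

`Y` is the edge set of a forest on the nodes `E` (edge `y` joins `s y` and `t y`), forest meaning
that no nonempty set of edges is even.  `S w` is a connected set of nodes for every `w`.
-/

set_option linter.unusedSectionVars false

namespace Crest.Agent.R177.Hyper

open Finset

variable {E X W : Type*} [DecidableEq E] [DecidableEq X] [DecidableEq W]

/-- No nonempty subset of `Y` is even. -/
def Acyc (s t : X → E) (Y : Finset X) : Prop :=
  ∀ S ⊆ Y, S.Nonempty → ∃ e, Odd ((S.filter (fun y => s y = e)).card + (S.filter (fun y => t y = e)).card)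

/-- `A` is connected through edges of `Y`. -/
def Conn (s t : X → E) (Y : Finset X) (A : Finset E) : Prop :=
  ∀ B ⊆ A, B.Nonempty → B ≠ A → ∃ y ∈ Y, (s y ∈ B ∧ t y ∈ A \ B) ∨ (t y ∈ B ∧ s y ∈ A \ B)

theorem Acyc.no_loop {s t : X → E} {Y : Finset X} (h : Acyc s t Y) {y : X} (hy : y ∈ Y) : s y ≠ t y := by
  intro hst
  obtain ⟨e, he⟩ := h {y} (by simpa using hy) (by simp)
  rw [Finset.filter_singleton, Finset.filter_singleton, hst] at he
  by_cases h' : t y = e
  · simp [h'] at he
    exact absurd he (by decide)
  · simp [h'] at he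

/-- A forest has a leaf in each nonempty node set. -/
theorem exists_leaf {s t : X → E} {Y : Finset X} (h : Acyc s t Y) (I : Finset E) (hI : I.Nonempty) :
    ∃ i ∈ I, (Y.filter (fun y => s y ∈ I ∧ t y ∈ I ∧ (s y = i ∨ t y = i))).card ≤ 1 := by
  by_contra hcon
  push Not at hcon
  set Z := Y.filter (fun y => s y ∈ I ∧ t y ∈ I) with hZ
  obtain ⟨i0, hi0⟩ := hI
  -- count
  have hsum : ∑ i ∈ I, (Y.filter (fun y => s y ∈ I ∧ t y ∈ I ∧ (s y = i ∨ t y = i))).card ≤ 2 * Z.card := by
    have h1 : ∀ i ∈ I, (Y.filter (fun y => s y ∈ I ∧ t y ∈ I ∧ (s y = i ∨ t y = i))).card ≤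
        (Z.filter (fun y => s y = i)).card + (Z.filter (fun y => t y = i)).card := by
      intro i _
      refine le_trans (Finset.card_le_card ?_) (Finset.card_union_le _ _)
      intro y hy
      simp only [Finset.mem_filter, hZ, Finset.mem_union] at hy ⊢
      rcases hy with ⟨a, b, c, d | d⟩
      · exact Or.inl ⟨⟨a, b, c⟩, d⟩
      · exact Or.inr ⟨⟨a, b, c⟩, d⟩
    refine (Finset.sum_le_sum h1).trans ?_
    rw [Finset.sum_add_distrib, two_mul]
    refine add_le_add ?_ ?_
    · rw [Finset.card_eq_sum_card_fiberwise (f := s) (t := I)]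
      intro y hy
      simp only [hZ, Finset.coe_filter, Set.mem_ofPred_eq] at hy
      exact hy.2.1
    · rw [Finset.card_eq_sum_card_fiberwise (f := t) (t := I)]
      intro y hy
      simp only [hZ, Finset.coe_filter, Set.mem_ofPred_eq] at hy
      exact hy.2.2
  have hlow : 2 * I.card ≤ ∑ i ∈ I, (Y.filter (fun y => s y ∈ I ∧ t y ∈ I ∧ (s y = i ∨ t y = i))).card := by
    rw [mul_comm, ← smul_eq_mul, ← Finset.sum_const]
    exact Finset.sum_le_sum (fun i hi => hcon i hi)
  have hcard : I.card ≤ Z.card := by omega
  -- linear algebra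
  let L : (Z → ZMod 2) →ₗ[ZMod 2] (↥(I.erase i0) → ZMod 2) :=
    { toFun := fun c i => ∑ y : Z, (if s y = i then c y else 0) + ∑ y : Z, (if t y = i then c y else 0)
      map_add' := by
        intro a b
        ext i
        simp only [Pi.add_apply, ← Finset.sum_add_distrib]
        refine Finset.sum_congr rfl (fun y _ => ?_)
        split_ifs <;> ring
      map_smul' := by
        intro r a
        ext i
        simp only [Pi.smul_apply, smul_eq_mul, RingHom.id_apply, mul_add, Finset.mul_sum, mul_ite, mul_zero] }
  have hker : ∃ c : Z → ZMod 2, c ≠ 0 ∧ L c = 0 := by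
    by_contra hno
    push Not at hno
    have hinj : Function.Injective L := by
      rw [← LinearMap.ker_eq_bot, LinearMap.ker_eq_bot']
      intro c hc
      by_contra hne
      exact hno c hne hc
    have := LinearMap.finrank_le_finrank_of_injective hinj
    rw [Module.finrank_fintype_fun_eq_card, Module.finrank_fintype_fun_eq_card, Fintype.card_coe,
      Fintype.card_coe, Finset.card_erase_of_mem hi0] at this
    have := Finset.card_pos.mpr ⟨i0, hi0⟩
    omega
  obtain ⟨c, hc0, hLc⟩ := hker
  set S : Finset X := Y.filter (fun y => ∃ hy : y ∈ Z, c ⟨y, hy⟩ ≠ 0) with hS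
  have hSY : S ⊆ Y := Finset.filter_subset _ _
  have hSne : S.Nonempty := by
    obtain ⟨y, hy⟩ := Function.ne_iff.mp hc0
    refine ⟨y.1, ?_⟩
    rw [hS, Finset.mem_filter]
    exact ⟨(Finset.mem_filter.mp y.2).1, y.2, hy⟩
  obtain ⟨e, he⟩ := h S hSY hSne
  -- every count is even
  have hcount : ∀ (r : X → E) (e : E), (((S.filter (fun y => r y = e)).card : ℕ) : ZMod 2) =
      ∑ y : Z, (if r y = e then c y else 0) := by
    intro r e
    have hc1 : ∀ y : Z, c y = if c y ≠ 0 then 1 else 0 := by
      intro y
      have : ∀ z : ZMod 2, z = if z ≠ 0 then 1 else 0 := by decide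
      exact this (c y)
    have h2 : (S.filter (fun y => r y = e)) =
        (Finset.univ.filter (fun y : Z => r y = e ∧ c y ≠ 0)).map (Function.Embedding.subtype _) := by
      ext y
      simp only [hS, Finset.mem_filter, Finset.mem_map, Finset.mem_univ, true_and,
        Function.Embedding.coe_subtype, Subtype.exists, exists_and_right, exists_eq_right]
      constructor
      · rintro ⟨⟨_, hy, hcy⟩, hr⟩
        exact ⟨hy, hr, hcy⟩
      · rintro ⟨hy, hr, hcy⟩
        exact ⟨⟨(Finset.mem_filter.mp hy).1, hy, hcy⟩, hr⟩
    rw [h2, Finset.card_map, Finset.card_filter, Nat.cast_sum]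
    refine Finset.sum_congr rfl (fun y _ => ?_)
    by_cases hr : r y = e
    · by_cases hcy : c y = 0
      · simp [hcy]
      · have := hc1 y
        simp only [ne_eq, hcy, not_false_eq_true, if_true] at this
        simp [hr, this]
    · simp [hr]
  have hval : ∀ e ∈ I, e ≠ i0 → (((S.filter (fun y => s y = e)).card : ℕ) : ZMod 2) +
      (((S.filter (fun y => t y = e)).card : ℕ) : ZMod 2) = 0 := by
    intro e he hei
    have := congrFun hLc ⟨e, Finset.mem_erase.mpr ⟨hei, he⟩⟩
    rw [hcount, hcount]
    simpa [L] using this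
  have hout : ∀ e, e ∉ I → (((S.filter (fun y => s y = e)).card : ℕ) : ZMod 2) +
      (((S.filter (fun y => t y = e)).card : ℕ) : ZMod 2) = 0 := by
    intro e he
    have h1 : S.filter (fun y => s y = e) = ∅ := by
      rw [Finset.filter_eq_empty_iff]
      intro y hy hye
      rw [hS, Finset.mem_filter] at hy
      obtain ⟨_, hz, _⟩ := hy
      rw [hZ, Finset.mem_filter] at hz
      exact he (hye ▸ hz.2.1)
    have h2 : S.filter (fun y => t y = e) = ∅ := by
      rw [Finset.filter_eq_empty_iff]
      intro y hy hye
      rw [hS, Finset.mem_filter] at hy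
      obtain ⟨_, hz, _⟩ := hy
      rw [hZ, Finset.mem_filter] at hz
      exact he (hye ▸ hz.2.2)
    rw [h1, h2]; simp
  have htot : ∑ e ∈ I, ((((S.filter (fun y => s y = e)).card : ℕ) : ZMod 2) +
      (((S.filter (fun y => t y = e)).card : ℕ) : ZMod 2)) = 0 := by
    rw [Finset.sum_add_distrib, ← Nat.cast_sum, ← Nat.cast_sum]
    have hs : ∑ e ∈ I, (S.filter (fun y => s y = e)).card = S.card := by
      rw [Finset.card_eq_sum_card_fiberwise (f := s) (t := I)]
      intro y hy
      obtain ⟨_, hz, _⟩ := (Finset.mem_filter.mp hy)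
      exact (Finset.mem_filter.mp hz).2.1
    have ht : ∑ e ∈ I, (S.filter (fun y => t y = e)).card = S.card := by
      rw [Finset.card_eq_sum_card_fiberwise (f := t) (t := I)]
      intro y hy
      obtain ⟨_, hz, _⟩ := (Finset.mem_filter.mp hy)
      exact (Finset.mem_filter.mp hz).2.2
    rw [hs, ht]
    have : ∀ z : ZMod 2, z + z = 0 := by decide
    exact this _
  have hall : (((S.filter (fun y => s y = e)).card : ℕ) : ZMod 2) +
      (((S.filter (fun y => t y = e)).card : ℕ) : ZMod 2) = 0 := by
    by_cases heI : e ∈ I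
    · by_cases hei : e = i0
      · subst hei
        rw [← Finset.add_sum_erase _ _ heI, Finset.sum_eq_zero, add_zero] at htot
        · exact htot
        · intro x hx
          exact hval x (Finset.mem_of_mem_erase hx) (Finset.ne_of_mem_erase hx)
      · exact hval e heI hei
    · exact hout e heI
  rw [← Nat.cast_add, ZMod.natCast_eq_zero_iff_even] at hall
  exact (Nat.not_even_iff_odd.mpr he) hall

/-- A leaf of `I` with its unique neighbour, if any. -/
theorem exists_leaf' {s t : X → E} {Y : Finset X} (h : Acyc s t Y) (I : Finset E) (hI : I.Nonempty) :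
    ∃ i ∈ I, (∀ y ∈ Y, s y ∈ I → t y ∈ I → s y ≠ i ∧ t y ≠ i) ∨
      ∃ j ∈ I, j ≠ i ∧ ∀ y ∈ Y, s y ∈ I → t y ∈ I → (s y = i → t y = j) ∧ (t y = i → s y = j) := by
  obtain ⟨i, hi, hcard⟩ := exists_leaf h I hI
  refine ⟨i, hi, ?_⟩
  by_cases hex : ∃ y ∈ Y, s y ∈ I ∧ t y ∈ I ∧ (s y = i ∨ t y = i)
  · right
    obtain ⟨y0, hy0, hs0, ht0, hi0⟩ := hex
    have hne := h.no_loop hy0
    rw [Finset.card_le_one] at hcard
    have huniq : ∀ y ∈ Y, s y ∈ I → t y ∈ I → (s y = i ∨ t y = i) → y = y0 := by
      intro y hy hs ht hi'
      exact hcard y (Finset.mem_filter.mpr ⟨hy, hs, ht, hi'⟩) y0 (Finset.mem_filter.mpr ⟨hy0, hs0, ht0, hi0⟩)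
    rcases hi0 with hsi | hti
    · refine ⟨t y0, ht0, ?_, ?_⟩
      · rw [← hsi]; exact hne.symm
      · intro y hy hs ht
        constructor
        · intro h1
          rw [huniq y hy hs ht (Or.inl h1)]
        · intro h1
          have := huniq y hy hs ht (Or.inr h1)
          subst this
          exact absurd (hsi.trans h1.symm) hne
    · refine ⟨s y0, hs0, ?_, ?_⟩
      · rw [← hti]; exact hne
      · intro y hy hs ht
        constructor
        · intro h1
          have := huniq y hy hs ht (Or.inl h1)
          subst this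
          exact absurd (h1.trans hti.symm) hne
        · intro h1
          rw [huniq y hy hs ht (Or.inr h1)]
  · left
    push Not at hex
    exact fun y hy hs ht => hex y hy hs ht

/-- Removing a leaf keeps connectedness. -/
theorem Conn.erase_leaf {s t : X → E} {Y : Finset X} {A I : Finset E} (hA : Conn s t Y A) (hAI : A ⊆ I)
    {i j : E} (hji : j ≠ i)
    (hj : ∀ y ∈ Y, s y ∈ I → t y ∈ I → (s y = i → t y = j) ∧ (t y = i → s y = j)) :
    Conn s t Y (A.erase i) := by
  intro B hB hBne hBA
  by_cases hiA : i ∈ A
  swap
  · rw [Finset.erase_eq_of_notMem hiA] at hB hBA ⊢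
    exact hA B hB hBne hBA
  have hiB : i ∉ B := fun hc => (Finset.mem_erase.mp (hB hc)).1 rfl
  by_cases hjB : j ∈ B
  · have hsub : insert i B ⊆ A := by
      intro z hz
      rcases Finset.mem_insert.mp hz with rfl | hz
      · exact hiA
      · exact Finset.mem_of_mem_erase (hB hz)
    have hne : insert i B ≠ A := by
      intro hc
      apply hBA
      rw [← hc, Finset.erase_insert hiB]
    obtain ⟨y, hy, h1 | h1⟩ := hA (insert i B) hsub (Finset.insert_nonempty _ _) hne
    · refine ⟨y, hy, Or.inl ?_⟩
      obtain ⟨h1, h2⟩ := h1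
      rw [Finset.mem_sdiff, Finset.mem_insert, not_or] at h2
      have hs : s y ≠ i := by
        intro hc
        have := (hj y hy (hAI (hsub h1)) (hAI h2.1)).1 hc
        exact h2.2.2 (this ▸ hjB)
      refine ⟨(Finset.mem_insert.mp h1).resolve_left hs, ?_⟩
      rw [Finset.mem_sdiff, Finset.mem_erase]
      exact ⟨⟨h2.2.1, h2.1⟩, h2.2.2⟩
    · refine ⟨y, hy, Or.inr ?_⟩
      obtain ⟨h1, h2⟩ := h1
      rw [Finset.mem_sdiff, Finset.mem_insert, not_or] at h2
      have hs : t y ≠ i := by
        intro hc
        have := (hj y hy (hAI h2.1) (hAI (hsub h1))).2 hc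
        exact h2.2.2 (this ▸ hjB)
      refine ⟨(Finset.mem_insert.mp h1).resolve_left hs, ?_⟩
      rw [Finset.mem_sdiff, Finset.mem_erase]
      exact ⟨⟨h2.2.1, h2.1⟩, h2.2.2⟩
  · have hsub : B ⊆ A := hB.trans (Finset.erase_subset _ _)
    have hne : B ≠ A := fun hc => hiB (hc ▸ hiA)
    obtain ⟨y, hy, h1 | h1⟩ := hA B hsub hBne hne
    · refine ⟨y, hy, Or.inl ⟨h1.1, ?_⟩⟩
      obtain ⟨h1, h2⟩ := h1
      rw [Finset.mem_sdiff] at h2 ⊢
      refine ⟨Finset.mem_erase.mpr ⟨?_, h2.1⟩, h2.2⟩
      intro hc
      exact hjB (((hj y hy (hAI (hsub h1)) (hAI h2.1)).2 hc) ▸ h1)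
    · refine ⟨y, hy, Or.inr ⟨h1.1, ?_⟩⟩
      obtain ⟨h1, h2⟩ := h1
      rw [Finset.mem_sdiff] at h2 ⊢
      refine ⟨Finset.mem_erase.mpr ⟨?_, h2.1⟩, h2.2⟩
      intro hc
      exact hjB (((hj y hy (hAI h2.1) (hAI (hsub h1))).1 hc) ▸ h1)

/-- If a connected set contains the leaf `i` and is not `{i}` it contains the neighbour. -/
theorem Conn.mem_neighbour {s t : X → E} {Y : Finset X} {A I : Finset E} (hA : Conn s t Y A) (hAI : A ⊆ I)
    {i j : E} (hiA : i ∈ A) (hAi : A ≠ {i})
    (hj : ∀ y ∈ Y, s y ∈ I → t y ∈ I → (s y = i → t y = j) ∧ (t y = i → s y = j)) :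
    j ∈ A := by
  obtain ⟨y, hy, h1 | h1⟩ := hA {i} (by simpa using hiA) (by simp) (fun hc => hAi hc.symm)
  · obtain ⟨h1, h2⟩ := h1
    rw [Finset.mem_singleton] at h1
    rw [Finset.mem_sdiff] at h2
    rw [← (hj y hy (hAI (h1 ▸ hiA)) (hAI h2.1)).1 h1]
    exact h2.1
  · obtain ⟨h1, h2⟩ := h1
    rw [Finset.mem_singleton] at h1
    rw [Finset.mem_sdiff] at h2
    rw [← (hj y hy (hAI h2.1) (hAI (h1 ▸ hiA))).2 h1]
    exact h2.1

theorem Conn.eq_singleton {s t : X → E} {Y : Finset X} {A I : Finset E} (hA : Conn s t Y A) (hAI : A ⊆ I)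
    {i : E} (hiA : i ∈ A) (hno : ∀ y ∈ Y, s y ∈ I → t y ∈ I → s y ≠ i ∧ t y ≠ i) : A = {i} := by
  by_contra hAi
  obtain ⟨y, hy, h1 | h1⟩ := hA {i} (by simpa using hiA) (by simp) (fun hc => hAi hc.symm)
  · obtain ⟨h1, h2⟩ := h1
    rw [Finset.mem_singleton] at h1
    rw [Finset.mem_sdiff] at h2
    exact (hno y hy (hAI (h1 ▸ hiA)) (hAI h2.1)).1 h1
  · obtain ⟨h1, h2⟩ := h1
    rw [Finset.mem_singleton] at h1
    rw [Finset.mem_sdiff] at h2
    exact (hno y hy (hAI h2.1) (hAI (h1 ▸ hiA))).2 h1

/-- The conclusion of the cutting lemma for the vertex set `V`. -/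
def Cut (S : W → Finset E) (b K : ℕ) (V : Finset W) : Prop :=
  ∃ (R : Finset W) (g : W → ℕ), R ⊆ V ∧ K * R.card ≤ b * V.card ∧
     (∀ w ∈ V \ R, ∀ w' ∈ V \ R, (∃ i, i ∈ S w ∧ i ∈ S w') → g w = g w') ∧
     ∀ n, ((V \ R).filter (fun w => g w = n)).card ≤ 2 * K + b

theorem Cut.finalize {S : W → Finset E} {b K : ℕ} {V C R0 : Finset W} (hCV : C ⊆ V) (hRV : R0 ⊆ V)
    (hC : C.card ≤ 2 * K + b) (hcost : K * R0.card ≤ b * C.card)
    (hadj : ∀ w ∈ C \ R0, ∀ w' ∈ V \ (C ∪ R0), ¬ ∃ i, i ∈ S w ∧ i ∈ S w')
    (h : Cut S b K (V \ (C ∪ R0))) : Cut S b K V := by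
  obtain ⟨R, g, hR, hcost', hg, hsz⟩ := h
  obtain ⟨n0, hn0⟩ := Infinite.exists_notMem_finset ((V \ (C ∪ R0)).image g)
  have hn0' : ∀ w ∈ V \ (C ∪ R0), g w ≠ n0 := by
    intro w hw hc
    exact hn0 (Finset.mem_image.mpr ⟨w, hw, hc⟩)
  refine ⟨R0 ∪ R, fun w => if w ∈ C then n0 else g w, ?_, ?_, ?_, ?_⟩
  · exact Finset.union_subset hRV (hR.trans Finset.sdiff_subset)
  · have h1 : (R0 ∪ R).card ≤ R0.card + R.card := Finset.card_union_le _ _
    have h2 : (V \ (C ∪ R0)).card + C.card ≤ V.card := by
      rw [← Finset.card_union_of_disjoint]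
      · apply Finset.card_le_card
        exact Finset.union_subset Finset.sdiff_subset hCV
      · rw [Finset.disjoint_left]
        intro a ha hc
        exact (Finset.mem_sdiff.mp ha).2 (Finset.mem_union_left _ hc)
    calc K * (R0 ∪ R).card ≤ K * (R0.card + R.card) := Nat.mul_le_mul_left _ h1
      _ = K * R0.card + K * R.card := by ring
      _ ≤ b * C.card + b * (V \ (C ∪ R0)).card := add_le_add hcost hcost'
      _ = b * ((V \ (C ∪ R0)).card + C.card) := by ring
      _ ≤ b * V.card := Nat.mul_le_mul_left _ h2
  · intro w hw w' hw' hi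
    have key : ∀ w ∈ V \ (R0 ∪ R), w ∉ C → w ∈ (V \ (C ∪ R0)) \ R := by
      intro w hw hwC
      simp only [Finset.mem_sdiff, Finset.mem_union, not_or] at hw ⊢
      tauto
    have key2 : ∀ w ∈ V \ (R0 ∪ R), w ∈ C → w ∈ C \ R0 := by
      intro w hw hwC
      simp only [Finset.mem_sdiff, Finset.mem_union, not_or] at hw ⊢
      tauto
    by_cases hwC : w ∈ C
    · by_cases hwC' : w' ∈ C
      · simp [hwC, hwC']
      · exact absurd hi (hadj w (key2 w hw hwC) w' (Finset.mem_sdiff.mp (key w' hw' hwC')).1)
    · by_cases hwC' : w' ∈ C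
      · refine absurd ?_ (hadj w' (key2 w' hw' hwC') w (Finset.mem_sdiff.mp (key w hw hwC)).1)
        obtain ⟨i, h1, h2⟩ := hi
        exact ⟨i, h2, h1⟩
      · simp only [hwC, hwC', if_false]
        exact hg w (key w hw hwC) w' (key w' hw' hwC') hi
  · intro n
    by_cases hn : n = n0
    · refine le_trans (Finset.card_le_card ?_) hC
      intro w hw
      rw [Finset.mem_filter] at hw
      by_contra hwC
      simp only [hwC, if_false] at hw
      apply hn0' w _ (hw.2.trans hn)
      have := hw.1
      simp only [Finset.mem_sdiff, Finset.mem_union, not_or] at this ⊢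
      tauto
    · refine le_trans (Finset.card_le_card ?_) (hsz n)
      intro w hw
      rw [Finset.mem_filter] at hw ⊢
      by_cases hwC : w ∈ C
      · simp only [hwC, if_true] at hw
        exact absurd hw.2.symm hn
      · simp only [hwC, if_false] at hw
        refine ⟨?_, hw.2⟩
        have := hw.1
        simp only [Finset.mem_sdiff, Finset.mem_union, not_or] at this ⊢
        tauto

theorem treedec_cut_aux {s t : X → E} {Y : Finset X} (h : Acyc s t Y) (b K : ℕ) :
    ∀ (n : ℕ) (I : Finset E) (Big Small : Finset W) (S : W → Finset E), I.card = n →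
    (∀ w ∈ Big, (S w).Nonempty ∧ S w ⊆ I ∧ Conn s t Y (S w)) →
    (∀ w ∈ Small, ∃ i ∈ I, S w = {i}) →
    (∀ i ∈ I, (Big.filter (fun w => i ∈ S w)).card ≤ b) →
    (∀ i ∈ I, (Small.filter (fun w => i ∈ S w)).card ≤ K) →
    Cut S b K (Big ∪ Small) := by
  intro n
  induction n with
  | zero =>
    intro I Big Small S hI hBig hSmall _ _
    rw [Finset.card_eq_zero] at hI
    subst hI
    have h1 : Big = ∅ := by
      rw [Finset.eq_empty_iff_forall_notMem]
      intro w hw
      obtain ⟨a, ha⟩ := (hBig w hw).1
      exact absurd ((hBig w hw).2.1 ha) (Finset.notMem_empty _)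
    have h2 : Small = ∅ := by
      rw [Finset.eq_empty_iff_forall_notMem]
      intro w hw
      obtain ⟨i, hi, _⟩ := hSmall w hw
      exact absurd hi (Finset.notMem_empty _)
    subst h1 h2
    refine ⟨∅, fun _ => 0, by simp, by simp, by simp, by simp⟩
  | succ n ih =>
    intro I Big Small S hI hBig hSmall hb hK
    have hIne : I.Nonempty := by
      rw [← Finset.card_pos]; omega
    obtain ⟨i, hi, hcase⟩ := exists_leaf' h I hIne
    have hIcard : (I.erase i).card = n := by
      rw [Finset.card_erase_of_mem hi]; omega
    -- the vertices living at `i` only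
    set A := (Big ∪ Small).filter (fun w => S w = {i}) with hA
    have hAcard : A.card ≤ K + b := by
      have : A ⊆ (Small.filter (fun w => i ∈ S w)) ∪ (Big.filter (fun w => i ∈ S w)) := by
        intro w hw
        simp only [hA, Finset.mem_filter, Finset.mem_union] at hw ⊢
        rcases hw with ⟨h1 | h1, h2⟩
        · right; exact ⟨h1, by rw [h2]; simp⟩
        · left; exact ⟨h1, by rw [h2]; simp⟩
      refine (Finset.card_le_card this).trans ((Finset.card_union_le _ _).trans ?_)
      exact add_le_add (hK i hi) (hb i hi)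
    have hSmall_i : ∀ w ∈ Small, i ∈ S w → w ∈ A := by
      intro w hw hiw
      obtain ⟨i', _, hi'⟩ := hSmall w hw
      rw [hi', Finset.mem_singleton] at hiw
      subst hiw
      exact Finset.mem_filter.mpr ⟨Finset.mem_union_right _ hw, hi'⟩
    rcases hcase with hno | ⟨j, hjI, hji, hj⟩
    · -- isolated node: finalize `A`
      have hBig_i : ∀ w ∈ Big, i ∈ S w → w ∈ A := by
        intro w hw hiw
        have := (hBig w hw).2.2.eq_singleton (hBig w hw).2.1 hiw hno
        exact Finset.mem_filter.mpr ⟨Finset.mem_union_left _ hw, this⟩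
      refine Cut.finalize (C := A) (R0 := ∅) (Finset.filter_subset _ _) (by simp) (by omega) (by simp) ?_ ?_
      · rintro w hw w' hw' ⟨i', h1, h2⟩
        rw [Finset.sdiff_empty, hA, Finset.mem_filter] at hw
        rw [hw.2, Finset.mem_singleton] at h1
        subst h1
        rw [Finset.union_empty, Finset.mem_sdiff, Finset.mem_union] at hw'
        rcases hw'.1 with h3 | h3
        · exact hw'.2 (hBig_i w' h3 h2)
        · exact hw'.2 (hSmall_i w' h3 h2)
      · have : (Big ∪ Small) \ (A ∪ ∅) = (Big \ A) ∪ (Small \ A) := by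
          rw [Finset.union_empty, Finset.union_sdiff_distrib]
        rw [this]
        refine ih (I.erase i) (Big \ A) (Small \ A) S hIcard ?_ ?_ ?_ ?_
        · intro w hw
          rw [Finset.mem_sdiff] at hw
          refine ⟨(hBig w hw.1).1, ?_, (hBig w hw.1).2.2⟩
          intro z hz
          refine Finset.mem_erase.mpr ⟨?_, (hBig w hw.1).2.1 hz⟩
          rintro rfl
          exact hw.2 (hBig_i w hw.1 hz)
        · intro w hw
          rw [Finset.mem_sdiff] at hw
          obtain ⟨i', h1, h2⟩ := hSmall w hw.1
          refine ⟨i', Finset.mem_erase.mpr ⟨?_, h1⟩, h2⟩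
          rintro rfl
          exact hw.2 (hSmall_i w hw.1 (by rw [h2]; simp))
        · intro i' hi'
          refine (Finset.card_le_card ?_).trans (hb i' (Finset.mem_of_mem_erase hi'))
          exact Finset.filter_subset_filter _ Finset.sdiff_subset
        · intro i' hi'
          refine (Finset.card_le_card ?_).trans (hK i' (Finset.mem_of_mem_erase hi'))
          exact Finset.filter_subset_filter _ Finset.sdiff_subset
    · have hBig_j : ∀ w ∈ Big, i ∈ S w → w ∉ A → j ∈ S w := by
        intro w hw hiw hwA
        refine (hBig w hw).2.2.mem_neighbour (hBig w hw).2.1 hiw ?_ hj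
        intro hc
        exact hwA (Finset.mem_filter.mpr ⟨Finset.mem_union_left _ hw, hc⟩)
      by_cases hAK : K < A.card
      · -- cut at `i`
        set B := Big.filter (fun w => i ∈ S w) with hB
        refine Cut.finalize (C := A) (R0 := B) (Finset.filter_subset _ _)
          ((Finset.filter_subset _ _).trans Finset.subset_union_left) (by omega) ?_ ?_ ?_
        · calc K * B.card ≤ K * b := Nat.mul_le_mul_left _ (hb i hi)
            _ = b * K := mul_comm _ _
            _ ≤ b * A.card := Nat.mul_le_mul_left _ hAK.le
        · rintro w hw w' hw' ⟨i', h1, h2⟩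
          rw [Finset.mem_sdiff, hA, Finset.mem_filter] at hw
          rw [hw.1.2, Finset.mem_singleton] at h1
          subst h1
          rw [Finset.mem_sdiff, Finset.mem_union, Finset.mem_union, not_or] at hw'
          rcases hw'.1 with h3 | h3
          · exact hw'.2.2 (Finset.mem_filter.mpr ⟨h3, h2⟩)
          · exact hw'.2.1 (hSmall_i w' h3 h2)
        · have : (Big ∪ Small) \ (A ∪ B) = (Big \ (A ∪ B)) ∪ (Small \ (A ∪ B)) := by
            rw [Finset.union_sdiff_distrib]
          rw [this]
          refine ih (I.erase i) _ _ S hIcard ?_ ?_ ?_ ?_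
          · intro w hw
            rw [Finset.mem_sdiff, Finset.mem_union, not_or] at hw
            refine ⟨(hBig w hw.1).1, ?_, (hBig w hw.1).2.2⟩
            intro z hz
            refine Finset.mem_erase.mpr ⟨?_, (hBig w hw.1).2.1 hz⟩
            rintro rfl
            exact hw.2.2 (Finset.mem_filter.mpr ⟨hw.1, hz⟩)
          · intro w hw
            rw [Finset.mem_sdiff, Finset.mem_union, not_or] at hw
            obtain ⟨i', h1, h2⟩ := hSmall w hw.1
            refine ⟨i', Finset.mem_erase.mpr ⟨?_, h1⟩, h2⟩
            rintro rfl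
            exact hw.2.1 (hSmall_i w hw.1 (by rw [h2]; simp))
          · intro i' hi'
            refine (Finset.card_le_card ?_).trans (hb i' (Finset.mem_of_mem_erase hi'))
            exact Finset.filter_subset_filter _ Finset.sdiff_subset
          · intro i' hi'
            refine (Finset.card_le_card ?_).trans (hK i' (Finset.mem_of_mem_erase hi'))
            exact Finset.filter_subset_filter _ Finset.sdiff_subset
      · push Not at hAK
        set C := A ∪ Small.filter (fun w => j ∈ S w) with hC
        have hCcard : C.card ≤ 2 * K := by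
          refine (Finset.card_union_le _ _).trans ?_
          have := hK j hjI
          omega
        have hSmall_j : ∀ w ∈ Small, j ∈ S w → S w = {j} := by
          intro w hw hiw
          obtain ⟨i', _, hi'⟩ := hSmall w hw
          rw [hi', Finset.mem_singleton] at hiw
          subst hiw
          exact hi'
        by_cases hCK : K < C.card
        · -- cut at `j`
          set B := Big.filter (fun w => j ∈ S w) with hB
          refine Cut.finalize (C := C) (R0 := B) ?_
            ((Finset.filter_subset _ _).trans Finset.subset_union_left) (by omega) ?_ ?_ ?_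
          · refine Finset.union_subset (Finset.filter_subset _ _) ?_
            exact (Finset.filter_subset _ _).trans Finset.subset_union_right
          · calc K * B.card ≤ K * b := Nat.mul_le_mul_left _ (hb j hjI)
              _ = b * K := mul_comm _ _
              _ ≤ b * C.card := Nat.mul_le_mul_left _ hCK.le
          · rintro w hw w' hw' ⟨i', h1, h2⟩
            rw [Finset.mem_sdiff, hC, Finset.mem_union] at hw
            rw [Finset.mem_sdiff, Finset.mem_union, Finset.mem_union, not_or] at hw'
            have hw'A : w' ∉ A := fun hc => hw'.2.1 (Finset.mem_union_left _ hc)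
            have hw's : w' ∉ Small.filter (fun w => j ∈ S w) := fun hc => hw'.2.1 (Finset.mem_union_right _ hc)
            rcases hw.1 with h3 | h3
            · rw [hA, Finset.mem_filter] at h3
              rw [h3.2, Finset.mem_singleton] at h1
              subst h1
              rcases hw'.1 with h4 | h4
              · exact hw'.2.2 (Finset.mem_filter.mpr ⟨h4, hBig_j w' h4 h2 hw'A⟩)
              · exact hw'A (hSmall_i w' h4 h2)
            · rw [Finset.mem_filter] at h3
              rw [hSmall_j w h3.1 h3.2, Finset.mem_singleton] at h1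
              subst h1
              rcases hw'.1 with h4 | h4
              · exact hw'.2.2 (Finset.mem_filter.mpr ⟨h4, h2⟩)
              · exact hw's (Finset.mem_filter.mpr ⟨h4, h2⟩)
          · have : (Big ∪ Small) \ (C ∪ B) = (Big \ (C ∪ B)) ∪ (Small \ (C ∪ B)) := by
              rw [Finset.union_sdiff_distrib]
            rw [this]
            refine ih (I.erase i) _ _ S hIcard ?_ ?_ ?_ ?_
            · intro w hw
              rw [Finset.mem_sdiff, Finset.mem_union, not_or] at hw
              refine ⟨(hBig w hw.1).1, ?_, (hBig w hw.1).2.2⟩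
              intro z hz
              refine Finset.mem_erase.mpr ⟨?_, (hBig w hw.1).2.1 hz⟩
              rintro rfl
              by_cases hwA : w ∈ A
              · exact hw.2.1 (Finset.mem_union_left _ hwA)
              · exact hw.2.2 (Finset.mem_filter.mpr ⟨hw.1, hBig_j w hw.1 hz hwA⟩)
            · intro w hw
              rw [Finset.mem_sdiff, Finset.mem_union, not_or] at hw
              obtain ⟨i', h1, h2⟩ := hSmall w hw.1
              refine ⟨i', Finset.mem_erase.mpr ⟨?_, h1⟩, h2⟩
              rintro rfl
              exact hw.2.1 (Finset.mem_union_left _ (hSmall_i w hw.1 (by rw [h2]; simp)))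
            · intro i' hi'
              refine (Finset.card_le_card ?_).trans (hb i' (Finset.mem_of_mem_erase hi'))
              exact Finset.filter_subset_filter _ Finset.sdiff_subset
            · intro i' hi'
              refine (Finset.card_le_card ?_).trans (hK i' (Finset.mem_of_mem_erase hi'))
              exact Finset.filter_subset_filter _ Finset.sdiff_subset
        · -- merge `i` into `j`
          push Not at hCK
          set S' : W → Finset E := fun w => if S w = {i} then {j} else (S w).erase i with hS'
          have hWeq : Big ∪ Small = (Big \ A) ∪ (Small ∪ A) := by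
            ext w
            simp only [Finset.mem_union, Finset.mem_sdiff, hA, Finset.mem_filter]
            tauto
          have hnotA : ∀ w ∈ Big, w ∉ A → S w ≠ {i} := by
            intro w hw hwA hc
            exact hwA (Finset.mem_filter.mpr ⟨Finset.mem_union_left _ hw, hc⟩)
          have hrec : Cut S' b K ((Big \ A) ∪ (Small ∪ A)) := by
            refine ih (I.erase i) _ _ S' hIcard ?_ ?_ ?_ ?_
            · intro w hw
              rw [Finset.mem_sdiff] at hw
              have hSi := hnotA w hw.1 hw.2
              have hS'w : S' w = (S w).erase i := by simp only [hS', hSi, if_false]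
              rw [hS'w]
              refine ⟨?_, Finset.erase_subset_erase _ (hBig w hw.1).2.1,
                (hBig w hw.1).2.2.erase_leaf (hBig w hw.1).2.1 hji hj⟩
              rw [Finset.nonempty_iff_ne_empty]
              intro hc
              rw [Finset.erase_eq_empty_iff] at hc
              rcases hc with hc | hc
              · exact (Finset.nonempty_iff_ne_empty.mp (hBig w hw.1).1) hc
              · exact hSi hc
            · intro w hw
              rw [Finset.mem_union] at hw
              by_cases hSi : S w = {i}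
              · exact ⟨j, Finset.mem_erase.mpr ⟨hji, hjI⟩, by simp only [hS', hSi, if_true]⟩
              · rcases hw with hw | hw
                · obtain ⟨i', h1, h2⟩ := hSmall w hw
                  have hii : i' ≠ i := by
                    rintro rfl
                    exact hSi h2
                  refine ⟨i', Finset.mem_erase.mpr ⟨hii, h1⟩, ?_⟩
                  have hS'w : S' w = (S w).erase i := by simp only [hS', hSi, if_false]
                  rw [hS'w, h2, Finset.erase_eq_of_notMem]
                  rw [Finset.mem_singleton]; exact fun hc => hii hc.symm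
                · exact absurd (Finset.mem_filter.mp hw).2 hSi
            · intro i' hi'
              refine (Finset.card_le_card ?_).trans (hb i' (Finset.mem_of_mem_erase hi'))
              intro w hw
              rw [Finset.mem_filter, Finset.mem_sdiff] at hw
              obtain ⟨⟨h1, h2⟩, h3⟩ := hw
              have hSi := hnotA w h1 h2
              simp only [hS', hSi, if_false] at h3
              exact Finset.mem_filter.mpr ⟨h1, Finset.mem_of_mem_erase h3⟩
            · intro i' hi'
              by_cases hij : i' = j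
              · subst hij
                refine (Finset.card_le_card ?_).trans hCK
                intro w hw
                rw [Finset.mem_filter, Finset.mem_union] at hw
                obtain ⟨h1 | h1, h3⟩ := hw
                · by_cases hSi : S w = {i}
                  · exact Finset.mem_union_left _ (Finset.mem_filter.mpr ⟨Finset.mem_union_right _ h1, hSi⟩)
                  · simp only [hS', hSi, if_false] at h3
                    exact Finset.mem_union_right _ (Finset.mem_filter.mpr ⟨h1, Finset.mem_of_mem_erase h3⟩)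
                · exact Finset.mem_union_left _ h1
              · refine (Finset.card_le_card ?_).trans (hK i' (Finset.mem_of_mem_erase hi'))
                intro w hw
                rw [Finset.mem_filter, Finset.mem_union] at hw
                obtain ⟨h1, h3⟩ := hw
                by_cases hSi : S w = {i}
                · simp only [hS', hSi, if_true, Finset.mem_singleton] at h3
                  exact absurd h3 hij
                · simp only [hS', hSi, if_false] at h3
                  rcases h1 with h1 | h1
                  · exact Finset.mem_filter.mpr ⟨h1, Finset.mem_of_mem_erase h3⟩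
                  · exact absurd (Finset.mem_filter.mp h1).2 hSi
          rw [hWeq]
          obtain ⟨R, g, hR, hcost, hg, hsz⟩ := hrec
          refine ⟨R, g, hR, hcost, ?_, hsz⟩
          intro w hw w' hw' hii
          have hS'mem : ∀ w i', i' ∈ S w → i' ≠ i → i' ∈ S' w := by
            intro w i' h1 h2
            by_cases hSi : S w = {i}
            · rw [hSi, Finset.mem_singleton] at h1
              exact absurd h1 h2
            · simp only [hS', hSi, if_false]
              exact Finset.mem_erase.mpr ⟨h2, h1⟩
          have hjmem : ∀ w ∈ (Big \ A) ∪ (Small ∪ A), i ∈ S w → j ∈ S' w := by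
            intro w hw hiw
            rw [← hWeq, Finset.mem_union] at hw
            by_cases hSi : S w = {i}
            · simp only [hS', hSi, if_true, Finset.mem_singleton]
            · have hwA : w ∉ A := fun hc => hSi (Finset.mem_filter.mp hc).2
              rcases hw with hw | hw
              · exact hS'mem w j (hBig_j w hw hiw hwA) hji
              · exact absurd (hSmall_i w hw hiw) hwA
          obtain ⟨i', h1, h2⟩ := hii
          refine hg w hw w' hw' ?_
          by_cases hi'i : i' = i
          · subst hi'i
            exact ⟨j, hjmem w (Finset.mem_sdiff.mp hw).1 h1, hjmem w' (Finset.mem_sdiff.mp hw').1 h2⟩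
          · exact ⟨i', hS'mem w i' h1 hi'i, hS'mem w' i' h2 hi'i⟩

/-- **Greedy cut.** -/
theorem treedec_cut {s t : X → E} {Y : Finset X} (h : Acyc s t Y) (b K : ℕ) (V : Finset W)
    (S : W → Finset E) (hS : ∀ w ∈ V, (S w).Nonempty ∧ Conn s t Y (S w))
    (hb : ∀ i, (V.filter (fun w => i ∈ S w)).card ≤ b) : Cut S b K V := by
  have := treedec_cut_aux h b K _ (V.biUnion S) V ∅ S rfl
    (fun w hw => ⟨(hS w hw).1, Finset.subset_biUnion_of_mem S hw, (hS w hw).2⟩)
    (by simp) (fun i _ => hb i) (by simp)
  rwa [Finset.union_empty] at this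

end Crest.Agent.R177.Hyper
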