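import Crest.Agent.R177.HyperCut

/-!
# Hyperfiniteness of maps with `H^1(.;F_2) = 0`
-/

set_option linter.unusedSectionVars false

namespace Crest.Agent.R177.Hyper

open Finset

theorem ai {X : Type*} (σ : Equiv.Perm X) (x : X) : σ (σ⁻¹ x) = x := σ.apply_symm_apply x

theorem ia {X : Type*} (σ : Equiv.Perm X) (x : X) : σ⁻¹ (σ x) = x := σ.symm_apply_apply x

/-- The mod 2 `H^1 = 0` property of the map with face permutation `φ` and gluing involution `α`;
`a x` is the value on the corner at the start of the dart `x`. -/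
def PropP {X : Type*} (φ α : Equiv.Perm X) : Prop :=
  ∀ a : X → ZMod 2, (∀ x, a x + a (φ x) + a (α x) + a (φ (α x)) = 0) →
    ∃ b h : X → ZMod 2, (∀ x, a x = b x + h x) ∧ (∀ x, b (φ (α x)) = b x) ∧ (∀ x, h (φ x) = h x)

/-- Breadth first search forest of a multigraph. -/
structure BFS {N X : Type*} (e1 e2 : X → N) where
  lev : N → ℕ
  rt : N → N
  p : N → N
  pc : N → X → Prop
  rt_edge : ∀ x, rt (e1 x) = rt (e2 x)
  lev_le1 : ∀ x, lev (e1 x) ≤ lev (e2 x) + 1
  lev_le2 : ∀ x, lev (e2 x) ≤ lev (e1 x) + 1
  root : ∀ a, rt a = a → p a = a ∧ lev a = 0 ∧ ∀ x, ¬ pc a x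
  step : ∀ a, rt a ≠ a → lev a = lev (p a) + 1 ∧ ∃ x, pc a x ∧ (∀ y, pc a y → y = x) ∧
    ((e1 x = a ∧ e2 x = p a) ∨ (e1 x = p a ∧ e2 x = a))

theorem exists_BFS {N X : Type*} (e1 e2 : X → N) : Nonempty (BFS e1 e2) := by
  classical
  let G : SimpleGraph N :=
    { Adj := fun a b => a ≠ b ∧ ∃ x, (e1 x = a ∧ e2 x = b) ∨ (e1 x = b ∧ e2 x = a)
      symm := ⟨fun a b h => ⟨h.1.symm, by obtain ⟨x, h1 | h1⟩ := h.2; exacts [⟨x, Or.inr h1⟩, ⟨x, Or.inl h1⟩]⟩⟩
      loopless := ⟨fun a h => h.1 rfl⟩ }
  let rt : N → N := fun a => (G.connectedComponentMk a).out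
  have hrt : ∀ a, G.Reachable (rt a) a := by
    intro a
    have : G.connectedComponentMk (rt a) = G.connectedComponentMk a := Quot.out_eq _
    exact SimpleGraph.ConnectedComponent.exact this
  have hrt_reach : ∀ a b, G.Reachable a b → rt a = rt b := by
    intro a b h
    have : G.connectedComponentMk a = G.connectedComponentMk b := SimpleGraph.ConnectedComponent.sound h
    simp only [rt, this]
  let lev : N → ℕ := fun a => G.dist (rt a) a
  have hstep : ∀ a, rt a ≠ a → ∃ b, G.Adj b a ∧ lev a = lev b + 1 := by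
    intro a ha
    obtain ⟨w, hw⟩ := (hrt a).symm.exists_walk_length_eq_dist
    have hw' : ∀ (c d : N) (w : G.Walk c d), c ≠ d → ∃ e, G.Adj c e ∧ ∃ q : G.Walk e d, w.length = q.length + 1 := by
      intro c d w hcd
      cases w with
      | nil => exact absurd rfl hcd
      | cons hadj q => exact ⟨_, hadj, q, by simp⟩
    obtain ⟨c, hadj, q, hq⟩ := hw' _ _ w (fun h => ha h.symm)
    refine ⟨c, hadj.symm, ?_⟩
    have hrc : rt a = rt c := hrt_reach a c hadj.reachable
    have h1 : G.dist (rt a) c ≤ q.length := by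
      rw [SimpleGraph.dist_comm]; exact SimpleGraph.dist_le q
    have h2 : G.dist (rt a) a ≤ G.dist (rt a) c + 1 := by
      have := hadj.symm.reachable.dist_triangle_right (rt a)
      rwa [SimpleGraph.dist_eq_one_iff_adj.mpr hadj.symm] at this
    rw [hq, SimpleGraph.dist_comm] at hw
    simp only [lev]
    rw [← hrc]
    omega
  have hadjl : ∀ a b, G.Adj a b → lev a ≤ lev b + 1 := by
    intro a b h
    have := h.symm.reachable.dist_triangle_right (rt a)
    rw [SimpleGraph.dist_eq_one_iff_adj.mpr h.symm] at this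
    simpa only [lev, hrt_reach a b h.reachable] using this
  have hedge : ∀ x, e1 x = e2 x ∨ G.Adj (e1 x) (e2 x) := by
    intro x
    by_cases h : e1 x = e2 x
    · exact Or.inl h
    · exact Or.inr ⟨h, x, Or.inl ⟨rfl, rfl⟩⟩
  choose! p hp1 hp2 using hstep
  have hc : ∀ a, rt a ≠ a → ∃ x, ((e1 x = a ∧ e2 x = p a) ∨ (e1 x = p a ∧ e2 x = a)) := by
    intro a ha
    obtain ⟨x, h1 | h1⟩ := (hp1 a ha).2
    · exact ⟨x, Or.inr h1⟩
    · exact ⟨x, Or.inl h1⟩
  refine ⟨{ lev := lev, rt := rt, p := fun a => if rt a = a then a else p a,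
            pc := fun a x => ∃ h : rt a ≠ a, (hc a h).choose = x,
            rt_edge := ?_, lev_le1 := ?_, lev_le2 := ?_, root := ?_, step := ?_ }⟩
  · intro x
    rcases hedge x with h | h
    · rw [h]
    · exact hrt_reach _ _ h.reachable
  · intro x
    rcases hedge x with h | h
    · rw [h]; omega
    · exact hadjl _ _ h
  · intro x
    rcases hedge x with h | h
    · rw [h]; omega
    · exact hadjl _ _ h.symm
  · intro a ha
    refine ⟨by simp [ha], ?_, ?_⟩
    · simp only [lev, ha, SimpleGraph.dist_self]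
    · rintro x ⟨h, _⟩
      exact h ha
  · intro a ha
    have hpa : (if rt a = a then a else p a) = p a := by simp [ha]
    refine ⟨by rw [hpa]; exact hp2 a ha, (hc a ha).choose, ⟨ha, rfl⟩, ?_, ?_⟩
    · rintro y ⟨_, rfl⟩; rfl
    · rw [hpa]; exact (hc a ha).choose_spec

namespace BFS

variable {N X : Type*} {e1 e2 : X → N} (B : BFS e1 e2)

/-- `a` is a descendant of `w`. -/
def Desc (a w : N) : Prop := ∃ m, B.p^[m] a = w

/-- Tree corner. -/
def Tree (x : X) : Prop := ∃ a, B.pc a x

theorem desc_refl (a : N) : B.Desc a a := ⟨0, rfl⟩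

theorem desc_of_p {a w : N} (h : B.Desc (B.p a) w) : B.Desc a w := by
  obtain ⟨m, hm⟩ := h
  exact ⟨m + 1, by rw [Function.iterate_succ_apply]; exact hm⟩

theorem desc_cases {a w : N} (h : B.Desc a w) : a = w ∨ B.Desc (B.p a) w := by
  obtain ⟨m, hm⟩ := h
  cases m with
  | zero => exact Or.inl hm
  | succ m => exact Or.inr ⟨m, by rw [Function.iterate_succ_apply] at hm; exact hm⟩

theorem lev_p (a : N) : B.lev (B.p a) = B.lev a - 1 := by
  by_cases h : B.rt a = a
  · obtain ⟨h1, h2, _⟩ := B.root a h
    rw [h1, h2]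
  · have := (B.step a h).1
    omega

theorem lev_iter (a : N) (m : ℕ) : B.lev (B.p^[m] a) = B.lev a - m := by
  induction m generalizing a with
  | zero => rfl
  | succ m ih => rw [Function.iterate_succ_apply, ih, lev_p]; omega

theorem p_of_lev_zero {a : N} (h : B.lev a = 0) : B.p a = a := by
  by_cases hr : B.rt a = a
  · exact (B.root a hr).1
  · have := (B.step a hr).1
    omega

theorem iter_ge {a : N} {m : ℕ} (h : B.lev a ≤ m) : B.p^[m] a = B.p^[B.lev a] a := by
  obtain ⟨k, rfl⟩ := Nat.exists_eq_add_of_le h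
  rw [Nat.add_comm, Function.iterate_add_apply]
  have h0 : B.lev (B.p^[B.lev a] a) = 0 := by rw [lev_iter]; omega
  exact Function.iterate_fixed (B.p_of_lev_zero h0) k

theorem desc_lev_inj {a w w' : N} (h : B.Desc a w) (h' : B.Desc a w') (hl : B.lev w = B.lev w') : w = w' := by
  obtain ⟨m, rfl⟩ := h
  obtain ⟨m', rfl⟩ := h'
  rw [lev_iter, lev_iter] at hl
  by_cases h1 : B.lev a ≤ m
  · have h2 : B.lev a ≤ m' := by omega
    rw [B.iter_ge h1, B.iter_ge h2]
  · have : m = m' := by omega
    rw [this]

theorem rt_p (a : N) : B.rt (B.p a) = B.rt a := by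
  by_cases hr : B.rt a = a
  · rw [(B.root a hr).1]
  · obtain ⟨_, x, _, _, h1 | h1⟩ := B.step a hr
    · have := B.rt_edge x
      rw [h1.1, h1.2] at this
      exact this.symm
    · have := B.rt_edge x
      rw [h1.1, h1.2] at this
      exact this

/-- A function constant along tree edges is determined by the value at the root. -/
theorem const_of_tree {β : Type*} (val : N → β) (h : ∀ x, B.Tree x → val (e1 x) = val (e2 x)) :
    ∀ a, val a = val (B.rt a) := by
  have key : ∀ n, ∀ a, B.lev a = n → val a = val (B.rt a) := by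
    intro n
    induction n with
    | zero =>
      intro a ha
      by_cases hr : B.rt a = a
      · rw [hr]
      · have := (B.step a hr).1
        omega
    | succ n ih =>
      intro a ha
      have hr : B.rt a ≠ a := by
        intro hr
        have := (B.root a hr).2.1
        omega
      obtain ⟨h1, x, h2, _, h3⟩ := B.step a hr
      have h4 := h x ⟨a, h2⟩
      have h5 : val a = val (B.p a) := by
        rcases h3 with h3 | h3
        · rw [h3.1, h3.2] at h4; exact h4
        · rw [h3.1, h3.2] at h4; exact h4.symm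
      rw [h5, ih (B.p a) (by omega), B.rt_p]
  exact fun a => key _ a rfl

/-- A tree corner touching the subtree of `w` is the parent corner of a node in the subtree. -/
theorem tree_touch {w : N} {x : X} (hx : B.Tree x) (ht : B.Desc (e1 x) w ∨ B.Desc (e2 x) w) :
    ∃ a, B.pc a x ∧ B.Desc a w := by
  obtain ⟨a, ha⟩ := hx
  refine ⟨a, ha, ?_⟩
  have hr : B.rt a ≠ a := fun hr => (B.root a hr).2.2 x ha
  obtain ⟨_, y, _, h3, h4⟩ := B.step a hr
  have := h3 x ha
  subst this
  rcases h4 with h4 | h4
  · rw [h4.1, h4.2] at ht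
    rcases ht with h | h
    · exact h
    · exact B.desc_of_p h
  · rw [h4.1, h4.2] at ht
    rcases ht with h | h
    · exact B.desc_of_p h
    · exact h

theorem pc_ends {a : N} {x : X} (h : B.pc a x) : B.rt a ≠ a ∧ B.lev a = B.lev (B.p a) + 1 ∧
    ((e1 x = a ∧ e2 x = B.p a) ∨ (e1 x = B.p a ∧ e2 x = a)) := by
  have hr : B.rt a ≠ a := fun hr => (B.root a hr).2.2 x h
  obtain ⟨h1, y, _, h3, h4⟩ := B.step a hr
  have := h3 x h
  subst this
  exact ⟨hr, h1, h4⟩

end BFS

section Map

variable {X F V : Type} [Fintype X] [DecidableEq X] [DecidableEq F] [DecidableEq V]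
variable (φ α : Equiv.Perm X) (f : X → F) (v : X → V)

/-- The gluing classes (`D`-edges). -/
abbrev DE (α : Equiv.Perm X) : Type := Quotient (Equiv.Perm.SameCycle.setoid α)

/-- The class of a dart. -/
def de (α : Equiv.Perm X) (x : X) : DE α := Quotient.mk _ x

theorem de_eq (hα : ∀ x, α (α x) = x) (x y : X) : de α x = de α y ↔ y = x ∨ y = α x := by
  unfold de
  rw [Quotient.eq]
  change α.SameCycle x y ↔ _
  have h2 : α ^ 2 = 1 := by
    ext z; simp [pow_two, hα]
  constructor
  · rintro ⟨i, hi⟩
    rcases Int.even_or_odd' i with ⟨k, rfl | rfl⟩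
    · left
      rw [zpow_mul] at hi
      have : (α ^ (2 : ℤ)) = 1 := by exact_mod_cast h2
      rw [this] at hi
      simpa using hi.symm
    · right
      rw [zpow_add, zpow_mul] at hi
      have : (α ^ (2 : ℤ)) = 1 := by exact_mod_cast h2
      rw [this] at hi
      simpa using hi.symm
  · rintro (rfl | rfl)
    · exact Equiv.Perm.SameCycle.refl _ _
    · exact ⟨1, by simp⟩

theorem de_alpha (hα : ∀ x, α (α x) = x) (x : X) : de α (α x) = de α x := by
  rw [de_eq α hα]; right; rw [hα]

variable {φ α f v}

/-- sum over a fibre of a map invariant under a permutation. -/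
theorem fibre_sum_zero {M : Type*} [DecidableEq M] (r : X → M) (σ : Equiv.Perm X) (hσ : ∀ x, r (σ x) = r x)
    (c d : X → ZMod 2) (hcd : ∀ x, d x = c (σ x)) (m : M) :
    ∑ x ∈ univ.filter (fun x => r x = m), (c x + d x) = 0 := by
  rw [Finset.sum_add_distrib]
  have : ∑ x ∈ univ.filter (fun x => r x = m), d x = ∑ x ∈ univ.filter (fun x => r x = m), c x := by
    refine Finset.sum_equiv σ ?_ ?_
    · intro x
      simp [hσ]
    · intro x _
      exact hcd x
  rw [this]
  have h2 : ∀ z : ZMod 2, z + z = 0 := by decide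
  exact h2 _

end Map

section Main

open Classical in
theorem const_sameCycle {X β : Type*} (σ : Equiv.Perm X) (h : X → β) (hh : ∀ x, h (σ x) = h x) {x y : X}
    (hxy : σ.SameCycle x y) : h x = h y := by
  obtain ⟨i, rfl⟩ := hxy
  have hinv : ∀ x, h (σ⁻¹ x) = h x := by
    intro x
    have := hh (σ⁻¹ x)
    rw [ai] at this
    exact this.symm
  have hnat : ∀ (n : ℕ) x, h ((σ ^ n) x) = h x := by
    intro n
    induction n with
    | zero => intro x; rfl
    | succ n ih =>
      intro x
      rw [pow_succ', Equiv.Perm.mul_apply, hh, ih]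
  have hnat' : ∀ (n : ℕ) x, h (((σ⁻¹) ^ n) x) = h x := by
    intro n
    induction n with
    | zero => intro x; rfl
    | succ n ih =>
      intro x
      rw [pow_succ', Equiv.Perm.mul_apply, hinv, ih]
  cases i with
  | ofNat n => rw [Int.ofNat_eq_natCast, zpow_natCast, hnat]
  | negSucc n => rw [zpow_negSucc, ← inv_pow, hnat']

/-- A closed map with `H^1 = 0`, face and vertex labels. -/
structure IsMap {X F V : Type*} (φ α : Equiv.Perm X) (f : X → F) (v : X → V) : Prop where
  inv : ∀ x, α (α x) = x
  fpf : ∀ x, α x ≠ x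
  hP : PropP φ α
  hf : ∀ x y, f x = f y ↔ φ.SameCycle x y
  hv : ∀ x y, v x = v y ↔ (φ * α).SameCycle x y

variable {X F V : Type} [Fintype X] [DecidableEq X] [DecidableEq F] [DecidableEq V]
variable {φ α : Equiv.Perm X} {f : X → F} {v : X → V} (hM : IsMap φ α f v)

include hM in
theorem IsMap.f_phi (x : X) : f (φ x) = f x := by
  rw [hM.hf]; exact ⟨-1, by simp⟩

include hM in
theorem IsMap.v_phi (x : X) : v (φ (α x)) = v x := by
  rw [hM.hv]; exact ⟨-1, by simp⟩

include hM in
theorem IsMap.f_inv (x : X) : f (φ⁻¹ x) = f x := by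
  have := hM.f_phi (φ⁻¹ x)
  rw [ai] at this
  exact this.symm

include hM in
theorem IsMap.v_inv (x : X) : v (α (φ⁻¹ x)) = v x := by
  have := hM.v_phi (α (φ⁻¹ x))
  rw [hM.inv, ai] at this
  exact this.symm

variable (B : BFS (fun x => (Sum.inl (f x) : F ⊕ V)) (fun x => (Sum.inr (v x) : F ⊕ V)))

/-- non-tree corners -/
noncomputable def coTree : Finset X := by
  classical exact univ.filter (fun x => ¬ B.Tree x)

theorem mem_coTree (x : X) : x ∈ coTree B ↔ ¬ B.Tree x := by
  classical
  simp [coTree]

include hM in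
theorem acyc [DecidableEq (DE α)] : Acyc (de α) (fun x => de α (φ⁻¹ x)) (coTree B) := by
  classical
  intro S hS hSne
  by_contra hcon
  push Not at hcon
  simp only [Nat.not_odd_iff_even] at hcon
  set a : X → ZMod 2 := fun x => if x ∈ S then 1 else 0 with ha
  have hpair : ∀ x y : X, x ≠ y → ((((({x, y} : Finset X).filter (· ∈ S)).card : ℕ)) : ZMod 2) = a x + a y := by
    intro x y hxy
    rw [Finset.card_filter, Finset.sum_insert (by simpa using hxy), Finset.sum_singleton]
    push_cast
    rfl
  have hrel : ∀ x, a x + a (φ x) + a (α x) + a (φ (α x)) = 0 := by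
    intro x
    have h1 := hcon (de α x)
    have h2 : S.filter (fun y => de α y = de α x) = ({x, α x} : Finset X).filter (· ∈ S) := by
      ext y
      simp only [Finset.mem_filter, Finset.mem_insert, Finset.mem_singleton]
      rw [eq_comm, de_eq α hM.inv x y]
      tauto
    have h3 : S.filter (fun y => de α (φ⁻¹ y) = de α x) = ({φ x, φ (α x)} : Finset X).filter (· ∈ S) := by
      ext y
      simp only [Finset.mem_filter, Finset.mem_insert, Finset.mem_singleton]
      rw [eq_comm (a := de α (φ⁻¹ y)), de_eq α hM.inv x (φ⁻¹ y), Equiv.Perm.inv_eq_iff_eq, Equiv.Perm.inv_eq_iff_eq]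
      tauto
    rw [h2, h3, ← ZMod.natCast_eq_zero_iff_even, Nat.cast_add, hpair _ _ (hM.fpf x).symm,
      hpair _ _ (fun hc => (hM.fpf x).symm (φ.injective hc))] at h1
    linear_combination h1
  obtain ⟨b, h, hab, hb, hh⟩ := hM.hP a hrel
  have hhf : Function.FactorsThrough h f := fun x y hxy => const_sameCycle φ h hh ((hM.hf x y).mp hxy)
  have hbv : Function.FactorsThrough b v := fun x y hxy =>
    const_sameCycle (φ * α) b (fun x => hb x) ((hM.hv x y).mp hxy)
  set val : F ⊕ V → ZMod 2 := Sum.elim (Function.extend f h 0) (Function.extend v b 0) with hval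
  have hv1 : ∀ x, val (Sum.inl (f x)) = h x := fun x => by
    rw [hval, Sum.elim_inl, hhf.extend_apply]
  have hv2 : ∀ x, val (Sum.inr (v x)) = b x := fun x => by
    rw [hval, Sum.elim_inr, hbv.extend_apply]
  have htree : ∀ x, B.Tree x → val (Sum.inl (f x)) = val (Sum.inr (v x)) := by
    intro x hx
    rw [hv1, hv2]
    have hxS : x ∉ S := fun hc => (mem_coTree B x).mp (hS hc) hx
    have h1 := hab x
    simp only [ha, hxS, if_false] at h1
    have h2 : ∀ p q : ZMod 2, 0 = p + q → q = p := by decide
    exact h2 _ _ h1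
  have hconst := B.const_of_tree val htree
  obtain ⟨x, hx⟩ := hSne
  have h1 : val (Sum.inl (f x)) = val (Sum.inr (v x)) := by
    rw [hconst (Sum.inl (f x)), hconst (Sum.inr (v x))]
    exact congrArg val (B.rt_edge x)
  rw [hv1, hv2] at h1
  have h2 := hab x
  simp only [ha, hx, if_true] at h2
  have h3 : ∀ p q : ZMod 2, q = p → 1 = p + q → False := by decide
  exact h3 _ _ h1 h2

/-- `x` touches the subtree of `w`. -/
def Touch (w : F ⊕ V) (x : X) : Prop := B.Desc (Sum.inl (f x)) w ∨ B.Desc (Sum.inr (v x)) w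

/-- `D`-edges touching the subtree of `w`. -/
noncomputable def SS (α : Equiv.Perm X) [DecidableEq (DE α)] (w : F ⊕ V) : Finset (DE α) := by
  classical exact (univ.filter (fun x => Touch B w x)).image (de α)

theorem mem_SS [DecidableEq (DE α)] (w : F ⊕ V) (e : DE α) : e ∈ SS B α w ↔ ∃ x, Touch B w x ∧ de α x = e := by
  classical
  simp [SS]

include hM in
theorem conn [DecidableEq (DE α)] (w : F ⊕ V) :
    Conn (de α) (fun x => de α (φ⁻¹ x)) (coTree B) (SS B α w) := by
  classical
  intro A hA hAne hAS
  by_contra hno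
  push Not at hno
  -- corners touching the subtree
  have ht1 : ∀ x, Touch B w x → de α x ∈ SS B α w := fun x hx => (mem_SS B w _).mpr ⟨x, hx, rfl⟩
  have ht2 : ∀ x, Touch B w x → de α (φ⁻¹ x) ∈ SS B α w := by
    intro x hx
    rcases hx with hx | hx
    · refine (mem_SS B w _).mpr ⟨φ⁻¹ x, Or.inl ?_, rfl⟩
      rw [hM.f_inv]; exact hx
    · refine (mem_SS B w _).mpr ⟨α (φ⁻¹ x), Or.inr ?_, de_alpha α hM.inv _⟩
      rw [hM.v_inv]; exact hx
  set c : X → ZMod 2 := fun x => (if de α x ∈ A then 1 else 0) + (if de α (φ⁻¹ x) ∈ A then 1 else 0) with hc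
  have hc0 : ∀ x, c x = 0 ↔ (de α x ∈ A ↔ de α (φ⁻¹ x) ∈ A) := by
    intro x
    simp only [hc]
    by_cases h1 : de α x ∈ A <;> by_cases h2 : de α (φ⁻¹ x) ∈ A
    · rw [if_pos h1, if_pos h2]; exact iff_of_true (by decide) (iff_of_true h1 h2)
    · rw [if_pos h1, if_neg h2]; exact iff_of_false (by decide) (fun h => h2 (h.mp h1))
    · rw [if_neg h1, if_pos h2]; exact iff_of_false (by decide) (fun h => h1 (h.mpr h2))
    · rw [if_neg h1, if_neg h2]; exact iff_of_true (by decide) (iff_of_false h1 h2)
  have hcnt : ∀ x, Touch B w x → ¬ B.Tree x → c x = 0 := by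
    intro x hx hxT
    rw [hc0]
    have h := hno x ((mem_coTree B x).mpr hxT)
    have h1 := ht1 x hx
    have h2 := ht2 x hx
    constructor
    · intro h3
      by_contra h4
      exact h.1 h3 (Finset.mem_sdiff.mpr ⟨h2, h4⟩)
    · intro h3
      by_contra h4
      exact h.2 h3 (Finset.mem_sdiff.mpr ⟨h1, h4⟩)
  have hsum1 : ∀ m, ∑ x ∈ univ.filter (fun x => f x = m), c x = 0 := by
    intro m
    have := fibre_sum_zero f φ (hM.f_phi) (fun x => if de α (φ⁻¹ x) ∈ A then (1 : ZMod 2) else 0)
      (fun x => if de α x ∈ A then 1 else 0) (by intro x; beta_reduce; rw [ia]) m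
    rw [← this]
    exact Finset.sum_congr rfl (fun x _ => add_comm _ _)
  have hsum2 : ∀ m, ∑ x ∈ univ.filter (fun x => v x = m), c x = 0 := by
    intro m
    have := fibre_sum_zero v (φ * α) (hM.v_phi) (fun x => if de α (φ⁻¹ x) ∈ A then (1 : ZMod 2) else 0)
      (fun x => if de α x ∈ A then 1 else 0) (by
        intro x
        have h : de α (φ⁻¹ ((φ * α) x)) = de α x := by
          rw [Equiv.Perm.mul_apply, ia, de_alpha α hM.inv]
        beta_reduce
        rw [h]) m
    rw [← this]
    exact Finset.sum_congr rfl (fun x _ => add_comm _ _)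
  -- all corners touching the subtree vanish
  have hzero : ∀ x, Touch B w x → c x = 0 := by
    by_contra hex
    push Not at hex
    obtain ⟨x0, hx0, hcx0⟩ := hex
    have hbad : ∃ x, ∃ a, B.pc a x ∧ B.Desc a w ∧ c x ≠ 0 := by
      have hT : B.Tree x0 := by
        by_contra hT
        exact hcx0 (hcnt x0 hx0 hT)
      obtain ⟨a, ha, hd⟩ := B.tree_touch hT hx0
      exact ⟨x0, a, ha, hd, hcx0⟩
    -- choose one of maximal level
    let bad : Finset X := univ.filter (fun x => ∃ a, B.pc a x ∧ B.Desc a w ∧ c x ≠ 0)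
    have hbne : bad.Nonempty := by
      obtain ⟨x, hx⟩ := hbad
      exact ⟨x, by simp only [bad, Finset.mem_filter, Finset.mem_univ, true_and]; exact hx⟩
    let L : X → ℕ := fun x => B.lev (Sum.inl (f x)) + B.lev (Sum.inr (v x))
    obtain ⟨x, hx, hmax⟩ := Finset.exists_max_image bad L hbne
    simp only [bad, Finset.mem_filter, Finset.mem_univ, true_and] at hx hmax
    obtain ⟨a, hax, haw, hcx⟩ := hx
    obtain ⟨hra, hla, hends⟩ := B.pc_ends hax
    have hLx : L x = 2 * B.lev (B.p a) + 1 := by
      simp only [L]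
      rcases hends with h | h
      · rw [h.1, h.2]; omega
      · rw [h.1, h.2]; omega
    -- other corners at `a` vanish
    have hother : ∀ y, y ≠ x → (Sum.inl (f y) = a ∨ Sum.inr (v y) = a) → c y = 0 := by
      intro y hyx hya
      by_contra hcy
      have hty : Touch B w y := by
        rcases hya with h | h
        · left; rw [h]; exact haw
        · right; rw [h]; exact haw
      have hT : B.Tree y := by
        by_contra hT
        exact hcy (hcnt y hty hT)
      obtain ⟨a', ha'y, ha'w⟩ := B.tree_touch hT hty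
      obtain ⟨hra', hla', hends'⟩ := B.pc_ends ha'y
      have hm := hmax y ⟨a', ha'y, ha'w, hcy⟩
      have hLy : L y = 2 * B.lev (B.p a') + 1 := by
        simp only [L]
        rcases hends' with h | h
        · rw [h.1, h.2]; omega
        · rw [h.1, h.2]; omega
      have hne : a' ≠ a := by
        rintro rfl
        obtain ⟨_, z, _, h3, _⟩ := B.step a' hra
        exact hyx ((h3 y ha'y).trans (h3 x hax).symm)
      have hpa : B.p a' = a := by
        rcases hends' with h | h <;> rcases hya with h' | h'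
        · rw [h.1] at h'; exact absurd h' hne
        · rw [h.2] at h'; exact h'
        · rw [h.1] at h'; exact h'
        · rw [h.2] at h'; exact absurd h' hne
      rw [hpa] at hLy
      omega
    cases a with
    | inl m =>
      have hs := hsum1 m
      have hfx : f x = m := by
        rcases hends with h | h
        · exact Sum.inl_injective h.1
        · exact absurd h.2 (by simp)
      rw [Finset.sum_eq_single x] at hs
      · exact hcx hs
      · intro y hy hyx
        rw [Finset.mem_filter] at hy
        exact hother y hyx (Or.inl (by rw [hy.2]))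
      · intro h
        exact absurd (Finset.mem_filter.mpr ⟨Finset.mem_univ x, hfx⟩) h
    | inr m =>
      have hs := hsum2 m
      have hfx : v x = m := by
        rcases hends with h | h
        · exact absurd h.1 (by simp)
        · exact Sum.inr_injective h.2
      rw [Finset.sum_eq_single x] at hs
      · exact hcx hs
      · intro y hy hyx
        rw [Finset.mem_filter] at hy
        exact hother y hyx (Or.inr (by rw [hy.2]))
      · intro h
        exact absurd (Finset.mem_filter.mpr ⟨Finset.mem_univ x, hfx⟩) h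
  -- membership in `A` is constant around nodes of the subtree
  have hflip : ∀ x, Touch B w x → (de α x ∈ A ↔ de α (φ⁻¹ x) ∈ A) := fun x hx => (hc0 x).mp (hzero x hx)
  have hface : ∀ x y, f x = f y → B.Desc (Sum.inl (f x)) w → (de α x ∈ A ↔ de α y ∈ A) := by
    intro x y hxy hd
    have hcyc := (hM.hf x y).mp hxy
    have := const_sameCycle φ (fun z => (B.Desc (Sum.inl (f z)) w ∧ de α z ∈ A)) (by
      intro z
      beta_reduce
      rw [hM.f_phi]
      apply propext
      constructor
      · rintro ⟨h1, h2⟩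
        refine ⟨h1, ?_⟩
        have := (hflip (φ z) (Or.inl (by rw [hM.f_phi]; exact h1))).mp h2
        rwa [ia] at this
      · rintro ⟨h1, h2⟩
        refine ⟨h1, ?_⟩
        refine (hflip (φ z) (Or.inl (by rw [hM.f_phi]; exact h1))).mpr ?_
        rwa [ia]) hcyc
    beta_reduce at this
    rw [← hxy] at this
    simpa [hd] using this
  have hvert : ∀ x y, v x = v y → B.Desc (Sum.inr (v x)) w → (de α x ∈ A ↔ de α y ∈ A) := by
    intro x y hxy hd
    have hcyc := (hM.hv x y).mp hxy
    have := const_sameCycle (φ * α) (fun z => (B.Desc (Sum.inr (v z)) w ∧ de α z ∈ A)) (by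
      intro z
      simp only [Equiv.Perm.mul_apply]
      rw [hM.v_phi]
      apply propext
      constructor
      · rintro ⟨h1, h2⟩
        refine ⟨h1, ?_⟩
        have := (hflip (φ (α z)) (Or.inr (by rw [hM.v_phi]; exact h1))).mp h2
        rw [ia, de_alpha α hM.inv] at this
        exact this
      · rintro ⟨h1, h2⟩
        refine ⟨h1, ?_⟩
        refine (hflip (φ (α z)) (Or.inr (by rw [hM.v_phi]; exact h1))).mpr ?_
        rw [ia, de_alpha α hM.inv]
        exact h2) hcyc
    beta_reduce at this
    rw [← hxy] at this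
    simpa [hd] using this
  -- the value of a node
  have hnode : ∀ (n : ℕ) (a : F ⊕ V), B.lev a = n → B.Desc a w →
      ∃ P : Prop, (∀ x, (Sum.inl (f x) = a ∨ Sum.inr (v x) = a) → (de α x ∈ A ↔ P)) ∧
        (∀ x, (Sum.inl (f x) = w ∨ Sum.inr (v x) = w) → (de α x ∈ A ↔ P)) := by
    intro n
    induction n with
    | zero =>
      intro a ha hd
      have hpa : B.p a = a := B.p_of_lev_zero ha
      have haw : a = w := by
        obtain ⟨m, hm⟩ := hd
        rw [Function.iterate_fixed hpa] at hm
        exact hm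
      subst haw
      by_cases hex : ∃ x, (Sum.inl (f x) = a ∨ Sum.inr (v x) = a)
      · obtain ⟨x, hx⟩ := hex
        have : ∀ y, (Sum.inl (f y) = a ∨ Sum.inr (v y) = a) → (de α y ∈ A ↔ de α x ∈ A) := by
          intro y hy
          cases a with
          | inl m =>
            simp only [Sum.inl.injEq, reduceCtorEq, or_false] at hx hy
            exact hface y x (hy.trans hx.symm) (by rw [hy]; exact hd)
          | inr m =>
            simp only [Sum.inr.injEq, reduceCtorEq, false_or] at hx hy
            exact hvert y x (hy.trans hx.symm) (by rw [hy]; exact hd)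
        exact ⟨de α x ∈ A, this, this⟩
      · push Not at hex
        refine ⟨True, ?_, ?_⟩ <;>
        · intro x hx
          rcases hx with hx | hx
          · exact absurd hx (hex x).1
          · exact absurd hx (hex x).2
    | succ n ih =>
      intro a ha hd
      have hra : B.rt a ≠ a := by
        intro hr
        have := (B.root a hr).2.1
        omega
      have hconst : ∀ x y, (Sum.inl (f x) = a ∨ Sum.inr (v x) = a) → (Sum.inl (f y) = a ∨ Sum.inr (v y) = a) →
          (de α y ∈ A ↔ de α x ∈ A) := by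
        intro x y hx hy
        cases a with
        | inl m =>
          simp only [Sum.inl.injEq, reduceCtorEq, or_false] at hx hy
          exact hface y x (hy.trans hx.symm) (by rw [hy]; exact hd)
        | inr m =>
          simp only [Sum.inr.injEq, reduceCtorEq, false_or] at hx hy
          exact hvert y x (hy.trans hx.symm) (by rw [hy]; exact hd)
      obtain ⟨hla, x, hax, _, hends⟩ := B.step a hra
      have hxa : (Sum.inl (f x) = a ∨ Sum.inr (v x) = a) := by
        rcases hends with h | h
        · exact Or.inl h.1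
        · exact Or.inr h.2
      have hxp : (Sum.inl (f x) = B.p a ∨ Sum.inr (v x) = B.p a) := by
        rcases hends with h | h
        · exact Or.inr h.2
        · exact Or.inl h.1
      rcases B.desc_cases hd with haw | hd'
      · subst haw
        exact ⟨de α x ∈ A, fun y hy => hconst x y hxa hy, fun y hy => hconst x y hxa hy⟩
      · obtain ⟨P, hP1, hP2⟩ := ih (B.p a) (by omega) hd'
        refine ⟨P, ?_, hP2⟩
        intro y hy
        rw [hconst x y hxa hy]
        exact hP1 x hxp
  -- conclusion
  apply hAS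
  apply Finset.Subset.antisymm hA
  intro e he
  obtain ⟨e0, he0⟩ := hAne
  obtain ⟨x0, hx0, rfl⟩ := (mem_SS B w _).mp (hA he0)
  obtain ⟨x1, hx1, rfl⟩ := (mem_SS B w _).mp he
  have hval : ∀ x, Touch B w x → ∃ P : Prop, (de α x ∈ A ↔ P) ∧
      (∀ y, (Sum.inl (f y) = w ∨ Sum.inr (v y) = w) → (de α y ∈ A ↔ P)) := by
    intro x hx
    rcases hx with hx | hx
    · obtain ⟨P, h1, h2⟩ := hnode _ _ rfl hx
      exact ⟨P, h1 x (Or.inl rfl), h2⟩
    · obtain ⟨P, h1, h2⟩ := hnode _ _ rfl hx
      exact ⟨P, h1 x (Or.inr rfl), h2⟩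
  obtain ⟨P0, h01, h02⟩ := hval x0 hx0
  obtain ⟨P1, h11, h12⟩ := hval x1 hx1
  -- there is a corner at `w`
  have hw : ∃ y, (Sum.inl (f y) = w ∨ Sum.inr (v y) = w) := by
    have hgen : ∀ (n : ℕ) (a : F ⊕ V), B.lev a = n → B.Desc a w →
        (∃ y, (Sum.inl (f y) = a ∨ Sum.inr (v y) = a)) → ∃ y, (Sum.inl (f y) = w ∨ Sum.inr (v y) = w) := by
      intro n
      induction n with
      | zero =>
        intro a ha hd hy
        have hpa : B.p a = a := B.p_of_lev_zero ha
        have haw : a = w := by
          obtain ⟨m, hm⟩ := hd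
          rw [Function.iterate_fixed hpa] at hm
          exact hm
        exact haw ▸ hy
      | succ n ih =>
        intro a ha hd hy
        have hra : B.rt a ≠ a := by
          intro hr
          have := (B.root a hr).2.1
          omega
        obtain ⟨hla, x, hax, _, hends⟩ := B.step a hra
        rcases B.desc_cases hd with haw | hd'
        · exact haw ▸ hy
        · refine ih (B.p a) (by omega) hd' ⟨x, ?_⟩
          rcases hends with h | h
          · exact Or.inr h.2
          · exact Or.inl h.1
    rcases hx0 with hx | hx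
    · exact hgen _ _ rfl hx ⟨x0, Or.inl rfl⟩
    · exact hgen _ _ rfl hx ⟨x0, Or.inr rfl⟩
  obtain ⟨y, hy⟩ := hw
  rw [h11, ← h12 y hy, h02 y hy, ← h01]
  exact he0

end Main

end Crest.Agent.R177.Hyper
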