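import Crest.Agent.R177.Defs
import Crest.Prelude.Def_ClassifyingComplex

/-!
# Rows 177 / 184: frozen interface statements (NOT imported by proofs).

Each theorem is to be proved, with exactly this statement and name (namespace
`Crest.Agent.R177`), in the file named in its docstring.
-/

set_option autoImplicit false

open scoped Classical

namespace Crest.Agent.R177.Iface

open Crest.Agent.R177
open Crest.Agent.R199 (PAct)

/-! ## Planar maps -/

/-- HYPER (file Hyper.lean): planar maps are hyperfinite. -/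
theorem hyper (ε : ℝ) (hε : 0 < ε) : ∃ K : ℕ, ∀ (X : Type) [Finite X] (M : PMap X),
    ∃ grp : M.Face → Option ℕ,
      (∀ x, grp (M.face x) ≠ none → grp (M.face (M.α x)) ≠ none →
        grp (M.face (M.α x)) = grp (M.face x)) ∧
      (Nat.card {f // grp f = none} : ℝ) ≤ ε * Nat.card M.Face ∧
      ∀ i : ℕ, Nat.card {f // grp f = some i} ≤ K := by
  sorry

/-- EULER 1 (file Euler.lean) -/
theorem euler_corners {X : Type} [Finite X] (M : PMap X) (h : ∀ x, M.σ x ≠ x) :
    Nat.card {x // ¬ M.Smooth x} ≤ 6 * Nat.card M.Face := by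
  sorry

/-- EULER 2 (file Euler.lean) -/
theorem euler_faces {X : Type} [Finite X] [Nonempty X] (M : PMap X) (h : ∀ x, M.σ x ≠ x) :
    2 ≤ Nat.card M.Face := by
  sorry

/-- SECTORS (file Sectors.lean): star subdivision of the faces at the darts of `I`. In the new map
`inr (x, true)` runs from the start vertex of `x` to the centre of the face, `inr (x, false)`
back. -/
theorem sectors {X : Type} [Finite X] (M : PMap X) (I : Set X) :
    ∃ M' : PMap (X ⊕ (I × Bool)),
      (∀ y, M.φ y ∉ I → M'.φ (Sum.inl y) = Sum.inl (M.φ y)) ∧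
      (∀ (y : X) (h : M.φ y ∈ I), M'.φ (Sum.inl y) = Sum.inr (⟨M.φ y, h⟩, true)) ∧
      (∀ x : I, M'.φ (Sum.inr (x, false)) = Sum.inl (x : X)) ∧
      (∀ (x y : I) (n : ℕ), 0 < n → (∀ j, 0 < j → j < n → (M.φ ^ j) (x : X) ∉ I) →
        (M.φ ^ n) (x : X) = y → M'.φ (Sum.inr (y, true)) = Sum.inr (x, false)) ∧
      (∀ y : X, M'.α (Sum.inl y) = Sum.inl (M.α y)) ∧
      (∀ (x : I) (b : Bool), M'.α (Sum.inr (x, b)) = Sum.inr (x, !b)) := by
  sorry

/-- REMOVE (file Remove.lean): values of `rem2` -/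
theorem rem2_apply {X : Type} (ψ : Equiv.Perm X) (x x' y : X) (hx : x ≠ x') (hy : y ≠ x)
    (hy' : y ≠ x') :
    rem2 ψ x x' y = if ψ y = x then (if ψ x' = x' then ψ x else ψ x')
      else if ψ y = x' then (if ψ x = x then ψ x' else ψ x) else ψ y := by
  sorry

theorem rem2_left {X : Type} (ψ : Equiv.Perm X) (x x' : X) (hx : x ≠ x') :
    rem2 ψ x x' x = x := by
  sorry

theorem rem2_right {X : Type} (ψ : Equiv.Perm X) (x x' : X) (hx : x ≠ x') :
    rem2 ψ x x' x' = x' := by
  sorry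

/-- REMOVE (file Remove.lean): planarity is preserved by removing an edge (`α x = x'`) and by
folding two consecutive darts (`φ x = x'`) -/
theorem exists_remove {X : Type} [Finite X] (M : PMap X) (x x' : X) (hx : x ≠ x')
    (h : M.α x = x' ∨ M.φ x = x') :
    ∃ M' : PMap {y // y ≠ x ∧ y ≠ x'},
      (∀ y, ((M'.φ y : _) : X) = rem2 M.φ x x' y) ∧ ∀ y, ((M'.α y : _) : X) = rem2 M.α x x' y := by
  sorry

/-! ## Diagrams -/

variable {S V : Type}

/-- DIAG1 (file DiagWord.lean): a cyclically reduced relation bounds a reduced diagram with one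
outer face. -/
theorem diag_of_word (A : PAct S V) (w : List (S × Bool)) (hne : w ≠ [])
    (hred : FreeGroup.IsReduced (w ++ w))
    (hw : FreeGroup.mk w ∈ Subgroup.normalClosure (rels A)) :
    ∃ (X : Type) (_ : Finite X) (_ : Nonempty X) (D : Diag A X), D.Reduced ∧
      Nat.card {x // D.out x} = w.length ∧
      ∀ x y, D.out x → D.out y → D.φ.SameCycle x y := by
  sorry

/-- DIAG2 (file DiagChain.lean): a cellular cycle with trivial image is carried by a reduced
spherical diagram. -/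
theorem diag_of_chain (A : PAct S V) (z : (Grp A × V × S) →₀ ℤ)
    (hz : ∀ e ∈ z.support, (A.st (e.2.2, true) e.2.1).isSome)
    (h1 : cbd A z = 0) (h2 : push A z = 0) :
    ∃ (X : Type) (_ : Fintype X) (D : Diag A X), D.Reduced ∧ (∀ x, ¬ D.out x) ∧ D.cls = z := by
  sorry

/-! ## Geometry: from the local inequality to the isoperimetric inequality -/

/-- GEOM (file Geom.lean) -/
theorem geom (κ C P : ℝ) (hκ : 0 < κ) (hC : 0 < C) (hP : 0 < P) :
    ∃ (L K D0 C' g₀ : ℕ) (η : ℝ), 0 < η ∧ ∀ (S V : Type) (A : PAct S V) (g : ℕ), g₀ ≤ g →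
      Girth A g → LocalIneq A K D0 (L * g) κ C (P * g) (η * g) → Iso A C' := by
  sorry

/-! ## Local lemma -/

/-- LOCAL (file Local.lean) -/
theorem local_lemma {S : Type} [Fintype S] (M : Model S) :
    ∃ κ C P : ℝ, 0 < κ ∧ 0 < C ∧ 0 < P ∧ ∀ (L K D0 : ℕ) (η : ℝ), 0 < η → ∀ g₀ : ℕ,
      ∃ g, g₀ ≤ g ∧ ∃ (m : ℕ) (A : PAct S (M.V m)), M.Adm m A ∧ Girth A g ∧
        LocalIneq A K D0 (L * g) κ C (P * g) (η * g) := by
  sorry

/-! ## Algebra -/

/-- ASPH (file Asph.lean) -/
theorem aspherical_of_iso (A : PAct S V) (C : ℕ) (h : Iso A C) : Aspherical A := by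
  sorry

/-- SHORT (file Asph.lean) -/
theorem short_of_iso (A : PAct S V) (C n : ℕ) (h : Iso A C) (hg : Girth A (C * n + 1))
    (w : List (S × Bool)) (hw : w ≠ []) (hred : FreeGroup.IsReduced w) (hl : w.length ≤ n) :
    gw A w ≠ 1 := by
  sorry

/-- TF (file TorsionFree.lean) -/
theorem torsionFree_of_aspherical (A : PAct S V) (h : Aspherical A) (g : Grp A)
    (hg : IsOfFinOrder g) : g = 1 := by
  sorry

/-- FP (file FinPres.lean) -/
theorem finitelyPresented (A : PAct S V) [Finite S] [Finite V] :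
    Group.IsFinitelyPresented (Grp A) := by
  sorry

/-- TOP (files Top*.lean): the cone complex of an aspherical graphical presentation -/
theorem classifying_of_aspherical (A : PAct S V) [Finite S] [Finite V] (h : Aspherical A) :
    Crest.Topology.HasFiniteClassifyingComplex (Grp A) 2 := by
  sorry

/-! ## The design of S0267 -/

/-- letters: `inl k = τ_k`, `inr (Q, j) = y_(Q,j)` -/
abbrev L67 : Type := Fin 4 ⊕ (Fin 3 × Fin 2)

/-- the three triangles `{0,1,2}, {0,1,3}, {0,2,3}`: `Q` misses `3 - Q` -/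
def inc (Q : Fin 3) (k : Fin 4) : Prop := k.val ≠ 3 - Q.val

/-- the combinatorial properties giving `α * β = 0` -/
structure Typed67 {V : Type} (A : PAct L67 V) : Prop where
  tau : ∀ v k l, (A.st (Sum.inl k, true) v).isSome → (A.st (Sum.inl l, true) v).isSome
  odd_a : Odd (Nat.card {v // (A.st (Sum.inl 0, true) v).isSome})
  y_out : ∀ p Q j, (A.st (Sum.inr (Q, j), true) p).isSome ↔
    Odd (Nat.card {k : Fin 4 // inc Q k ∧ (A.st (Sum.inl k, false) p).isSome})
  z_in : ∀ z, Even (Nat.card {y : Fin 3 × Fin 2 // (A.st (Sum.inr y, false) z).isSome})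

/-- DESIGN (file Design67.lean) -/
theorem design67 : ∃ M : Model L67, ∀ m (A : PAct L67 (M.V m)), M.Adm m A → Typed67 A := by
  sorry

/-- ZD (file ZeroDiv.lean) -/
theorem zero_divisor {V : Type} [Finite V] (A : PAct L67 V) (hT : Typed67 A)
    (hshort : ∀ w : List (L67 × Bool), w ≠ [] → FreeGroup.IsReduced w → w.length ≤ 4 →
      gw A w ≠ 1) :
    ∃ a b : MonoidAlgebra (ZMod 2) (Grp A), a ≠ 0 ∧ b ≠ 0 ∧ a * b = 0 := by
  sorry

/-- MAIN (file S0267.lean) -/
theorem main67 : ∃ (G : Type) (_ : Group G), Group.IsFinitelyPresented G ∧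
    (∀ g : G, IsOfFinOrder g → g = 1) ∧
      Crest.Topology.HasFiniteClassifyingComplex G 2 ∧
      ∃ a b : MonoidAlgebra (ZMod 2) G, a ≠ 0 ∧ b ≠ 0 ∧ a * b = 0 := by
  obtain ⟨M, hM⟩ := design67
  obtain ⟨κ, C, P, hκ, hC, hP, hL⟩ := local_lemma M
  obtain ⟨L, K, D0, C', g₀, η, hη, hG⟩ := geom κ C P hκ hC hP
  obtain ⟨g, hg, m, A, hA, hgir, hloc⟩ := hL L K D0 η hη (max g₀ (C' * 4 + 1))
  have hiso : Iso A C' := hG _ _ A g (le_trans (le_max_left _ _) hg) hgir hloc
  have hgir' : Girth A (C' * 4 + 1) := fun x w h1 h2 h3 =>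
    le_trans (le_trans (le_max_right _ _) hg) (hgir x w h1 h2 h3)
  have : Finite (M.V m) := M.fin m
  have hasph := aspherical_of_iso A C' hiso
  exact ⟨Grp A, inferInstance, finitelyPresented A, torsionFree_of_aspherical A hasph,
    classifying_of_aspherical A hasph,
    zero_divisor A (hM m A hA) fun w hw hr hl => short_of_iso A C' 4 hiso hgir' w hw hr hl⟩

end Crest.Agent.R177.Iface
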