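import Crest.Agent.R177.Defs2

/-!
# Rows 177 / 184: frozen interface statements, part 2 (NOT imported by proofs).
-/

set_option autoImplicit false

open scoped Classical

namespace Crest.Agent.R177.Iface

open Crest.Agent.R177
open Crest.Agent.R199 (PAct)

variable {S V : Type}

/-- I1 (file DiagInit.lean, helper681): a free identity gives a planar diagram. -/
theorem diag_of_identity (A : PAct S V) (w : List (S × Bool))
    (L : List (List (S × Bool) × V × List (S × Bool)))
    (hL : ∀ t ∈ L, A.read t.2.2 t.2.1 = some t.2.1)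
    (hid : (FreeGroup.mk w : FreeGroup S) * (L.map fun t =>
      (FreeGroup.mk t.1 : FreeGroup S) * FreeGroup.mk t.2.2 * (FreeGroup.mk t.1)⁻¹).prod = 1) :
    ∃ (X : Type) (_ : Fintype X) (D : Diag A X),
      D.cls = (L.map fun t => pathCh A (gw A t.1) t.2.1 t.2.2).sum ∧ OutW D w := by
  sorry

/-- I2 (file DiagRed.lean, helper132): a non-reduced diagram can be made smaller. -/
theorem reduce_step {A : PAct S V} {X : Type} [Fintype X] (D : Diag A X) (w : List (S × Bool))
    (hred : FreeGroup.IsReduced (w ++ w)) (hw : OutW D w) (hD : ¬ D.Reduced) :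
    ∃ (X' : Type) (_ : Fintype X') (D' : Diag A X'),
      Fintype.card X' < Fintype.card X ∧ D'.cls = D.cls ∧ OutW D' w := by
  sorry

end Crest.Agent.R177.Iface
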