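import Crest.Agent.R177.Iface
import Crest.Agent.R177.DefsO

/-!
# Row 184 (S0274): frozen interface statements (NOT imported by proofs).
-/

set_option autoImplicit false

open scoped Classical

namespace Crest.Agent.R177.Iface

open Crest.Agent.R177
open Crest.Agent.R199 (PAct)

variable {S V : Type}

/-- LOCAL-O (LOC team, helper143): local lemma with a marked node, fixed before sampling. -/
theorem local_lemmaO {S : Type} [Fintype S] (M : Model S) (o : ∀ m, M.V m) :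
    ∃ κ C P : ℝ, 0 < κ ∧ 0 < C ∧ 0 < P ∧ ∀ (L K D0 : ℕ) (η : ℝ), 0 < η → ∀ g₀ : ℕ,
      ∃ g, g₀ ≤ g ∧ ∃ (m : ℕ) (A : PAct S (M.V m)), M.Adm m A ∧ Girth A g ∧
        LocalIneqO A (o m) K D0 (L * g) κ C (P * g) (η * g) := by
  sorry

/-- CUT (file Cut.lean, helper323): cutting a configuration over `aug A v o` at the `ζ`-darts -/
theorem localIneq_aug (A : PAct S V) (o v : V) (g' K D0 L B : ℕ) (κ C P η : ℝ) (hκ : 0 ≤ κ)
    (hC : 0 ≤ C) (hP : 0 ≤ P) (hg : Girth (aug A v o) g') (hg' : 2 ≤ g') (hL : L ≤ B * g')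
    (h : LocalIneqO A o (K * (B + 3)) D0 L κ C P η) :
    LocalIneq (aug A v o) K D0 L κ C P η := by
  sorry

/-- FAR (file Far.lean, helper323): short words closing a path from `o` -/
theorem mshort (κ C P : ℝ) (C₁ n : ℕ) (hκ : 0 < κ) (hC : 0 < C) (hP : 0 < P) :
    ∃ (L K D0 g₀ : ℕ) (η : ℝ), 0 < η ∧ ∀ (S V : Type) (A : PAct S V) (o : V) (g : ℕ), g₀ ≤ g →
      Girth A g → Iso A C₁ → LocalIneqO A o K D0 (L * g) κ C (P * g) (η * g) →
      ∀ (c p : List (S × Bool)) (v : V), FreeGroup.IsReduced c → c.length ≤ n →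
        A.read p o = some v → gw A (c ++ p) = 1 → A.read (FreeGroup.invRev c) o = some v := by
  sorry

/-- DESIGN74 (file Design74.lean, helper891) -/
theorem design74 : ∃ (M : Model L74) (o : ∀ m, M.V m),
    ∀ m (A : PAct L74 (M.V m)), M.Adm m A → Typed74 A (o m) := by
  sorry

/-- ONE-SIDED (file OneSided.lean, helper455) DONE -/
theorem one_sided {V : Type} [Finite V] (A : PAct L74 V) (o : V) (hT : Typed74 A o)
    (hshort : ∀ w : List (L74 × Bool), w ≠ [] → FreeGroup.IsReduced w → w.length ≤ 2 →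
      gw A w ≠ 1)
    (hms : ∀ (c p : List (L74 × Bool)) (v : V), FreeGroup.IsReduced c → c.length ≤ 5 →
      A.read p o = some v → gw A (c ++ p) = 1 → A.read (FreeGroup.invRev c) o = some v) :
    ∃ a b : MonoidAlgebra (ZMod 2) (Grp A), a * b = 1 ∧ b * a ≠ 1 := by
  sorry

/-- MAIN (file Main74.lean) -/
theorem main74 : ∃ (G : Type) (_ : Group G), Group.IsFinitelyPresented G ∧
    (∀ g : G, IsOfFinOrder g → g = 1) ∧
      Crest.Topology.HasFiniteClassifyingComplex G 2 ∧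
      ∃ a b : MonoidAlgebra (ZMod 2) G, a * b = 1 ∧ b * a ≠ 1 := by
  obtain ⟨M, o, hM⟩ := design74
  obtain ⟨κ, C, P, hκ, hC, hP, hL⟩ := local_lemmaO M o
  obtain ⟨L₁, K₁, D₁, C', g₁, η₁, hη₁, hG₁⟩ := geom κ C P hκ hC hP
  obtain ⟨L₂, K₂, D₂, g₂, η₂, hη₂, hG₂⟩ := mshort κ C P C' 5 hκ hC hP
  obtain ⟨g, hg, m, A, hA, hgir, hloc⟩ := hL (max L₁ L₂) (max K₁ K₂) (max D₁ D₂) (min η₁ η₂)
    (lt_min hη₁ hη₂) (max (max g₁ g₂) (C' * 2 + 1))
  have hg₁ : g₁ ≤ g := le_trans (le_trans (le_max_left _ _) (le_max_left _ _)) hg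
  have hg₂ : g₂ ≤ g := le_trans (le_trans (le_max_right _ _) (le_max_left _ _)) hg
  have hg₃ : C' * 2 + 1 ≤ g := le_trans (le_max_right _ _) hg
  have hloc₁ : LocalIneqO A (o m) K₁ D₁ (L₁ * g) κ C (P * g) (η₁ * g) :=
    LocalIneqO.mono (le_max_left _ _) (le_max_left _ _)
      (Nat.mul_le_mul_right _ (le_max_left _ _))
      (mul_le_mul_of_nonneg_right (min_le_left _ _) (Nat.cast_nonneg _)) hloc
  have hloc₂ : LocalIneqO A (o m) K₂ D₂ (L₂ * g) κ C (P * g) (η₂ * g) :=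
    LocalIneqO.mono (le_max_right _ _) (le_max_right _ _)
      (Nat.mul_le_mul_right _ (le_max_right _ _))
      (mul_le_mul_of_nonneg_right (min_le_right _ _) (Nat.cast_nonneg _)) hloc
  have hiso : Iso A C' := hG₁ _ _ A g hg₁ hgir
    (LocalIneqO.toLocal (mul_nonneg hP.le (Nat.cast_nonneg _)) hloc₁)
  have hgir' : Girth A (C' * 2 + 1) := fun x w h1 h2 h3 => le_trans hg₃ (hgir x w h1 h2 h3)
  have : Finite (M.V m) := M.fin m
  have hasph := aspherical_of_iso A C' hiso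
  exact ⟨Grp A, inferInstance, finitelyPresented A, torsionFree_of_aspherical A hasph,
    classifying_of_aspherical A hasph,
    one_sided A (o m) (hM m A hA)
      (fun w hw hr hl => short_of_iso A C' 2 hiso hgir' w hw hr hl)
      (fun c p v hc hl hp hw => hG₂ _ _ A (o m) g hg₂ hgir hiso hloc₂ c p v hc hl hp hw)⟩

end Crest.Agent.R177.Iface
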