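import Crest.Agent.R177.Defs74
import Crest.Agent.R177.DefsO

/-!
# Row 184 (S0274): the fresh letter route, frozen statements (NOT imported by proofs; helper323).
Replaces `MIso`, `geomM`, `mshort_of_miso`, `local_lemmaM` of `Iface74.lean`.
-/

set_option autoImplicit false

open scoped Classical

namespace Crest.Agent.R177.IfaceO

open Crest.Agent.R177
open Crest.Agent.R199 (PAct)

/-- CUT (file Cut.lean, helper132): cut all paths at their `ζ`-darts. -/
theorem cut {S V : Type} (A : PAct S V) (v o : V) (g' K K' D0 L : ℕ) (κ C P η : ℝ)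
    (hg : 2 ≤ g') (hgir : Girth (aug A v o) g') (hκ : 0 ≤ κ) (hC : 0 ≤ C) (hP : 0 ≤ P)
    (hK : K * (L / g' + 2) ≤ K') (h : LocalIneqO A o K' D0 L κ C P η) :
    LocalIneq (aug A v o) K D0 L κ C P η := by
  sorry

/-- FAR (file Far.lean, helper323): geometry with a marked node and short words closing a path
from `o`. -/
theorem geomO (κ C P : ℝ) (n : ℕ) (hκ : 0 < κ) (hC : 0 < C) (hP : 0 < P) :
    ∃ (L K D0 C' g₀ : ℕ) (η : ℝ), 0 < η ∧ ∀ (S V : Type) (A : PAct S V) (o : V) (g : ℕ), g₀ ≤ g →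
      Girth A g → LocalIneqO A o K D0 (L * g) κ C (P * g) (η * g) → Iso A C' ∧
        (∀ w : List (S × Bool), w ≠ [] → FreeGroup.IsReduced w → w.length ≤ n → gw A w ≠ 1) ∧
        ∀ (c p : List (S × Bool)) (v : V), FreeGroup.IsReduced c → c.length ≤ n →
          A.read p o = some v → gw A (c ++ p) = 1 → A.read (FreeGroup.invRev c) o = some v := by
  sorry

/-- LOCAL-O (LOC team, file LocalO.lean): local lemma with a marked node. -/
theorem local_lemmaO {S : Type} [Fintype S] (M : Model S) (o : ∀ m, M.V m) :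
    ∃ κ C P : ℝ, 0 < κ ∧ 0 < C ∧ 0 < P ∧ ∀ (L K D0 : ℕ) (η : ℝ), 0 < η → ∀ g₀ : ℕ,
      ∃ g, g₀ ≤ g ∧ ∃ (m : ℕ) (A : PAct S (M.V m)), M.Adm m A ∧ Girth A g ∧
        LocalIneqO A (o m) K D0 (L * g) κ C (P * g) (η * g) := by
  sorry

end Crest.Agent.R177.IfaceO
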