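import Crest.Agent.R177.FinPres

/-!
# Rows 177 / 184: two short reduced paths in a folded graph of large girth meet in an interval
(helper516)
-/

set_option autoImplicit false

namespace Crest.Agent.R177.Interval

open Crest.Agent.R199 (PAct)
open Crest.Agent.R177.FinPres

variable {S V : Type}

theorem hinv_hinv (a : S × Bool) : hinv (hinv a) = a := by simp [hinv]

theorem hinv_injective : Function.Injective (hinv : S × Bool → S × Bool) :=
  fun a b h => by rw [← hinv_hinv a, h, hinv_hinv]

theorem hinv_eq_iff {a b : S × Bool} : hinv a = b ↔ a = hinv b :=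
  ⟨fun h => by rw [← h, hinv_hinv], fun h => by rw [h, hinv_hinv]⟩

theorem hinv_ne (a : S × Bool) : hinv a ≠ a := by
  intro h
  have := congrArg Prod.snd h
  simp [hinv] at this

theorem isReduced_iff_ne (w : List (S × Bool)) :
    FreeGroup.IsReduced w ↔ w.IsChain (fun a b => b ≠ hinv a) := by
  rw [FreeGroup.IsReduced]
  constructor
  · refine List.IsChain.imp ?_
    rintro ⟨a, x⟩ ⟨b, y⟩ h h'
    simp only [hinv, Prod.mk.injEq] at h'
    have := h h'.1.symm
    simp only at this
    rw [h'.2] at this
    simp at this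
  · refine List.IsChain.imp ?_
    rintro ⟨a, x⟩ ⟨b, y⟩ h h'
    simp only at h'
    subst h'
    by_contra hne
    apply h
    simp only [hinv, Prod.mk.injEq, true_and]
    cases x <;> cases y <;> simp_all

theorem read_red (A : PAct S V) {L L' : List (S × Bool)} (h : FreeGroup.Red L L') (x y : V)
    (hr : A.read L x = some y) : A.read L' x = some y := by
  induction h with
  | refl => exact hr
  | tail _ hstep ih =>
    cases hstep with
    | @not L₁ L₂ a b =>
      rw [read_append] at ih ⊢
      cases h1 : A.read L₁ x with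
      | none => rw [h1] at ih; simp at ih
      | some z =>
        rw [h1] at ih
        simp only [Option.bind_some, PAct.read] at ih ⊢
        cases h2 : A.st (a, b) z with
        | none => rw [h2] at ih; simp at ih
        | some z' =>
          rw [h2] at ih
          have h3 := A.symm (a, b) z z' h2
          simp only [Option.bind_some] at ih
          rw [h3] at ih
          simpa using ih

/-- reduced words with the same ends and total length less than the girth coincide -/
theorem read_red_unique {A : PAct S V} {g : ℕ} (hg : Girth A g) {v w : V}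
    {u u' : List (S × Bool)} (hu : FreeGroup.IsReduced u) (hu' : FreeGroup.IsReduced u')
    (h1 : A.read u v = some w) (h2 : A.read u' v = some w) (hl : u.length + u'.length < g) :
    u = u' := by
  classical
  have h3 : A.read (u ++ FreeGroup.invRev u') v = some v := by
    rw [read_append, h1]
    simpa using read_invRev A u' v w h2
  have h4 := read_red A (FreeGroup.reduce.red (L := u ++ FreeGroup.invRev u')) v v h3
  have hlen : (FreeGroup.reduce (u ++ FreeGroup.invRev u')).length < g := by
    have h5 := (FreeGroup.Red.sublist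
      (FreeGroup.reduce.red (L := u ++ FreeGroup.invRev u'))).length_le
    rw [List.length_append, FreeGroup.invRev_length] at h5
    omega
  have hnil : FreeGroup.reduce (u ++ FreeGroup.invRev u') = [] := by
    by_contra hne
    have := hg v _ (FreeGroup.IsReduced.of_reduce_eq FreeGroup.reduce.idem) hne h4
    omega
  have h6 : FreeGroup.mk u = FreeGroup.mk u' := by
    rw [← mul_inv_eq_one, FreeGroup.inv_mk, FreeGroup.mul_mk]
    have := FreeGroup.reduce.self (L := u ++ FreeGroup.invRev u')
    rw [hnil] at this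
    rw [← this]
    rfl
  have h7 := FreeGroup.reduce.sound h6
  rwa [hu.reduce_eq, hu'.reduce_eq] at h7

/-- a reduced path of length `m`, given by the nodes `p` and the labels `l` -/
structure RPath (A : PAct S V) (m : ℕ) (p : ℕ → V) (l : ℕ → S × Bool) : Prop where
  step : ∀ k, k < m → A.st (l k) (p k) = some (p (k + 1))
  red : ∀ k, k + 1 < m → l (k + 1) ≠ hinv (l k)

/-- the word of a subpath -/
def wd (l : ℕ → S × Bool) (i n : ℕ) : List (S × Bool) := (List.range n).map fun t => l (i + t)

@[simp] theorem length_wd (l : ℕ → S × Bool) (i n : ℕ) : (wd l i n).length = n := by simp [wd]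

theorem wd_succ (l : ℕ → S × Bool) (i n : ℕ) : wd l i (n + 1) = wd l i n ++ [l (i + n)] := by
  simp [wd, List.range_succ]

theorem wd_get (l : ℕ → S × Bool) (i n t : ℕ) (ht : t < n) : (wd l i n)[t]? = some (l (i + t)) := by
  simp [wd, ht]

namespace RPath

variable {A : PAct S V} {m : ℕ} {p : ℕ → V} {l : ℕ → S × Bool}

theorem read_wd (h : RPath A m p l) (i n : ℕ) (hin : i + n ≤ m) :
    A.read (wd l i n) (p i) = some (p (i + n)) := by
  induction n with
  | zero => simp [wd, PAct.read]
  | succ n ih =>
    rw [wd_succ, read_append, ih (by omega)]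
    simp only [Option.bind_some, read_singleton]
    exact h.step (i + n) (by omega)

theorem red_wd (h : RPath A m p l) (i n : ℕ) (hin : i + n ≤ m) :
    FreeGroup.IsReduced (wd l i n) := by
  rw [isReduced_iff_ne, List.isChain_iff_getElem]
  intro t ht
  rw [length_wd] at ht
  simp only [wd, List.getElem_map, List.getElem_range]
  exact h.red (i + t) (by omega)

theorem rev (h : RPath A m p l) :
    RPath A m (fun t => p (m - t)) (fun t => hinv (l (m - 1 - t))) := by
  refine ⟨fun k hk => ?_, fun k hk => ?_⟩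
  · have h1 := h.step (m - 1 - k) (by omega)
    have e : m - 1 - k + 1 = m - k := by omega
    rw [e] at h1
    have h2 := A.symm _ _ _ h1
    have e2 : m - (k + 1) = m - 1 - k := by omega
    simp only [e2]
    exact h2
  · have h1 := h.red (m - 1 - (k + 1)) (by omega)
    have e : m - 1 - (k + 1) + 1 = m - 1 - k := by omega
    rw [e] at h1
    intro h2
    rw [hinv_hinv] at h2
    exact h1 h2.symm

/-- a short reduced path is injective -/
theorem inj {g : ℕ} (hg : Girth A g) (h : RPath A m p l) (hm : m < g) {i k : ℕ} (hi : i ≤ m)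
    (hk : k ≤ m) (he : p i = p k) : i = k := by
  have aux : ∀ i k : ℕ, k ≤ m → i < k → p i ≠ p k := by
    intro i k hk hik he
    have h1 := h.read_wd i (k - i) (by omega)
    have e : i + (k - i) = k := by omega
    rw [e, ← he] at h1
    have h2 := hg (p i) _ (h.red_wd i (k - i) (by omega)) (by
      intro h3
      have := congrArg List.length h3
      rw [length_wd] at this
      simp at this
      omega) h1
    rw [length_wd] at h2
    omega
  rcases lt_trichotomy i k with h1 | h1 | h1
  · exact absurd he (aux i k hk h1)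
  · exact h1
  · exact absurd he.symm (aux k i hi h1)

variable {n : ℕ} {p' : ℕ → V} {l' : ℕ → S × Bool}

/-- same direction -/
theorem same {g : ℕ} (hg : Girth A g) (h : RPath A m p l) (h' : RPath A n p' l') (hmn : m + n < g)
    {i k j r : ℕ} (hik : i ≤ k) (hk : k ≤ m) (hjr : j ≤ r) (hr : r ≤ n) (h1 : p i = p' j)
    (h2 : p k = p' r) :
    k - i = r - j ∧ (∀ t, t ≤ k - i → p (i + t) = p' (j + t)) ∧
      ∀ t, t < k - i → l (i + t) = l' (j + t) := by
  have e1 : i + (k - i) = k := by omega
  have e2 : j + (r - j) = r := by omega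
  have hw : wd l i (k - i) = wd l' j (r - j) := by
    refine read_red_unique hg (v := p i) (w := p k) (h.red_wd i (k - i) (by omega))
      (h'.red_wd j (r - j) (by omega)) ?_ ?_ ?_
    · rw [h.read_wd i (k - i) (by omega), e1]
    · rw [h1, h'.read_wd j (r - j) (by omega), e2, h2]
    · rw [length_wd, length_wd]; omega
  have hlen : k - i = r - j := by
    have := congrArg List.length hw
    simpa using this
  have hl : ∀ t, t < k - i → l (i + t) = l' (j + t) := by
    intro t ht
    have h3 := wd_get l i (k - i) t ht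
    have h4 := wd_get l' j (r - j) t (by omega)
    rw [hw, h4] at h3
    exact (Option.some.inj h3).symm
  refine ⟨hlen, ?_, hl⟩
  intro t
  induction t with
  | zero => intro _; simpa using h1
  | succ t ih =>
    intro ht
    have h3 := h.step (i + t) (by omega)
    have h4 := h'.step (j + t) (by omega)
    rw [ih (by omega), hl t (by omega), h4] at h3
    exact (Option.some.inj h3).symm

/-- opposite direction -/
theorem opp {g : ℕ} (hg : Girth A g) (h : RPath A m p l) (h' : RPath A n p' l') (hmn : m + n < g)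
    {i k j r : ℕ} (hik : i ≤ k) (hk : k ≤ m) (hrj : r ≤ j) (hj : j ≤ n) (h1 : p i = p' j)
    (h2 : p k = p' r) :
    k - i = j - r ∧ (∀ t, t ≤ k - i → p (i + t) = p' (j - t)) ∧
      ∀ t, t < k - i → l (i + t) = hinv (l' (j - t - 1)) := by
  obtain ⟨e1, e2, e3⟩ := same hg h h'.rev hmn (i := i) (k := k) (j := n - j) (r := n - r) hik hk
    (by omega) (by omega) (by rw [h1]; congr 1; omega)
    (by rw [h2]; congr 1; omega)
  refine ⟨by omega, ?_, ?_⟩
  · intro t ht
    rw [e2 t ht]
    congr 1; omega
  · intro t ht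
    rw [e3 t ht]
    congr 2; omega

/-- the turn of `p` at `i` is the turn of `p'` at `j` (in the same or in the opposite direction) -/
def SameTurn (l l' : ℕ → S × Bool) (i j : ℕ) : Prop :=
  (l' j = l i ∧ l' (j - 1) = l (i - 1)) ∨ (l' j = hinv (l (i - 1)) ∧ l' (j - 1) = hinv (l i))

/-- between two common nodes the turns agree -/
theorem sameTurn {g : ℕ} (hg : Girth A g) (h : RPath A m p l) (h' : RPath A n p' l')
    (hmn : m + n < g) {i₁ i₂ i₃ j₁ j₂ j₃ : ℕ} (h12 : i₁ < i₂) (h23 : i₂ < i₃) (h3 : i₃ ≤ m)
    (hj1 : j₁ ≤ n) (hj2 : j₂ ≤ n) (hj3 : j₃ ≤ n) (e1 : p i₁ = p' j₁) (e2 : p i₂ = p' j₂)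
    (e3 : p i₃ = p' j₃) : SameTurn l l' i₂ j₂ := by
  rcases le_total j₁ j₃ with hj | hj
  · obtain ⟨f1, f2, f3⟩ := same hg h h' hmn (by omega) h3 hj hj3 e1 e3
    have g2 : p' j₂ = p' (j₁ + (i₂ - i₁)) := by
      rw [← f2 (i₂ - i₁) (by omega), ← e2]; congr 1; omega
    have g3 : j₂ = j₁ + (i₂ - i₁) := h'.inj hg (by omega) hj2 (by omega) g2
    left
    constructor
    · have := f3 (i₂ - i₁) (by omega)
      rw [g3, ← this]; congr 1; omega
    · have := f3 (i₂ - i₁ - 1) (by omega)
      have e4 : j₂ - 1 = j₁ + (i₂ - i₁ - 1) := by omega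
      rw [e4, ← this]; congr 1; omega
  · obtain ⟨f1, f2, f3⟩ := opp hg h h' hmn (by omega) h3 hj hj1 e1 e3
    have g2 : p' j₂ = p' (j₁ - (i₂ - i₁)) := by
      rw [← f2 (i₂ - i₁) (by omega), ← e2]; congr 1; omega
    have g3 : j₂ = j₁ - (i₂ - i₁) := h'.inj hg (by omega) hj2 (by omega) g2
    right
    constructor
    · have := f3 (i₂ - i₁ - 1) (by omega)
      have e4 : j₂ = j₁ - (i₂ - i₁ - 1) - 1 := by omega
      have e5 : i₁ + (i₂ - i₁ - 1) = i₂ - 1 := by omega
      rw [e4, ← hinv_eq_iff, ← this, e5]
    · have := f3 (i₂ - i₁) (by omega)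
      have e4 : j₂ - 1 = j₁ - (i₂ - i₁) - 1 := by omega
      have e5 : i₁ + (i₂ - i₁) = i₂ := by omega
      rw [e4, ← hinv_eq_iff, ← this, e5]

/-- at most two common nodes of two short paths have different turns -/
theorem bad_card {g : ℕ} (hg : Girth A g) (h : RPath A m p l) (h' : RPath A n p' l')
    (hmn : m + n < g) :
    {i : ℕ | i ≤ m ∧ ∃ j ≤ n, p i = p' j ∧ ¬ SameTurn l l' i j}.ncard ≤ 2 := by
  classical
  by_contra hcon
  push Not at hcon
  have hfin : {i : ℕ | i ≤ m ∧ ∃ j ≤ n, p i = p' j ∧ ¬ SameTurn l l' i j}.Finite :=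
    (Set.finite_Iic m).subset fun i hi => hi.1
  rw [Set.ncard_eq_toFinset_card _ hfin] at hcon
  obtain ⟨a, ha, b, hb, c, hc, hab, hac, hbc⟩ := Finset.two_lt_card.1 hcon
  simp only [Set.Finite.mem_toFinset, Set.mem_ofPred_eq] at ha hb hc
  -- sort
  have key : ∀ a b c : ℕ, (a ≤ m ∧ ∃ j ≤ n, p a = p' j ∧ ¬ SameTurn l l' a j) →
      (b ≤ m ∧ ∃ j ≤ n, p b = p' j ∧ ¬ SameTurn l l' b j) →
      (c ≤ m ∧ ∃ j ≤ n, p c = p' j ∧ ¬ SameTurn l l' c j) → a < b → b < c → False := by
    rintro a b c ⟨_, j1, hj1, e1, _⟩ ⟨_, j2, hj2, e2, hn⟩ ⟨hc, j3, hj3, e3, _⟩ h1 h2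
    exact hn (sameTurn hg h h' hmn h1 h2 hc hj1 hj2 hj3 e1 e2 e3)
  rcases lt_or_gt_of_ne hab with h1 | h1 <;> rcases lt_or_gt_of_ne hac with h2 | h2 <;>
    rcases lt_or_gt_of_ne hbc with h3 | h3
  · exact key a b c ha hb hc h1 h3
  · exact key a c b ha hc hb h2 h3
  · omega
  · exact key c a b hc ha hb h2 h1
  · exact key b a c hb ha hc h1 h2
  · omega
  · exact key b c a hb hc ha h3 h2
  · exact key c b a hc hb ha h3 h1

end RPath

end Crest.Agent.R177.Interval
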