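import Crest.Agent.R177.LocDefs

/-!
# Row 177, module LOC, LD3 (helper753): every passage uses two different edges at a node
-/

set_option autoImplicit false

open scoped Classical

namespace Crest.Agent.R177.Loc

open Crest.Agent.R177

section chi

variable {σ : Shape} (hσ : σ.Basic) (v w : ℕ)

include hσ in
theorem chi_cls_lt {q : ℕ} (hq : q ∈ σ.D) : σ.cls q < σ.T :=
  lt_of_le_of_lt (hσ.cls_le q) (lt_trans (Nat.lt_succ_self q) (hσ.D_lt q hq))

include hσ in
theorem chi_cls_succ_lt {q : ℕ} (hq : q ∈ σ.D) : σ.cls (q + 1) < σ.T :=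
  lt_of_le_of_lt (hσ.cls_le (q + 1)) (hσ.D_lt q hq)

include hσ in
theorem chi_am_split : σ.am v w = (σ.D.filter (fun q => σ.cls q = v ∧ σ.cls (q + 1) = w)).card +
    (σ.D.filter (fun q => σ.cls (q + 1) = v ∧ σ.cls q = w)).card := by
  unfold Shape.am
  rw [← Finset.card_union_of_disjoint]
  · congr 1
    ext q
    simp only [Finset.mem_filter, Finset.mem_union]
    tauto
  · rw [Finset.disjoint_left]
    intro q h1 h2
    rw [Finset.mem_filter] at h1 h2
    exact hσ.cls_ne q h1.1 (h1.2.1.trans h2.2.1.symm)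

include hσ in
theorem chi_sum_am : ∑ w' ∈ Finset.range σ.T, σ.am v w' =
    (σ.D.filter (fun q => σ.cls q = v)).card + (σ.D.filter (fun q => σ.cls (q + 1) = v)).card := by
  rw [Finset.sum_congr rfl fun w' _ => chi_am_split hσ v w', Finset.sum_add_distrib]
  congr 1
  · rw [Finset.card_eq_sum_card_fiberwise (f := fun q => σ.cls (q + 1)) (t := Finset.range σ.T)]
    · refine Finset.sum_congr rfl fun w' _ => ?_
      rw [Finset.filter_filter]
    · intro q hq
      rw [Finset.mem_coe, Finset.mem_filter] at hq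
      rw [Finset.mem_coe, Finset.mem_range]
      exact chi_cls_succ_lt hσ hq.1
  · rw [Finset.card_eq_sum_card_fiberwise (f := fun q => σ.cls q) (t := Finset.range σ.T)]
    · refine Finset.sum_congr rfl fun w' _ => ?_
      rw [Finset.filter_filter]
    · intro q hq
      rw [Finset.mem_coe, Finset.mem_filter] at hq
      rw [Finset.mem_coe, Finset.mem_range]
      exact chi_cls_lt hσ hq.1

end chi

/-- LD3: every passage uses two different edges at a node -/
theorem chi_le {σ : Shape} (hσ : σ.Basic) (v w : ℕ) (hv : v < σ.T) :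
    2 * σ.am v w ≤ (∑ w' ∈ Finset.range σ.T, σ.am v w') +
      ((Finset.range σ.T).filter (fun p => σ.OpenEnd p ∧ σ.cls p = v)).card := by
  have _ := hv
  rw [chi_sum_am hσ v, chi_am_split hσ v w]
  -- splitting of the leaving darts
  have L1 : (σ.D.filter (fun q => σ.cls q = v)).card =
      (σ.D.filter (fun q => σ.cls q = v ∧ σ.cls (q + 1) = w)).card +
      ((σ.D.filter (fun q => (σ.cls q = v ∧ σ.cls (q + 1) ≠ w) ∧ σ.Cor q)).card +
      (σ.D.filter (fun q => (σ.cls q = v ∧ σ.cls (q + 1) ≠ w) ∧ ¬ σ.Cor q)).card) := by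
    rw [← Finset.card_filter_add_card_filter_not (s := σ.D.filter (fun q => σ.cls q = v))
      (fun q => σ.cls (q + 1) = w), Finset.filter_filter, Finset.filter_filter,
      ← Finset.card_filter_add_card_filter_not
        (s := σ.D.filter (fun q => σ.cls q = v ∧ ¬ σ.cls (q + 1) = w)) (fun q => σ.Cor q),
      Finset.filter_filter, Finset.filter_filter]
  have R1 : (σ.D.filter (fun q => σ.cls (q + 1) = v)).card =
      (σ.D.filter (fun q => σ.cls (q + 1) = v ∧ σ.cls q = w)).card +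
      ((σ.D.filter (fun q => (σ.cls (q + 1) = v ∧ σ.cls q ≠ w) ∧ q + 1 ∈ σ.D)).card +
      (σ.D.filter (fun q => (σ.cls (q + 1) = v ∧ σ.cls q ≠ w) ∧ ¬ q + 1 ∈ σ.D)).card) := by
    rw [← Finset.card_filter_add_card_filter_not (s := σ.D.filter (fun q => σ.cls (q + 1) = v))
      (fun q => σ.cls q = w), Finset.filter_filter, Finset.filter_filter,
      ← Finset.card_filter_add_card_filter_not
        (s := σ.D.filter (fun q => σ.cls (q + 1) = v ∧ ¬ σ.cls q = w)) (fun q => q + 1 ∈ σ.D),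
      Finset.filter_filter, Finset.filter_filter]
  have E1 : ((Finset.range σ.T).filter (fun p => σ.OpenEnd p ∧ σ.cls p = v)).card =
      ((Finset.range σ.T).filter (fun p => (σ.OpenEnd p ∧ σ.cls p = v) ∧ p ∈ σ.D)).card +
      ((Finset.range σ.T).filter (fun p => (σ.OpenEnd p ∧ σ.cls p = v) ∧ ¬ p ∈ σ.D)).card := by
    rw [← Finset.card_filter_add_card_filter_not
      (s := (Finset.range σ.T).filter (fun p => σ.OpenEnd p ∧ σ.cls p = v)) (fun p => p ∈ σ.D),
      Finset.filter_filter, Finset.filter_filter]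
  -- leaving darts on the edge
  have L2 : (σ.D.filter (fun q => σ.cls q = v ∧ σ.cls (q + 1) = w)).card =
      (σ.D.filter (fun q => (σ.cls q = v ∧ σ.cls (q + 1) = w) ∧ σ.Cor q)).card +
      ((σ.D.filter (fun q => ((σ.cls q = v ∧ σ.cls (q + 1) = w) ∧ ¬ σ.Cor q) ∧ q ∈ σ.cs)).card +
      (σ.D.filter (fun q => ((σ.cls q = v ∧ σ.cls (q + 1) = w) ∧ ¬ σ.Cor q) ∧ ¬ q ∈ σ.cs)).card)
      := by
    rw [← Finset.card_filter_add_card_filter_not
      (s := σ.D.filter (fun q => σ.cls q = v ∧ σ.cls (q + 1) = w)) (fun q => σ.Cor q),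
      Finset.filter_filter, Finset.filter_filter,
      ← Finset.card_filter_add_card_filter_not
        (s := σ.D.filter (fun q => (σ.cls q = v ∧ σ.cls (q + 1) = w) ∧ ¬ σ.Cor q))
        (fun q => q ∈ σ.cs),
      Finset.filter_filter, Finset.filter_filter]
  have R2 : (σ.D.filter (fun q => σ.cls (q + 1) = v ∧ σ.cls q = w)).card =
      (σ.D.filter (fun q => (σ.cls (q + 1) = v ∧ σ.cls q = w) ∧ q + 1 ∈ σ.D)).card +
      ((σ.D.filter (fun q => ((σ.cls (q + 1) = v ∧ σ.cls q = w) ∧ ¬ q + 1 ∈ σ.D) ∧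
        ∃ s ∈ σ.cs, σ.ce s = q + 1)).card +
      (σ.D.filter (fun q => ((σ.cls (q + 1) = v ∧ σ.cls q = w) ∧ ¬ q + 1 ∈ σ.D) ∧
        ¬ ∃ s ∈ σ.cs, σ.ce s = q + 1)).card) := by
    rw [← Finset.card_filter_add_card_filter_not
      (s := σ.D.filter (fun q => σ.cls (q + 1) = v ∧ σ.cls q = w)) (fun q => q + 1 ∈ σ.D),
      Finset.filter_filter, Finset.filter_filter,
      ← Finset.card_filter_add_card_filter_not
        (s := σ.D.filter (fun q => (σ.cls (q + 1) = v ∧ σ.cls q = w) ∧ ¬ q + 1 ∈ σ.D))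
        (fun q => ∃ s ∈ σ.cs, σ.ce s = q + 1),
      Finset.filter_filter, Finset.filter_filter]
  -- the injections
  have a1 : (σ.D.filter (fun q => (σ.cls q = v ∧ σ.cls (q + 1) = w) ∧ σ.Cor q)).card ≤
      (σ.D.filter (fun q => (σ.cls (q + 1) = v ∧ σ.cls q ≠ w) ∧ q + 1 ∈ σ.D)).card := by
    refine Finset.card_le_card_of_injOn (fun q => q - 1) ?_ ?_
    · intro q hq
      rw [Finset.mem_coe, Finset.mem_filter] at hq
      obtain ⟨hqD, ⟨h1, h2⟩, h3, h4, -⟩ := hq
      have e : q - 1 + 1 = q := by omega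
      rw [Finset.mem_coe, Finset.mem_filter]
      refine ⟨h4, ⟨?_, ?_⟩, ?_⟩
      · rw [e]; exact h1
      · intro h5
        refine hσ.red (q - 1) h4 (by rw [e]; exact hqD) ?_
        have e2 : q - 1 + 2 = q + 1 := by omega
        rw [e2, h5, h2]
      · rw [e]; exact hqD
    · intro q hq q' hq' h
      rw [Finset.mem_coe, Finset.mem_filter] at hq hq'
      have h1 := hq.2.2.1
      have h2 := hq'.2.2.1
      simp only at h
      omega
  have a2 : (σ.D.filter (fun q => ((σ.cls q = v ∧ σ.cls (q + 1) = w) ∧ ¬ σ.Cor q) ∧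
        q ∈ σ.cs)).card ≤
      (σ.D.filter (fun q => (σ.cls (q + 1) = v ∧ σ.cls q ≠ w) ∧ ¬ q + 1 ∈ σ.D)).card := by
    refine Finset.card_le_card_of_injOn (fun q => σ.ce q - 1) ?_ ?_
    · intro q hq
      rw [Finset.mem_coe, Finset.mem_filter] at hq
      obtain ⟨hqD, ⟨⟨h1, h2⟩, -⟩, h3⟩ := hq
      obtain ⟨s1, s2, s3⟩ := hσ.ce_stop q h3
      have e : σ.ce q - 1 + 1 = σ.ce q := by omega
      rw [Finset.mem_coe, Finset.mem_filter]
      refine ⟨s2, ⟨?_, ?_⟩, ?_⟩
      · rw [e, hσ.ce_cls q h3]; exact h1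
      · intro h5
        exact hσ.ce_red q h3 (by rw [h5, h2])
      · rw [e]; exact s3
    · intro q hq q' hq' h
      rw [Finset.mem_coe, Finset.mem_filter] at hq hq'
      have h1 := (hσ.ce_stop q hq.2.2).1
      have h2 := (hσ.ce_stop q' hq'.2.2).1
      simp only at h
      exact hσ.ce_inj q hq.2.2 q' hq'.2.2 (by omega)
  have a3 : (σ.D.filter (fun q => ((σ.cls q = v ∧ σ.cls (q + 1) = w) ∧ ¬ σ.Cor q) ∧
        ¬ q ∈ σ.cs)).card ≤
      ((Finset.range σ.T).filter (fun p => (σ.OpenEnd p ∧ σ.cls p = v) ∧ p ∈ σ.D)).card := by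
    refine Finset.card_le_card ?_
    intro q hq
    rw [Finset.mem_filter] at hq
    obtain ⟨hqD, ⟨⟨h1, h2⟩, h3⟩, h4⟩ := hq
    rw [Finset.mem_filter, Finset.mem_range]
    have := hσ.D_lt q hqD
    exact ⟨by omega, ⟨Or.inl ⟨⟨hqD, h3⟩, h4⟩, h1⟩, hqD⟩
  have b1 : (σ.D.filter (fun q => (σ.cls (q + 1) = v ∧ σ.cls q = w) ∧ q + 1 ∈ σ.D)).card ≤
      (σ.D.filter (fun q => (σ.cls q = v ∧ σ.cls (q + 1) ≠ w) ∧ σ.Cor q)).card := by
    refine Finset.card_le_card_of_injOn (fun q => q + 1) ?_ ?_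
    · intro q hq
      rw [Finset.mem_coe, Finset.mem_filter] at hq
      obtain ⟨hqD, ⟨h1, h2⟩, h3⟩ := hq
      rw [Finset.mem_coe, Finset.mem_filter]
      refine ⟨h3, ⟨h1, ?_⟩, Nat.le_add_left 1 q, hqD, h3⟩
      intro h5
      exact hσ.red q hqD h3 (h2.trans h5.symm)
    · intro q _ q' _ h
      simp only at h
      omega
  have b2 : (σ.D.filter (fun q => ((σ.cls (q + 1) = v ∧ σ.cls q = w) ∧ ¬ q + 1 ∈ σ.D) ∧
        ∃ s ∈ σ.cs, σ.ce s = q + 1)).card ≤
      (σ.D.filter (fun q => (σ.cls q = v ∧ σ.cls (q + 1) ≠ w) ∧ ¬ σ.Cor q)).card := by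
    let f : ℕ → ℕ := fun q => if h : ∃ s ∈ σ.cs, σ.ce s = q + 1 then h.choose else 0
    have hf : ∀ q, (∃ s ∈ σ.cs, σ.ce s = q + 1) → f q ∈ σ.cs ∧ σ.ce (f q) = q + 1 := by
      intro q h
      have : f q = h.choose := dif_pos h
      rw [this]
      exact h.choose_spec
    refine Finset.card_le_card_of_injOn f ?_ ?_
    · intro q hq
      rw [Finset.mem_coe, Finset.mem_filter] at hq
      obtain ⟨hqD, ⟨⟨h1, h2⟩, h3⟩, h4⟩ := hq
      obtain ⟨f1, f2⟩ := hf q h4
      obtain ⟨s1, s2⟩ := hσ.cs_start (f q) f1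
      rw [Finset.mem_coe, Finset.mem_filter]
      refine ⟨s1, ⟨?_, ?_⟩, s2⟩
      · rw [← hσ.ce_cls (f q) f1, f2]; exact h1
      · intro h5
        refine hσ.ce_red (f q) f1 ?_
        rw [f2, Nat.add_sub_cancel, h2, h5]
    · intro q hq q' hq' h
      rw [Finset.mem_coe, Finset.mem_filter] at hq hq'
      have h1 := (hf q hq.2.2).2
      have h2 := (hf q' hq'.2.2).2
      rw [h, h2] at h1
      omega
  have b3 : (σ.D.filter (fun q => ((σ.cls (q + 1) = v ∧ σ.cls q = w) ∧ ¬ q + 1 ∈ σ.D) ∧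
        ¬ ∃ s ∈ σ.cs, σ.ce s = q + 1)).card ≤
      ((Finset.range σ.T).filter (fun p => (σ.OpenEnd p ∧ σ.cls p = v) ∧ ¬ p ∈ σ.D)).card := by
    refine Finset.card_le_card_of_injOn (fun q => q + 1) ?_ ?_
    · intro q hq
      rw [Finset.mem_coe, Finset.mem_filter] at hq
      obtain ⟨hqD, ⟨⟨h1, h2⟩, h3⟩, h4⟩ := hq
      rw [Finset.mem_coe, Finset.mem_filter, Finset.mem_range]
      refine ⟨hσ.D_lt q hqD, ⟨Or.inr ⟨⟨Nat.le_add_left 1 q, hqD, h3⟩, ?_⟩, h1⟩, h3⟩
      intro s hs hs'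
      exact h4 ⟨s, hs, hs'⟩
    · intro q _ q' _ h
      simp only at h
      omega
  omega

end Crest.Agent.R177.Loc
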