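import Crest.Agent.R177.LocDefs

/-!
# Rows 177 / 184, module LOC, part LB (helper541): the number of shapes
-/

set_option autoImplicit false

open scoped Classical

namespace Crest.Agent.R177.Loc

/-- number of subsets of size at most `B` -/
theorem card_powerset_filter_le {β : Type} (s : Finset β) (B : ℕ) :
    (s.powerset.filter (fun t => t.card ≤ B)).card ≤ (s.card + 1) ^ B := by
  induction B with
  | zero =>
    have hsub : s.powerset.filter (fun t => t.card ≤ 0) ⊆ {∅} := by
      intro t ht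
      simp only [Finset.mem_filter, Nat.le_zero, Finset.card_eq_zero] at ht
      simpa using ht.2
    simpa using Finset.card_le_card hsub
  | succ B ih =>
    have hsub : s.powerset.filter (fun t => t.card ≤ B + 1) ⊆
        ((insert none (s.image some)) ×ˢ (s.powerset.filter (fun t => t.card ≤ B))).image
          (fun o : Option β × Finset β => o.1.elim o.2 (fun x => insert x o.2)) := by
      intro t ht
      simp only [Finset.mem_filter, Finset.mem_powerset] at ht
      simp only [Finset.mem_image, Finset.mem_product, Finset.mem_insert, Finset.mem_filter,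
        Finset.mem_powerset, Prod.exists]
      by_cases hc : t.card ≤ B
      · exact ⟨none, t, ⟨Or.inl rfl, ht.1, hc⟩, rfl⟩
      · have hne : t.Nonempty := by
          rw [← Finset.card_pos]; omega
        obtain ⟨x, hx⟩ := hne
        refine ⟨some x, t.erase x, ⟨Or.inr ⟨x, ht.1 hx, rfl⟩,
          (Finset.erase_subset _ _).trans ht.1, ?_⟩, ?_⟩
        · rw [Finset.card_erase_of_mem hx]; omega
        · simp [Finset.insert_erase hx]
    refine (Finset.card_le_card hsub).trans (Finset.card_image_le.trans ?_)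
    rw [Finset.card_product, pow_succ, mul_comm]
    refine Nat.mul_le_mul ih ?_
    refine (Finset.card_insert_le _ _).trans ?_
    exact Nat.add_le_add_right Finset.card_image_le 1

namespace Shape

variable (σ : Shape)

/-- number of positions before `p` which are not darts -/
noncomputable def cnt (p : ℕ) : ℕ := ((Finset.range p).filter (fun q => q ∉ σ.D)).card

/-- index of the arc of the position `p` -/
noncomputable def arc (g' p : ℕ) : ℕ := p / g' + σ.cnt p

theorem cnt_mono {p q : ℕ} (h : p ≤ q) : σ.cnt p ≤ σ.cnt q :=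
  Finset.card_le_card (Finset.filter_subset_filter _ (Finset.range_mono h))

theorem arc_mono (g' : ℕ) {p q : ℕ} (h : p ≤ q) : σ.arc g' p ≤ σ.arc g' q :=
  Nat.add_le_add (Nat.div_le_div_right h) (σ.cnt_mono h)

variable {σ}

theorem arc_eq {g' : ℕ} (hg : 0 < g') {p q : ℕ} (h : σ.arc g' p = σ.arc g' q) (hpq : p ≤ q) :
    q - p < g' ∧ ∀ r, p ≤ r → r < q → r ∈ σ.D := by
  have h1 : p / g' ≤ q / g' := Nat.div_le_div_right hpq
  have h2 := σ.cnt_mono hpq
  unfold arc at h
  have h3 : p / g' = q / g' := by omega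
  have h4 : σ.cnt p = σ.cnt q := by omega
  constructor
  · have e1 := Nat.div_add_mod p g'
    have e2 := Nat.div_add_mod q g'
    rw [← h3] at e2
    have := Nat.mod_lt q hg
    omega
  · intro r hr hrq
    by_contra hD
    have hlt : (Finset.range p).filter (fun q => q ∉ σ.D) ⊂
        (Finset.range q).filter (fun q => q ∉ σ.D) := by
      refine ⟨Finset.filter_subset_filter _ (Finset.range_mono hpq), fun hh => ?_⟩
      have : r ∈ (Finset.range q).filter (fun q => q ∉ σ.D) := by simp [hrq, hD]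
      have := hh this
      simp only [Finset.mem_filter, Finset.mem_range] at this
      omega
    have := Finset.card_lt_card hlt
    unfold cnt at h4
    omega

section Cls

variable {K D1 g' Y : ℕ} (hσ : σ.Pre K D1 g') (hg : 2 ≤ g')

include hσ in
theorem arc_le (hT : σ.T ≤ Y * g') {p : ℕ} (hp : p < σ.T) :
    σ.arc g' p ≤ Y + K := by
  unfold arc
  refine Nat.add_le_add ?_ ?_
  · refine Nat.div_le_of_le_mul ?_
    rw [mul_comm]; omega
  · refine le_trans (Finset.card_le_card ?_) hσ.paths_le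
    intro q hq
    simp only [Finset.mem_filter, Finset.mem_range] at hq
    simp only [Finset.mem_sdiff, Finset.mem_range]
    exact ⟨by omega, hq.2⟩

/-- `p` has a partner in the arc `b` -/
def Match (σ : Shape) (g' p b : ℕ) : Prop := ∃ q, σ.arc g' q = b ∧ σ.cls q = σ.cls p

include hσ in
theorem match_self (p : ℕ) : σ.Match g' p (σ.arc g' (σ.cls p)) :=
  ⟨σ.cls p, rfl, hσ.cls_cls p⟩

include hσ in
theorem match_le {p b : ℕ} (h : σ.Match g' p b) : σ.arc g' (σ.cls p) ≤ b := by
  obtain ⟨q, rfl, hq⟩ := h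
  rw [← hq]
  exact σ.arc_mono g' (hσ.cls_le q)

include hσ hg in
theorem ovl_pair {p p' q q' : ℕ} (hp : σ.arc g' p = σ.arc g' p') (hpp : p ≤ p')
    (hq : σ.arc g' q = σ.arc g' q') (h1 : σ.cls p = σ.cls q) (h2 : σ.cls p' = σ.cls q') :
    (q ≤ q' ∧ q' - q = p' - p ∧ ∀ i ≤ p' - p, σ.cls (p + i) = σ.cls (q + i)) ∨
    (q' ≤ q ∧ q - q' = p' - p ∧ ∀ i ≤ p' - p, σ.cls (p + i) = σ.cls (q' + (p' - p - i))) := by
  obtain ⟨hd, hD⟩ := arc_eq (by omega) hp hpp
  rcases le_total q q' with hqq | hqq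
  · left
    obtain ⟨he, hE⟩ := arc_eq (by omega) hq hqq
    have := (hσ.ovl p q (p' - p) (q' - q) hd.le he.le (fun i hi => hD _ (by omega) (by omega))
      (fun i hi => hE _ (by omega) (by omega))).1 h1 (by
        rw [Nat.add_sub_cancel' hpp, Nat.add_sub_cancel' hqq]; exact h2)
    exact ⟨hqq, this.1, this.2⟩
  · right
    obtain ⟨he, hE⟩ := arc_eq (by omega) hq.symm hqq
    have := (hσ.ovl p q' (p' - p) (q - q') hd.le he.le (fun i hi => hD _ (by omega) (by omega))
      (fun i hi => hE _ (by omega) (by omega))).2 (by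
        rw [Nat.add_sub_cancel' hqq]; exact h1) (by
        rw [Nat.add_sub_cancel' hpp]; exact h2)
    exact ⟨hqq, this.1, this.2⟩

include hσ hg in
theorem match_conv {p p' p'' b : ℕ} (ha : σ.arc g' p = σ.arc g' p'') (h1 : p ≤ p')
    (h2 : p' ≤ p'') (hm : σ.Match g' p b) (hm' : σ.Match g' p'' b) : σ.Match g' p' b := by
  obtain ⟨q, hq, hqc⟩ := hm
  obtain ⟨q'', hq'', hqc''⟩ := hm'
  rcases ovl_pair hσ hg ha (h1.trans h2) (hq.trans hq''.symm) hqc.symm hqc''.symm with
    ⟨hle, he, hi⟩ | ⟨hle, he, hi⟩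
  · refine ⟨q + (p' - p), ?_, ?_⟩
    · apply le_antisymm
      · rw [← hq'']; exact σ.arc_mono g' (by omega)
      · rw [← hq]; exact σ.arc_mono g' (by omega)
    · have := hi (p' - p) (by omega)
      rw [Nat.add_sub_cancel' h1] at this
      exact this.symm
  · refine ⟨q'' + (p'' - p - (p' - p)), ?_, ?_⟩
    · apply le_antisymm
      · rw [← hq]; exact σ.arc_mono g' (by omega)
      · rw [← hq'']; exact σ.arc_mono g' (by omega)
    · have := hi (p' - p) (by omega)
      rw [Nat.add_sub_cancel' h1] at this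
      exact this.symm

include hσ hg in
/-- the recursion of `cls` inside an arc -/
theorem cls_rec {p : ℕ} (ha : σ.arc g' p = σ.arc g' (p + 2))
    (hb1 : σ.arc g' (σ.cls p) = σ.arc g' (σ.cls (p + 1)))
    (hb2 : σ.arc g' (σ.cls (p + 1)) = σ.arc g' (σ.cls (p + 2))) :
    σ.cls (p + 2) + σ.cls p = 2 * σ.cls (p + 1) := by
  have ha1 : σ.arc g' p = σ.arc g' (p + 1) :=
    le_antisymm (σ.arc_mono g' (by omega)) (by rw [ha]; exact σ.arc_mono g' (by omega))
  have ha2 : σ.arc g' (p + 1) = σ.arc g' (p + 2) := ha1.symm.trans ha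
  have e1 := ovl_pair hσ hg ha1 (by omega) hb1 (hσ.cls_cls p).symm (hσ.cls_cls (p + 1)).symm
  have e2 := ovl_pair hσ hg ha2 (by omega) hb2 (hσ.cls_cls (p + 1)).symm
    (hσ.cls_cls (p + 2)).symm
  have e3 := ovl_pair hσ hg ha (by omega) (hb1.trans hb2) (hσ.cls_cls p).symm
    (hσ.cls_cls (p + 2)).symm
  omega

/-- exceptional positions of `cls` -/
noncomputable def ExC (σ : Shape) : Finset ℕ :=
  (Finset.range σ.T).filter (fun p => ¬ (2 ≤ p ∧ σ.cls p + σ.cls (p - 2) = 2 * σ.cls (p - 1)))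

/-- positions where the arc changes -/
noncomputable def ExJ (σ : Shape) (g' : ℕ) : Finset ℕ :=
  (Finset.range σ.T).filter (fun p => p + 1 < σ.T ∧ σ.arc g' p ≠ σ.arc g' (p + 1))

noncomputable def ExL (σ : Shape) (g' : ℕ) : Finset ℕ :=
  (Finset.range σ.T).filter (fun p => p + 1 < σ.T ∧ σ.arc g' p = σ.arc g' (p + 1) ∧
    ¬ σ.Match g' p (σ.arc g' (σ.cls (p + 1))))

noncomputable def ExR (σ : Shape) (g' : ℕ) : Finset ℕ :=
  (Finset.range σ.T).filter (fun p => p + 1 < σ.T ∧ σ.arc g' p = σ.arc g' (p + 1) ∧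
    ¬ σ.Match g' (p + 1) (σ.arc g' (σ.cls p)))

include hσ in
theorem card_ExJ (hT : σ.T ≤ Y * g') : (σ.ExJ g').card ≤ Y + K + 1 := by
  rw [← Finset.card_range (Y + K + 1)]
  refine Finset.card_le_card_of_injOn (fun p => σ.arc g' p) ?_ ?_
  · intro p hp
    simp only [ExJ, Finset.coe_filter, Finset.mem_range, Set.mem_ofPred_eq] at hp
    simp only [Finset.coe_range, Set.mem_Iio]
    have := arc_le hσ hT hp.1
    omega
  · intro p hp q hq h
    simp only [ExJ, Finset.coe_filter, Finset.mem_range, Set.mem_ofPred_eq] at hp hq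
    simp only at h
    rcases lt_trichotomy p q with hlt | heq | hlt
    · exfalso
      apply hp.2.2
      have := σ.arc_mono g' (show p + 1 ≤ q by omega)
      have := σ.arc_mono g' (show p ≤ p + 1 by omega)
      omega
    · exact heq
    · exfalso
      apply hq.2.2
      have := σ.arc_mono g' (show q + 1 ≤ p by omega)
      have := σ.arc_mono g' (show q ≤ q + 1 by omega)
      omega

include hσ hg in
theorem card_ExL (hT : σ.T ≤ Y * g') : (σ.ExL g').card ≤ (Y + K + 1) * (Y + K + 1) := by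
  have hc : ((Finset.range (Y + K + 1)) ×ˢ (Finset.range (Y + K + 1))).card =
      (Y + K + 1) * (Y + K + 1) := by simp
  rw [← hc]
  refine Finset.card_le_card_of_injOn
    (fun p => (σ.arc g' p, σ.arc g' (σ.cls (p + 1)))) ?_ ?_
  · intro p hp
    simp only [ExL, Finset.coe_filter, Finset.mem_range, Set.mem_ofPred_eq] at hp
    simp only [Finset.coe_product, Finset.coe_range, Set.mem_prod, Set.mem_Iio]
    have h1 := arc_le hσ hT hp.1
    have h2 : σ.arc g' (σ.cls (p + 1)) ≤ Y + K :=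
      arc_le hσ hT (lt_of_le_of_lt (hσ.cls_le _) hp.2.1)
    omega
  · intro p hp q hq h
    simp only [ExL, Finset.coe_filter, Finset.mem_range, Set.mem_ofPred_eq] at hp hq
    simp only [Prod.mk.injEq] at h
    obtain ⟨ha, hb⟩ := h
    have key : ∀ p q : ℕ, p < q → σ.arc g' p = σ.arc g' (p + 1) → σ.arc g' q = σ.arc g' (q + 1) →
        σ.arc g' p = σ.arc g' q → σ.arc g' (σ.cls (p + 1)) = σ.arc g' (σ.cls (q + 1)) →
        σ.Match g' q (σ.arc g' (σ.cls (q + 1))) := by
      intro p q hlt h1 h2 ha hb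
      refine match_conv hσ hg (p := p + 1) (p'' := q + 1) (by omega) (by omega) (by omega) ?_
        (match_self hσ (q + 1))
      rw [← hb]
      exact match_self hσ (p + 1)
    rcases lt_trichotomy p q with hlt | heq | hlt
    · exact absurd (key p q hlt hp.2.2.1 hq.2.2.1 ha hb) hq.2.2.2
    · exact heq
    · exact absurd (key q p hlt hq.2.2.1 hp.2.2.1 ha.symm hb.symm) hp.2.2.2

include hσ hg in
theorem card_ExR (hT : σ.T ≤ Y * g') : (σ.ExR g').card ≤ (Y + K + 1) * (Y + K + 1) := by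
  have hc : ((Finset.range (Y + K + 1)) ×ˢ (Finset.range (Y + K + 1))).card =
      (Y + K + 1) * (Y + K + 1) := by simp
  rw [← hc]
  refine Finset.card_le_card_of_injOn
    (fun p => (σ.arc g' p, σ.arc g' (σ.cls p))) ?_ ?_
  · intro p hp
    simp only [ExR, Finset.coe_filter, Finset.mem_range, Set.mem_ofPred_eq] at hp
    simp only [Finset.coe_product, Finset.coe_range, Set.mem_prod, Set.mem_Iio]
    have h1 := arc_le hσ hT hp.1
    have h2 : σ.arc g' (σ.cls p) ≤ Y + K :=
      arc_le hσ hT (lt_of_le_of_lt (hσ.cls_le _) hp.1)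
    omega
  · intro p hp q hq h
    simp only [ExR, Finset.coe_filter, Finset.mem_range, Set.mem_ofPred_eq] at hp hq
    simp only [Prod.mk.injEq] at h
    obtain ⟨ha, hb⟩ := h
    have key : ∀ p q : ℕ, p < q → σ.arc g' p = σ.arc g' q →
        σ.arc g' (σ.cls p) = σ.arc g' (σ.cls q) →
        σ.Match g' (p + 1) (σ.arc g' (σ.cls p)) := by
      intro p q hlt ha hb
      refine match_conv hσ hg (p := p) (p'' := q) ha (by omega) (by omega) (match_self hσ p) ?_
      rw [hb]
      exact match_self hσ q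
    rcases lt_trichotomy p q with hlt | heq | hlt
    · exact absurd (key p q hlt ha hb) hp.2.2.2
    · exact heq
    · exact absurd (key q p hlt ha.symm hb.symm) hq.2.2.2

include hσ hg in
theorem ExC_subset : σ.ExC ⊆ {0, 1} ∪ ((σ.ExJ g' ∪ σ.ExL g' ∪ σ.ExR g').image (· + 1) ∪
    (σ.ExJ g' ∪ σ.ExL g' ∪ σ.ExR g').image (· + 2)) := by
  intro p hp
  simp only [ExC, Finset.mem_filter, Finset.mem_range, not_and] at hp
  obtain ⟨hpT, hp⟩ := hp
  simp only [Finset.mem_union, Finset.mem_insert, Finset.mem_singleton, Finset.mem_image]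
  by_cases h2 : 2 ≤ p
  · right
    have hp := hp h2
    obtain ⟨r, rfl⟩ : ∃ r, p = r + 2 := ⟨p - 2, by omega⟩
    simp only [Nat.add_sub_cancel, show r + 2 - 1 = r + 1 by omega] at hp
    by_contra hcon
    push Not at hcon
    obtain ⟨hc1, hc2⟩ := hcon
    have m1 : r + 1 ∉ σ.ExJ g' ∧ r + 1 ∉ σ.ExL g' ∧ r + 1 ∉ σ.ExR g' := by
      refine ⟨fun h => ?_, fun h => ?_, fun h => ?_⟩
      · exact hc1 (r + 1) (Or.inl (Or.inl h)) rfl
      · exact hc1 (r + 1) (Or.inl (Or.inr h)) rfl
      · exact hc1 (r + 1) (Or.inr h) rfl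
    have m2 : r ∉ σ.ExJ g' ∧ r ∉ σ.ExL g' ∧ r ∉ σ.ExR g' := by
      refine ⟨fun h => ?_, fun h => ?_, fun h => ?_⟩
      · exact hc2 r (Or.inl (Or.inl h)) rfl
      · exact hc2 r (Or.inl (Or.inr h)) rfl
      · exact hc2 r (Or.inr h) rfl
    have step : ∀ s, s + 1 < σ.T → s ∉ σ.ExJ g' ∧ s ∉ σ.ExL g' ∧ s ∉ σ.ExR g' →
        σ.arc g' s = σ.arc g' (s + 1) ∧ σ.arc g' (σ.cls s) = σ.arc g' (σ.cls (s + 1)) := by
      intro s hs ⟨a1, a2, a3⟩
      simp only [ExJ, ExL, ExR, Finset.mem_filter, Finset.mem_range, not_and, not_not] at a1 a2 a3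
      have b1 := a1 (by omega) hs
      have b2 := a2 (by omega) hs b1
      have b3 := a3 (by omega) hs b1
      exact ⟨b1, le_antisymm (match_le hσ b2) (match_le hσ b3)⟩
    obtain ⟨e1, f1⟩ := step r (by omega) m2
    obtain ⟨e2, f2⟩ := step (r + 1) (by omega) m1
    exact hp (cls_rec hσ hg (e1.trans e2) f1 f2)
  · left; omega

include hσ hg in
theorem card_ExC (hT : σ.T ≤ Y * g') :
    σ.ExC.card ≤ 2 + 2 * ((Y + K + 1) + 2 * ((Y + K + 1) * (Y + K + 1))) := by
  refine (Finset.card_le_card (ExC_subset hσ hg)).trans ?_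
  refine (Finset.card_union_le _ _).trans ?_
  have h0 : ({0, 1} : Finset ℕ).card ≤ 2 := Finset.card_le_two
  have hU : (σ.ExJ g' ∪ σ.ExL g' ∪ σ.ExR g').card ≤
      (Y + K + 1) + 2 * ((Y + K + 1) * (Y + K + 1)) := by
    have := card_ExJ hσ hT
    have := card_ExL hσ hg hT
    have := card_ExR hσ hg hT
    have h1 := Finset.card_union_le (σ.ExJ g' ∪ σ.ExL g') (σ.ExR g')
    have h2 := Finset.card_union_le (σ.ExJ g') (σ.ExL g')
    omega
  have h3 := Finset.card_union_le ((σ.ExJ g' ∪ σ.ExL g' ∪ σ.ExR g').image (· + 1))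
    ((σ.ExJ g' ∪ σ.ExL g' ∪ σ.ExR g').image (· + 2))
  have h4 : ((σ.ExJ g' ∪ σ.ExL g' ∪ σ.ExR g').image (· + 1)).card ≤ _ := Finset.card_image_le
  have h5 : ((σ.ExJ g' ∪ σ.ExL g' ∪ σ.ExR g').image (· + 2)).card ≤ _ := Finset.card_image_le
  omega

/-- exceptional positions of `mt` -/
noncomputable def ExM (σ : Shape) : Finset ℕ :=
  (Finset.range σ.T).filter (fun p => ¬ (1 ≤ p ∧ σ.mt p = (σ.mt (p - 1)).map (· - 1)))

include hσ in
theorem card_ExM : σ.ExM.card ≤ 1 + 2 * D1 := by
  set E := (Finset.range σ.T).filter (fun p => σ.mt p ≠ none ∧ σ.mt (p + 1) = none) with hE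
  set St := (Finset.range σ.T).filter (fun p => σ.mt p ≠ none ∧ (1 ≤ p ∧ σ.mt (p - 1) = none))
    with hSt
  have hSE : St.card ≤ E.card := by
    refine Finset.card_le_card_of_injOn (fun p => (σ.mt p).getD 0) ?_ ?_
    · intro p hp
      simp only [hSt, Finset.coe_filter, Finset.mem_range, Set.mem_ofPred_eq] at hp
      obtain ⟨hpT, hne, h1, hnone⟩ := hp
      obtain ⟨p', hp'⟩ := Option.ne_none_iff_exists'.mp hne
      have hs := hσ.mt_symm _ _ hp'
      have hcor := hσ.mt_cor _ _ hs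
      have hlt := hσ.D_lt _ hcor.2.2
      simp only [hE, hp', Option.getD_some, Finset.coe_filter, Finset.mem_range, Set.mem_ofPred_eq]
      refine ⟨by omega, by rw [hs]; simp, ?_⟩
      by_contra hcon
      obtain ⟨r, hr⟩ := Option.ne_none_iff_exists'.mp hcon
      have := hσ.mt_coh _ _ _ hs hr
      have hr' := hσ.mt_symm _ _ hr
      have e : r = p - 1 := by omega
      rw [e, hnone] at hr'
      cases hr'
    · intro p hp q hq h
      simp only [hSt, Finset.coe_filter, Finset.mem_range, Set.mem_ofPred_eq] at hp hq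
      obtain ⟨p', hp'⟩ := Option.ne_none_iff_exists'.mp hp.2.1
      obtain ⟨q', hq'⟩ := Option.ne_none_iff_exists'.mp hq.2.1
      simp only [hp', hq', Option.getD_some] at h
      subst h
      have e1 := hσ.mt_symm _ _ hp'
      have e2 := hσ.mt_symm _ _ hq'
      rw [e1] at e2
      exact Option.some.inj e2
  have hsub : σ.ExM ⊆ {0} ∪ (St ∪ E.image (· + 1)) := by
    intro p hp
    simp only [ExM, Finset.mem_filter, Finset.mem_range, not_and] at hp
    obtain ⟨hpT, hp⟩ := hp
    simp only [hSt, hE, Finset.mem_union, Finset.mem_singleton, Finset.mem_filter,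
      Finset.mem_range, Finset.mem_image]
    by_cases h1 : 1 ≤ p
    · right
      have hp := hp h1
      rcases hm : σ.mt (p - 1) with _ | p'
      · left
        rw [hm] at hp
        simp only [Option.map_none] at hp
        exact ⟨hpT, hp, h1, rfl⟩
      · right
        refine ⟨p - 1, ⟨by omega, by simp [hm], ?_⟩, by omega⟩
        rw [Nat.sub_add_cancel h1]
        by_contra hcon
        obtain ⟨q, hq⟩ := Option.ne_none_iff_exists'.mp hcon
        have := hσ.mt_coh (p - 1) p' q hm (by rw [Nat.sub_add_cancel h1]; exact hq)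
        apply hp
        rw [hm, hq]
        simp only [Option.map_some, Option.some.injEq]
        omega
    · left; omega
  have h1 := Finset.card_le_card hsub
  have h2 := Finset.card_union_le {0} (St ∪ E.image (· + 1))
  have h3 := Finset.card_union_le St (E.image (· + 1))
  have h4 : (E.image (· + 1)).card ≤ E.card := Finset.card_image_le
  have h5 := hσ.ends_le
  rw [← hE] at h5
  simp only [Finset.card_singleton] at h2
  omega

include hσ in
theorem card_cs : σ.cs.card ≤ K + 1 := by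
  have hsub : σ.cs ⊆ {0} ∪ (Finset.range σ.T \ σ.D).image (· + 1) := by
    intro s hs
    have h := hσ.cs_start s hs
    simp only [Finset.mem_union, Finset.mem_singleton, Finset.mem_image, Finset.mem_sdiff,
      Finset.mem_range]
    by_cases h0 : s = 0
    · left; exact h0
    · right
      have hlt := hσ.D_lt _ h.1
      refine ⟨s - 1, ⟨by omega, fun hD => h.2 ⟨by omega, hD, h.1⟩⟩, by omega⟩
  have h1 := Finset.card_le_card hsub
  have h2 := Finset.card_union_le {0} ((Finset.range σ.T \ σ.D).image (· + 1))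
  have h3 : ((Finset.range σ.T \ σ.D).image (· + 1)).card ≤ _ := Finset.card_image_le
  have h4 := hσ.paths_le
  simp only [Finset.card_singleton] at h2
  omega

/-- code of an optional position -/
def oc : Option ℕ → ℕ
  | none => 0
  | some p => p + 1

theorem oc_inj {a b : Option ℕ} (h : oc a = oc b) : a = b := by
  cases a <;> cases b <;> simp_all [oc]

/-- the code of a shape -/
noncomputable def code (σ : Shape) : Finset (ℕ × ℕ × ℕ) :=
  {(0, σ.T, 0)} ∪ ((Finset.range σ.T \ σ.D).image (fun p => (1, p, 0)) ∪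
    (σ.ExC.image (fun p => (2, p, σ.cls p)) ∪ (σ.ExM.image (fun p => (3, p, oc (σ.mt p))) ∪
      (σ.cs.image (fun s => (4, s, σ.ce s)) ∪ σ.mrk.image (fun v => (5, v, 0))))))

theorem mem_code0 {σ : Shape} {a b : ℕ} : (0, a, b) ∈ σ.code ↔ a = σ.T ∧ b = 0 := by
  simp [code]

theorem mem_code1 {σ : Shape} {a b : ℕ} : (1, a, b) ∈ σ.code ↔ (a < σ.T ∧ a ∉ σ.D) ∧ b = 0 := by
  simp [code, eq_comm]

theorem mem_code2 {σ : Shape} {a b : ℕ} : (2, a, b) ∈ σ.code ↔ a ∈ σ.ExC ∧ b = σ.cls a := by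
  simp [code, eq_comm]

theorem mem_code3 {σ : Shape} {a b : ℕ} : (3, a, b) ∈ σ.code ↔ a ∈ σ.ExM ∧ b = oc (σ.mt a) := by
  simp [code, eq_comm]

theorem mem_code4 {σ : Shape} {a b : ℕ} : (4, a, b) ∈ σ.code ↔ a ∈ σ.cs ∧ b = σ.ce a := by
  simp [code, eq_comm]

theorem mem_code5 {σ : Shape} {a b : ℕ} : (5, a, b) ∈ σ.code ↔ a ∈ σ.mrk ∧ b = 0 := by
  simp [code, eq_comm]

end Cls

theorem code_inj {σ σ' : Shape} (hσ : σ.Basic) (hσ' : σ'.Basic) (h : σ.code = σ'.code) :
    σ = σ' := by
  have hT : σ.T = σ'.T := by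
    have : (0, σ.T, 0) ∈ σ'.code := by rw [← h, mem_code0]; exact ⟨rfl, rfl⟩
    exact (mem_code0.mp this).1
  have hD : σ.D = σ'.D := by
    ext p
    have h1 : (1, p, 0) ∈ σ.code ↔ (1, p, 0) ∈ σ'.code := by rw [h]
    rw [mem_code1, mem_code1, hT] at h1
    constructor
    · intro hp
      have := hσ.D_lt p hp
      by_contra hc
      exact (h1.mpr ⟨⟨by omega, hc⟩, rfl⟩).1.2 hp
    · intro hp
      have := hσ'.D_lt p hp
      by_contra hc
      exact (h1.mp ⟨⟨by omega, hc⟩, rfl⟩).1.2 hp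
  have hcls : ∀ p, σ.cls p = σ'.cls p := by
    intro p
    induction p using Nat.strong_induction_on with
    | _ p ih =>
      by_cases hp : p < σ.T
      · by_cases he : p ∈ σ.ExC
        · have : (2, p, σ.cls p) ∈ σ'.code := by rw [← h, mem_code2]; exact ⟨he, rfl⟩
          exact (mem_code2.mp this).2
        · by_cases he' : p ∈ σ'.ExC
          · have : (2, p, σ'.cls p) ∈ σ.code := by rw [h, mem_code2]; exact ⟨he', rfl⟩
            exact (mem_code2.mp this).2.symm
          · simp only [ExC, Finset.mem_filter, Finset.mem_range, not_and] at he he'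
            have e1 := he hp
            have e2 := he' (hT ▸ hp)
            have i1 := ih (p - 1) (by omega)
            have i2 := ih (p - 2) (by omega)
            omega
      · rw [hσ.cls_out p (by omega), hσ'.cls_out p (by omega)]
  have hmt0 : ∀ (τ : Shape), τ.Basic → ∀ p, τ.T ≤ p → τ.mt p = none := by
    intro τ hτ p hp
    by_contra hc
    obtain ⟨q, hq⟩ := Option.ne_none_iff_exists'.mp hc
    have := hτ.D_lt _ (hτ.mt_cor _ _ hq).2.2
    omega
  have hmt : ∀ p, σ.mt p = σ'.mt p := by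
    intro p
    induction p using Nat.strong_induction_on with
    | _ p ih =>
      by_cases hp : p < σ.T
      · by_cases he : p ∈ σ.ExM
        · have : (3, p, oc (σ.mt p)) ∈ σ'.code := by rw [← h, mem_code3]; exact ⟨he, rfl⟩
          exact oc_inj (mem_code3.mp this).2
        · by_cases he' : p ∈ σ'.ExM
          · have : (3, p, oc (σ'.mt p)) ∈ σ.code := by rw [h, mem_code3]; exact ⟨he', rfl⟩
            exact (oc_inj (mem_code3.mp this).2).symm
          · simp only [ExM, Finset.mem_filter, Finset.mem_range, not_and] at he he'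
            have e1 : 1 ≤ p ∧ σ.mt p = (σ.mt (p - 1)).map (· - 1) := by
              by_contra hc
              exact he hp fun h1 h2 => hc ⟨h1, h2⟩
            have e2 : 1 ≤ p ∧ σ'.mt p = (σ'.mt (p - 1)).map (· - 1) := by
              by_contra hc
              exact he' (hT ▸ hp) fun h1 h2 => hc ⟨h1, h2⟩
            rw [e1.2, e2.2, ih (p - 1) (by omega)]
      · rw [hmt0 σ hσ p (by omega), hmt0 σ' hσ' p (by omega)]
  have hcs : σ.cs = σ'.cs ∧ ∀ s ∈ σ.cs, σ.ce s = σ'.ce s := by
    have hf : ∀ s ∈ σ.cs, s ∈ σ'.cs ∧ σ.ce s = σ'.ce s := by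
      intro s hs
      have : (4, s, σ.ce s) ∈ σ'.code := by rw [← h, mem_code4]; exact ⟨hs, rfl⟩
      exact mem_code4.mp this
    have hb : ∀ s ∈ σ'.cs, s ∈ σ.cs := by
      intro s hs
      have : (4, s, σ'.ce s) ∈ σ.code := by rw [h, mem_code4]; exact ⟨hs, rfl⟩
      exact (mem_code4.mp this).1
    exact ⟨Finset.ext fun s => ⟨fun hs => (hf s hs).1, hb s⟩, fun s hs => (hf s hs).2⟩
  have hce : ∀ s, σ.ce s = σ'.ce s := by
    intro s
    by_cases hs : s ∈ σ.cs
    · exact hcs.2 s hs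
    · rw [hσ.ce_out s hs, hσ'.ce_out s (hcs.1 ▸ hs)]
  have hmrk : σ.mrk = σ'.mrk := by
    ext v
    have h1 : (5, v, 0) ∈ σ.code ↔ (5, v, 0) ∈ σ'.code := by rw [h]
    simpa [mem_code5] using h1
  exact Shape.ext hT hD (funext hcls) (funext hmt) hcs.1 (funext hce) hmrk

theorem card_code {σ : Shape} {K D1 g' Y : ℕ} (hσ : σ.Pre K D1 g') (hg : 2 ≤ g')
    (hT : σ.T ≤ Y * g') :
    σ.code.card ≤ 1 + (K + ((2 + 2 * ((Y + K + 1) + 2 * ((Y + K + 1) * (Y + K + 1)))) +
      ((1 + 2 * D1) + ((K + 1) + K)))) := by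
  unfold code
  refine (Finset.card_union_le _ _).trans (Nat.add_le_add (by simp) ?_)
  refine (Finset.card_union_le _ _).trans
    (Nat.add_le_add (Finset.card_image_le.trans hσ.paths_le) ?_)
  refine (Finset.card_union_le _ _).trans
    (Nat.add_le_add (Finset.card_image_le.trans (card_ExC hσ hg hT)) ?_)
  refine (Finset.card_union_le _ _).trans
    (Nat.add_le_add (Finset.card_image_le.trans (card_ExM hσ)) ?_)
  refine (Finset.card_union_le _ _).trans
    (Nat.add_le_add (Finset.card_image_le.trans (card_cs hσ)) ?_)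
  exact Finset.card_image_le.trans hσ.mrk_card

theorem code_subset {σ : Shape} (hσ : σ.Basic) {M : ℕ} (hM : σ.T + 1 < M) :
    σ.code ⊆ Finset.range 6 ×ˢ (Finset.range M ×ˢ Finset.range M) := by
  rintro ⟨i, a, b⟩ h
  simp only [Finset.mem_product, Finset.mem_range]
  simp only [code, Finset.mem_union, Finset.mem_singleton, Finset.mem_image, Prod.mk.injEq,
    Finset.mem_sdiff, Finset.mem_range] at h
  rcases h with ⟨rfl, rfl, rfl⟩ | ⟨p, hp, rfl, rfl, rfl⟩ | ⟨p, hp, rfl, rfl, rfl⟩ |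
    ⟨p, hp, rfl, rfl, rfl⟩ | ⟨p, hp, rfl, rfl, rfl⟩ | ⟨p, hp, rfl, rfl, rfl⟩
  · omega
  · omega
  · simp only [ExC, Finset.mem_filter, Finset.mem_range] at hp
    have := hσ.cls_le p
    omega
  · simp only [ExM, Finset.mem_filter, Finset.mem_range] at hp
    refine ⟨by omega, by omega, ?_⟩
    rcases hm : σ.mt p with _ | q
    · simp only [oc]; omega
    · have := hσ.D_lt _ (hσ.mt_cor _ _ (hσ.mt_symm _ _ hm)).2.2
      simp only [oc]; omega
  · have h1 := hσ.D_lt _ (hσ.cs_start p hp).1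
    have h2 := hσ.ce_stop p hp
    have h3 := hσ.D_lt _ h2.2.1
    omega
  · have := (hσ.mrk_lt p hp).1
    omega

end Shape

/-- LB: the number of shapes of configurations is polynomial in `g'` -/
theorem card_shapes (K D1 Y : ℕ) : ∃ B : ℕ, ∀ g' : ℕ, 2 ≤ g' → ∃ 𝒮 : Finset Shape,
    𝒮.card ≤ (B * (g' + 1)) ^ B ∧ ∀ σ : Shape, σ.Pre K D1 g' → σ.T ≤ Y * g' → σ ∈ 𝒮 := by
  set B0 := 1 + (K + ((2 + 2 * ((Y + K + 1) + 2 * ((Y + K + 1) * (Y + K + 1)))) +
      ((1 + 2 * D1) + ((K + 1) + K)))) with hB0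
  refine ⟨2 * B0 + 3 * (Y + 2), fun g' hg => ?_⟩
  set M := Y * g' + 2 with hM
  set box := Finset.range 6 ×ˢ (Finset.range M ×ˢ Finset.range M) with hbox
  set A : Set Shape := {σ | σ.Pre K D1 g' ∧ σ.T ≤ Y * g'} with hA
  have hmem : ∀ σ ∈ A, σ.code ∈ box.powerset.filter (fun t => t.card ≤ B0) := by
    rintro σ ⟨h1, h2⟩
    simp only [Finset.mem_filter, Finset.mem_powerset]
    exact ⟨Shape.code_subset h1.toBasic (by omega), Shape.card_code h1 hg h2⟩
  have hinj : Set.InjOn Shape.code A := fun σ h1 σ' h2 h =>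
    Shape.code_inj h1.1.toBasic h2.1.toBasic h
  have hfin : A.Finite := by
    refine Set.Finite.of_finite_image (f := Shape.code) ?_ hinj
    refine (Finset.finite_toSet (box.powerset.filter (fun t => t.card ≤ B0))).subset ?_
    rintro _ ⟨σ, hσ, rfl⟩
    exact hmem σ hσ
  refine ⟨hfin.toFinset, ?_, fun σ h1 h2 => by simpa using ⟨h1, h2⟩⟩
  have h1 : hfin.toFinset.card ≤ (box.powerset.filter (fun t => t.card ≤ B0)).card := by
    refine Finset.card_le_card_of_injOn Shape.code ?_ ?_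
    · intro σ hσ
      exact hmem σ (by simpa using hσ)
    · intro σ hσ σ' hσ' h
      exact hinj (by simpa using hσ) (by simpa using hσ') h
  refine h1.trans ((card_powerset_filter_le box B0).trans ?_)
  have h2 : box.card + 1 ≤ (3 * (Y + 2) * (g' + 1)) ^ 2 := by
    have hb : box.card = 6 * (M * M) := by simp [hbox]
    have hMle : M ≤ (Y + 2) * (g' + 1) := by
      rw [hM]; nlinarith
    have : M * M ≤ ((Y + 2) * (g' + 1)) * ((Y + 2) * (g' + 1)) := Nat.mul_le_mul hMle hMle
    have h1 : 1 ≤ (Y + 2) * (g' + 1) := by nlinarith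
    have h3 : 1 ≤ ((Y + 2) * (g' + 1)) * ((Y + 2) * (g' + 1)) := by nlinarith
    rw [hb]
    calc 6 * (M * M) + 1 ≤ 9 * (((Y + 2) * (g' + 1)) * ((Y + 2) * (g' + 1))) := by omega
      _ = (3 * (Y + 2) * (g' + 1)) ^ 2 := by ring
  calc (box.card + 1) ^ B0 ≤ ((3 * (Y + 2) * (g' + 1)) ^ 2) ^ B0 := Nat.pow_le_pow_left h2 _
    _ = (3 * (Y + 2) * (g' + 1)) ^ (2 * B0) := by rw [pow_mul]
    _ ≤ ((2 * B0 + 3 * (Y + 2)) * (g' + 1)) ^ (2 * B0) :=
        Nat.pow_le_pow_left (Nat.mul_le_mul (by omega) le_rfl) _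
    _ ≤ ((2 * B0 + 3 * (Y + 2)) * (g' + 1)) ^ (2 * B0 + 3 * (Y + 2)) :=
        Nat.pow_le_pow_right (by nlinarith) (by omega)

end Crest.Agent.R177.Loc
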