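import Crest.Agent.R177.Pieces

/-!
# LOC: linearisation of frames and configurations (helper506)

The positions of a frame are numbered `0, ..., tot - 1`, path after path.
-/

set_option autoImplicit false

open scoped Classical

namespace Crest.Agent.R177

open Crest.Agent.R199 (PAct)

namespace Frame

variable (F : Frame)

/-- number of positions -/
def tot : ℕ := ∑ i, (F.len i + 1)

/-- numbering of the positions -/
def num (p : F.Pos) : ℕ := (finSigmaFinEquiv (n := fun i => F.len i + 1) p : Fin _)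

theorem num_lt (p : F.Pos) : F.num p < F.tot :=
  (finSigmaFinEquiv (n := fun i => F.len i + 1) p).2

theorem num_inj {p q : F.Pos} (h : F.num p = F.num q) : p = q :=
  (finSigmaFinEquiv (n := fun i => F.len i + 1)).injective (Fin.ext h)

theorem num_injective : Function.Injective F.num := fun _ _ h => F.num_inj h

theorem exists_num {k : ℕ} (hk : k < F.tot) : ∃ p, F.num p = k :=
  ⟨(finSigmaFinEquiv (n := fun i => F.len i + 1)).symm ⟨k, hk⟩, by simp [num]⟩

/-- number of the first position of a path -/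
def off (i : Fin F.K) : ℕ := F.num ⟨i, 0⟩

theorem num_mk (i : Fin F.K) (j : Fin (F.len i + 1)) : F.num ⟨i, j⟩ = F.off i + j := by
  unfold off num
  rw [finSigmaFinEquiv_apply, finSigmaFinEquiv_apply]
  simp

theorem num_start (x : F.Dart) : F.num (F.start x) = F.off x.1 + x.2 := by
  unfold start; rw [num_mk]; simp

theorem num_stop (x : F.Dart) : F.num (F.stop x) = F.num (F.start x) + 1 := by
  rw [num_start]; unfold stop; rw [num_mk]; simp [Nat.add_assoc]

theorem start_injective : Function.Injective F.start := by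
  rintro ⟨i, a⟩ ⟨j, b⟩ h
  simp only [start, Sigma.mk.injEq] at h
  obtain ⟨rfl, h⟩ := h
  simpa using h

/-- number of a dart: the number of its start position -/
def dn (x : F.Dart) : ℕ := F.num (F.start x)

theorem dn_injective : Function.Injective F.dn := fun _ _ h => F.start_injective (F.num_inj h)

theorem dn_inj {x y : F.Dart} (h : F.dn x = F.dn y) : x = y := F.dn_injective h

theorem dn_eq (x : F.Dart) : F.dn x = F.off x.1 + x.2 := F.num_start x

theorem dn_lt (x : F.Dart) : F.dn x + 1 < F.tot := by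
  have := F.num_lt (F.stop x)
  rw [num_stop] at this
  exact this

/-- `x` is the corner of index `0` of its path -/
def Wrap (x : F.Dart) : Prop := x.2.val = 0

/-- consecutive numbers -/
theorem dn_succ_iff (x y : F.Dart) : F.dn y = F.dn x + 1 ↔ x.1 = y.1 ∧ y.2.val = x.2.val + 1 := by
  constructor
  · intro h
    have h1 : F.start y = F.stop x := F.num_inj (by rw [num_stop]; exact h)
    obtain ⟨i, a⟩ := x
    obtain ⟨j, b⟩ := y
    simp only [start, stop, Sigma.mk.injEq] at h1
    obtain ⟨rfl, h1⟩ := h1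
    refine ⟨rfl, ?_⟩
    have := congrArg Fin.val (eq_of_heq h1)
    simpa using this
  · rintro ⟨h1, h2⟩
    have h3 : F.off x.1 = F.off y.1 := by rw [h1]
    rw [dn_eq, dn_eq, h2, h3]; omega

theorem next_of_succ {x y : F.Dart} (h : F.dn y = F.dn x + 1) : F.Next x y := by
  obtain ⟨h1, h2⟩ := (F.dn_succ_iff x y).1 h
  exact ⟨h1, Or.inl h2⟩

theorem next_iff (x y : F.Dart) (hy : ¬ F.Wrap y) : F.Next x y ↔ F.dn y = F.dn x + 1 := by
  rw [dn_succ_iff]
  constructor
  · rintro ⟨h1, h2 | h2⟩
    · exact ⟨h1, h2⟩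
    · exact absurd h2.1 hy
  · rintro ⟨h1, h2⟩; exact ⟨h1, Or.inl h2⟩

/-- the previous dart of a non-wrap dart -/
theorem exists_prev (y : F.Dart) (hy : ¬ F.Wrap y) : ∃ x, F.dn y = F.dn x + 1 := by
  obtain ⟨i, b⟩ := y
  unfold Wrap at hy
  refine ⟨⟨i, ⟨b.val - 1, by have := b.2; omega⟩⟩, ?_⟩
  rw [dn_succ_iff]
  refine ⟨rfl, ?_⟩
  simp only at hy ⊢
  omega

theorem not_wrap_of_succ {x y : F.Dart} (h : F.dn y = F.dn x + 1) : ¬ F.Wrap y := by
  obtain ⟨h1, h2⟩ := (F.dn_succ_iff x y).1 h
  unfold Wrap; omega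

theorem isCorner_of_not_wrap {y : F.Dart} (hy : ¬ F.Wrap y) : F.IsCorner y := by
  obtain ⟨x, hx⟩ := F.exists_prev y hy
  exact ⟨x, F.next_of_succ hx⟩

/-- the set of numbers of darts -/
def D : Set ℕ := Set.range F.dn

theorem mem_D {x : F.Dart} : F.dn x ∈ F.D := ⟨x, rfl⟩

/-- the last position of a path is not a dart -/
theorem off_add_len_notMem (i : Fin F.K) : F.off i + F.len i ∉ F.D := by
  rintro ⟨x, hx⟩
  have h1 : F.start x = ⟨i, Fin.last _⟩ := by
    apply F.num_inj
    rw [F.num_mk i (Fin.last _), Fin.val_last]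
    exact hx
  obtain ⟨j, b⟩ := x
  simp only [start, Sigma.mk.injEq] at h1
  obtain ⟨rfl, h1⟩ := h1
  have := congrArg Fin.val (eq_of_heq h1)
  simp only [Fin.val_castSucc, Fin.val_last] at this
  have := b.2
  omega

/-- a position which is not (the start of) a dart is the last position of a path -/
theorem notMem_D {k : ℕ} (hk : k < F.tot) (h : k ∉ F.D) : ∃ i, k = F.off i + F.len i := by
  obtain ⟨⟨i, j⟩, rfl⟩ := F.exists_num hk
  refine ⟨i, ?_⟩
  rw [num_mk]
  by_contra hne
  apply h
  have hj : j.val < F.len i := by have := j.2; omega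
  refine ⟨⟨i, ⟨j.val, hj⟩⟩, ?_⟩
  rw [dn_eq, num_mk]

theorem card_compl_D_le : ((Finset.range F.tot).filter fun k => k ∉ F.D).card ≤ F.K := by
  have : ((Finset.range F.tot).filter fun k => k ∉ F.D) ⊆
      (Finset.univ : Finset (Fin F.K)).image fun i => F.off i + F.len i := by
    intro k hk
    simp only [Finset.mem_image, Finset.mem_filter, Finset.mem_univ, true_and,
      Finset.mem_range] at hk ⊢
    obtain ⟨i, hi⟩ := F.notMem_D hk.1 hk.2
    exact ⟨i, hi.symm⟩
  exact (Finset.card_le_card this).trans (Finset.card_image_le.trans (by simp))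

theorem tot_le {K B : ℕ} (hK : F.K ≤ K) (hB : ∀ i, F.len i ≤ B) : F.tot ≤ K * (B + 1) := by
  unfold tot
  calc ∑ i, (F.len i + 1) ≤ ∑ _i : Fin F.K, (B + 1) :=
        Finset.sum_le_sum fun i _ => by have := hB i; omega
    _ = F.K * (B + 1) := by simp
    _ ≤ K * (B + 1) := Nat.mul_le_mul_right _ hK

end Frame

end Crest.Agent.R177
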