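import Crest.Agent.R177.LocDefs
import Crest.Agent.R177.LocLin

/-!
# LOC, task LA (helper506): linearisation of a configuration
-/

set_option autoImplicit false

open scoped Classical

namespace Crest.Agent.R177.Loc

open Crest.Agent.R177
open Crest.Agent.R199 (PAct)

section Girth

variable {S V : Type} {A : PAct S V} {g : ℕ}

theorem girth_one (hg : Girth A g) (h2 : 2 < g) {a : S × Bool} {x y : V} (h : A.st a x = some y) :
    x ≠ y := by
  rintro rfl
  have := hg x [a] FreeGroup.IsReduced.singleton (by simp) (by simp [PAct.read, h])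
  simp at this
  omega

theorem girth_two (hg : Girth A g) (h2 : 2 < g) {a b : S × Bool} {x y z : V}
    (h : A.st a x = some y) (h' : A.st b y = some z) (hne : b ≠ hinv a) : x ≠ z := by
  rintro rfl
  have := hg x [a, b] (by
    rw [FreeGroup.isReduced_cons_cons]
    exact ⟨ne_hinv_iff.1 hne, FreeGroup.IsReduced.singleton⟩) (by simp)
      (by simp [PAct.read, h, h'])
  simp at this
  omega

theorem lab_unique (hg : Girth A g) (h2 : 2 < g) {a b : S × Bool} {x y : V}
    (h : A.st a x = some y) (h' : A.st b x = some y) : a = b := by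
  by_contra hne
  have h1 : A.st (hinv b) y = some x := (st_hinv A).2 h'
  refine girth_two hg h2 h h1 ?_ rfl
  intro h3
  apply hne
  have := congrArg hinv h3
  simpa using this.symm

end Girth

section Lin

variable {S V : Type} {A : PAct S V} {F : Frame} (c : Conf A F)

/-- nodes of positions -/
noncomputable def ndc (v0 : V) (k : ℕ) : V :=
  if h : ∃ p, F.num p = k then c.node h.choose else v0

theorem ndc_num (v0 : V) (p : F.Pos) : ndc c v0 (F.num p) = c.node p := by
  have h : ∃ q, F.num q = F.num p := ⟨p, rfl⟩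
  unfold ndc
  rw [dif_pos h, F.num_inj h.choose_spec]

/-- labels of darts -/
noncomputable def lbc (l0 : S × Bool) (k : ℕ) : S × Bool :=
  if h : ∃ x, F.dn x = k then c.lab h.choose else l0

theorem lbc_dn (l0 : S × Bool) (x : F.Dart) : lbc c l0 (F.dn x) = c.lab x := by
  have h : ∃ q, F.dn q = F.dn x := ⟨x, rfl⟩
  unfold lbc
  rw [dif_pos h, F.dn_inj h.choose_spec]

/-- mates of corners (corners at the start of closed paths and their mates are dropped) -/
def MRel (k k' : ℕ) : Prop :=
  ∃ x x', F.dn x = k ∧ F.dn x' = k' ∧ ¬ F.Wrap x ∧ ¬ F.Wrap x' ∧ c.mate x = some x'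

theorem MRel.unique {k k' k'' : ℕ} (h : MRel c k k') (h' : MRel c k k'') : k' = k'' := by
  obtain ⟨x, x', rfl, rfl, _, _, h1⟩ := h
  obtain ⟨y, y', h2, rfl, _, _, h3⟩ := h'
  obtain rfl := F.dn_inj h2
  rw [h1] at h3
  rw [Option.some.inj h3]

noncomputable def mtc (k : ℕ) : Option ℕ :=
  if h : ∃ k', MRel c k k' then some h.choose else none

theorem mtc_eq_some (k k' : ℕ) : mtc c k = some k' ↔ MRel c k k' := by
  unfold mtc
  split_ifs with h
  · simp only [Option.some.injEq]
    constructor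
    · rintro rfl; exact h.choose_spec
    · intro h'; exact MRel.unique c h.choose_spec h'
  · constructor
    · intro h'; cases h'
    · intro h'; exact absurd ⟨k', h'⟩ h

theorem mtc_ne_none (x : F.Dart) : mtc c (F.dn x) ≠ none ↔
    ¬ F.Wrap x ∧ ∃ x', c.mate x = some x' ∧ ¬ F.Wrap x' := by
  rw [Option.ne_none_iff_exists']
  constructor
  · rintro ⟨k', hk⟩
    rw [mtc_eq_some] at hk
    obtain ⟨y, y', h1, h2, h3, h4, h5⟩ := hk
    obtain rfl := F.dn_inj h1
    exact ⟨h3, y', h5, h4⟩
  · rintro ⟨h1, x', h2, h3⟩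
    exact ⟨F.dn x', (mtc_eq_some c _ _).2 ⟨x, x', rfl, rfl, h1, h3, h2⟩⟩

/-- first position with the same node -/
noncomputable def clc (v0 : V) (p : ℕ) : ℕ :=
  if p < F.tot then Nat.find (p := fun q => ndc c v0 q = ndc c v0 p) ⟨p, rfl⟩ else p

theorem clc_out (v0 : V) {p : ℕ} (h : F.tot ≤ p) : clc c v0 p = p := by
  unfold clc; rw [if_neg (by omega)]

theorem clc_le (v0 : V) (p : ℕ) : clc c v0 p ≤ p := by
  unfold clc
  split_ifs with h
  · exact Nat.find_min' _ rfl
  · exact le_rfl

theorem ndc_clc (v0 : V) (p : ℕ) : ndc c v0 (clc c v0 p) = ndc c v0 p := by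
  unfold clc
  split_ifs with h
  · exact Nat.find_spec (p := fun q => ndc c v0 q = ndc c v0 p) ⟨p, rfl⟩
  · rfl

theorem clc_eq_iff (v0 : V) {p q : ℕ} (hp : p < F.tot) (hq : q < F.tot) :
    clc c v0 p = clc c v0 q ↔ ndc c v0 p = ndc c v0 q := by
  constructor
  · intro h
    rw [← ndc_clc c v0 p, h, ndc_clc]
  · intro h
    apply le_antisymm
    · have : clc c v0 p ≤ clc c v0 q := by
        unfold clc
        rw [if_pos hp, if_pos hq]
        apply Nat.find_min'
        rw [h]
        exact Nat.find_spec (p := fun r => ndc c v0 r = ndc c v0 q) ⟨q, rfl⟩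
      exact this
    · unfold clc
      rw [if_pos hp, if_pos hq]
      apply Nat.find_min'
      rw [← h]
      exact Nat.find_spec (p := fun r => ndc c v0 r = ndc c v0 p) ⟨p, rfl⟩

theorem clc_lt (v0 : V) {p : ℕ} (hp : p < F.tot) : clc c v0 p < F.tot :=
  lt_of_le_of_lt (clc_le c v0 p) hp

theorem clc_clc (v0 : V) (p : ℕ) : clc c v0 (clc c v0 p) = clc c v0 p := by
  by_cases hp : p < F.tot
  · rw [clc_eq_iff c v0 (clc_lt c v0 hp) hp, ndc_clc]
  · rw [clc_out c v0 (not_lt.1 hp), clc_out c v0 (not_lt.1 hp)]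

theorem off_lt (F : Frame) (i : Fin F.K) : F.off i + F.len i < F.tot := by
  have := F.num_lt ⟨i, Fin.last _⟩
  rw [F.num_mk] at this
  simpa using this

theorem off_inj (F : Frame) {i j : Fin F.K} (h : F.off i = F.off j) : i = j := by
  have : (⟨i, 0⟩ : F.Pos) = ⟨j, 0⟩ := F.num_inj h
  exact congrArg Sigma.fst this

theorem off_len_inj (F : Frame) {i j : Fin F.K} (h : F.off i + F.len i = F.off j + F.len j) :
    i = j := by
  have h' : F.num (⟨i, Fin.last _⟩ : F.Pos) = F.num ⟨j, Fin.last _⟩ := by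
    rw [F.num_mk, F.num_mk]; simpa using h
  exact congrArg Sigma.fst (F.num_inj h')

/-- end of the closed path -/
noncomputable def cec (F : Frame) (s : ℕ) : ℕ :=
  if h : ∃ i, F.cl i = true ∧ F.off i = s then F.off h.choose + F.len h.choose else 0

theorem cec_off (F : Frame) {i : Fin F.K} (hi : F.cl i = true) :
    cec F (F.off i) = F.off i + F.len i := by
  have h : ∃ j, F.cl j = true ∧ F.off j = F.off i := ⟨i, hi, rfl⟩
  unfold cec
  rw [dif_pos h]
  have := off_inj F h.choose_spec.2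
  rw [this]

/-- the linearised shape -/
noncomputable def shapeOf (v0 : V) (o : Finset V) : Shape where
  T := F.tot
  D := (Finset.range F.tot).filter (fun k => k ∈ F.D)
  cls := clc c v0
  mt := mtc c
  cs := (Finset.univ.filter (fun i => F.cl i = true)).image F.off
  ce := cec F
  mrk := (Finset.range F.tot).filter (fun v => clc c v0 v = v ∧ ndc c v0 v ∈ o)

theorem mem_shape_D (v0 : V) (o : Finset V) (k : ℕ) : k ∈ (shapeOf c v0 o).D ↔ ∃ x, F.dn x = k := by
  unfold shapeOf
  simp only [Finset.mem_filter, Finset.mem_range]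
  constructor
  · rintro ⟨_, x, hx⟩; exact ⟨x, hx⟩
  · rintro ⟨x, rfl⟩
    exact ⟨by have := F.dn_lt x; omega, ⟨x, rfl⟩⟩

theorem shape_cor (v0 : V) (o : Finset V) (x : F.Dart) : (shapeOf c v0 o).Cor (F.dn x) ↔ ¬ F.Wrap x := by
  unfold Shape.Cor
  rw [mem_shape_D, mem_shape_D]
  constructor
  · rintro ⟨h1, ⟨y, hy⟩, _⟩
    exact F.not_wrap_of_succ (x := y) (by omega)
  · intro h
    obtain ⟨y, hy⟩ := F.exists_prev x h
    exact ⟨by omega, ⟨y, by omega⟩, ⟨x, rfl⟩⟩

theorem shape_isStart (v0 : V) (o : Finset V) (k : ℕ) :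
    (shapeOf c v0 o).IsStart k ↔ ∃ i, F.off i = k := by
  unfold Shape.IsStart
  rw [mem_shape_D]
  constructor
  · rintro ⟨⟨x, rfl⟩, h⟩
    rw [shape_cor, not_not] at h
    refine ⟨x.1, ?_⟩
    rw [F.dn_eq]
    unfold Frame.Wrap at h
    omega
  · rintro ⟨i, rfl⟩
    have hx : F.dn (⟨i, ⟨0, F.len_pos i⟩⟩ : F.Dart) = F.off i := by
      rw [F.dn_eq]; rfl
    refine ⟨⟨_, hx⟩, ?_⟩
    rw [← hx, shape_cor, not_not]
    rfl

theorem shape_isStop (v0 : V) (o : Finset V) (k : ℕ) :
    (shapeOf c v0 o).IsStop k ↔ ∃ i, F.off i + F.len i = k := by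
  unfold Shape.IsStop
  rw [mem_shape_D, mem_shape_D]
  constructor
  · rintro ⟨h1, ⟨x, hx⟩, h2⟩
    have hk : k < F.tot := by have := F.dn_lt x; omega
    obtain ⟨i, hi⟩ := F.notMem_D hk (by rintro ⟨y, hy⟩; exact h2 ⟨y, hy⟩)
    exact ⟨i, hi.symm⟩
  · rintro ⟨i, rfl⟩
    have hl := F.len_pos i
    refine ⟨by omega, ⟨⟨i, ⟨F.len i - 1, by omega⟩⟩, ?_⟩, ?_⟩
    · rw [F.dn_eq]; simp only; omega
    · rintro ⟨y, hy⟩
      exact F.off_add_len_notMem i ⟨y, hy⟩

theorem shape_mem_cs (v0 : V) (o : Finset V) (k : ℕ) :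
    k ∈ (shapeOf c v0 o).cs ↔ ∃ i, F.cl i = true ∧ F.off i = k := by
  unfold shapeOf
  simp

/-- one step -/
theorem step_nd (v0 : V) (l0 : S × Bool) (x : F.Dart) :
    A.st (lbc c l0 (F.dn x)) (ndc c v0 (F.dn x)) = some (ndc c v0 (F.dn x + 1)) := by
  have h1 : ndc c v0 (F.dn x) = c.node (F.start x) := ndc_num c v0 _
  have h2 : ndc c v0 (F.dn x + 1) = c.node (F.stop x) := by
    have := ndc_num c v0 (F.stop x)
    rwa [F.num_stop] at this
  rw [h1, h2, lbc_dn]
  exact c.step x

theorem red_nd (l0 : S × Bool) {x y : F.Dart} (h : F.dn y = F.dn x + 1) :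
    lbc c l0 (F.dn y) ≠ hinv (lbc c l0 (F.dn x)) := by
  rw [lbc_dn, lbc_dn]
  exact c.red x y (F.next_of_succ h)

theorem shape_basic {g : ℕ} (hg : Girth A g) (h2 : 2 < g) (v0 : V) (l0 : S × Bool) (o : Finset V) :
    (shapeOf c v0 o).Basic := by
  have hT : (shapeOf c v0 o).T = F.tot := rfl
  have hcls : (shapeOf c v0 o).cls = clc c v0 := rfl
  have hmt : (shapeOf c v0 o).mt = mtc c := rfl
  have hce : (shapeOf c v0 o).ce = cec F := rfl
  constructor
  · intro p hp
    rw [mem_shape_D] at hp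
    obtain ⟨x, rfl⟩ := hp
    exact F.dn_lt x
  · intro p hp
    rw [mem_shape_D, mem_shape_D]
    by_cases h : ∃ x, F.dn x = p
    · exact Or.inl h
    · right
      obtain ⟨i, hi⟩ := F.notMem_D hp (by rintro ⟨y, hy⟩; exact h ⟨y, hy⟩)
      have hl := F.len_pos i
      refine ⟨by omega, ⟨⟨i, ⟨F.len i - 1, by omega⟩⟩, ?_⟩⟩
      rw [F.dn_eq]; simp only; omega
  · intro p; rw [hcls]; exact clc_le c v0 p
  · intro p; rw [hcls]; exact clc_clc c v0 p
  · intro p hp; rw [hcls]; exact clc_out c v0 hp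
  · intro p hp
    rw [mem_shape_D] at hp
    obtain ⟨x, rfl⟩ := hp
    have h1 := F.dn_lt x
    rw [hcls, ne_eq, clc_eq_iff c v0 (by omega) (by omega)]
    exact girth_one hg h2 (step_nd c v0 l0 x)
  · intro p hp hp'
    rw [mem_shape_D] at hp hp'
    obtain ⟨x, rfl⟩ := hp
    obtain ⟨y, hy⟩ := hp'
    have h1 := F.dn_lt y
    rw [hcls, ne_eq, clc_eq_iff c v0 (by omega) (by omega)]
    have h3 := step_nd c v0 l0 y
    rw [hy] at h3
    have h4 := red_nd c l0 hy
    rw [hy] at h4
    exact girth_two hg h2 (step_nd c v0 l0 x) h3 h4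
  · intro s hs
    rw [shape_mem_cs] at hs
    obtain ⟨i, _, rfl⟩ := hs
    rw [shape_isStart]
    exact ⟨i, rfl⟩
  · intro s hs
    rw [shape_mem_cs] at hs
    obtain ⟨i, hi, rfl⟩ := hs
    rw [shape_isStop, hce, cec_off F hi]
    exact ⟨i, rfl⟩
  · intro s hs s' hs' h
    rw [shape_mem_cs] at hs hs'
    obtain ⟨i, hi, rfl⟩ := hs
    obtain ⟨j, hj, rfl⟩ := hs'
    rw [hce, cec_off F hi, cec_off F hj] at h
    rw [off_len_inj F h]
  · intro s hs
    rw [shape_mem_cs] at hs
    obtain ⟨i, hi, rfl⟩ := hs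
    have h1 := off_lt F i
    rw [hce, cec_off F hi, hcls, clc_eq_iff c v0 h1 (by omega)]
    have h3 : ndc c v0 (F.off i) = c.node ⟨i, 0⟩ := ndc_num c v0 _
    have h4 : ndc c v0 (F.off i + F.len i) = c.node ⟨i, Fin.last _⟩ := by
      have := ndc_num c v0 (⟨i, Fin.last _⟩ : F.Pos)
      rw [F.num_mk] at this
      simpa using this
    rw [h3, h4]
    exact c.closed i hi
  · intro s hs
    rw [shape_mem_cs] at hs
    obtain ⟨i, hi, rfl⟩ := hs
    have h1 := off_lt F i
    have hl := F.len_pos i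
    rw [hce, cec_off F hi, hcls, ne_eq, clc_eq_iff c v0 (by omega) (by omega)]
    -- the dart `0` and the last dart
    have hx : F.dn (⟨i, ⟨0, hl⟩⟩ : F.Dart) = F.off i := by rw [F.dn_eq]; rfl
    have hy : F.dn (⟨i, ⟨F.len i - 1, by omega⟩⟩ : F.Dart) = F.off i + F.len i - 1 := by
      rw [F.dn_eq]; simp only; omega
    have s1 := step_nd c v0 l0 (⟨i, ⟨0, hl⟩⟩ : F.Dart)
    have s2 := step_nd c v0 l0 (⟨i, ⟨F.len i - 1, by omega⟩⟩ : F.Dart)
    have hr := c.red (⟨i, ⟨F.len i - 1, by omega⟩⟩ : F.Dart) (⟨i, ⟨0, hl⟩⟩ : F.Dart)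
      ⟨rfl, Or.inr ⟨rfl, by simp only; omega, hi⟩⟩
    rw [← lbc_dn c l0, ← lbc_dn c l0] at hr
    rw [hx] at s1 hr
    rw [hy] at s2 hr
    rw [show F.off i + F.len i - 1 + 1 = F.off i + F.len i by omega] at s2
    have h3 : ndc c v0 (F.off i) = c.node ⟨i, 0⟩ := ndc_num c v0 _
    have h4 : ndc c v0 (F.off i + F.len i) = c.node ⟨i, Fin.last _⟩ := by
      have := ndc_num c v0 (⟨i, Fin.last _⟩ : F.Pos)
      rw [F.num_mk] at this
      simpa using this
    have h5 : ndc c v0 (F.off i + F.len i) = ndc c v0 (F.off i) := by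
      rw [h3, h4]; exact c.closed i hi
    rw [h5] at s2
    exact (girth_two hg h2 s2 s1 hr).symm
  · intro s hs
    rw [shape_mem_cs] at hs
    rw [hce]
    unfold cec
    rw [dif_neg hs]
  · intro p p' h
    rw [hmt, mtc_eq_some] at h
    obtain ⟨x, x', rfl, rfl, h1, h3, h4⟩ := h
    rw [shape_cor]; exact h1
  · intro p p' h
    rw [hmt, mtc_eq_some] at h ⊢
    obtain ⟨x, x', rfl, rfl, h1, h3, h4⟩ := h
    exact ⟨x', x, rfl, rfl, h3, h1, c.mate_symm x x' h4⟩
  · intro p p' h
    rw [hmt, mtc_eq_some] at h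
    obtain ⟨x, x', rfl, rfl, h1, h3, h4⟩ := h
    have e1 := F.dn_lt x
    have e2 := F.dn_lt x'
    rw [hcls, ne_eq, clc_eq_iff c v0 (by omega) (by omega)]
    have := c.mate_node x x' h4
    rwa [← ndc_num c v0, ← ndc_num c v0] at this
  · intro p p' q h h'
    rw [hmt, mtc_eq_some] at h h'
    obtain ⟨x, x', rfl, rfl, h1, h3, h4⟩ := h
    obtain ⟨y, y', h5, rfl, h6, h7, h8⟩ := h'
    have hn : F.Next x y := F.next_of_succ h5
    have := c.mate_coh x x' y y' h4 hn h8
    rw [F.next_iff _ _ h3] at this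
    exact this.symm
  · intro v hv
    have : v ∈ (Finset.range F.tot).filter (fun v => clc c v0 v = v ∧ ndc c v0 v ∈ o) := hv
    rw [Finset.mem_filter, Finset.mem_range] at this
    exact ⟨this.1, this.2.1⟩

/-- equality of classes -/
theorem clc_eq_iff' (v0 : V) (p q : ℕ) : clc c v0 p = clc c v0 q ↔
    p = q ∨ (p < F.tot ∧ q < F.tot ∧ ndc c v0 p = ndc c v0 q) := by
  by_cases hp : p < F.tot
  · by_cases hq : q < F.tot
    · rw [clc_eq_iff c v0 hp hq]
      constructor
      · intro h; exact Or.inr ⟨hp, hq, h⟩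
      · rintro (rfl | ⟨_, _, h⟩)
        · rfl
        · exact h
    · rw [clc_out c v0 (not_lt.1 hq)]
      have := clc_lt c v0 hp
      constructor
      · intro h; omega
      · rintro (rfl | ⟨_, h, _⟩)
        · omega
        · omega
  · rw [clc_out c v0 (not_lt.1 hp)]
    by_cases hq : q < F.tot
    · have := clc_lt c v0 hq
      constructor
      · intro h; omega
      · rintro (rfl | ⟨h, _⟩)
        · omega
        · omega
    · rw [clc_out c v0 (not_lt.1 hq)]
      constructor
      · intro h; exact Or.inl h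
      · rintro (h | ⟨h, _⟩)
        · exact h
        · omega

/-- subpaths -/
theorem isPath_nd (v0 : V) (l0 : S × Bool) {p d : ℕ} (h : ∀ i < d, p + i ∈ F.D) :
    IsPath A d (fun i => ndc c v0 (p + i)) (fun i => lbc c l0 (p + i)) := by
  constructor
  · intro k hk
    obtain ⟨x, hx⟩ := h k hk
    have := step_nd c v0 l0 x
    rw [hx] at this
    exact this
  · intro k hk
    obtain ⟨x, hx⟩ := h k (by omega)
    obtain ⟨y, hy⟩ := h (k + 1) hk
    have := red_nd c l0 (x := x) (y := y) (by omega)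
    rw [hx, hy] at this
    exact this

theorem lt_tot_of_darts {p d : ℕ} (h : ∀ i < d, p + i ∈ F.D) (hd : 0 < d) : p + d < F.tot := by
  obtain ⟨x, hx⟩ := h (d - 1) (by omega)
  have := F.dn_lt x
  omega

theorem shape_ovl {g g' : ℕ} (hg : Girth A g) (hg' : 2 * g' < g) (v0 : V) (l0 : S × Bool)
    (o : Finset V) : (shapeOf c v0 o).Ovl g' := by
  intro p q d e hd he hp hq
  have hcls : (shapeOf c v0 o).cls = clc c v0 := rfl
  have hp' : ∀ i < d, p + i ∈ F.D := by
    intro i hi
    have := hp i hi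
    rw [mem_shape_D] at this
    exact this
  have hq' : ∀ i < e, q + i ∈ F.D := by
    intro i hi
    have := hq i hi
    rw [mem_shape_D] at this
    exact this
  have P1 := isPath_nd c v0 l0 hp'
  have P2 := isPath_nd c v0 l0 hq'
  rw [hcls]
  constructor
  · intro h1 h2
    rw [clc_eq_iff'] at h1 h2
    -- everything in range or everything equal
    have key : ndc c v0 p = ndc c v0 q ∧ ndc c v0 (p + d) = ndc c v0 (q + e) ∧
        (d = e → ∀ i ≤ d, p + i = q + i ∨ (p + i < F.tot ∧ q + i < F.tot)) := by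
      refine ⟨?_, ?_, ?_⟩
      · rcases h1 with rfl | ⟨_, _, h⟩
        · rfl
        · exact h
      · rcases h2 with h | ⟨_, _, h⟩
        · rw [h]
        · exact h
      · rintro rfl i hi
        rcases h1 with rfl | ⟨h3, h4, _⟩
        · exact Or.inl rfl
        · right
          rcases Nat.eq_zero_or_pos d with hd0 | hd0
          · subst hd0
            obtain rfl : i = 0 := by omega
            exact ⟨h3, h4⟩
          · have := lt_tot_of_darts hp' hd0
            have := lt_tot_of_darts hq' hd0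
            omega
    obtain ⟨k1, k2, k3⟩ := key
    obtain ⟨m1, m2⟩ := P1.meet hg P2 (by omega) (i := 0) (j := 0) (m := d) (m' := e) (by omega)
      (by omega) (by simpa using k1) (by simpa using k2)
    subst m1
    refine ⟨rfl, ?_⟩
    intro i hi
    rw [clc_eq_iff']
    rcases k3 rfl i hi with h | ⟨h, h'⟩
    · exact Or.inl h
    · right
      refine ⟨h, h', ?_⟩
      simpa using m2 i hi
  · intro h1 h2
    rw [clc_eq_iff'] at h1 h2
    have key : ndc c v0 p = ndc c v0 (q + e) ∧ ndc c v0 (p + d) = ndc c v0 q ∧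
        (d = e → ∀ i ≤ d, p + i = q + (d - i) ∨ (p + i < F.tot ∧ q + (d - i) < F.tot)) := by
      refine ⟨?_, ?_, ?_⟩
      · rcases h1 with h | ⟨_, _, h⟩
        · rw [h]
        · exact h
      · rcases h2 with h | ⟨_, _, h⟩
        · rw [h]
        · exact h
      · rintro rfl i hi
        rcases Nat.eq_zero_or_pos d with hd0 | hd0
        · subst hd0
          obtain rfl : i = 0 := by omega
          simp only [Nat.add_zero, Nat.sub_zero] at h1 ⊢
          rcases h1 with h | ⟨h3, h4, _⟩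
          · exact Or.inl h
          · exact Or.inr ⟨h3, h4⟩
        · right
          have := lt_tot_of_darts hp' hd0
          have := lt_tot_of_darts hq' hd0
          omega
    obtain ⟨k1, k2, k3⟩ := key
    have P3 := P2.rev
    obtain ⟨m1, m2⟩ := P1.meet hg P3 (by omega) (i := 0) (j := 0) (m := d) (m' := e) (by omega)
      (by omega) (by simpa using k1) (by simpa using k2)
    subst m1
    refine ⟨rfl, ?_⟩
    intro i hi
    rw [clc_eq_iff']
    rcases k3 rfl i hi with h | ⟨h, h'⟩
    · exact Or.inl h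
    · right
      refine ⟨h, h', ?_⟩
      simpa using m2 i hi

theorem shape_real (v0 : V) (l0 : S × Bool) (o : Finset V) :
    (shapeOf c v0 o).Real A o (ndc c v0) (lbc c l0) := by
  constructor
  · intro p hp
    rw [mem_shape_D] at hp
    obtain ⟨x, rfl⟩ := hp
    exact step_nd c v0 l0 x
  · intro p hp q hq
    exact (clc_eq_iff c v0 hp hq).symm
  · intro p hp
    have hm : (shapeOf c v0 o).mrk =
      (Finset.range F.tot).filter (fun v => clc c v0 v = v ∧ ndc c v0 v ∈ o) := rfl
    have hcls : (shapeOf c v0 o).cls = clc c v0 := rfl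
    rw [hm, hcls, Finset.mem_filter, Finset.mem_range, ndc_clc]
    constructor
    · intro h; exact ⟨clc_lt c v0 hp, clc_clc c v0 p, h⟩
    · intro h; exact h.2.2

theorem shape_labOK {g : ℕ} (hg : Girth A g) (h2 : 2 < g) (v0 : V) (l0 : S × Bool)
    (o : Finset V) : (shapeOf c v0 o).LabOK (lbc c l0) := by
  have hcls : (shapeOf c v0 o).cls = clc c v0 := rfl
  have hmt : (shapeOf c v0 o).mt = mtc c := rfl
  constructor
  · intro p hp q hq h1 h3
    rw [mem_shape_D] at hp hq
    obtain ⟨x, rfl⟩ := hp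
    obtain ⟨y, rfl⟩ := hq
    have e1 := F.dn_lt x
    have e2 := F.dn_lt y
    rw [hcls, clc_eq_iff c v0 (by omega) (by omega)] at h1 h3
    have s1 := step_nd c v0 l0 x
    have s2 := step_nd c v0 l0 y
    rw [← h1, ← h3] at s2
    exact lab_unique hg h2 s1 s2
  · intro p hp q hq h1 h3
    rw [mem_shape_D] at hp hq
    obtain ⟨x, rfl⟩ := hp
    obtain ⟨y, rfl⟩ := hq
    have e1 := F.dn_lt x
    have e2 := F.dn_lt y
    rw [hcls, clc_eq_iff c v0 (by omega) (by omega)] at h1 h3
    have s1 := step_nd c v0 l0 x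
    have s2 := step_nd c v0 l0 y
    rw [← h1, ← h3] at s2
    exact lab_unique hg h2 s1 ((st_hinv A).2 s2)
  · intro p hp hp'
    rw [mem_shape_D] at hp hp'
    obtain ⟨x, rfl⟩ := hp
    obtain ⟨y, hy⟩ := hp'
    have := red_nd c l0 hy
    rwa [hy] at this
  · intro p p' h
    rw [hmt, mtc_eq_some] at h
    obtain ⟨x, x', rfl, rfl, h1, h3, h4⟩ := h
    obtain ⟨y, hy⟩ := F.exists_prev x h1
    rw [hy, Nat.add_sub_cancel, lbc_dn, lbc_dn]
    exact c.mate_lab x x' y h4 (F.next_of_succ hy)

/-! ### Counting -/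

/-- first darts -/
noncomputable def wrapS (F : Frame) : Finset F.Dart := Finset.univ.filter fun x => F.Wrap x

theorem card_wrapS (F : Frame) : (wrapS F).card ≤ F.K := by
  have : (wrapS F).card ≤ (Finset.univ : Finset (Fin F.K)).card := by
    apply Finset.card_le_card_of_injOn (fun x => x.1) (fun _ _ => Finset.mem_coe.2 (Finset.mem_univ _))
    rintro ⟨i, a⟩ hx ⟨j, b⟩ hy h
    have hx' : a.val = 0 := (Finset.mem_filter.1 (Finset.mem_coe.1 hx)).2
    have hy' : b.val = 0 := (Finset.mem_filter.1 (Finset.mem_coe.1 hy)).2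
    simp only at h
    subst h
    have : a = b := Fin.ext (by omega)
    rw [this]
  simpa using this

/-- mates of first darts -/
noncomputable def wrapM : Finset F.Dart :=
  Finset.univ.filter fun x => ∃ x', F.Wrap x' ∧ c.mate x = some x'

theorem card_wrapM : (wrapM c).card ≤ F.K := by
  have : wrapM c ⊆ (wrapS F).image (fun x' => (c.mate x').getD x') := by
    intro x hx
    simp only [wrapM, Finset.mem_filter, Finset.mem_univ, true_and] at hx
    obtain ⟨x', h1, h2⟩ := hx
    rw [Finset.mem_image]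
    refine ⟨x', ?_, ?_⟩
    · simp only [wrapS, Finset.mem_filter, Finset.mem_univ, true_and]; exact h1
    · rw [c.mate_symm x x' h2]; rfl
  exact (Finset.card_le_card this).trans (Finset.card_image_le.trans (card_wrapS F))

/-- last darts -/
noncomputable def lastS (F : Frame) : Finset F.Dart :=
  Finset.univ.filter fun x => x.2.val + 1 = F.len x.1

theorem card_lastS (F : Frame) : (lastS F).card ≤ F.K := by
  have : (lastS F).card ≤ (Finset.univ : Finset (Fin F.K)).card := by
    apply Finset.card_le_card_of_injOn (fun x => x.1) (fun _ _ => Finset.mem_coe.2 (Finset.mem_univ _))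
    rintro ⟨i, a⟩ hx ⟨j, b⟩ hy h
    have hx' : a.val + 1 = F.len i := (Finset.mem_filter.1 (Finset.mem_coe.1 hx)).2
    have hy' : b.val + 1 = F.len j := (Finset.mem_filter.1 (Finset.mem_coe.1 hy)).2
    simp only at h
    subst h
    have : a = b := Fin.ext (by omega)
    rw [this]
  simpa using this

theorem glued_eq : c.glued = (Finset.univ.filter fun x : F.Dart => c.mate x ≠ none).card := by
  unfold Conf.glued
  rw [Nat.card_eq_fintype_card, Fintype.card_subtype]

theorem unglued_eq : c.unglued =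
    (Finset.univ.filter fun x : F.Dart => F.IsCorner x ∧ c.mate x = none).card := by
  unfold Conf.unglued
  rw [Nat.card_eq_fintype_card, Fintype.card_subtype]

theorem ends_eq : c.ends = (Finset.univ.filter fun x : F.Dart =>
    c.mate x ≠ none ∧ ∀ y, F.Next x y → c.mate y = none).card := by
  unfold Conf.ends
  rw [Nat.card_eq_fintype_card, Fintype.card_subtype]

theorem glued_le (v0 : V) (o : Finset V) : c.glued ≤ (shapeOf c v0 o).gl + 2 * F.K := by
  rw [glued_eq]
  have h1 : (Finset.univ.filter fun x : F.Dart => c.mate x ≠ none) ⊆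
      (Finset.univ.filter fun x : F.Dart => mtc c (F.dn x) ≠ none) ∪ (wrapS F ∪ wrapM c) := by
    intro x hx
    simp only [Finset.mem_filter, Finset.mem_univ, true_and, Finset.mem_union, wrapS, wrapM] at hx ⊢
    rw [mtc_ne_none]
    obtain ⟨x', hx'⟩ := Option.ne_none_iff_exists'.1 hx
    by_cases h1 : F.Wrap x
    · exact Or.inr (Or.inl h1)
    · by_cases h2 : F.Wrap x'
      · exact Or.inr (Or.inr ⟨x', h2, hx'⟩)
      · exact Or.inl ⟨h1, x', hx', h2⟩
  have h2 : (Finset.univ.filter fun x : F.Dart => mtc c (F.dn x) ≠ none).card ≤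
      (shapeOf c v0 o).gl := by
    unfold Shape.gl
    apply Finset.card_le_card_of_injOn F.dn
    · intro x hx
      have hx' := (Finset.mem_filter.1 (Finset.mem_coe.1 hx)).2
      rw [Finset.mem_coe, Finset.mem_filter, Finset.mem_range]
      refine ⟨?_, hx'⟩
      have := F.dn_lt x
      show F.dn x < F.tot
      omega
    · exact F.dn_injective.injOn
  have h3 := card_wrapS F
  have h4 := card_wrapM c
  have h5 := Finset.card_le_card h1
  have h6 := Finset.card_union_le (Finset.univ.filter fun x : F.Dart => mtc c (F.dn x) ≠ none)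
    (wrapS F ∪ wrapM c)
  have h7 := Finset.card_union_le (wrapS F) (wrapM c)
  omega

theorem ug_le (v0 : V) (o : Finset V) : (shapeOf c v0 o).ug ≤ c.unglued + F.K := by
  rw [unglued_eq]
  have h1 : ((Finset.range (shapeOf c v0 o).T).filter
      (fun p => (shapeOf c v0 o).Cor p ∧ (shapeOf c v0 o).mt p = none)) ⊆
      ((Finset.univ.filter fun x : F.Dart => F.IsCorner x ∧ c.mate x = none) ∪ wrapM c).image
        F.dn := by
    intro p hp
    rw [Finset.mem_filter] at hp
    obtain ⟨_, h1, h2⟩ := hp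
    have h3 := h1.2.2
    rw [mem_shape_D] at h3
    obtain ⟨x, rfl⟩ := h3
    rw [shape_cor] at h1
    rw [Finset.mem_image]
    refine ⟨x, ?_, rfl⟩
    simp only [Finset.mem_filter, Finset.mem_univ, true_and, Finset.mem_union, wrapM]
    have h4 : ¬ (mtc c (F.dn x) ≠ none) := by
      rw [not_not]; exact h2
    rw [mtc_ne_none] at h4
    by_cases h5 : c.mate x = none
    · exact Or.inl ⟨F.isCorner_of_not_wrap h1, h5⟩
    · right
      obtain ⟨x', hx'⟩ := Option.ne_none_iff_exists'.1 h5
      refine ⟨x', ?_, hx'⟩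
      by_contra h6
      exact h4 ⟨h1, x', hx', h6⟩
  have h2 := Finset.card_le_card h1
  have h3 := Finset.card_image_le (s := (Finset.univ.filter
    fun x : F.Dart => F.IsCorner x ∧ c.mate x = none) ∪ wrapM c) (f := F.dn)
  have h4 := card_wrapM c
  have h5 := Finset.card_union_le (Finset.univ.filter
    fun x : F.Dart => F.IsCorner x ∧ c.mate x = none) (wrapM c)
  unfold Shape.ug
  omega

theorem ends_le (v0 : V) (o : Finset V) : ((Finset.range (shapeOf c v0 o).T).filter
    (fun p => (shapeOf c v0 o).mt p ≠ none ∧ (shapeOf c v0 o).mt (p + 1) = none)).card ≤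
      c.ends + 2 * F.K := by
  rw [ends_eq]
  have h1 : ((Finset.range (shapeOf c v0 o).T).filter
    (fun p => (shapeOf c v0 o).mt p ≠ none ∧ (shapeOf c v0 o).mt (p + 1) = none)) ⊆
      ((Finset.univ.filter fun x : F.Dart =>
        c.mate x ≠ none ∧ ∀ y, F.Next x y → c.mate y = none) ∪ lastS F).image F.dn ∪
      (wrapM c).image (fun x => F.dn x - 1) := by
    intro p hp
    rw [Finset.mem_filter] at hp
    obtain ⟨_, h1, h2⟩ := hp
    obtain ⟨p', hp'⟩ := Option.ne_none_iff_exists'.1 h1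
    have h3 : mtc c p = some p' := hp'
    rw [mtc_eq_some] at h3
    obtain ⟨x, x', rfl, rfl, hx, hx', hm⟩ := h3
    rw [Finset.mem_union]
    by_cases h4 : ∀ y, F.Next x y → c.mate y = none
    · left
      rw [Finset.mem_image]
      refine ⟨x, ?_, rfl⟩
      simp only [Finset.mem_filter, Finset.mem_univ, true_and, Finset.mem_union]
      left
      exact ⟨by rw [hm]; simp, h4⟩
    · push Not at h4
      obtain ⟨y, hy, hy'⟩ := h4
      by_cases h5 : F.Wrap y
      · left
        rw [Finset.mem_image]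
        refine ⟨x, ?_, rfl⟩
        simp only [Finset.mem_filter, Finset.mem_univ, true_and, Finset.mem_union, lastS]
        right
        rcases hy.2 with h6 | h6
        · unfold Frame.Wrap at h5; omega
        · exact h6.2.1
      · right
        rw [Finset.mem_image]
        rw [F.next_iff _ _ h5] at hy
        refine ⟨y, ?_, by omega⟩
        simp only [Finset.mem_filter, Finset.mem_univ, true_and, wrapM]
        have h6 : ¬ (mtc c (F.dn y) ≠ none) := by
          rw [not_not, hy]; exact h2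
        rw [mtc_ne_none] at h6
        obtain ⟨y', hy2⟩ := Option.ne_none_iff_exists'.1 hy'
        refine ⟨y', ?_, hy2⟩
        by_contra h7
        exact h6 ⟨h5, y', hy2, h7⟩
  have h2 := Finset.card_le_card h1
  have h3 := Finset.card_union_le (((Finset.univ.filter fun x : F.Dart =>
        c.mate x ≠ none ∧ ∀ y, F.Next x y → c.mate y = none) ∪ lastS F).image F.dn)
      ((wrapM c).image (fun x => F.dn x - 1))
  have h4 := Finset.card_image_le (s := (Finset.univ.filter fun x : F.Dart =>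
        c.mate x ≠ none ∧ ∀ y, F.Next x y → c.mate y = none) ∪ lastS F) (f := F.dn)
  have h5 := Finset.card_image_le (s := wrapM c) (f := fun x => F.dn x - 1)
  have h6 := card_wrapM c
  have h7 := card_lastS F
  have h8 := Finset.card_union_le (Finset.univ.filter fun x : F.Dart =>
        c.mate x ≠ none ∧ ∀ y, F.Next x y → c.mate y = none) (lastS F)
  omega

/-- number of ends of open paths at the nodes of `o` -/
noncomputable def oN (o : Finset V) : ℕ :=
  (Finset.univ.filter fun i => F.cl i = false ∧ c.node ⟨i, 0⟩ ∈ o).card +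
    (Finset.univ.filter fun i => F.cl i = false ∧ c.node ⟨i, Fin.last _⟩ ∈ o).card

theorem openN_eq (F : Frame) : F.openN = (Finset.univ.filter fun i => F.cl i = false).card := by
  unfold Frame.openN
  rw [Nat.card_eq_fintype_card, Fintype.card_subtype]

theorem ndc_off (v0 : V) (i : Fin F.K) : ndc c v0 (F.off i) = c.node ⟨i, 0⟩ := ndc_num c v0 _

theorem ndc_off_len (v0 : V) (i : Fin F.K) :
    ndc c v0 (F.off i + F.len i) = c.node ⟨i, Fin.last _⟩ := by
  have := ndc_num c v0 (⟨i, Fin.last _⟩ : F.Pos)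
  rw [F.num_mk] at this
  simpa using this

theorem mem_mrk (v0 : V) (o : Finset V) {p : ℕ} (hp : p < F.tot) :
    (shapeOf c v0 o).cls p ∈ (shapeOf c v0 o).mrk ↔ ndc c v0 p ∈ o := by
  have hm : (shapeOf c v0 o).mrk =
    (Finset.range F.tot).filter (fun v => clc c v0 v = v ∧ ndc c v0 v ∈ o) := rfl
  have hcls : (shapeOf c v0 o).cls = clc c v0 := rfl
  rw [hm, hcls, Finset.mem_filter, Finset.mem_range, ndc_clc]
  constructor
  · intro h; exact h.2.2
  · intro h; exact ⟨clc_lt c v0 hp, clc_clc c v0 p, h⟩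

theorem oe_le (v0 : V) (o : Finset V) : (shapeOf c v0 o).oe + oN c o ≤ 2 * F.openN := by
  have h1 : ((Finset.range (shapeOf c v0 o).T).filter (fun p => (shapeOf c v0 o).OpenEnd p ∧
      (shapeOf c v0 o).cls p ∉ (shapeOf c v0 o).mrk)) ⊆
      (Finset.univ.filter fun i => F.cl i = false ∧ c.node ⟨i, 0⟩ ∉ o).image F.off ∪
      (Finset.univ.filter fun i => F.cl i = false ∧ c.node ⟨i, Fin.last _⟩ ∉ o).image
        (fun i => F.off i + F.len i) := by
    intro p hp
    rw [Finset.mem_filter, Finset.mem_range] at hp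
    obtain ⟨hp0, hp1, hp2⟩ := hp
    rw [mem_mrk c v0 o hp0] at hp2
    rw [Finset.mem_union, Finset.mem_image, Finset.mem_image]
    rcases hp1 with ⟨h1, h2⟩ | ⟨h1, h2⟩
    · left
      rw [shape_isStart] at h1
      obtain ⟨i, rfl⟩ := h1
      rw [shape_mem_cs] at h2
      refine ⟨i, ?_, rfl⟩
      simp only [Finset.mem_filter, Finset.mem_univ, true_and]
      rw [ndc_off] at hp2
      refine ⟨?_, hp2⟩
      by_contra h3
      exact h2 ⟨i, by simpa using h3, rfl⟩
    · right
      rw [shape_isStop] at h1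
      obtain ⟨i, rfl⟩ := h1
      refine ⟨i, ?_, rfl⟩
      simp only [Finset.mem_filter, Finset.mem_univ, true_and]
      rw [ndc_off_len] at hp2
      refine ⟨?_, hp2⟩
      by_contra h3
      have h4 : F.cl i = true := by simpa using h3
      exact h2 (F.off i) ((shape_mem_cs c v0 o _).2 ⟨i, h4, rfl⟩) (cec_off F h4)
  have h2 := Finset.card_le_card h1
  have h3 := Finset.card_union_le
    ((Finset.univ.filter fun i => F.cl i = false ∧ c.node ⟨i, 0⟩ ∉ o).image F.off)
      ((Finset.univ.filter fun i => F.cl i = false ∧ c.node ⟨i, Fin.last _⟩ ∉ o).image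
        (fun i => F.off i + F.len i))
  have h4 := Finset.card_image_le
    (s := Finset.univ.filter fun i => F.cl i = false ∧ c.node ⟨i, 0⟩ ∉ o) (f := F.off)
  have h5 := Finset.card_image_le
    (s := Finset.univ.filter fun i => F.cl i = false ∧ c.node ⟨i, Fin.last _⟩ ∉ o)
    (f := fun i => F.off i + F.len i)
  have h6 : (Finset.univ.filter fun i => F.cl i = false ∧ c.node ⟨i, 0⟩ ∈ o).card +
      (Finset.univ.filter fun i => F.cl i = false ∧ c.node ⟨i, 0⟩ ∉ o).card =
        (Finset.univ.filter fun i => F.cl i = false).card := by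
    rw [← Finset.filter_filter, ← Finset.filter_filter]
    exact Finset.card_filter_add_card_filter_not _
  have h7 : (Finset.univ.filter fun i => F.cl i = false ∧ c.node ⟨i, Fin.last _⟩ ∈ o).card +
      (Finset.univ.filter fun i => F.cl i = false ∧ c.node ⟨i, Fin.last _⟩ ∉ o).card =
        (Finset.univ.filter fun i => F.cl i = false).card := by
    rw [← Finset.filter_filter, ← Finset.filter_filter]
    exact Finset.card_filter_add_card_filter_not _
  rw [openN_eq]
  unfold Shape.oe oN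
  omega

theorem oN_le_om {g : ℕ} (hg : Girth A g) (h2 : 2 < g) (v0 : V) (l0 : S × Bool) (o : Finset V)
    (ho : o.card ≤ 1) : oN c o ≤ (shapeOf c v0 o).om := by
  have hne : ∀ x : F.Dart, ¬ (ndc c v0 (F.dn x) ∈ o ∧ ndc c v0 (F.dn x + 1) ∈ o) := by
    rintro x ⟨h1, h3⟩
    exact girth_one hg h2 (step_nd c v0 l0 x) (Finset.card_le_one.1 ho _ h1 _ h3)
  set I1 := Finset.univ.filter fun i => F.cl i = false ∧ c.node ⟨i, 0⟩ ∈ o with hI1
  set I2 := Finset.univ.filter fun i => F.cl i = false ∧ c.node ⟨i, Fin.last _⟩ ∈ o with hI2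
  have hd : ∀ i : Fin F.K, ∃ x : F.Dart, F.dn x = F.off i := fun i =>
    ⟨⟨i, ⟨0, F.len_pos i⟩⟩, by rw [F.dn_eq]; rfl⟩
  have hl : ∀ i : Fin F.K, ∃ x : F.Dart, F.dn x + 1 = F.off i + F.len i := fun i =>
    ⟨⟨i, ⟨F.len i - 1, by have := F.len_pos i; omega⟩⟩, by
      rw [F.dn_eq]; simp only; have := F.len_pos i; omega⟩
  have hinj1 : (I1.image F.off).card = I1.card :=
    Finset.card_image_of_injective _ fun i j h => off_inj F h
  have hinj2 : (I2.image (fun i => F.off i + F.len i - 1)).card = I2.card := by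
    apply Finset.card_image_of_injective
    intro i j h
    apply off_len_inj F
    have h3 : F.off i + F.len i - 1 = F.off j + F.len j - 1 := h
    have := F.len_pos i
    have := F.len_pos j
    omega
  have hdisj : Disjoint (I1.image F.off) (I2.image (fun i => F.off i + F.len i - 1)) := by
    rw [Finset.disjoint_left]
    intro p h3 h4
    rw [Finset.mem_image] at h3 h4
    obtain ⟨i, hi, rfl⟩ := h3
    obtain ⟨j, hj, hj'⟩ := h4
    rw [hI1, Finset.mem_filter] at hi
    rw [hI2, Finset.mem_filter] at hj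
    obtain ⟨x, hx⟩ := hd i
    apply hne x
    have := F.len_pos j
    rw [hx, show F.off i + 1 = F.off j + F.len j by omega, ndc_off, ndc_off_len]
    exact ⟨hi.2.2, hj.2.2⟩
  have hsub : I1.image F.off ∪ I2.image (fun i => F.off i + F.len i - 1) ⊆
      ((shapeOf c v0 o).D.filter (fun q => ((shapeOf c v0 o).cls q ∈ (shapeOf c v0 o).mrk) ≠
        ((shapeOf c v0 o).cls (q + 1) ∈ (shapeOf c v0 o).mrk))) := by
    intro p hp
    have key : ∃ x, F.dn x = p ∧ (ndc c v0 p ∈ o ∨ ndc c v0 (p + 1) ∈ o) := by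
      rw [Finset.mem_union, Finset.mem_image, Finset.mem_image] at hp
      rcases hp with ⟨i, hi, rfl⟩ | ⟨i, hi, rfl⟩
      · obtain ⟨x, hx⟩ := hd i
        refine ⟨x, hx, Or.inl ?_⟩
        rw [ndc_off]
        rw [hI1, Finset.mem_filter] at hi
        exact hi.2.2
      · obtain ⟨x, hx⟩ := hl i
        have := F.len_pos i
        refine ⟨x, by omega, Or.inr ?_⟩
        rw [show F.off i + F.len i - 1 + 1 = F.off i + F.len i by omega, ndc_off_len]
        rw [hI2, Finset.mem_filter] at hi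
        exact hi.2.2
    obtain ⟨x, rfl, hx⟩ := key
    rw [Finset.mem_filter, mem_shape_D]
    refine ⟨⟨x, rfl⟩, ?_⟩
    have e1 := F.dn_lt x
    rw [mem_mrk c v0 o (by omega), mem_mrk c v0 o (by omega), ne_eq, eq_iff_iff]
    intro h3
    rcases hx with h4 | h4
    · exact hne x ⟨h4, h3.1 h4⟩
    · exact hne x ⟨h3.2 h4, h4⟩
  have h3 := Finset.card_le_card hsub
  rw [Finset.card_union_of_disjoint hdisj, hinj1, hinj2] at h3
  exact h3

theorem card_mrk_le (v0 : V) (o : Finset V) : (shapeOf c v0 o).mrk.card ≤ o.card := by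
  have hm : (shapeOf c v0 o).mrk =
    (Finset.range F.tot).filter (fun v => clc c v0 v = v ∧ ndc c v0 v ∈ o) := rfl
  rw [hm]
  apply Finset.card_le_card_of_injOn (ndc c v0)
  · intro p hp
    rw [Finset.mem_coe, Finset.mem_filter] at hp
    exact hp.2.2
  · intro p hp q hq h
    rw [Finset.mem_coe, Finset.mem_filter, Finset.mem_range] at hp hq
    rw [← hp.2.1, ← hq.2.1]
    exact (clc_eq_iff c v0 hp.1 hq.1).2 h

end Lin

theorem oN_eq {S V : Type} {A : PAct S V} {F : Frame} (c : Conf A F) (o : Finset V) :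
    oN c o = Nat.card {i : Fin F.K // F.cl i = false ∧ c.node ⟨i, 0⟩ ∈ o} +
      Nat.card {i : Fin F.K // F.cl i = false ∧ c.node ⟨i, Fin.last _⟩ ∈ o} := by
  unfold oN
  rw [Nat.card_eq_fintype_card, Nat.card_eq_fintype_card, Fintype.card_subtype,
    Fintype.card_subtype]

/-- LA (statement of LocIface with the additional hypothesis `0 < F.K`) -/
theorem exists_shape {S V : Type} (A : PAct S V) (g g' : ℕ) (hg : Girth A g) (hg' : 2 * g' < g)
    (h2 : 2 ≤ g') (K D0 L : ℕ) (F : Frame) (c : Conf A F) (hK : F.K ≤ K) (hpos : 0 < F.K)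
    (hL : ∀ i, F.len i ≤ L) (hD : c.ends ≤ D0) (o : Finset V) (ho : o.card ≤ 1) :
    ∃ (σ : Shape) (nd : ℕ → V) (ℓ : ℕ → S × Bool), σ.Pre (K + 1) (D0 + 4 * K) g' ∧
      σ.mrk.card ≤ o.card ∧
      σ.T ≤ K * (L + 1) ∧ σ.Real A o nd ℓ ∧ σ.LabOK ℓ ∧ c.glued ≤ σ.gl + 2 * K ∧
      σ.ug ≤ c.unglued + 2 * K ∧
      σ.oe + (Nat.card {i : Fin F.K // F.cl i = false ∧ c.node ⟨i, 0⟩ ∈ o} +
        Nat.card {i : Fin F.K // F.cl i = false ∧ c.node ⟨i, Fin.last _⟩ ∈ o}) ≤ 2 * F.openN ∧
      Nat.card {i : Fin F.K // F.cl i = false ∧ c.node ⟨i, 0⟩ ∈ o} +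
        Nat.card {i : Fin F.K // F.cl i = false ∧ c.node ⟨i, Fin.last _⟩ ∈ o} ≤ σ.om := by
  have x0 : F.Dart := ⟨⟨0, hpos⟩, ⟨0, F.len_pos _⟩⟩
  have v0 : V := c.node (F.start x0)
  have l0 : S × Bool := c.lab x0
  have hg2 : 2 < g := by omega
  have hT : (shapeOf c v0 o).T = F.tot := rfl
  refine ⟨shapeOf c v0 o, ndc c v0, lbc c l0, ?_, card_mrk_le c v0 o, F.tot_le hK hL,
    shape_real c v0 l0 o, shape_labOK c hg hg2 v0 l0 o, ?_, ?_, ?_, ?_⟩
  · refine ⟨shape_basic c hg hg2 v0 l0 o, ?_, ?_, shape_ovl c hg hg' v0 l0 o,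
      (card_mrk_le c v0 o).trans (by omega)⟩
    · have h3 : Finset.range (shapeOf c v0 o).T \ (shapeOf c v0 o).D ⊆
          (Finset.range F.tot).filter fun k => k ∉ F.D := by
        intro k hk
        rw [Finset.mem_sdiff, mem_shape_D] at hk
        rw [Finset.mem_filter]
        exact ⟨hk.1, hk.2⟩
      exact (Finset.card_le_card h3).trans ((Frame.card_compl_D_le F).trans (by omega))
    · have := ends_le c v0 o
      omega
  · have := glued_le c v0 o
    omega
  · have := ug_le c v0 o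
    omega
  · rw [← oN_eq]
    exact oe_le c v0 o
  · rw [← oN_eq]
    exact oN_le_om c hg hg2 v0 l0 o ho

/-- the case `F.K = 0` -/
theorem glued_eq_zero {S V : Type} {A : PAct S V} {F : Frame} (c : Conf A F) (h : F.K = 0) :
    c.glued = 0 ∧ c.unglued = 0 ∧ c.ends = 0 ∧ F.openN = 0 := by
  have h1 : IsEmpty F.Dart := ⟨fun x => by have := x.1.2; omega⟩
  have h2 : IsEmpty (Fin F.K) := ⟨fun x => by have := x.2; omega⟩
  refine ⟨?_, ?_, ?_, ?_⟩
  · unfold Conf.glued; exact Nat.card_of_isEmpty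
  · unfold Conf.unglued; exact Nat.card_of_isEmpty
  · unfold Conf.ends; exact Nat.card_of_isEmpty
  · unfold Frame.openN; exact Nat.card_of_isEmpty

end Crest.Agent.R177.Loc
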