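import Crest.Agent.R177.LocDefs
import Crest.Agent.R177.LocBasic

/-!
# Row 177, LOC, LD second half (helper516): products over regular positions
-/

set_option autoImplicit false

open scoped Classical

namespace Crest.Agent.R177.Loc

variable {S : Type} [Fintype S]

/-- positions with regular class -/
noncomputable def Shape.RP (σ : Shape) : Finset ℕ :=
  (Finset.range σ.T).filter (fun p => σ.Reg (σ.cls p))

/-- positions with irregular class -/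
noncomputable def Shape.NR (σ : Shape) : Finset ℕ :=
  (Finset.range σ.T).filter (fun p => ¬ σ.Reg (σ.cls p))

theorem NR_card {Z I : ℕ} {σ : Shape} (hσ : σ.Good Z I) : σ.NR.card ≤ Z * I := by
  have h1 := Finset.card_le_mul_card_image_of_maps_to (s := σ.NR)
    (t := (Finset.range σ.T).filter (fun v => σ.cls v = v ∧ ¬ σ.Reg v)) (f := σ.cls) (by
      intro p hp
      simp only [Shape.NR, Finset.mem_filter, Finset.mem_range] at hp ⊢
      exact ⟨lt_of_le_of_lt (hσ.cls_le p) hp.1, hσ.cls_cls p, hp.2⟩) Z (by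
      intro v _
      refine le_trans (Finset.card_le_card ?_) (hσ.card_cls v)
      intro p hp
      simp only [Shape.NR, Finset.mem_filter, Finset.mem_range] at hp ⊢
      exact ⟨hp.1.1, hp.2⟩)
  exact le_trans h1 (Nat.mul_le_mul_left _ hσ.irr)

theorem gl_le_RP {Z I : ℕ} {σ : Shape} (hσ : σ.Good Z I) : σ.gl ≤ σ.RP.card + Z * I := by
  have h1 : (Finset.range σ.T).filter (fun p => σ.mt p ≠ none) ⊆ σ.RP ∪ σ.NR := by
    intro p hp
    simp only [Finset.mem_filter, Finset.mem_range, Finset.mem_union, Shape.RP, Shape.NR] at hp ⊢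
    by_cases h : σ.Reg (σ.cls p)
    · exact Or.inl ⟨hp.1, h⟩
    · exact Or.inr ⟨hp.1, h⟩
  have h2 := Finset.card_le_card h1
  have h3 := Finset.card_union_le σ.RP σ.NR
  have h4 := NR_card hσ
  unfold Shape.gl
  omega

theorem mem_RP {σ : Shape} {p : ℕ} : p ∈ σ.RP ↔ p < σ.T ∧ σ.Reg (σ.cls p) := by
  simp [Shape.RP]

theorem cor_of_RP {σ : Shape} {p : ℕ} (hp : p ∈ σ.RP) : σ.Cor p :=
  (mem_RP.1 hp).2.cor (mem_RP.1 hp).1 rfl

/-- telescoping -/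
theorem prod_delta (d : S × Bool → ℝ) (hd : ∀ h, 0 < d h) (Z I : ℕ) : ∃ Cd : ℝ, 0 < Cd ∧
    ∀ σ : Shape, σ.Good Z I → ∀ ℓ : ℕ → S × Bool,
      ∏ p ∈ σ.RP, (d (ℓ (p - 1)) * (d (ℓ p))⁻¹) ≤ Cd := by
  set Δ : ℝ := 1 + ∑ h : S × Bool, (d h + (d h)⁻¹) with hΔ
  have hpos : ∀ h : S × Bool, 0 < d h + (d h)⁻¹ := fun h =>
    add_pos (hd h) (inv_pos.2 (hd h))
  have hΔ1 : 1 ≤ Δ := by
    have : 0 ≤ ∑ h : S × Bool, (d h + (d h)⁻¹) := Finset.sum_nonneg fun h _ => (hpos h).le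
    linarith
  have hle : ∀ h : S × Bool, d h + (d h)⁻¹ ≤ Δ := by
    intro h
    have := Finset.single_le_sum (f := fun h : S × Bool => d h + (d h)⁻¹)
      (fun h _ => (hpos h).le) (Finset.mem_univ h)
    linarith
  have hδ1 : ∀ h : S × Bool, d h ≤ Δ := fun h => by
    have := inv_pos.2 (hd h)
    linarith [hle h]
  have hδ2 : ∀ h : S × Bool, (d h)⁻¹ ≤ Δ := fun h => by
    have := hd h
    linarith [hle h]
  refine ⟨Δ ^ (Z * I) * Δ ^ (Z * I), by positivity, ?_⟩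
  intro σ hσ ℓ
  set R := σ.RP with hR
  set R' := R.image (fun p => p - 1) with hR'
  have hinj : Set.InjOn (fun p : ℕ => p - 1) (R : Set ℕ) := by
    intro a ha b hb hab
    have h1 := (cor_of_RP (Finset.mem_coe.1 ha)).1
    have h2 := (cor_of_RP (Finset.mem_coe.1 hb)).1
    simp only at hab
    omega
  have hprod : ∏ p ∈ R, (d (ℓ (p - 1)) * (d (ℓ p))⁻¹) =
      (∏ p ∈ R', d (ℓ p)) * ∏ p ∈ R, (d (ℓ p))⁻¹ := by
    rw [Finset.prod_mul_distrib, hR', Finset.prod_image hinj]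
  have hsplit1 := Finset.prod_inter_mul_prod_sdiff R' R (fun p => d (ℓ p))
  have hsplit2 := Finset.prod_inter_mul_prod_sdiff R R' (fun p => (d (ℓ p))⁻¹)
  have hinter : (∏ p ∈ R' ∩ R, d (ℓ p)) * ∏ p ∈ R ∩ R', (d (ℓ p))⁻¹ = 1 := by
    rw [Finset.inter_comm R' R, ← Finset.prod_mul_distrib]
    refine Finset.prod_eq_one fun p _ => ?_
    exact mul_inv_cancel₀ (hd _).ne'
  have hc1 : (R \ R').card ≤ Z * I := by
    refine le_trans ?_ (NR_card hσ)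
    refine Finset.card_le_card_of_injOn (fun p => p + 1) ?_ ?_
    · intro p hp
      rw [Finset.mem_coe, Finset.mem_sdiff] at hp
      have h1 := (cor_of_RP hp.1).2.2
      have h2 := hσ.D_lt p h1
      simp only [Shape.NR, Finset.coe_filter, Finset.mem_range, Set.mem_ofPred_eq]
      refine ⟨h2, fun h3 => hp.2 ?_⟩
      rw [hR', Finset.mem_image]
      exact ⟨p + 1, mem_RP.2 ⟨h2, h3⟩, by omega⟩
    · intro a _ b _ hab
      simp only at hab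
      omega
  have hc2 : (R' \ R).card ≤ Z * I := by
    refine le_trans (Finset.card_le_card ?_) (NR_card hσ)
    intro p hp
    rw [Finset.mem_sdiff, hR', Finset.mem_image] at hp
    obtain ⟨⟨q, hq, rfl⟩, h2⟩ := hp
    have h3 := (mem_RP.1 hq).1
    simp only [Shape.NR, Finset.mem_filter, Finset.mem_range]
    refine ⟨by omega, fun h4 => h2 (mem_RP.2 ⟨by omega, h4⟩)⟩
  have hb1 : ∏ p ∈ R' \ R, d (ℓ p) ≤ Δ ^ (Z * I) := by
    refine le_trans (Finset.prod_le_prod (fun p _ => (hd _).le) (fun p _ => hδ1 (ℓ p))) ?_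
    rw [Finset.prod_const]
    exact pow_le_pow_right₀ hΔ1 hc2
  have hb2 : ∏ p ∈ R \ R', (d (ℓ p))⁻¹ ≤ Δ ^ (Z * I) := by
    refine le_trans (Finset.prod_le_prod (fun p _ => (inv_pos.2 (hd _)).le)
      (fun p _ => hδ2 (ℓ p))) ?_
    rw [Finset.prod_const]
    exact pow_le_pow_right₀ hΔ1 hc1
  rw [hprod, ← hsplit1, ← hsplit2]
  calc (∏ p ∈ R' ∩ R, d (ℓ p)) * (∏ p ∈ R' \ R, d (ℓ p)) *
        ((∏ p ∈ R ∩ R', (d (ℓ p))⁻¹) * ∏ p ∈ R \ R', (d (ℓ p))⁻¹)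
      = ((∏ p ∈ R' ∩ R, d (ℓ p)) * ∏ p ∈ R ∩ R', (d (ℓ p))⁻¹) *
        ((∏ p ∈ R' \ R, d (ℓ p)) * ∏ p ∈ R \ R', (d (ℓ p))⁻¹) := by ring
    _ = (∏ p ∈ R' \ R, d (ℓ p)) * ∏ p ∈ R \ R', (d (ℓ p))⁻¹ := by rw [hinter, one_mul]
    _ ≤ _ := by
      refine mul_le_mul hb1 hb2 ?_ (by positivity)
      exact Finset.prod_nonneg fun p _ => (inv_pos.2 (hd _)).le

/-- the turn weight at a position -/
noncomputable def qp (κ : KD S) (ℓ : ℕ → S × Bool) (p : ℕ) : ℝ := κ.q (hinv (ℓ (p - 1))) (ℓ p)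

theorem qp_pos (κ : KD S) (ℓ : ℕ → S × Bool) (p : ℕ) : 0 < qp κ ℓ p :=
  lt_of_lt_of_le κ.q0_pos (κ.q0_le _ _)

omit [Fintype S] in
theorem hinv_hinv_loc (a : S × Bool) : hinv (hinv a) = a := by simp [hinv]

theorem qp_le_one (κ : KD S) {σ : Shape} {ℓ : ℕ → S × Bool} (hℓ : σ.LabOK ℓ) {p : ℕ}
    (hp : σ.Cor p) : qp κ ℓ p ≤ 1 := by
  refine κ.q_le_one _ _ ?_
  have h1 := hℓ.red (p - 1) hp.2.1 (by rw [Nat.sub_add_cancel hp.1]; exact hp.2.2)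
  rw [Nat.sub_add_cancel hp.1] at h1
  exact fun h => h1 h.symm

theorem qp_par (κ : KD S) {σ : Shape} {ℓ : ℕ → S × Bool} (hℓ : σ.LabOK ℓ) {p v : ℕ}
    (hp : σ.Cor p) (hv : σ.Cor v) (hpv : σ.cls p = σ.cls v) (h : σ.Par p v) :
    qp κ ℓ p = qp κ ℓ v := by
  have e1 : p - 1 + 1 = p := Nat.sub_add_cancel hp.1
  have e2 : v - 1 + 1 = v := Nat.sub_add_cancel hv.1
  rcases h with ⟨h1, h2⟩ | ⟨h1, h2⟩
  · have a1 : ℓ p = ℓ v := hℓ.same p hp.2.2 v hv.2.2 hpv h2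
    have a2 : ℓ (p - 1) = ℓ (v - 1) := hℓ.same (p - 1) hp.2.1 (v - 1) hv.2.1 h1
      (by rw [e1, e2]; exact hpv)
    unfold qp
    rw [a1, a2]
  · have a1 : ℓ p = hinv (ℓ (v - 1)) := hℓ.opp p hp.2.2 (v - 1) hv.2.1 (by rw [e2]; exact hpv) h2
    have a2 : ℓ (p - 1) = hinv (ℓ v) := hℓ.opp (p - 1) hp.2.1 v hv.2.2 h1 (by rw [e1]; exact hpv)
    unfold qp
    rw [a1, a2, hinv_hinv_loc, κ.q_symm]

theorem qp_mate (κ : KD S) {σ : Shape} (hσ : σ.Basic) {ℓ : ℕ → S × Bool} (hℓ : σ.LabOK ℓ)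
    {p p' : ℕ} (h : σ.mt p = some p') : qp κ ℓ p' = qp κ ℓ p := by
  have a1 := hℓ.mate p p' h
  have a2 := hℓ.mate p' p (hσ.mt_symm p p' h)
  unfold qp
  rw [a1, ← a2, κ.q_symm]

/-- the product of the Kraft weights of all levels -/
theorem prod_Wt (κ : KD S) {Z I : ℕ} {σ : Shape} (hσ : σ.Good Z I) {ℓ : ℕ → S × Bool}
    (hℓ : σ.LabOK ℓ) : ∏ t ∈ Finset.Icc 1 Z, Wt κ σ t ℓ =
      ∏ p ∈ (Finset.range σ.T).filter (fun p => σ.InR (σ.cls p)), qp κ ℓ p := by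
  have h1 : ∏ t ∈ Finset.Icc 1 Z, Wt κ σ t ℓ =
      ∏ v ∈ (Finset.range σ.T).filter (fun v => σ.InR v), qp κ ℓ v ^ σ.Mv v := by
    have e1 : ∀ t ∈ Finset.Icc 1 Z, Wt κ σ t ℓ =
        ∏ v ∈ (Finset.range σ.T).filter (fun v => σ.InR v),
          (if t ≤ σ.Mv v then qp κ ℓ v else 1) := by
      intro t _
      rw [← Finset.prod_filter, Finset.filter_filter]
      rfl
    rw [Finset.prod_congr rfl e1, Finset.prod_comm]
    refine Finset.prod_congr rfl fun v _ => ?_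
    rw [← Finset.prod_filter, Finset.prod_const]
    congr 1
    have e2 : (Finset.Icc 1 Z).filter (fun t => t ≤ σ.Mv v) = Finset.Icc 1 (σ.Mv v) := by
      ext t
      simp only [Finset.mem_filter, Finset.mem_Icc]
      have := hσ.card_cls v
      omega
    rw [e2]
    simp
  rw [h1, ← Finset.prod_fiberwise_of_maps_to
    (s := (Finset.range σ.T).filter (fun p => σ.InR (σ.cls p)))
    (t := (Finset.range σ.T).filter (fun v => σ.InR v)) (g := σ.cls) (f := qp κ ℓ)]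
  · refine Finset.prod_congr rfl fun v hv => ?_
    simp only [Finset.mem_filter, Finset.mem_range] at hv
    have e3 : ((Finset.range σ.T).filter (fun p => σ.InR (σ.cls p))).filter
        (fun p => σ.cls p = v) = (Finset.range σ.T).filter (fun p => σ.cls p = v) := by
      ext p
      simp only [Finset.mem_filter, Finset.mem_range]
      constructor
      · rintro ⟨⟨h1, h2⟩, h3⟩
        exact ⟨h1, h3⟩
      · rintro ⟨h1, h3⟩
        exact ⟨⟨h1, h3 ▸ hv.2⟩, h3⟩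
    rw [e3, Finset.prod_eq_pow_card (b := qp κ ℓ v)]
    · rfl
    · intro p hp
      simp only [Finset.mem_filter, Finset.mem_range] at hp
      have hreg := hv.2.1
      exact qp_par κ hℓ (hreg.cor hp.1 hp.2) hreg.cor_self (by rw [hp.2, hreg.cls_self])
        (hreg.par hp.1 hp.2 hreg.1 hreg.2.1)
  · intro p hp
    simp only [Finset.mem_filter, Finset.mem_range] at hp ⊢
    exact ⟨lt_of_le_of_lt (hσ.cls_le p) hp.1, hp.2⟩

theorem Prec_asymm {σ : Shape} {v w : ℕ} (h : σ.Prec v w) (h' : σ.Prec w v) : False := by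
  unfold Shape.Prec at h h'
  omega

/-- mate pairing -/
theorem prod_q (κ : KD S) {Z I : ℕ} {σ : Shape} (hσ : σ.Good Z I) (ℓ : ℕ → S × Bool)
    (hℓ : σ.LabOK ℓ) :
    ∏ p ∈ σ.RP, κ.q (hinv (ℓ (p - 1))) (ℓ p) ≤
      (κ.q0⁻¹) ^ (σ.ug + Z * I) * (∏ t ∈ Finset.Icc 1 Z, Wt κ σ t ℓ) ^ 2 := by
  rw [prod_Wt κ hσ hℓ]
  change ∏ p ∈ σ.RP, qp κ ℓ p ≤ _
  set Rp := (Finset.range σ.T).filter (fun p => σ.InR (σ.cls p)) with hRp
  set m : ℕ → ℕ := fun p => (σ.mt p).getD 0 with hm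
  set G := Rp.filter (fun p => ∃ p', σ.mt p = some p' ∧ σ.Reg (σ.cls p')) with hG
  have hmem : ∀ p, p ∈ Rp ↔ p < σ.T ∧ σ.InR (σ.cls p) := by
    intro p; rw [hRp]; simp
  have hsub : Rp ⊆ σ.RP := by
    intro p hp
    rw [hmem] at hp
    exact mem_RP.2 ⟨hp.1, hp.2.1⟩
  have hinj : Set.InjOn m (G : Set ℕ) := by
    intro a ha b hb hab
    rw [Finset.mem_coe, hG, Finset.mem_filter] at ha hb
    obtain ⟨_, a', ha', _⟩ := ha
    obtain ⟨_, b', hb', _⟩ := hb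
    simp only [hm, ha', hb', Option.getD_some] at hab
    have h1 := hσ.mt_symm _ _ ha'
    have h2 := hσ.mt_symm _ _ hb'
    rw [hab, h2] at h1
    exact (Option.some.inj h1).symm
  have hmlt : ∀ p p', σ.mt p = some p' → p' < σ.T := by
    intro p p' h
    have h1 := hσ.mt_cor _ _ (hσ.mt_symm _ _ h)
    have := hσ.D_lt _ h1.2.2
    omega
  have hP' : G.image m ⊆ σ.RP \ Rp := by
    intro p' hp'
    rw [Finset.mem_image] at hp'
    obtain ⟨p, hp, rfl⟩ := hp'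
    rw [hG, Finset.mem_filter] at hp
    obtain ⟨hp1, p', hp2, hp3⟩ := hp
    have e : m p = p' := by simp [hm, hp2]
    rw [e, Finset.mem_sdiff, mem_RP, hmem]
    refine ⟨⟨hmlt p p' hp2, hp3⟩, ?_⟩
    rintro ⟨_, hR⟩
    rw [hmem] at hp1
    exact Prec_asymm (hp1.2.2 p p' hp1.1 rfl hp2 hp3)
      (hR.2 p' p (hmlt p p' hp2) rfl (hσ.mt_symm _ _ hp2) hp1.2.1)
  have hq1 : ∀ p ∈ σ.RP, qp κ ℓ p ≤ 1 := fun p hp => qp_le_one κ hℓ (cor_of_RP hp)
  have s1 : (∏ p ∈ σ.RP \ Rp, qp κ ℓ p) * ∏ p ∈ Rp, qp κ ℓ p = ∏ p ∈ σ.RP, qp κ ℓ p :=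
    Finset.prod_sdiff hsub
  have s2 : (∏ p ∈ (σ.RP \ Rp) \ G.image m, qp κ ℓ p) * ∏ p ∈ G.image m, qp κ ℓ p =
      ∏ p ∈ σ.RP \ Rp, qp κ ℓ p := Finset.prod_sdiff hP'
  have s3 : ∏ p ∈ G.image m, qp κ ℓ p = ∏ p ∈ G, qp κ ℓ p := by
    rw [Finset.prod_image hinj]
    refine Finset.prod_congr rfl fun p hp => ?_
    rw [hG, Finset.mem_filter] at hp
    obtain ⟨_, p', hp2, _⟩ := hp
    have e : m p = p' := by simp [hm, hp2]
    rw [e]
    exact qp_mate κ hσ.toBasic hℓ hp2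
  have s4 : (∏ p ∈ Rp \ G, qp κ ℓ p) * ∏ p ∈ G, qp κ ℓ p = ∏ p ∈ Rp, qp κ ℓ p :=
    Finset.prod_sdiff (Finset.filter_subset _ _)
  have hcard : (Rp \ G).card ≤ σ.ug + Z * I := by
    have hsub2 : Rp \ G ⊆ ((Finset.range σ.T).filter (fun p => σ.Cor p ∧ σ.mt p = none)) ∪
        σ.NR.image m := by
      intro p hp
      obtain ⟨hp1, hp2⟩ := Finset.mem_sdiff.1 hp
      have hp3 : ¬ ∃ p', σ.mt p = some p' ∧ σ.Reg (σ.cls p') := fun h =>
        hp2 (by rw [hG]; exact Finset.mem_filter.2 ⟨hp1, h⟩)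
      rw [hmem] at hp1
      rw [Finset.mem_union, Finset.mem_filter, Finset.mem_range, Finset.mem_image]
      cases hmt : σ.mt p with
      | none => exact Or.inl ⟨hp1.1, hp1.2.1.cor hp1.1 rfl, rfl⟩
      | some p' =>
        right
        refine ⟨p', ?_, ?_⟩
        · simp only [Shape.NR, Finset.mem_filter, Finset.mem_range]
          exact ⟨hmlt p p' hmt, fun h => hp3 ⟨p', hmt, h⟩⟩
        · simp [hm, hσ.mt_symm _ _ hmt]
    have h1 := Finset.card_le_card hsub2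
    have h2 := Finset.card_union_le
      ((Finset.range σ.T).filter (fun p => σ.Cor p ∧ σ.mt p = none)) (σ.NR.image m)
    have h3 : (σ.NR.image m).card ≤ σ.NR.card := Finset.card_image_le
    have h4 := NR_card hσ
    unfold Shape.ug
    omega
  have hq0 : κ.q0 ^ (σ.ug + Z * I) ≤ ∏ p ∈ Rp \ G, qp κ ℓ p := by
    calc κ.q0 ^ (σ.ug + Z * I) ≤ κ.q0 ^ (Rp \ G).card :=
          pow_le_pow_of_le_one κ.q0_pos.le κ.q0_lt.le hcard
      _ = ∏ _p ∈ Rp \ G, κ.q0 := by rw [Finset.prod_const]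
      _ ≤ _ := Finset.prod_le_prod (fun _ _ => κ.q0_pos.le) (fun p _ => κ.q0_le _ _)
  have hAG : 0 < ∏ p ∈ G, qp κ ℓ p := Finset.prod_pos fun p _ => qp_pos κ ℓ p
  have hAR : 0 < ∏ p ∈ Rp, qp κ ℓ p := Finset.prod_pos fun p _ => qp_pos κ ℓ p
  have hx : ∏ p ∈ (σ.RP \ Rp) \ G.image m, qp κ ℓ p ≤ 1 := by
    refine Finset.prod_le_one (fun p _ => (qp_pos κ ℓ p).le) fun p hp => ?_
    exact hq1 p (Finset.mem_sdiff.1 (Finset.mem_sdiff.1 hp).1).1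
  have h5 : ∏ p ∈ σ.RP \ Rp, qp κ ℓ p ≤ ∏ p ∈ G, qp κ ℓ p := by
    rw [← s2, s3]
    exact mul_le_of_le_one_left hAG.le hx
  have h6 : ∏ p ∈ G, qp κ ℓ p ≤ (κ.q0⁻¹) ^ (σ.ug + Z * I) * ∏ p ∈ Rp, qp κ ℓ p := by
    rw [← s4, inv_pow, ← div_eq_inv_mul, le_div_iff₀ (pow_pos κ.q0_pos _), mul_comm]
    exact mul_le_mul_of_nonneg_right hq0 hAG.le
  rw [← s1]
  calc (∏ p ∈ σ.RP \ Rp, qp κ ℓ p) * ∏ p ∈ Rp, qp κ ℓ p
      ≤ ((κ.q0⁻¹) ^ (σ.ug + Z * I) * ∏ p ∈ Rp, qp κ ℓ p) * ∏ p ∈ Rp, qp κ ℓ p :=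
        mul_le_mul_of_nonneg_right (h5.trans h6) hAR.le
    _ = _ := by ring

end Crest.Agent.R177.Loc
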