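import Crest.Agent.R177.LocCoreR
import Crest.Agent.R177.LocCoreB
import Crest.Agent.R177.LocChi

/-!
# Row 177, module LOC: task LD, the core inequality (helper143)
-/

set_option autoImplicit false

open scoped Classical

namespace Crest.Agent.R177.Loc

open Crest.Agent.R177
open Shape Finset

namespace Core

variable {S : Type} {σ : Shape} {ℓ : ℕ → S × Bool}

/-- marked to unmarked darts -/
theorem om_le (hσ : σ.Basic) :
    σ.om ≤ ∑ v ∈ σ.mrk, ∑ w ∈ (range σ.T).filter (fun w => w ∉ σ.mrk), σ.am v w := by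
  unfold Shape.om Shape.am
  simp_rw [card_filter]
  rw [sum_congr rfl (fun v _ => sum_comm), sum_comm]
  refine sum_le_sum fun q hq => ?_
  by_cases h : (σ.cls q ∈ σ.mrk) ≠ (σ.cls (q + 1) ∈ σ.mrk)
  · rw [if_pos h]
    have hl1 : σ.cls q ∈ range σ.T :=
      mem_range.mpr (lt_of_le_of_lt (hσ.cls_le _) (hσ.lt_of_mem hq))
    have hl2 : σ.cls (q + 1) ∈ range σ.T :=
      mem_range.mpr (lt_of_le_of_lt (hσ.cls_le _) (hσ.succ_lt_of_mem hq))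
    have key : ∀ v w : ℕ, v ∈ σ.mrk → w ∈ range σ.T → w ∉ σ.mrk →
        ((σ.cls q = v ∧ σ.cls (q + 1) = w) ∨ (σ.cls q = w ∧ σ.cls (q + 1) = v)) →
        1 ≤ ∑ v ∈ σ.mrk, ∑ w ∈ (range σ.T).filter (fun w => w ∉ σ.mrk),
          (if (σ.cls q = v ∧ σ.cls (q + 1) = w) ∨ (σ.cls q = w ∧ σ.cls (q + 1) = v)
            then 1 else 0) := by
      intro v w hv hw hw' hc
      have h1 := single_le_sum (f := fun v => ∑ w ∈ (range σ.T).filter (fun w => w ∉ σ.mrk),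
          (if (σ.cls q = v ∧ σ.cls (q + 1) = w) ∨ (σ.cls q = w ∧ σ.cls (q + 1) = v)
            then 1 else 0)) (fun _ _ => Nat.zero_le _) hv
      refine le_trans ?_ h1
      have h2 := single_le_sum (s := (range σ.T).filter (fun w => w ∉ σ.mrk)) (f := fun w =>
          (if (σ.cls q = v ∧ σ.cls (q + 1) = w) ∨ (σ.cls q = w ∧ σ.cls (q + 1) = v)
            then 1 else 0)) (fun _ _ => Nat.zero_le _) (mem_filter.mpr ⟨hw, hw'⟩)
      refine le_trans ?_ h2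
      simp only [if_pos hc, le_refl]
    by_cases h1 : σ.cls q ∈ σ.mrk
    · have h2 : σ.cls (q + 1) ∉ σ.mrk := fun h2 => h (by simp [h1, h2])
      exact key _ _ h1 hl2 h2 (Or.inl ⟨rfl, rfl⟩)
    · have h2 : σ.cls (q + 1) ∈ σ.mrk := by
        by_contra h2
        exact h (by simp [h1, h2])
      exact key _ _ h2 hl1 h1 (Or.inr ⟨rfl, rfl⟩)
  · rw [if_neg h]
    exact Nat.zero_le _

/-- open ends at unmarked classes -/
theorem oe_ge (V : Finset ℕ) (hV : ∀ v ∈ V, v ∉ σ.mrk) :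
    ∑ v ∈ V, ((range σ.T).filter (fun p => σ.OpenEnd p ∧ σ.cls p = v)).card ≤ σ.oe := by
  unfold Shape.oe
  rw [← card_biUnion]
  · apply card_le_card
    intro p hp
    simp only [mem_biUnion, mem_filter] at hp ⊢
    obtain ⟨v, hv, h1, h2, h3⟩ := hp
    exact ⟨h1, h2, by rw [h3]; exact hV v hv⟩
  · intro v _ w _ hvw
    rw [Function.onFun, disjoint_left]
    intro p hp hp'
    rw [mem_filter] at hp hp'
    exact hvw (hp.2.2.symm.trans hp'.2.2)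

end Core

open Loc.Core

variable {S : Type} [Fintype S]

theorem core (κ : KD S) (M : Model S) (hf : κ.Fits M) (Z I : ℕ) : ∃ Cc : ℝ, 0 < Cc ∧
    ∀ σ : Shape, σ.Good Z I → ∀ m, 1 ≤ M.sz m → ∀ ℓ : ℕ → S × Bool, σ.LabOK ℓ →
      (∏ t ∈ Finset.Icc 1 Z, At M m σ t ℓ) ^ 2 * (M.sz m : ℝ) ^ σ.om ≤
        Cc * (M.sz m : ℝ) ^ σ.oe * (κ.q0⁻¹) ^ σ.ug * κ.ρ ^ σ.gl *
          (∏ t ∈ Finset.Icc 1 Z, Wt κ σ t ℓ) ^ 2 := by
  obtain ⟨c, hc1, hc⟩ := exists_Nm κ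
  obtain ⟨Cd, hCd, hCd'⟩ := prod_delta κ.δ κ.δ_pos Z I
  have htot := κ.one_le_tot
  set C2 : ℝ := (κ.tot ^ 2) ^ Z * c ^ (2 * Z) with hC2
  have hC21 : 1 ≤ C2 := by
    have h1 : 1 ≤ (κ.tot ^ 2) ^ Z := one_le_pow₀ (one_le_pow₀ htot)
    have h2 : 1 ≤ c ^ (2 * Z) := one_le_pow₀ hc1
    nlinarith
  have hC12 : c ^ (2 * Z) ≤ C2 := by
    have h1 : 1 ≤ (κ.tot ^ 2) ^ Z := one_le_pow₀ (one_le_pow₀ htot)
    have h2 : 0 < c ^ (2 * Z) := by positivity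
    nlinarith
  have hρ := κ.ρ_pos
  have hq0 := κ.q0_pos
  refine ⟨C2 ^ I * (Cd * (κ.ρ⁻¹) ^ (Z * I) * (κ.q0⁻¹) ^ (Z * I)), by positivity, ?_⟩
  intro σ hσ m hm ℓ hℓ
  have hB : σ.Basic := hσ.toBasic
  have hZ := hσ.card_cls
  have hs : (1 : ℝ) ≤ M.sz m := by exact_mod_cast hm
  have hs0 : (0 : ℝ) < M.sz m := by linarith
  rw [prod_At_sq M m hB hℓ Z]
  set G : ℕ → ℝ := fun v => ∏ t ∈ Icc 1 Z, Fac M m σ t ℓ v with hG
  have hG0 : ∀ v, 0 ≤ G v := fun v => prod_nonneg fun t _ => Fac_nonneg m t v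
  -- irregular classes
  set V1 := (range σ.T).filter (fun v => σ.cls v = v ∧ ¬ σ.Reg v) with hV1
  have hsplit : ∏ v ∈ range σ.T, G v =
      (∏ v ∈ (range σ.T).filter (fun v => σ.Reg v), G v) * ∏ v ∈ V1, G v := by
    rw [← prod_filter_mul_prod_filter_not (range σ.T) (fun v => σ.Reg v)]
    congr 1
    symm
    refine prod_subset ?_ ?_
    · intro v hv
      rw [hV1, mem_filter] at hv
      exact mem_filter.mpr ⟨hv.1, hv.2.2⟩
    · intro v hv hv'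
      rw [mem_filter] at hv
      rw [hV1, mem_filter] at hv'
      have h1 : σ.cls v ≠ v := fun h => hv' ⟨hv.1, h, hv.2⟩
      exact prod_eq_one fun t ht => noncan M m hB (mem_Icc.mp ht).1 h1
  have hirr : (∏ v ∈ V1, G v) * (M.sz m : ℝ) ^ σ.om ≤ C2 ^ I * (M.sz m : ℝ) ^ σ.oe := by
    set e : ℕ → ℕ := fun v => if v ∈ σ.mrk then
      ∑ w ∈ (range σ.T).filter (fun w => w ∉ σ.mrk), σ.am v w else 0 with he
    set o : ℕ → ℕ := fun v => if v ∈ σ.mrk then 0 else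
      ((range σ.T).filter (fun p => σ.OpenEnd p ∧ σ.cls p = v)).card with ho
    have h1 : ∀ v ∈ V1, G v * (M.sz m : ℝ) ^ e v ≤ C2 * (M.sz m : ℝ) ^ o v := by
      intro v hv
      rw [hV1, mem_filter, mem_range] at hv
      by_cases hvm : v ∈ σ.mrk
      · simp only [he, ho, if_pos hvm, pow_zero, mul_one]
        exact (marked_le hf hc1 hc hm hB hZ hvm).trans hC12
      · simp only [he, ho, if_neg hvm, pow_zero, mul_one]
        exact unmarked_le hf hc1 hc hm hB hZ hvm _ (fun w => chi_le hB v w hv.1)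
    have h2 : (∏ v ∈ V1, G v) * (M.sz m : ℝ) ^ (∑ v ∈ V1, e v) ≤
        C2 ^ V1.card * (M.sz m : ℝ) ^ (∑ v ∈ V1, o v) := by
      rw [← prod_pow_eq_pow_sum, ← prod_pow_eq_pow_sum, ← prod_mul_distrib, ← prod_const,
        ← prod_mul_distrib]
      exact prod_le_prod (fun v _ => mul_nonneg (hG0 v) (by positivity)) h1
    have h3 : σ.om ≤ ∑ v ∈ V1, e v := by
      refine (om_le hB).trans ?_
      have h4 : σ.mrk ⊆ V1 := by
        intro v hv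
        rw [hV1, mem_filter, mem_range]
        have := hB.mrk_lt v hv
        exact ⟨this.1, this.2, fun h => h.2.2.1 hv⟩
      refine le_trans ?_ (sum_le_sum_of_subset h4)
      refine sum_le_sum fun v hv => ?_
      simp only [he, if_pos hv, le_refl]
    have h5 : ∑ v ∈ V1, o v ≤ σ.oe := by
      have h6 : ∑ v ∈ V1, o v = ∑ v ∈ V1.filter (fun v => v ∉ σ.mrk),
          ((range σ.T).filter (fun p => σ.OpenEnd p ∧ σ.cls p = v)).card := by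
        conv_rhs => rw [sum_filter]
        refine sum_congr rfl fun v _ => ?_
        by_cases hvm : v ∈ σ.mrk
        · simp [ho, hvm]
        · simp [ho, hvm]
      rw [h6]
      exact oe_ge _ fun v hv => (mem_filter.mp hv).2
    have h7 : V1.card ≤ I := hσ.irr
    calc (∏ v ∈ V1, G v) * (M.sz m : ℝ) ^ σ.om
        ≤ (∏ v ∈ V1, G v) * (M.sz m : ℝ) ^ (∑ v ∈ V1, e v) := by
          refine mul_le_mul_of_nonneg_left ?_ (prod_nonneg fun v _ => hG0 v)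
          exact pow_le_pow_right₀ hs h3
      _ ≤ C2 ^ V1.card * (M.sz m : ℝ) ^ (∑ v ∈ V1, o v) := h2
      _ ≤ C2 ^ I * (M.sz m : ℝ) ^ σ.oe := by
          refine mul_le_mul (pow_le_pow_right₀ hC21 h7) (pow_le_pow_right₀ hs h5)
            (by positivity) (by positivity)
  -- regular classes
  have hreg : ∏ v ∈ (range σ.T).filter (fun v => σ.Reg v), G v ≤
      (Cd * (κ.ρ⁻¹) ^ (Z * I) * (κ.q0⁻¹) ^ (Z * I)) *
        ((κ.q0⁻¹) ^ σ.ug * κ.ρ ^ σ.gl * (∏ t ∈ Icc 1 Z, Wt κ σ t ℓ) ^ 2) := by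
    have h1 : ∏ v ∈ (range σ.T).filter (fun v => σ.Reg v), G v ≤
        ∏ v ∈ (range σ.T).filter (fun v => σ.Reg v), X κ ℓ v ^ σ.Mv v :=
      prod_le_prod (fun v _ => hG0 v) fun v hv =>
        reg_le hf hm hB hℓ hZ (mem_filter.mp hv).2
    refine h1.trans ?_
    rw [prod_reg κ hB hℓ]
    have h2 : ∏ p ∈ σ.RP, X κ ℓ p = κ.ρ ^ σ.RP.card *
        (∏ p ∈ σ.RP, κ.q (hinv (ℓ (p - 1))) (ℓ p)) *
        ∏ p ∈ σ.RP, (κ.δ (ℓ (p - 1)) * (κ.δ (ℓ p))⁻¹) := by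
      unfold X
      rw [prod_mul_distrib, prod_mul_distrib, prod_const]
    have h3 := prod_q κ hσ ℓ hℓ
    have h4 := hCd' σ hσ ℓ
    have h5 := gl_le_RP hσ
    have h6 : κ.ρ ^ σ.RP.card ≤ (κ.ρ⁻¹) ^ (Z * I) * κ.ρ ^ σ.gl := by
      rw [inv_pow, ← div_eq_inv_mul, le_div_iff₀ (by positivity), ← pow_add]
      exact pow_le_pow_of_le_one hρ.le κ.ρ_lt.le h5
    have h7 : 0 ≤ ∏ p ∈ σ.RP, κ.q (hinv (ℓ (p - 1))) (ℓ p) :=
      prod_nonneg fun p _ => (Core.q_pos κ _ _).le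
    have h8 : 0 ≤ ∏ p ∈ σ.RP, (κ.δ (ℓ (p - 1)) * (κ.δ (ℓ p))⁻¹) :=
      prod_nonneg fun p _ => mul_nonneg (κ.δ_pos _).le (inv_nonneg.mpr (κ.δ_pos _).le)
    change ∏ p ∈ σ.RP, X κ ℓ p ≤ _
    rw [h2]
    calc κ.ρ ^ σ.RP.card * (∏ p ∈ σ.RP, κ.q (hinv (ℓ (p - 1))) (ℓ p)) *
          ∏ p ∈ σ.RP, (κ.δ (ℓ (p - 1)) * (κ.δ (ℓ p))⁻¹)
        ≤ ((κ.ρ⁻¹) ^ (Z * I) * κ.ρ ^ σ.gl) *
            ((κ.q0⁻¹) ^ (σ.ug + Z * I) * (∏ t ∈ Icc 1 Z, Wt κ σ t ℓ) ^ 2) * Cd := by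
          gcongr
      _ = _ := by rw [pow_add]; ring
  have hWt : 0 ≤ ∏ v ∈ V1, G v := prod_nonneg fun v _ => hG0 v
  calc (∏ v ∈ range σ.T, G v) * (M.sz m : ℝ) ^ σ.om
      = (∏ v ∈ (range σ.T).filter (fun v => σ.Reg v), G v) *
          ((∏ v ∈ V1, G v) * (M.sz m : ℝ) ^ σ.om) := by rw [hsplit]; ring
    _ ≤ ((Cd * (κ.ρ⁻¹) ^ (Z * I) * (κ.q0⁻¹) ^ (Z * I)) *
        ((κ.q0⁻¹) ^ σ.ug * κ.ρ ^ σ.gl * (∏ t ∈ Icc 1 Z, Wt κ σ t ℓ) ^ 2)) *
          (C2 ^ I * (M.sz m : ℝ) ^ σ.oe) := by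
        refine mul_le_mul hreg hirr (mul_nonneg hWt (by positivity)) (by positivity)
    _ = _ := by ring

end Crest.Agent.R177.Loc
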