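import Crest.Agent.R177.LocHe

/-!
# Row 177, module LOC: task LD, products over levels (helper143)
-/

set_option autoImplicit false

open scoped Classical

namespace Crest.Agent.R177.Loc

open Crest.Agent.R177
open Shape Finset

namespace Core

variable {S : Type} {σ : Shape} {ℓ : ℕ → S × Bool}

/-- neighbours at level `t` along edges which are not inside the marked part -/
noncomputable def NB (σ : Shape) (t v : ℕ) : Finset ℕ :=
  (range σ.T).filter (fun w => t ≤ σ.am v w ∧ ¬ (v ∈ σ.mrk ∧ w ∈ σ.mrk))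

theorem NB_eq {t v : ℕ} (hv : v ∉ σ.mrk) : NB σ t v = σ.Nb t v := by
  unfold NB Shape.Nb
  ext w
  simp [hv]

theorem prod_Et (hσ : σ.Basic) {t : ℕ} (ht : 1 ≤ t) (f : ℕ → ℕ → ℝ)
    (hf : ∀ v w, t ≤ σ.am v w → f v w = f w v) :
    (∏ e ∈ σ.Et t, f e.1 e.2) ^ 2 = ∏ v ∈ range σ.T, ∏ w ∈ NB σ t v, f v w := by
  have h1 : ∏ v ∈ range σ.T, ∏ w ∈ NB σ t v, f v w =
      ∏ x ∈ (range σ.T ×ˢ range σ.T).filter
        (fun x => t ≤ σ.am x.1 x.2 ∧ ¬ (x.1 ∈ σ.mrk ∧ x.2 ∈ σ.mrk)), f x.1 x.2 := by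
    rw [prod_filter, prod_product]
    refine prod_congr rfl fun v _ => ?_
    unfold NB
    rw [prod_filter]
  rw [h1, pow_two]
  conv_rhs => rw [← prod_filter_mul_prod_filter_not _ (fun x : ℕ × ℕ => x.1 < x.2)]
  refine congrArg₂ (fun a b : ℝ => a * b) ?_ ?_
  · refine prod_congr ?_ fun _ _ => rfl
    unfold Shape.Et
    ext x
    simp only [mem_filter]
    tauto
  · refine prod_nbij' (fun x => (x.2, x.1)) (fun x => (x.2, x.1)) ?_ ?_ ?_ ?_ ?_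
    · rintro ⟨v, w⟩ hx
      unfold Shape.Et at hx
      simp only [mem_filter, mem_product] at hx ⊢
      obtain ⟨⟨h1, h2⟩, h3, h4, h5⟩ := hx
      rw [Shape.am_comm] at h4
      exact ⟨⟨⟨h2, h1⟩, h4, fun h => h5 ⟨h.2, h.1⟩⟩, by omega⟩
    · rintro ⟨v, w⟩ hx
      unfold Shape.Et
      simp only [mem_filter, mem_product] at hx ⊢
      obtain ⟨⟨⟨h1, h2⟩, h3, h4⟩, h5⟩ := hx
      have h6 := am_ne hσ (ht.trans h3)
      rw [Shape.am_comm] at h3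
      refine ⟨⟨h2, h1⟩, by omega, h3, fun h => h4 ⟨h.2, h.1⟩⟩
    · intro x _; rfl
    · intro x _; rfl
    · rintro ⟨v, w⟩ hx
      unfold Shape.Et at hx
      simp only [mem_filter] at hx
      exact hf _ _ hx.2.2.1

variable [Fintype S]

/-- factor of the class `v` at level `t` -/
noncomputable def Fac (M : Model S) (m : ℕ) (σ : Shape) (t : ℕ) (ℓ : ℕ → S × Bool) (v : ℕ) : ℝ :=
  (if v ∉ σ.mrk ∧ (σ.Nb t v).Nonempty then cnt M m σ t ℓ v ^ 2 else 1) *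
    ∏ w ∈ NB σ t v, (M.N (σ.he ℓ v w).1 * M.sz m)⁻¹

theorem At_sq (M : Model S) (m : ℕ) (hσ : σ.Basic) (hℓ : σ.LabOK ℓ) {t : ℕ} (ht : 1 ≤ t) :
    At M m σ t ℓ ^ 2 = ∏ v ∈ range σ.T, Fac M m σ t ℓ v := by
  unfold At Fac
  have h1 := prod_Et hσ ht (fun v w => (M.N (σ.he ℓ v w).1 * M.sz m : ℝ))
    (fun v w h => by simp only [he_fst_comm hσ hℓ (ht.trans h)])
  rw [div_pow, h1, prod_mul_distrib, div_eq_mul_inv]
  congr 1
  · unfold Shape.Vt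
    rw [← prod_pow, prod_filter]
  · rw [← prod_inv_distrib]
    exact prod_congr rfl fun v _ => by rw [← prod_inv_distrib]

theorem prod_At_sq (M : Model S) (m : ℕ) (hσ : σ.Basic) (hℓ : σ.LabOK ℓ) (Z : ℕ) :
    (∏ t ∈ Icc 1 Z, At M m σ t ℓ) ^ 2 =
      ∏ v ∈ range σ.T, ∏ t ∈ Icc 1 Z, Fac M m σ t ℓ v := by
  rw [← prod_pow, prod_comm]
  exact prod_congr rfl fun t ht => At_sq M m hσ hℓ (mem_Icc.mp ht).1

theorem cnt_nonneg (M : Model S) (m t v : ℕ) : 0 ≤ cnt M m σ t ℓ v := by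
  unfold cnt
  positivity

theorem cnt_le_tot {κ : KD S} {M : Model S} (hf : κ.Fits M) (m t v : ℕ) :
    cnt M m σ t ℓ v ≤ κ.tot * M.sz m := by
  have := M.fin m
  refine le_trans ?_ (hf.tot m)
  unfold cnt
  exact_mod_cast Nat.card_le_card_of_injective
    (fun x : {x : M.V m // ∀ w ∈ σ.Nb t v, M.has m x (σ.he ℓ v w)} => x.1)
    Subtype.val_injective

theorem cnt_le_n {κ : KD S} {M : Model S} (hf : κ.Fits M) (m t v : ℕ) {a b : S × Bool} (hab : a ≠ b)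
    {w w' : ℕ} (hw : w ∈ σ.Nb t v) (hw' : w' ∈ σ.Nb t v) (ha : σ.he ℓ v w = a)
    (hb : σ.he ℓ v w' = b) : cnt M m σ t ℓ v ≤ κ.n a b * M.sz m := by
  have := M.fin m
  rw [hf.n]
  refine le_trans ?_ (M.n_le m a b hab)
  unfold cnt
  have h : Function.Injective (fun x : {x : M.V m // ∀ w ∈ σ.Nb t v, M.has m x (σ.he ℓ v w)} =>
      (⟨x.1, ha ▸ x.2 w hw, hb ▸ x.2 w' hw'⟩ : {x : M.V m // M.has m x a ∧ M.has m x b})) := by
    intro x y hxy
    simp only [Subtype.mk.injEq] at hxy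
    exact Subtype.ext hxy
  exact_mod_cast Nat.card_le_card_of_injective _ h

/-- lower bound for the numbers `N s` -/
theorem exists_Nm (κ : KD S) : ∃ c : ℝ, 1 ≤ c ∧ ∀ s, (κ.N s)⁻¹ ≤ c := by
  refine ⟨1 + ∑ s, (κ.N s)⁻¹, ?_, fun s => ?_⟩
  · have : 0 ≤ ∑ s, (κ.N s)⁻¹ := sum_nonneg fun s _ => (inv_pos.mpr (κ.N_pos s)).le
    linarith
  · have := single_le_sum (f := fun s => (κ.N s)⁻¹)
      (fun s _ => (inv_pos.mpr (κ.N_pos s)).le) (mem_univ s)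
    linarith

theorem Fac_nonneg {M : Model S} (m t v : ℕ) : 0 ≤ Fac M m σ t ℓ v := by
  unfold Fac
  refine mul_nonneg ?_ (prod_nonneg fun w _ => ?_)
  · split_ifs
    · exact sq_nonneg _
    · exact zero_le_one
  · exact inv_nonneg.mpr (mul_nonneg (M.N_pos _).le (Nat.cast_nonneg _))

theorem prod_inv_le {κ : KD S} {M : Model S} (hf : κ.Fits M) {c : ℝ}
    (hc : ∀ s, (κ.N s)⁻¹ ≤ c) {m : ℕ} (hm : 1 ≤ M.sz m) (t v : ℕ) :
    ∏ w ∈ NB σ t v, (M.N (σ.he ℓ v w).1 * M.sz m : ℝ)⁻¹ ≤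
      c ^ (NB σ t v).card * ((M.sz m : ℝ)⁻¹) ^ (NB σ t v).card := by
  rw [← mul_pow, ← prod_const]
  refine prod_le_prod (fun w _ => ?_) (fun w _ => ?_)
  · exact inv_nonneg.mpr (mul_nonneg (M.N_pos _).le (Nat.cast_nonneg _))
  · rw [mul_inv, ← hf.N]
    exact mul_le_mul_of_nonneg_right (hc _) (by positivity)

/-- sum of the numbers of neighbours over all levels -/
theorem sum_NB (hσ : σ.Basic) {Z : ℕ} (hZ : ∀ v, σ.Mv v ≤ Z) (v : ℕ) :
    ∑ t ∈ Icc 1 Z, (NB σ t v).card =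
      ∑ w ∈ (range σ.T).filter (fun w => ¬ (v ∈ σ.mrk ∧ w ∈ σ.mrk)), σ.am v w := by
  unfold NB
  simp_rw [card_filter]
  rw [sum_comm, sum_filter]
  refine sum_congr rfl fun w _ => ?_
  by_cases h : v ∈ σ.mrk ∧ w ∈ σ.mrk
  · simp [h]
  · simp only [h, not_false_eq_true, and_true, if_true]
    rw [← card_filter]
    have h1 : (Icc 1 Z).filter (fun t => t ≤ σ.am v w) = Icc 1 (σ.am v w) := by
      ext t
      simp only [mem_filter, mem_Icc]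
      have := (hσ.am_le v w).trans (hZ v)
      omega
    rw [h1, Nat.card_Icc]
    omega

/-- bound for a marked class -/
theorem marked_le {κ : KD S} {M : Model S} (hf : κ.Fits M) {c : ℝ} (hc1 : 1 ≤ c)
    (hc : ∀ s, (κ.N s)⁻¹ ≤ c) {m : ℕ} (hm : 1 ≤ M.sz m) (hσ : σ.Basic) {Z : ℕ}
    (hZ : ∀ v, σ.Mv v ≤ Z) {v : ℕ} (hv : v ∈ σ.mrk) :
    (∏ t ∈ Icc 1 Z, Fac M m σ t ℓ v) *
      (M.sz m : ℝ) ^ (∑ w ∈ (range σ.T).filter (fun w => w ∉ σ.mrk), σ.am v w) ≤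
        c ^ (2 * Z) := by
  have hs : (1 : ℝ) ≤ M.sz m := by exact_mod_cast hm
  have hs0 : (0 : ℝ) < M.sz m := by linarith
  have h1 : ∑ t ∈ Icc 1 Z, (NB σ t v).card =
      ∑ w ∈ (range σ.T).filter (fun w => w ∉ σ.mrk), σ.am v w := by
    rw [sum_NB hσ hZ v]
    refine sum_congr ?_ fun _ _ => rfl
    ext w
    simp [hv]
  have h2 : ∏ t ∈ Icc 1 Z, Fac M m σ t ℓ v ≤ ∏ t ∈ Icc 1 Z,
      (c ^ (NB σ t v).card * ((M.sz m : ℝ)⁻¹) ^ (NB σ t v).card) := by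
    refine prod_le_prod (fun t _ => Fac_nonneg m t v) (fun t _ => ?_)
    unfold Fac
    rw [if_neg (by simp [hv]), one_mul]
    exact prod_inv_le hf hc hm t v
  rw [prod_mul_distrib, prod_pow_eq_pow_sum, prod_pow_eq_pow_sum, h1] at h2
  set e := ∑ w ∈ (range σ.T).filter (fun w => w ∉ σ.mrk), σ.am v w with he
  have h3 : e ≤ 2 * Z := by
    have h4 : e ≤ ∑ w ∈ range σ.T, σ.am v w :=
      sum_le_sum_of_subset (filter_subset _ _)
    have := sum_am_le hσ v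
    have := hZ v
    omega
  calc (∏ t ∈ Icc 1 Z, Fac M m σ t ℓ v) * (M.sz m : ℝ) ^ e
      ≤ (c ^ e * ((M.sz m : ℝ)⁻¹) ^ e) * (M.sz m : ℝ) ^ e :=
        mul_le_mul_of_nonneg_right h2 (by positivity)
    _ = c ^ e := by
        rw [mul_assoc, ← mul_pow, inv_mul_cancel₀ hs0.ne', one_pow, mul_one]
    _ ≤ c ^ (2 * Z) := pow_le_pow_right₀ hc1 h3

/-- there are no factors at noncanonical positions -/
theorem noncan (M : Model S) (m : ℕ) (hσ : σ.Basic) {t v : ℕ} (ht : 1 ≤ t) (hv : σ.cls v ≠ v) :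
    Fac M m σ t ℓ v = 1 := by
  have h1 : ∀ w, ¬ t ≤ σ.am v w := fun w hw => hv (cls_of_am hσ (ht.trans hw)).1
  unfold Fac
  have h2 : NB σ t v = ∅ := by
    unfold NB
    ext w
    simp [h1 w]
  have h3 : σ.Nb t v = ∅ := by
    unfold Shape.Nb
    ext w
    simp [h1 w]
  rw [h2, h3]
  simp

/-- bound for an unmarked class; `o` = number of open ends at this class -/
theorem unmarked_le {κ : KD S} {M : Model S} (hf : κ.Fits M) {c : ℝ} (hc1 : 1 ≤ c)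
    (hc : ∀ s, (κ.N s)⁻¹ ≤ c) {m : ℕ} (hm : 1 ≤ M.sz m) (hσ : σ.Basic) {Z : ℕ}
    (hZ : ∀ v, σ.Mv v ≤ Z) {v : ℕ} (hv : v ∉ σ.mrk) (o : ℕ)
    (hchi : ∀ w, 2 * σ.am v w ≤ (∑ w' ∈ range σ.T, σ.am v w') + o) :
    (∏ t ∈ Icc 1 Z, Fac M m σ t ℓ v) ≤
        (κ.tot ^ 2) ^ Z * c ^ (2 * Z) * (M.sz m : ℝ) ^ o := by
  have hs : (1 : ℝ) ≤ M.sz m := by exact_mod_cast hm
  have hs0 : (0 : ℝ) < M.sz m := by linarith
  have htot := κ.one_le_tot
  have h1 : ∑ t ∈ Icc 1 Z, (NB σ t v).card = ∑ w ∈ range σ.T, σ.am v w := by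
    rw [sum_NB hσ hZ v]
    refine sum_congr ?_ fun _ _ => rfl
    ext w
    simp [hv]
  set E := ∑ w ∈ range σ.T, σ.am v w with hE
  set T1 := (Icc 1 Z).filter (fun t => (σ.Nb t v).Nonempty) with hT1
  have hE2 : E ≤ 2 * Z := (sum_am_le hσ v).trans (by have := hZ v; omega)
  -- |T1| ≤ max am
  have h2 : 2 * T1.card ≤ E + o := by
    rcases T1.eq_empty_or_nonempty with h | h
    · rw [h]; simp
    · set tm := T1.max' h
      have h3 : tm ∈ T1 := T1.max'_mem h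
      rw [hT1, mem_filter] at h3
      obtain ⟨w, hw⟩ := h3.2
      unfold Shape.Nb at hw
      rw [mem_filter] at hw
      have h4 : T1 ⊆ Icc 1 tm := by
        intro t ht
        have := T1.le_max' t ht
        rw [hT1, mem_filter, mem_Icc] at ht
        exact mem_Icc.mpr ⟨ht.1.1, this⟩
      have h5 := card_le_card h4
      rw [Nat.card_Icc] at h5
      have := hchi w
      omega
  have hT1c : T1.card ≤ Z := by
    have h3 : T1.card ≤ (Icc 1 Z).card := card_filter_le _ _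
    rw [Nat.card_Icc] at h3
    omega
  have h3 : ∏ t ∈ Icc 1 Z, Fac M m σ t ℓ v ≤ ∏ t ∈ Icc 1 Z,
      ((if (σ.Nb t v).Nonempty then (κ.tot * M.sz m) ^ 2 else 1) *
      (c ^ (NB σ t v).card * ((M.sz m : ℝ)⁻¹) ^ (NB σ t v).card)) := by
    refine prod_le_prod (fun t _ => Fac_nonneg m t v) (fun t _ => ?_)
    unfold Fac
    refine mul_le_mul ?_ (prod_inv_le hf hc hm t v) (prod_nonneg fun w _ => ?_) ?_
    · by_cases h : (σ.Nb t v).Nonempty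
      · rw [if_pos ⟨hv, h⟩, if_pos h]
        exact pow_le_pow_left₀ (cnt_nonneg M m t v) (cnt_le_tot hf m t v) 2
      · rw [if_neg (fun h' => h h'.2), if_neg h]
    · exact inv_nonneg.mpr (mul_nonneg (M.N_pos _).le (Nat.cast_nonneg _))
    · split_ifs
      · positivity
      · exact zero_le_one
  rw [prod_mul_distrib, prod_mul_distrib, prod_pow_eq_pow_sum, prod_pow_eq_pow_sum, h1,
    ← prod_filter, prod_const, ← hT1] at h3
  refine h3.trans ?_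
  rw [mul_pow, mul_pow]
  have e1 : (κ.tot ^ 2) ^ T1.card ≤ (κ.tot ^ 2) ^ Z :=
    pow_le_pow_right₀ (one_le_pow₀ htot) hT1c
  have e2 : c ^ E ≤ c ^ (2 * Z) := pow_le_pow_right₀ hc1 hE2
  have e3 : (((M.sz m : ℝ)) ^ 2) ^ T1.card * ((M.sz m : ℝ)⁻¹) ^ E ≤ (M.sz m : ℝ) ^ o := by
    rw [inv_pow, ← div_eq_mul_inv, div_le_iff₀ (by positivity), ← pow_mul, ← pow_add]
    exact pow_le_pow_right₀ hs (by omega)
  calc (κ.tot ^ 2) ^ T1.card * ((M.sz m : ℝ) ^ 2) ^ T1.card * (c ^ E * ((M.sz m : ℝ)⁻¹) ^ E)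
      = (κ.tot ^ 2) ^ T1.card * c ^ E *
        (((M.sz m : ℝ) ^ 2) ^ T1.card * ((M.sz m : ℝ)⁻¹) ^ E) := by ring
    _ ≤ (κ.tot ^ 2) ^ Z * c ^ (2 * Z) * (M.sz m : ℝ) ^ o := by gcongr

end Core

end Crest.Agent.R177.Loc
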