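import Crest.Agent.R177.LocCoreA

/-!
# Row 177, module LOC: task LD, regular classes (helper143)
-/

set_option autoImplicit false

open scoped Classical

namespace Crest.Agent.R177.Loc

open Crest.Agent.R177
open Shape Finset

namespace Core

variable {S : Type} {σ : Shape} {ℓ : ℕ → S × Bool}

/-- labels at a position of a regular class -/
theorem lab_par (hℓ : σ.LabOK ℓ) {v p : ℕ} (hv : σ.Reg v) (hp : p < σ.T) (hpv : σ.cls p = v) :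
    (ℓ (p - 1) = ℓ (v - 1) ∧ ℓ p = ℓ v) ∨
      (ℓ (p - 1) = hinv (ℓ v) ∧ ℓ p = hinv (ℓ (v - 1))) := by
  obtain ⟨c1, c2, c3⟩ := hv.cor hp hpv
  obtain ⟨d1, d2, d3⟩ := hv.cor_self
  have e1 : p - 1 + 1 = p := by omega
  have e2 : v - 1 + 1 = v := by omega
  have hvv := hv.cls_self
  rcases hv.par hp hpv hv.lt hvv with ⟨h1, h2⟩ | ⟨h1, h2⟩
  · left
    exact ⟨hℓ.same _ c2 _ d2 h1 (by rw [e1, e2, hpv, hvv]), hℓ.same _ c3 _ d3 (by rw [hpv, hvv]) h2⟩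
  · right
    exact ⟨hℓ.opp _ c2 _ d3 h1 (by rw [e1, hpv, hvv]), hℓ.opp _ c3 _ d2 (by rw [e2, hpv, hvv]) h2⟩

theorem lab_ne (hℓ : σ.LabOK ℓ) {p : ℕ} (hp : σ.Cor p) : hinv (ℓ (p - 1)) ≠ ℓ p := by
  obtain ⟨c1, c2, c3⟩ := hp
  have e1 : p - 1 + 1 = p := by omega
  have := hℓ.red (p - 1) c2 (by rw [e1]; exact c3)
  rw [e1] at this
  exact this.symm

/-- neighbours of a regular class -/
theorem Nb_reg (hσ : σ.Basic) {v : ℕ} (hv : σ.Reg v) {t : ℕ} (ht : 1 ≤ t) (htv : t ≤ σ.Mv v) :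
    σ.Nb t v = {σ.cls (v - 1), σ.cls (v + 1)} := by
  obtain ⟨d1, d2, d3⟩ := hv.cor_self
  have e2 : v - 1 + 1 = v := by omega
  have hvv := hv.cls_self
  have hne := hσ.cls_ne_cor hv.cor_self
  have h1 : σ.am v (σ.cls (v - 1)) = σ.Mv v := by
    rw [Shape.am_comm, ← mul_eq hσ hv d2 (Or.inr (by rw [e2, hvv]))]
    exact Shape.am_eq_mul rfl (by rw [e2, hvv])
  have h2 : σ.am v (σ.cls (v + 1)) = σ.Mv v := by
    rw [← mul_eq hσ hv d3 (Or.inl hvv)]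
    exact Shape.am_eq_mul hvv rfl
  have hl1 : σ.cls (v - 1) ∈ range σ.T :=
    mem_range.mpr (lt_of_le_of_lt (hσ.cls_le _) (hσ.lt_of_mem d2))
  have hl2 : σ.cls (v + 1) ∈ range σ.T :=
    mem_range.mpr (lt_of_le_of_lt (hσ.cls_le _) (hσ.succ_lt_of_mem d3))
  have hsum := sum_am_le hσ v
  ext w
  unfold Shape.Nb
  simp only [mem_filter, mem_insert, mem_singleton]
  constructor
  · rintro ⟨hw, hw2⟩
    by_contra hcon
    push Not at hcon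
    have h3 : ∑ x ∈ ({w, σ.cls (v - 1), σ.cls (v + 1)} : Finset ℕ), σ.am v x ≤
        ∑ x ∈ range σ.T, σ.am v x := by
      refine sum_le_sum_of_subset ?_
      intro x hx
      simp only [mem_insert, mem_singleton] at hx
      rcases hx with rfl | rfl | rfl
      · exact hw
      · exact hl1
      · exact hl2
    rw [sum_insert (by simp [hcon.1, hcon.2]), sum_insert (by simpa using hne),
      sum_singleton, h1, h2] at h3
    omega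
  · rintro (rfl | rfl)
    · exact ⟨hl1, by omega⟩
    · exact ⟨hl2, by omega⟩

theorem Nb_empty (hσ : σ.Basic) {v t : ℕ} (htv : σ.Mv v < t) : σ.Nb t v = ∅ := by
  ext w
  unfold Shape.Nb
  have := hσ.am_le v w
  simp only [mem_filter, notMem_empty, iff_false, not_and]
  intro _
  omega

variable [Fintype S]

/-- the Kraft factor of a corner -/
noncomputable def X (κ : KD S) (ℓ : ℕ → S × Bool) (p : ℕ) : ℝ :=
  κ.ρ * κ.q (hinv (ℓ (p - 1))) (ℓ p) * (κ.δ (ℓ (p - 1)) * (κ.δ (ℓ p))⁻¹)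

theorem q_pos (κ : KD S) (a b : S × Bool) : 0 < κ.q a b := lt_of_lt_of_le κ.q0_pos (κ.q0_le a b)

theorem X_pos (κ : KD S) (p : ℕ) : 0 < X κ ℓ p := by
  unfold X
  have h1 := κ.ρ_pos
  have h2 := q_pos κ (hinv (ℓ (p - 1))) (ℓ p)
  have h3 := κ.δ_pos (ℓ (p - 1))
  have h4 := κ.δ_pos (ℓ p)
  positivity

/-- the Kraft factor is the same for all positions of a regular class -/
theorem X_par (κ : KD S) (hℓ : σ.LabOK ℓ) {v p : ℕ} (hv : σ.Reg v) (hp : p < σ.T)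
    (hpv : σ.cls p = v) : X κ ℓ p = X κ ℓ v := by
  unfold X
  rcases lab_par hℓ hv hp hpv with ⟨h1, h2⟩ | ⟨h1, h2⟩
  · rw [h1, h2]
  · rw [h1, h2, hinv_hinv, κ.q_symm (ℓ v), κ.δ_inv, κ.δ_inv, inv_inv]
    ring

theorem q_par (κ : KD S) (hℓ : σ.LabOK ℓ) {v p : ℕ} (hv : σ.Reg v) (hp : p < σ.T)
    (hpv : σ.cls p = v) :
    κ.q (hinv (ℓ (p - 1))) (ℓ p) = κ.q (hinv (ℓ (v - 1))) (ℓ v) := by
  rcases lab_par hℓ hv hp hpv with ⟨h1, h2⟩ | ⟨h1, h2⟩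
  · rw [h1, h2]
  · rw [h1, h2, hinv_hinv, κ.q_symm (ℓ v)]

/-- bound for one level of a regular class -/
theorem Fac_reg_le {κ : KD S} {M : Model S} (hf : κ.Fits M) {m : ℕ} (hm : 1 ≤ M.sz m)
    (hσ : σ.Basic) (hℓ : σ.LabOK ℓ) {v : ℕ} (hv : σ.Reg v) {t : ℕ} (ht : 1 ≤ t)
    (htv : t ≤ σ.Mv v) : Fac M m σ t ℓ v ≤ X κ ℓ v := by
  have hs : (1 : ℝ) ≤ M.sz m := by exact_mod_cast hm
  have hs0 : (0 : ℝ) < M.sz m := by linarith
  obtain ⟨d1, d2, d3⟩ := hv.cor_self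
  have e2 : v - 1 + 1 = v := by omega
  have hvv := hv.cls_self
  have hNb := Nb_reg hσ hv ht htv
  have hne := hσ.cls_ne_cor hv.cor_self
  have ha : σ.he ℓ v (σ.cls (v - 1)) = hinv (ℓ (v - 1)) := by
    have := he_eq' hσ hℓ d2
    rwa [e2, hvv] at this
  have hb : σ.he ℓ v (σ.cls (v + 1)) = ℓ v := by
    have := he_eq hσ hℓ d3
    rwa [hvv] at this
  have hab := lab_ne hℓ hv.cor_self
  have hcnt : cnt M m σ t ℓ v ≤ κ.n (hinv (ℓ (v - 1))) (ℓ v) * M.sz m :=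
    cnt_le_n hf m t v hab (by rw [hNb]; simp) (by rw [hNb]; simp) ha hb
  unfold Fac
  rw [NB_eq hv.2.2.1, hNb, if_pos ⟨hv.2.2.1, ⟨_, mem_insert_self _ _⟩⟩,
    prod_insert (by simpa using hne), prod_singleton, ha, hb]
  set a := hinv (ℓ (v - 1)) with hadef
  set b := ℓ v with hbdef
  have h1 : cnt M m σ t ℓ v ^ 2 ≤ (κ.n a b * M.sz m) ^ 2 :=
    pow_le_pow_left₀ (cnt_nonneg M m t v) hcnt 2
  have hNa : 0 < M.N a.1 := M.N_pos _
  have hNb' : 0 < M.N b.1 := M.N_pos _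
  have hδa := κ.δ_pos a
  have hδb := κ.δ_pos b
  have hkey := κ.key a b hab
  rw [hf.N] at hkey
  have hXe : X κ ℓ v = κ.ρ * κ.q a b * ((κ.δ a)⁻¹ * (κ.δ b)⁻¹) := by
    unfold X
    rw [hadef, κ.δ_inv, inv_inv]
  rw [hXe]
  calc cnt M m σ t ℓ v ^ 2 * ((M.N a.1 * M.sz m : ℝ)⁻¹ * (M.N b.1 * M.sz m : ℝ)⁻¹)
      ≤ (κ.n a b * M.sz m) ^ 2 * ((M.N a.1 * M.sz m : ℝ)⁻¹ * (M.N b.1 * M.sz m : ℝ)⁻¹) := by
        gcongr
    _ = (κ.n a b ^ 2 * κ.δ a * κ.δ b) * ((κ.δ a)⁻¹ * (κ.δ b)⁻¹ * (M.N a.1 * M.N b.1)⁻¹) := by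
        field_simp
    _ ≤ (κ.ρ * κ.q a b * (M.N a.1 * M.N b.1)) *
          ((κ.δ a)⁻¹ * (κ.δ b)⁻¹ * (M.N a.1 * M.N b.1)⁻¹) := by
        gcongr
    _ = κ.ρ * κ.q a b * ((κ.δ a)⁻¹ * (κ.δ b)⁻¹) := by
        field_simp

theorem Fac_reg_one (M : Model S) (m : ℕ) (hσ : σ.Basic) {v : ℕ} (hv : σ.Reg v) {t : ℕ}
    (htv : σ.Mv v < t) : Fac M m σ t ℓ v = 1 := by
  unfold Fac
  rw [NB_eq hv.2.2.1, Nb_empty hσ htv]
  simp

/-- bound for a regular class -/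
theorem reg_le {κ : KD S} {M : Model S} (hf : κ.Fits M) {m : ℕ} (hm : 1 ≤ M.sz m)
    (hσ : σ.Basic) (hℓ : σ.LabOK ℓ) {Z : ℕ} (hZ : ∀ v, σ.Mv v ≤ Z) {v : ℕ} (hv : σ.Reg v) :
    ∏ t ∈ Icc 1 Z, Fac M m σ t ℓ v ≤ X κ ℓ v ^ σ.Mv v := by
  have h1 : ∏ t ∈ Icc 1 Z, Fac M m σ t ℓ v = ∏ t ∈ Icc 1 (σ.Mv v), Fac M m σ t ℓ v := by
    symm
    refine prod_subset (Icc_subset_Icc_right (hZ v)) ?_
    intro t ht ht'
    rw [mem_Icc] at ht ht'
    exact Fac_reg_one M m hσ hv (by omega)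
  rw [h1]
  calc ∏ t ∈ Icc 1 (σ.Mv v), Fac M m σ t ℓ v ≤ ∏ _t ∈ Icc 1 (σ.Mv v), X κ ℓ v :=
        prod_le_prod (fun t _ => Fac_nonneg m t v) (fun t ht => by
          rw [mem_Icc] at ht
          exact Fac_reg_le hf hm hσ hℓ hv ht.1 ht.2)
    _ = X κ ℓ v ^ σ.Mv v := by rw [prod_const, Nat.card_Icc]; simp

/-- the product over the regular classes as a product over regular positions -/
theorem prod_reg (κ : KD S) (hσ : σ.Basic) (hℓ : σ.LabOK ℓ) :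
    ∏ v ∈ (range σ.T).filter (fun v => σ.Reg v), X κ ℓ v ^ σ.Mv v =
      ∏ p ∈ (range σ.T).filter (fun p => σ.Reg (σ.cls p)), X κ ℓ p := by
  rw [← prod_fiberwise_of_maps_to (s := (range σ.T).filter (fun p => σ.Reg (σ.cls p)))
    (t := (range σ.T).filter (fun v => σ.Reg v)) (g := σ.cls)]
  · refine prod_congr rfl fun v hv => ?_
    rw [mem_filter, mem_range] at hv
    have h1 : ((range σ.T).filter (fun p => σ.Reg (σ.cls p))).filter (fun p => σ.cls p = v) =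
        (range σ.T).filter (fun p => σ.cls p = v) := by
      ext p
      simp only [mem_filter]
      constructor
      · rintro ⟨⟨h1, h2⟩, h3⟩
        exact ⟨h1, h3⟩
      · rintro ⟨h1, h3⟩
        exact ⟨⟨h1, by rw [h3]; exact hv.2⟩, h3⟩
    rw [h1]
    have h2 : ∏ p ∈ (range σ.T).filter (fun p => σ.cls p = v), X κ ℓ p =
        ∏ _p ∈ (range σ.T).filter (fun p => σ.cls p = v), X κ ℓ v := by
      refine prod_congr rfl fun p hp => ?_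
      rw [mem_filter, mem_range] at hp
      exact X_par κ hℓ hv.2 hp.1 hp.2
    rw [h2, prod_const]
    rfl
  · intro p hp
    simp only [mem_filter, mem_range] at hp ⊢
    exact ⟨lt_of_le_of_lt (hσ.cls_le p) hp.1, hp.2⟩

end Core

end Crest.Agent.R177.Loc
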