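import Mathlib
import Crest.Agent.R177.Defs
import Crest.Agent.R177.Pieces

/-!
Row 177, LOC, L6 (helper776): the number of shapes of configurations in graphs of girth `≥ g` is
polynomial in `g`.
-/

set_option autoImplicit false

open scoped Classical

namespace Crest.Agent.R177.Count

open Finset
open Crest.Agent.R199 (PAct)

/-! ### Abstract counting -/

theorem card_small_sets (α : Type*) [Fintype α] (b : ℕ) :
    ((univ : Finset (Finset α)).filter (fun s => s.card ≤ b)).card ≤ (Fintype.card α + 1) ^ b := by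
  induction b with
  | zero =>
    rw [pow_zero, Finset.card_le_one]
    intro s hs t ht
    simp only [Finset.mem_filter, Finset.mem_univ, true_and, Nat.le_zero, Finset.card_eq_zero]
      at hs ht
    rw [hs, ht]
  | succ b ih =>
    have hsub : (univ : Finset (Finset α)).filter (fun s => s.card ≤ b + 1) ⊆
        ((univ : Finset (Option α)) ×ˢ
          ((univ : Finset (Finset α)).filter (fun s => s.card ≤ b))).image
          (fun p => match p.1 with
            | none => p.2
            | some a => insert a p.2) := by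
      intro s hs
      simp only [Finset.mem_filter, Finset.mem_univ, true_and] at hs
      rw [Finset.mem_image]
      by_cases h : s.card ≤ b
      · exact ⟨(none, s), by simp [h], rfl⟩
      · have hne : s.Nonempty := by
          rw [← Finset.card_pos]; omega
        obtain ⟨a, ha⟩ := hne
        refine ⟨(some a, s.erase a), ?_, ?_⟩
        · simp only [Finset.mem_product, Finset.mem_univ, Finset.mem_filter, true_and]
          rw [Finset.card_erase_of_mem ha]; omega
        · exact Finset.insert_erase ha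
    calc _ ≤ _ := Finset.card_le_card hsub
      _ ≤ _ := Finset.card_image_le
      _ = (Fintype.card α + 1) *
          ((univ : Finset (Finset α)).filter (fun s => s.card ≤ b)).card := by
          rw [Finset.card_product, Finset.card_univ, Fintype.card_option]
      _ ≤ (Fintype.card α + 1) * (Fintype.card α + 1) ^ b := Nat.mul_le_mul_left _ ih
      _ = _ := by rw [pow_succ]; ring

/-- break points of a rule -/
noncomputable def brk {E St : Type*} [Fintype E] (pr : E → Option E) (rule : E → St → St)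
    (f : E → St) : Finset E :=
  univ.filter (fun e => ∀ e', pr e = some e' → f e ≠ rule e (f e'))

theorem mem_brk {E St : Type*} [Fintype E] (pr : E → Option E) (rule : E → St → St)
    (f : E → St) (e : E) :
    e ∈ brk pr rule f ↔ ∀ e', pr e = some e' → f e ≠ rule e (f e') := by
  simp [brk]

/-- functions obeying a recursion rule with few exceptions are few -/
theorem card_rule_le {E St : Type*} [Fintype E] [Fintype St] (r : E → ℕ) (pr : E → Option E)
    (hr : ∀ e e', pr e = some e' → r e' < r e) (rule : E → St → St) (b : ℕ) :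
    ((univ : Finset (E → St)).filter (fun f => (brk pr rule f).card ≤ b)).card ≤
      (Fintype.card E * Fintype.card St + 1) ^ b := by
  refine le_trans ?_ ((card_small_sets (E × St) b).trans_eq (by rw [Fintype.card_prod]))
  refine Finset.card_le_card_of_injOn (fun f => (brk pr rule f).image (fun e => (e, f e))) ?_ ?_
  · intro f hf
    simp only [Finset.coe_filter, Finset.mem_univ, true_and, Set.mem_ofPred_eq] at hf ⊢
    exact Finset.card_image_le.trans hf
  · intro f _ f' _ hff
    simp only at hff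
    have hmem : ∀ e, e ∈ brk pr rule f → e ∈ brk pr rule f' ∧ f e = f' e := by
      intro e he
      have h1 : (e, f e) ∈ (brk pr rule f).image (fun e => (e, f e)) :=
        Finset.mem_image_of_mem _ he
      rw [hff, Finset.mem_image] at h1
      obtain ⟨e', he', h2⟩ := h1
      simp only [Prod.mk.injEq] at h2
      obtain ⟨rfl, h3⟩ := h2
      exact ⟨he', h3.symm⟩
    have hmem' : ∀ e, e ∈ brk pr rule f' → e ∈ brk pr rule f := by
      intro e he
      have h1 : (e, f' e) ∈ (brk pr rule f').image (fun e => (e, f' e)) :=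
        Finset.mem_image_of_mem _ he
      rw [← hff, Finset.mem_image] at h1
      obtain ⟨e', he', h2⟩ := h1
      simp only [Prod.mk.injEq] at h2
      obtain ⟨rfl, -⟩ := h2
      exact he'
    have key : ∀ n e, r e = n → f e = f' e := by
      intro n
      induction n using Nat.strong_induction_on with
      | _ n ih =>
        intro e hn
        by_cases he : e ∈ brk pr rule f
        · exact (hmem e he).2
        · have he' : e ∉ brk pr rule f' := fun h => he (hmem' e h)
          unfold brk at he he'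
          simp only [Finset.mem_filter, Finset.mem_univ, true_and] at he he'
          push Not at he he'
          obtain ⟨e1, h1, h2⟩ := he
          obtain ⟨e2, h3, h4⟩ := he'
          rw [h1] at h3
          obtain rfl := Option.some.inj h3
          rw [h2, h4, ih (r e1) (by rw [← hn]; exact hr e e1 h1) e1 rfl]
    funext e
    exact key _ e rfl

/-! ### Frames -/

/-- decode a frame -/
noncomputable def decF {K Lm : ℕ}
    (x : Σ k : Fin (K + 1), (Fin k → Fin (Lm + 1)) × (Fin k → Bool)) : Frame :=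
  if h : ∀ i, 0 < (x.2.1 i).val then ⟨x.1, fun i => x.2.1 i, x.2.2, h⟩
  else ⟨0, fun i => i.elim0, fun i => i.elim0, fun i => i.elim0⟩

/-- all frames with at most `K` paths of length at most `Lm` -/
noncomputable def Frames (K Lm : ℕ) : Finset Frame :=
  (univ : Finset (Σ k : Fin (K + 1), (Fin k → Fin (Lm + 1)) × (Fin k → Bool))).image decF

theorem mem_Frames {K Lm : ℕ} (F : Frame) (hK : F.K ≤ K) (hL : ∀ i, F.len i ≤ Lm) :
    F ∈ Frames K Lm := by
  refine Finset.mem_image.2 ⟨⟨⟨F.K, Nat.lt_succ_of_le hK⟩,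
    fun i => ⟨F.len i, Nat.lt_succ_of_le (hL i)⟩, F.cl⟩, Finset.mem_univ _, ?_⟩
  unfold decF
  rw [dif_pos (fun i => F.len_pos i)]

theorem Frames_spec {K Lm : ℕ} (F : Frame) (h : F ∈ Frames K Lm) :
    F.K ≤ K ∧ ∀ i, F.len i ≤ Lm := by
  obtain ⟨x, -, rfl⟩ := Finset.mem_image.1 h
  by_cases hx : ∀ i, 0 < (x.2.1 i).val
  · have e : decF x = ⟨x.1, fun i => x.2.1 i, x.2.2, hx⟩ := dif_pos hx
    rw [e]
    exact ⟨Nat.le_of_lt_succ x.1.2, fun i => Nat.le_of_lt_succ (x.2.1 i).2⟩
  · have e : decF x = ⟨0, fun i => i.elim0, fun i => i.elim0, fun i => i.elim0⟩ := dif_neg hx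
    rw [e]
    exact ⟨Nat.zero_le _, fun i => i.elim0⟩

theorem card_Frames (K Lm : ℕ) : (Frames K Lm).card ≤ (K + 1) * (2 * (Lm + 1)) ^ K := by
  refine Finset.card_image_le.trans ?_
  rw [Finset.card_univ, Fintype.card_sigma]
  calc ∑ k : Fin (K + 1), Fintype.card ((Fin k → Fin (Lm + 1)) × (Fin k → Bool))
      ≤ ∑ _k : Fin (K + 1), (2 * (Lm + 1)) ^ K := by
        refine Finset.sum_le_sum fun k _ => ?_
        rw [Fintype.card_prod, Fintype.card_fun, Fintype.card_fun, Fintype.card_fin,
          Fintype.card_fin, Fintype.card_bool, ← mul_pow, mul_comm (Lm + 1) 2]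
        exact Nat.pow_le_pow_right (by omega) (Nat.le_of_lt_succ k.2)
    _ = _ := by rw [Finset.sum_const, Finset.card_univ, Fintype.card_fin, smul_eq_mul]

theorem card_Dart {K Lm : ℕ} (F : Frame) (hK : F.K ≤ K) (hL : ∀ i, F.len i ≤ Lm) :
    Fintype.card F.Dart ≤ K * Lm := by
  rw [Fintype.card_sigma]
  calc ∑ i, Fintype.card (Fin (F.len i)) ≤ ∑ _i : Fin F.K, Lm :=
        Finset.sum_le_sum fun i _ => by rw [Fintype.card_fin]; exact hL i
    _ = F.K * Lm := by rw [Finset.sum_const, Finset.card_univ, Fintype.card_fin, smul_eq_mul]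
    _ ≤ _ := Nat.mul_le_mul_right _ hK

/-! ### Mates -/

/-- previous dart on the path (linear order) -/
def prL (F : Frame) (x : F.Dart) : Option F.Dart :=
  if 0 < x.2.val then some ⟨x.1, ⟨x.2.val - 1, lt_of_le_of_lt (Nat.sub_le _ _) x.2.2⟩⟩ else none

/-- previous dart (cyclically on closed paths) -/
def prC (F : Frame) (x : F.Dart) : Option F.Dart :=
  if 0 < x.2.val then some ⟨x.1, ⟨x.2.val - 1, lt_of_le_of_lt (Nat.sub_le _ _) x.2.2⟩⟩
  else if F.cl x.1 = true then
    some ⟨x.1, ⟨F.len x.1 - 1, Nat.sub_lt (F.len_pos x.1) one_pos⟩⟩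
  else none

theorem prC_of_next (F : Frame) (x y : F.Dart) (h : F.Next x y) : prC F y = some x := by
  obtain ⟨i, a, ha⟩ := x
  obtain ⟨i', b, hb⟩ := y
  obtain ⟨h1, h2⟩ := h
  simp only at h1
  subst h1
  simp only at h2
  unfold prC
  rcases h2 with h2 | ⟨h2, h3, h4⟩
  · subst h2
    simp
  · subst h2
    simp only [lt_irrefl, if_false, h4, if_true, Option.some.injEq, Sigma.mk.injEq, heq_eq_eq,
      true_and, Fin.mk.injEq]
    omega

/-- the rule for mates -/
def ruleM (F : Frame) (_ : F.Dart) (o : Option F.Dart) : Option F.Dart := o.bind (prC F)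

/-- admissible mate functions on the frame `F` -/
noncomputable def Mates (F : Frame) (b : ℕ) : Finset (F.Dart → Option F.Dart) :=
  univ.filter (fun f => (brk (prL F) (ruleM F) f).card ≤ b)

theorem mem_Mates (F : Frame) (b : ℕ) (f : F.Dart → Option F.Dart) :
    f ∈ Mates F b ↔ (brk (prL F) (ruleM F) f).card ≤ b := by
  simp [Mates]

theorem card_Mates {K Lm : ℕ} (F : Frame) (hK : F.K ≤ K) (hL : ∀ i, F.len i ≤ Lm) (b : ℕ) :
    (Mates F b).card ≤ ((K * Lm) * (K * Lm + 1) + 1) ^ b := by
  have h := card_rule_le (E := F.Dart) (St := Option F.Dart) (fun x => x.2.val) (prL F)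
    (by
      intro e e' h
      unfold prL at h
      split_ifs at h with h0
      obtain rfl := Option.some.inj h
      simp only
      omega) (ruleM F) b
  have h0 : (Mates F b).card ≤
      (Fintype.card F.Dart * Fintype.card (Option F.Dart) + 1) ^ b := by
    convert h using 2
    ext f
    rw [mem_Mates]
    simp
  refine h0.trans (Nat.pow_le_pow_left (Nat.add_le_add_right ?_ 1) b)
  have h1 := card_Dart F hK hL
  rw [Fintype.card_option]
  exact Nat.mul_le_mul h1 (Nat.add_le_add_right h1 1)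

/-- telescoping on a path -/
theorem sum_tele (n : ℕ) (b : ℕ → ℤ) (hb0 : ∀ j, 0 ≤ b j) (hb1 : ∀ j, b j ≤ 1) :
    ∑ j ∈ range (n - 1), (b (j + 1) - b j) ≤ 1 := by
  rw [Finset.sum_range_sub]
  have := hb0 0
  have := hb1 (n - 1)
  omega

theorem mate_mem {S V : Type} {A : PAct S V} {F : Frame} (c : Conf A F) {K D0 : ℕ}
    (hK : F.K ≤ K) (hD : c.ends ≤ D0) : c.mate ∈ Mates F (2 * D0 + 2 * K) := by
  rw [mem_Mates]
  -- classification of the breaks
  let I : Finset F.Dart := univ.filter (fun x => x.2.val = 0)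
  let J : Finset F.Dart := univ.filter (fun x => 0 < x.2.val)
  have mI : ∀ x, x ∈ I ↔ x.2.val = 0 := fun x => by simp [I]
  have mJ : ∀ x, x ∈ J ↔ 0 < x.2.val := fun x => by simp [J]
  let p : F.Dart → F.Dart := fun x =>
    ⟨x.1, ⟨x.2.val - 1, lt_of_le_of_lt (Nat.sub_le _ _) x.2.2⟩⟩
  have hnext : ∀ x ∈ J, F.Next (p x) x := by
    intro x hx
    rw [mJ] at hx
    refine ⟨rfl, Or.inl ?_⟩
    simp only [p]
    omega
  let bt : F.Dart → ℤ := fun x => if c.mate x ≠ none then 1 else 0
  let T10 : Finset F.Dart := J.filter (fun x => c.mate (p x) ≠ none ∧ c.mate x = none)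
  let T01 : Finset F.Dart := J.filter (fun x => c.mate (p x) = none ∧ c.mate x ≠ none)
  have hbr : brk (prL F) (ruleM F) c.mate ⊆ I ∪ (T10 ∪ T01) := by
    intro x hx
    rw [mem_brk] at hx
    rw [Finset.mem_union]
    rcases Nat.eq_zero_or_pos x.2.val with h0 | h0
    · left; rw [mI]; exact h0
    · right
      have hxJ : x ∈ J := by rw [mJ]; exact h0
      have h1 := hx (p x) (by unfold prL; rw [if_pos h0])
      rw [Finset.mem_union]
      by_cases hp : c.mate (p x) = none
      · right
        refine Finset.mem_filter.2 ⟨hxJ, hp, ?_⟩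
        rw [hp] at h1
        exact h1
      · left
        refine Finset.mem_filter.2 ⟨hxJ, hp, ?_⟩
        by_contra hne
        obtain ⟨x', hx'⟩ := Option.ne_none_iff_exists'.1 hp
        obtain ⟨y', hy'⟩ := Option.ne_none_iff_exists'.1 hne
        have := c.mate_coh (p x) x' x y' hx' (hnext x hxJ) hy'
        apply h1
        rw [hx', hy']
        unfold ruleM
        rw [Option.bind_some, prC_of_next F _ _ this]
  -- counts
  have hIc : I.card ≤ K := by
    refine le_trans ?_ hK
    rw [← Fintype.card_fin F.K, ← Finset.card_univ]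
    refine Finset.card_le_card_of_injOn (fun x => x.1) (fun _ _ => Finset.mem_coe.2 (Finset.mem_univ _)) ?_
    rintro ⟨i, a⟩ hx ⟨i', a'⟩ hy hxy
    simp only at hxy
    subst hxy
    rw [Finset.mem_coe, mI] at hx hy
    congr 1
    ext
    rw [hx, hy]
  have hpinj : ∀ x ∈ J, ∀ y ∈ J, p x = p y → x = y := by
    rintro ⟨i, a⟩ hx ⟨i', a'⟩ hy hxy
    rw [mJ] at hx hy
    simp only [p, Sigma.mk.injEq] at hxy
    obtain ⟨h1, h2⟩ := hxy
    subst h1
    rw [heq_eq_eq, Fin.mk.injEq] at h2
    congr 1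
    ext
    simp only at hx hy
    omega
  have hT10 : T10.card ≤ D0 := by
    refine le_trans ?_ hD
    unfold Conf.ends
    rw [Nat.card_eq_fintype_card, Fintype.card_subtype]
    refine Finset.card_le_card_of_injOn p ?_ ?_
    · intro x hx
      rw [Finset.mem_coe] at hx
      have hx' := Finset.mem_filter.1 hx
      rw [Finset.mem_coe, Finset.mem_filter]
      refine ⟨Finset.mem_univ _, hx'.2.1, ?_⟩
      intro y hy
      have : y = x := by
        obtain ⟨h1, h2⟩ := hy
        have hxJ := (mJ x).1 hx'.1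
        obtain ⟨i, a, ha⟩ := x
        obtain ⟨i', b, hb⟩ := y
        simp only [p] at h1 h2
        subst h1
        simp only at h2 hxJ
        congr 1
        ext
        simp only
        rcases h2 with h2 | h2 <;> omega
      rw [this]; exact hx'.2.2
    · intro x hx y hy hxy
      exact hpinj x (Finset.mem_filter.1 hx).1 y (Finset.mem_filter.1 hy).1 hxy
  have hT01 : T01.card ≤ T10.card + K := by
    have e1 : (T01.card : ℤ) - T10.card = ∑ x ∈ J, (bt x - bt (p x)) := by
      have e2 : (T01.card : ℤ) = ∑ x ∈ J, if (c.mate (p x) = none ∧ c.mate x ≠ none) then 1 else 0 := by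
        rw [Finset.sum_boole]
      have e3 : (T10.card : ℤ) = ∑ x ∈ J, if (c.mate (p x) ≠ none ∧ c.mate x = none) then 1 else 0 := by
        rw [Finset.sum_boole]
      rw [e2, e3, ← Finset.sum_sub_distrib]
      refine Finset.sum_congr rfl fun x _ => ?_
      simp only [bt]
      by_cases h1 : c.mate (p x) = none <;> by_cases h2 : c.mate x = none <;> simp [h1, h2]
    have e4 : ∑ x ∈ J, (bt x - bt (p x)) = ∑ i : Fin F.K, ∑ j ∈ range (F.len i - 1),
        ((if h : j + 1 < F.len i then bt ⟨i, ⟨j + 1, h⟩⟩ else 0) -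
          (if h : j < F.len i then bt ⟨i, ⟨j, h⟩⟩ else 0)) := by
      rw [Finset.sum_sigma' (univ : Finset (Fin F.K)) (fun i => range (F.len i - 1))
        (fun i j => ((if h : j + 1 < F.len i then bt ⟨i, ⟨j + 1, h⟩⟩ else 0) -
          (if h : j < F.len i then bt ⟨i, ⟨j, h⟩⟩ else 0)))]
      refine Finset.sum_bij' (fun x _ => (⟨x.1, x.2.val - 1⟩ : Σ _ : Fin F.K, ℕ))
        (fun y hy => (⟨y.1, ⟨y.2 + 1, by
          simp only [Finset.mem_sigma, Finset.mem_univ, Finset.mem_range, true_and] at hy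
          omega⟩⟩ : F.Dart)) ?_ ?_ ?_ ?_ ?_
      · rintro ⟨i, a, ha⟩ hx
        rw [mJ] at hx
        simp only [Finset.mem_sigma, Finset.mem_univ, Finset.mem_range, true_and] at hx ⊢
        omega
      · rintro ⟨i, j⟩ hy
        rw [mJ]
        simp
      · rintro ⟨i, a, ha⟩ hx
        rw [mJ] at hx
        simp only [Sigma.mk.injEq, heq_eq_eq, Fin.mk.injEq, true_and] at hx ⊢
        omega
      · rintro ⟨i, j⟩ hy
        simp
      · rintro ⟨i, a, ha⟩ hx
        rw [mJ] at hx
        simp only at hx ⊢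
        obtain ⟨a', rfl⟩ : ∃ a', a = a' + 1 := ⟨a - 1, by omega⟩
        rw [dif_pos (by omega), dif_pos (by omega)]
        rfl
    have e5 : ∑ i : Fin F.K, ∑ j ∈ range (F.len i - 1),
        ((if h : j + 1 < F.len i then bt ⟨i, ⟨j + 1, h⟩⟩ else 0) -
          (if h : j < F.len i then bt ⟨i, ⟨j, h⟩⟩ else 0)) ≤ ∑ _i : Fin F.K, (1 : ℤ) := by
      refine Finset.sum_le_sum fun i _ => ?_
      refine sum_tele (F.len i) (fun j => if h : j < F.len i then bt ⟨i, ⟨j, h⟩⟩ else 0) ?_ ?_
      · intro j
        simp only [bt]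
        split_ifs <;> norm_num
      · intro j
        simp only [bt]
        split_ifs <;> norm_num
    rw [← e4, ← e1, Finset.sum_const, Finset.card_univ, Fintype.card_fin, nsmul_eq_mul,
      mul_one] at e5
    omega
  have h1 := Finset.card_le_card hbr
  have h2 := Finset.card_union_le I (T10 ∪ T01)
  have h3 := Finset.card_union_le T10 T01
  omega

/-! ### Kernels -/

/-- code of the coincidence set of two blocks with at most `s` steps -/
abbrev Code (s : ℕ) : Type := Option (Bool × Fin (s + 1) × Fin (s + 1) × Fin (s + 1))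

/-- the coincidence set of a code -/
def relC {s : ℕ} : Code s → ℕ → ℕ → Prop
  | none, _, _ => False
  | some (sg, i₀, j₀, m), a, b => ∃ k ≤ m.val, a = i₀.val + k ∧
      if sg then b = j₀.val + k else b + k = j₀.val

/-- decode a relation on positions; blocks have `s + 1` positions, `nb` blocks per path -/
def decK (F : Frame) (s nb : ℕ) (x : (Fin F.K × Fin nb) → (Fin F.K × Fin nb) → Code s)
    (p q : F.Pos) : Prop :=
  ∃ (hp : p.2.val / (s + 1) < nb) (hq : q.2.val / (s + 1) < nb),
    relC (x (p.1, ⟨_, hp⟩) (q.1, ⟨_, hq⟩)) (p.2.val % (s + 1)) (q.2.val % (s + 1))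

/-- admissible kernels -/
noncomputable def Kers (F : Frame) (s nb : ℕ) : Finset (F.Pos → F.Pos → Prop) :=
  (univ : Finset ((Fin F.K × Fin nb) → (Fin F.K × Fin nb) → Code s)).image (decK F s nb)

theorem card_Kers {K : ℕ} (F : Frame) (s nb : ℕ) (hK : F.K ≤ K) :
    (Kers F s nb).card ≤ (2 * (s + 1) ^ 3 + 1) ^ ((K * nb) * (K * nb)) := by
  refine Finset.card_image_le.trans ?_
  rw [Finset.card_univ, Fintype.card_fun, Fintype.card_fun, Fintype.card_prod, Fintype.card_fin,
    Fintype.card_fin, ← pow_mul]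
  have h1 : Fintype.card (Code s) = 2 * (s + 1) ^ 3 + 1 := by
    rw [Fintype.card_option, Fintype.card_prod, Fintype.card_prod, Fintype.card_prod,
      Fintype.card_fin, Fintype.card_bool]
    ring
  rw [h1]
  apply Nat.pow_le_pow_right (by omega)
  have := Nat.mul_le_mul_right nb hK
  exact Nat.mul_le_mul this this

section ker

variable {S V : Type} {A : PAct S V} {F : Frame} (c : Conf A F)

/-- node at position `j` of path `i`, extended -/
noncomputable def nodeN (i : Fin F.K) (j : ℕ) : V :=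
  if h : j < F.len i + 1 then c.node ⟨i, ⟨j, h⟩⟩ else c.node ⟨i, 0⟩

/-- label of dart `j` of path `i`, extended -/
noncomputable def labN (i : Fin F.K) (j : ℕ) : S × Bool :=
  if h : j < F.len i then c.lab ⟨i, ⟨j, h⟩⟩ else c.lab ⟨i, ⟨0, F.len_pos i⟩⟩

theorem isPath_block (i : Fin F.K) (b n : ℕ) (h : b + n ≤ F.len i) :
    IsPath A n (fun k => nodeN c i (b + k)) (fun k => labN c i (b + k)) := by
  constructor
  · intro k hk
    have h1 : b + k < F.len i := by omega
    have := c.step ⟨i, ⟨b + k, h1⟩⟩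
    simp only [nodeN, labN]
    rw [dif_pos h1, dif_pos (by omega), dif_pos (by omega)]
    exact this
  · intro k hk
    have h1 : b + k < F.len i := by omega
    have h2 : b + (k + 1) < F.len i := by omega
    simp only [labN]
    rw [dif_pos h1, dif_pos h2]
    exact c.red ⟨i, ⟨b + k, h1⟩⟩ ⟨i, ⟨b + (k + 1), h2⟩⟩ ⟨rfl, Or.inl rfl⟩

theorem exists_code {g s : ℕ} (hg : Girth A g) (hs : 2 * s < g) (i i' : Fin F.K) (b b' : ℕ) :
    ∃ x : Code s, ∀ a a', a ≤ s → a' ≤ s → b + a ≤ F.len i → b' + a' ≤ F.len i' →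
      (nodeN c i (b + a) = nodeN c i' (b' + a') ↔ relC x a a') := by
  by_cases hb : b ≤ F.len i ∧ b' ≤ F.len i'
  · have h1 := isPath_block c i b (min s (F.len i - b)) (by omega)
    have h2 := isPath_block c i' b' (min s (F.len i' - b')) (by omega)
    rcases h1.interval hg h2 (by omega) with h | ⟨sg, i₀, j₀, m, hi, hj, hm, h⟩
    · refine ⟨none, fun a a' ha ha' hb1 hb2 => ?_⟩
      have := h a a' (by omega) (by omega)
      simp only [relC, iff_false]
      exact this
    · refine ⟨some (sg, ⟨i₀, by omega⟩, ⟨j₀, by omega⟩, ⟨m, by omega⟩),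
        fun a a' ha ha' hb1 hb2 => ?_⟩
      exact h a a' (by omega) (by omega)
  · refine ⟨none, fun a a' _ _ h1 h2 => ?_⟩
    exfalso
    omega

theorem ker_mem {g s nb : ℕ} (hg : Girth A g) (hs : 2 * s < g)
    (hnb : ∀ i, F.len i / (s + 1) < nb) :
    (fun p q : F.Pos => c.node p = c.node q) ∈ Kers F s nb := by
  have hex : ∀ (u v : Fin F.K × Fin nb), ∃ x : Code s, ∀ a a', a ≤ s → a' ≤ s →
      u.2.val * (s + 1) + a ≤ F.len u.1 → v.2.val * (s + 1) + a' ≤ F.len v.1 →
      (nodeN c u.1 (u.2.val * (s + 1) + a) = nodeN c v.1 (v.2.val * (s + 1) + a') ↔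
        relC x a a') := fun u v =>
    exists_code c hg hs u.1 v.1 (u.2.val * (s + 1)) (v.2.val * (s + 1))
  choose x hx using hex
  refine Finset.mem_image.2 ⟨x, Finset.mem_univ _, ?_⟩
  have hdiv : ∀ p : F.Pos, p.2.val / (s + 1) < nb := by
    intro p
    refine lt_of_le_of_lt ?_ (hnb p.1)
    exact Nat.div_le_div_right (Nat.le_of_lt_succ p.2.2)
  have hnode : ∀ p : F.Pos,
      c.node p = nodeN c p.1 (p.2.val / (s + 1) * (s + 1) + p.2.val % (s + 1)) := by
    intro p
    rw [Nat.div_add_mod']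
    unfold nodeN
    rw [dif_pos p.2.2]
  funext p q
  apply propext
  unfold decK
  have hmod : ∀ p : F.Pos, p.2.val % (s + 1) ≤ s := fun p =>
    Nat.le_of_lt_succ (Nat.mod_lt _ (Nat.succ_pos s))
  have hlen : ∀ p : F.Pos, p.2.val / (s + 1) * (s + 1) + p.2.val % (s + 1) ≤ F.len p.1 := by
    intro p
    rw [Nat.div_add_mod']
    exact Nat.le_of_lt_succ p.2.2
  have key := hx (p.1, ⟨_, hdiv p⟩) (q.1, ⟨_, hdiv q⟩) (p.2.val % (s + 1)) (q.2.val % (s + 1))
    (hmod p) (hmod q) (hlen p) (hlen q)
  rw [hnode p, hnode q]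
  constructor
  · rintro ⟨_, _, h⟩
    exact key.2 h
  · intro h
    exact ⟨hdiv p, hdiv q, key.1 h⟩

end ker

/-! ### Shapes -/

/-- a shape: frame, matching of the corners, kernel of the node map -/
abbrev Shape : Type := Σ F : Frame, (F.Dart → Option F.Dart) × (F.Pos → F.Pos → Prop)

/-- the shape of a configuration -/
def shape {S V : Type} {A : PAct S V} {F : Frame} (c : Conf A F) : Shape :=
  ⟨F, c.mate, fun p q => c.node p = c.node q⟩

/-- all admissible shapes -/
noncomputable def Shapes (K Lm b s nb : ℕ) : Finset Shape :=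
  (Frames K Lm).sigma (fun F => (Mates F b) ×ˢ (Kers F s nb))

theorem card_Shapes (K Lm b s nb : ℕ) : (Shapes K Lm b s nb).card ≤
    ((K + 1) * (2 * (Lm + 1)) ^ K) * ((((K * Lm) * (K * Lm + 1) + 1) ^ b) *
      ((2 * (s + 1) ^ 3 + 1) ^ ((K * nb) * (K * nb)))) := by
  unfold Shapes
  rw [Finset.card_sigma]
  calc ∑ F ∈ Frames K Lm, ((Mates F b) ×ˢ (Kers F s nb)).card
      ≤ ∑ _F ∈ Frames K Lm, ((((K * Lm) * (K * Lm + 1) + 1) ^ b) *
          ((2 * (s + 1) ^ 3 + 1) ^ ((K * nb) * (K * nb)))) := by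
        refine Finset.sum_le_sum fun F hF => ?_
        obtain ⟨hK, hL⟩ := Frames_spec F hF
        rw [Finset.card_product]
        exact Nat.mul_le_mul (card_Mates F hK hL b) (card_Kers F s nb hK)
    _ = (Frames K Lm).card * _ := by rw [Finset.sum_const, smul_eq_mul]
    _ ≤ _ := Nat.mul_le_mul_right _ (card_Frames K Lm)

/-- **L6**: polynomially many shapes. -/
theorem exists_shapes (K D0 L : ℕ) : ∃ C b : ℕ, ∀ g : ℕ, 1 ≤ g → ∃ Θ : Finset Shape,
    Θ.card ≤ (C * (g + 1)) ^ b ∧ (∀ σ ∈ Θ, σ.1.K ≤ K ∧ ∀ i, σ.1.len i ≤ L * g) ∧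
    ∀ (S V : Type) (A : PAct S V), Girth A g → ∀ (F : Frame) (c : Conf A F), F.K ≤ K →
      (∀ i, F.len i ≤ L * g) → c.ends ≤ D0 → shape c ∈ Θ := by
  set nb := 3 * L + 1 with hnb
  set B := 2 * D0 + 2 * K with hB
  refine ⟨2 * (L + 1) * (K + 1) + 2, 1 + K + 2 * B + 3 * ((K * nb) * (K * nb)), fun g hg => ?_⟩
  refine ⟨Shapes K (L * g) B (g / 3) nb, ?_, ?_, ?_⟩
  · refine (card_Shapes _ _ _ _ _).trans ?_
    set X := (2 * (L + 1) * (K + 1) + 2) * (g + 1) with hX
    have hX1 : K + 1 ≤ X := by rw [hX]; nlinarith [Nat.zero_le (L * K), Nat.zero_le (L * K * g), Nat.zero_le (L * g), Nat.zero_le (K * g)]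
    have hX2 : 2 * (L * g + 1) ≤ X := by rw [hX]; nlinarith [Nat.zero_le (L * K), Nat.zero_le (L * K * g), Nat.zero_le (L * g), Nat.zero_le (K * g)]
    have hX3 : K * (L * g) + 1 ≤ X := by rw [hX]; nlinarith [Nat.zero_le (L * K), Nat.zero_le (L * K * g), Nat.zero_le (L * g), Nat.zero_le (K * g)]
    have hX4 : 2 * (g / 3 + 1) ≤ X := by
      have : g / 3 ≤ g := Nat.div_le_self _ _
      rw [hX]
      nlinarith [Nat.zero_le (L * K), Nat.zero_le (L * K * g), Nat.zero_le (L * g), Nat.zero_le (K * g)]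
    have h1 : K * (L * g) * (K * (L * g) + 1) + 1 ≤ X ^ 2 := by
      calc K * (L * g) * (K * (L * g) + 1) + 1 ≤ (K * (L * g) + 1) ^ 2 := by
            generalize K * (L * g) = y
            nlinarith
        _ ≤ X ^ 2 := Nat.pow_le_pow_left hX3 2
    have h2 : 2 * (g / 3 + 1) ^ 3 + 1 ≤ X ^ 3 := by
      calc 2 * (g / 3 + 1) ^ 3 + 1 ≤ (2 * (g / 3 + 1)) ^ 3 := by
            have : 1 ≤ (g / 3 + 1) ^ 3 := Nat.one_le_pow _ _ (Nat.succ_pos _)
            rw [mul_pow]; omega
        _ ≤ X ^ 3 := Nat.pow_le_pow_left hX4 3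
    calc _ ≤ (X * X ^ K) * ((X ^ 2) ^ B * (X ^ 3) ^ ((K * nb) * (K * nb))) := by
          apply Nat.mul_le_mul
          · exact Nat.mul_le_mul hX1 (Nat.pow_le_pow_left hX2 K)
          · exact Nat.mul_le_mul (Nat.pow_le_pow_left h1 B) (Nat.pow_le_pow_left h2 _)
      _ = X ^ (1 + K + 2 * B + 3 * ((K * nb) * (K * nb))) := by
          rw [← pow_mul, ← pow_mul]; ring
  · rintro ⟨F, x⟩ hσ
    unfold Shapes at hσ
    rw [Finset.mem_sigma] at hσ
    exact Frames_spec F hσ.1
  · intro S V A hA F c hK hL hD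
    unfold Shapes shape
    rw [Finset.mem_sigma]
    refine ⟨mem_Frames F hK hL, ?_⟩
    rw [Finset.mem_product]
    refine ⟨mate_mem c hK hD, ker_mem c hA (by omega) fun i => ?_⟩
    rw [hnb]
    have h1 : F.len i / (g / 3 + 1) ≤ 3 * L := by
      rw [← Nat.lt_succ_iff, Nat.div_lt_iff_lt_mul (Nat.succ_pos _)]
      have h2 := hL i
      have h3 : g < 3 * (g / 3 + 1) := by omega
      have h4 : L * g ≤ L * (3 * (g / 3 + 1)) := Nat.mul_le_mul_left _ h3.le
      nlinarith
    omega

end Crest.Agent.R177.Count
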