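import Crest.Agent.R177.Defs

/-!
# Row 177, module LOC (lead helper143): internal definitions

A configuration is linearised: positions `0, …, T-1` (a path with `len` darts is a block of
`len + 1` consecutive positions), `p ∈ D` = there is a dart from position `p` to position `p + 1`.
-/

set_option autoImplicit false

open scoped Classical

namespace Crest.Agent.R177.Loc

open Crest.Agent.R177
open Crest.Agent.R199 (PAct)

/-- combinatorial shape of a linearised configuration -/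
@[ext] structure Shape where
  /-- number of positions -/
  T : ℕ
  /-- darts: `p ∈ D` is the dart from position `p` to position `p+1` -/
  D : Finset ℕ
  /-- first position at the same node (`cls p = p` for `p ≥ T`) -/
  cls : ℕ → ℕ
  /-- mate of the corner `p` (turn between the darts `p-1` and `p`) -/
  mt : ℕ → Option ℕ
  /-- starts of the closed paths -/
  cs : Finset ℕ
  /-- `ce s` = last position of the closed path starting at `s` (`0` if `s ∉ cs`) -/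
  ce : ℕ → ℕ
  /-- marked classes (empty for S0267) -/
  mrk : Finset ℕ

namespace Shape

variable (σ : Shape)

/-- `p` is a corner: the darts `p-1` and `p` exist -/
def Cor (p : ℕ) : Prop := 1 ≤ p ∧ p - 1 ∈ σ.D ∧ p ∈ σ.D

/-- start of a path -/
def IsStart (p : ℕ) : Prop := p ∈ σ.D ∧ ¬ σ.Cor p

/-- last position of a path -/
def IsStop (p : ℕ) : Prop := 1 ≤ p ∧ p - 1 ∈ σ.D ∧ p ∉ σ.D

/-- basic properties -/
structure Basic : Prop where
  D_lt : ∀ p ∈ σ.D, p + 1 < σ.T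
  cover : ∀ p < σ.T, p ∈ σ.D ∨ (1 ≤ p ∧ p - 1 ∈ σ.D)
  cls_le : ∀ p, σ.cls p ≤ p
  cls_cls : ∀ p, σ.cls (σ.cls p) = σ.cls p
  cls_out : ∀ p, σ.T ≤ p → σ.cls p = p
  cls_ne : ∀ p ∈ σ.D, σ.cls p ≠ σ.cls (p + 1)
  red : ∀ p ∈ σ.D, p + 1 ∈ σ.D → σ.cls p ≠ σ.cls (p + 2)
  cs_start : ∀ s ∈ σ.cs, σ.IsStart s
  ce_stop : ∀ s ∈ σ.cs, σ.IsStop (σ.ce s)
  ce_inj : ∀ s ∈ σ.cs, ∀ s' ∈ σ.cs, σ.ce s = σ.ce s' → s = s'
  ce_cls : ∀ s ∈ σ.cs, σ.cls (σ.ce s) = σ.cls s
  ce_red : ∀ s ∈ σ.cs, σ.cls (s + 1) ≠ σ.cls (σ.ce s - 1)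
  ce_out : ∀ s, s ∉ σ.cs → σ.ce s = 0
  mt_cor : ∀ p p', σ.mt p = some p' → σ.Cor p
  mt_symm : ∀ p p', σ.mt p = some p' → σ.mt p' = some p
  mt_ne : ∀ p p', σ.mt p = some p' → σ.cls p ≠ σ.cls p'
  mt_coh : ∀ p p' q, σ.mt p = some p' → σ.mt (p + 1) = some q → q + 1 = p'
  mrk_lt : ∀ v ∈ σ.mrk, v < σ.T ∧ σ.cls v = v

/-- overlap property: two subpaths of length at most `g'` whose two end nodes agree are equal -/
def Ovl (g' : ℕ) : Prop :=
  ∀ p q d e : ℕ, d ≤ g' → e ≤ g' → (∀ i < d, p + i ∈ σ.D) → (∀ i < e, q + i ∈ σ.D) →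
    (σ.cls p = σ.cls q → σ.cls (p + d) = σ.cls (q + e) →
      e = d ∧ ∀ i ≤ d, σ.cls (p + i) = σ.cls (q + i)) ∧
    (σ.cls p = σ.cls (q + e) → σ.cls (p + d) = σ.cls q →
      e = d ∧ ∀ i ≤ d, σ.cls (p + i) = σ.cls (q + (d - i)))

/-- properties of the shape of a configuration with at most `K` paths and `D1` ends of runs of
matched corners in a graph of girth `> 2 g'` -/
structure Pre (K D1 g' : ℕ) : Prop extends Basic σ where
  paths_le : (Finset.range σ.T \ σ.D).card ≤ K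
  ends_le : ((Finset.range σ.T).filter (fun p => σ.mt p ≠ none ∧ σ.mt (p + 1) = none)).card ≤ D1
  ovl : σ.Ovl g'
  mrk_card : σ.mrk.card ≤ K

/-- the corners `p` and `q` have the same pair of neighbours -/
def Par (p q : ℕ) : Prop :=
  (σ.cls (p - 1) = σ.cls (q - 1) ∧ σ.cls (p + 1) = σ.cls (q + 1)) ∨
  (σ.cls (p - 1) = σ.cls (q + 1) ∧ σ.cls (p + 1) = σ.cls (q - 1))

/-- regular corner: the neighbouring corners are matched iff `p` is matched -/
def PReg (p : ℕ) : Prop :=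
  σ.Cor p ∧ (σ.mt p = none → σ.mt (p - 1) = none ∧ σ.mt (p + 1) = none) ∧
    (σ.mt p ≠ none → σ.mt (p - 1) ≠ none ∧ σ.mt (p + 1) ≠ none)

/-- regular class: all positions are regular parallel corners -/
def Reg (v : ℕ) : Prop :=
  v < σ.T ∧ σ.cls v = v ∧ v ∉ σ.mrk ∧ ∀ p < σ.T, σ.cls p = v → σ.PReg p ∧ σ.Par p v

/-- number of positions in the class `v` -/
noncomputable def Mv (v : ℕ) : ℕ := ((Finset.range σ.T).filter (fun p => σ.cls p = v)).card

/-- the basic properties together with the bounds: `Z` positions per class, `I` irregular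
classes -/
structure Good (Z I : ℕ) : Prop extends Basic σ where
  card_cls : ∀ v, σ.Mv v ≤ Z
  irr : ((Finset.range σ.T).filter (fun v => σ.cls v = v ∧ ¬ σ.Reg v)).card ≤ I

/-- `v` comes before `w` -/
def Prec (v w : ℕ) : Prop := σ.Mv w < σ.Mv v ∨ (σ.Mv w = σ.Mv v ∧ v < w)

/-- representatives: regular classes all of whose regular partners come later -/
def InR (v : ℕ) : Prop :=
  σ.Reg v ∧ ∀ p p', p < σ.T → σ.cls p = v → σ.mt p = some p' → σ.Reg (σ.cls p') →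
    σ.Prec v (σ.cls p')

/-- the darts `p`, `q` lie on the same edge -/
def SameE (p q : ℕ) : Prop :=
  (σ.cls p = σ.cls q ∧ σ.cls (p + 1) = σ.cls (q + 1)) ∨
  (σ.cls p = σ.cls (q + 1) ∧ σ.cls (p + 1) = σ.cls q)

/-- multiplicity of the edge of the dart `p` -/
noncomputable def mul (p : ℕ) : ℕ := (σ.D.filter (fun q => σ.SameE p q)).card

/-- multiplicity of the edge between the classes `v` and `w` -/
noncomputable def am (v w : ℕ) : ℕ :=
  (σ.D.filter (fun q => (σ.cls q = v ∧ σ.cls (q + 1) = w) ∨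
    (σ.cls q = w ∧ σ.cls (q + 1) = v))).card

/-- matched corners -/
noncomputable def gl : ℕ := ((Finset.range σ.T).filter (fun p => σ.mt p ≠ none)).card

/-- unmatched corners -/
noncomputable def ug : ℕ := ((Finset.range σ.T).filter (fun p => σ.Cor p ∧ σ.mt p = none)).card

/-- position which is an end (start or last position) of an open path -/
def OpenEnd (p : ℕ) : Prop :=
  (σ.IsStart p ∧ p ∉ σ.cs) ∨ (σ.IsStop p ∧ ∀ s ∈ σ.cs, σ.ce s ≠ p)

/-- ends of open paths at unmarked classes -/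
noncomputable def oe : ℕ :=
  ((Finset.range σ.T).filter (fun p => σ.OpenEnd p ∧ σ.cls p ∉ σ.mrk)).card

/-- darts leaving or entering the marked part -/
noncomputable def om : ℕ :=
  (σ.D.filter (fun q => (σ.cls q ∈ σ.mrk) ≠ (σ.cls (q + 1) ∈ σ.mrk))).card

variable {S : Type}

/-- consistent labelings -/
structure LabOK (ℓ : ℕ → S × Bool) : Prop where
  same : ∀ p ∈ σ.D, ∀ q ∈ σ.D, σ.cls p = σ.cls q → σ.cls (p + 1) = σ.cls (q + 1) → ℓ p = ℓ q
  opp : ∀ p ∈ σ.D, ∀ q ∈ σ.D, σ.cls p = σ.cls (q + 1) → σ.cls (p + 1) = σ.cls q →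
    ℓ p = hinv (ℓ q)
  red : ∀ p ∈ σ.D, p + 1 ∈ σ.D → ℓ (p + 1) ≠ hinv (ℓ p)
  mate : ∀ p p', σ.mt p = some p' → ℓ p' = hinv (ℓ (p - 1))

/-- the shape is realised in the graph `A` (marked nodes `o`) by the nodes `nd` and labels `ℓ` -/
structure Real {V : Type} (A : PAct S V) (o : Finset V) (nd : ℕ → V) (ℓ : ℕ → S × Bool) :
    Prop where
  step : ∀ p ∈ σ.D, A.st (ℓ p) (nd p) = some (nd (p + 1))
  node : ∀ p < σ.T, ∀ q < σ.T, (nd p = nd q ↔ σ.cls p = σ.cls q)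
  mark : ∀ p < σ.T, (nd p ∈ o ↔ σ.cls p ∈ σ.mrk)

/-- label of the half-edge at the class `v` towards the class `w` -/
noncomputable def he (ℓ : ℕ → S × Bool) (v w : ℕ) : S × Bool :=
  if h : ∃ q ∈ σ.D, σ.cls q = v ∧ σ.cls (q + 1) = w then ℓ h.choose
  else if h : ∃ q ∈ σ.D, σ.cls q = w ∧ σ.cls (q + 1) = v then hinv (ℓ h.choose)
  else ℓ 0

/-- neighbours of the class `v` at level `t` -/
noncomputable def Nb (t v : ℕ) : Finset ℕ := (Finset.range σ.T).filter (fun w => t ≤ σ.am v w)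

/-- unmarked classes present at level `t` -/
noncomputable def Vt (t : ℕ) : Finset ℕ :=
  (Finset.range σ.T).filter (fun v => v ∉ σ.mrk ∧ (σ.Nb t v).Nonempty)

/-- edges present at level `t`, not both ends marked -/
noncomputable def Et (t : ℕ) : Finset (ℕ × ℕ) :=
  ((Finset.range σ.T) ×ˢ (Finset.range σ.T)).filter
    (fun e => e.1 < e.2 ∧ t ≤ σ.am e.1 e.2 ∧ ¬ (e.1 ∈ σ.mrk ∧ e.2 ∈ σ.mrk))

end Shape

/-- Kraft data (derived from a `Model`): as in `Model`, with `δ` extended to half-edges and `q`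
bounded below. -/
structure KD (S : Type) [Fintype S] where
  tot : ℝ
  one_le_tot : 1 ≤ tot
  N : S → ℝ
  N_pos : ∀ s, 0 < N s
  n : S × Bool → S × Bool → ℝ
  n_symm : ∀ h h', n h h' = n h' h
  n_nonneg : ∀ h h', 0 ≤ n h h'
  δ : S × Bool → ℝ
  δ_pos : ∀ h, 0 < δ h
  δ_inv : ∀ h, δ (hinv h) = (δ h)⁻¹
  u : S × Bool → ℝ
  u_pos : ∀ h, 0 < u h
  ρ : ℝ
  ρ_pos : 0 < ρ
  ρ_lt : ρ < 1
  q : S × Bool → S × Bool → ℝ
  q_symm : ∀ h h', q h h' = q h' h
  q0 : ℝ
  q0_pos : 0 < q0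
  q0_lt : q0 < 1
  q0_le : ∀ h h', q0 ≤ q h h'
  q_le_one : ∀ h h', h ≠ h' → q h h' ≤ 1
  key : ∀ h h', h ≠ h' → n h h' ^ 2 * δ h * δ h' ≤ ρ * q h h' * (N h.1 * N h'.1)
  sub : ∀ h, (∑ h' ∈ Finset.univ.filter (fun h' => h' ≠ hinv h), q (hinv h) h' * u h') ≤ u h

/-- `κ` fits to the model at size `m` -/
structure KD.Fits {S : Type} [Fintype S] (κ : KD S) (M : Model S) : Prop where
  tot : ∀ m, (Nat.card (M.V m) : ℝ) ≤ κ.tot * M.sz m
  N : κ.N = M.N
  n : κ.n = M.n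

section Weights

variable {S : Type} [Fintype S] (κ : KD S) (M : Model S) (m : ℕ) (σ : Shape)

/-- Kraft weight of a labeling at level `t` -/
noncomputable def Wt (t : ℕ) (ℓ : ℕ → S × Bool) : ℝ :=
  ∏ v ∈ (Finset.range σ.T).filter (fun v => σ.InR v ∧ t ≤ σ.Mv v), κ.q (hinv (ℓ (v - 1))) (ℓ v)

/-- number of nodes with the half-edges of the class `v` at level `t` -/
noncomputable def cnt (t : ℕ) (ℓ : ℕ → S × Bool) (v : ℕ) : ℝ :=
  Nat.card {x : M.V m // ∀ w ∈ σ.Nb t v, M.has m x (σ.he ℓ v w)}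

/-- first moment of a labeled level -/
noncomputable def At (t : ℕ) (ℓ : ℕ → S × Bool) : ℝ :=
  (∏ v ∈ σ.Vt t, cnt M m σ t ℓ v) / ∏ e ∈ σ.Et t, (M.N (σ.he ℓ e.1 e.2).1 * M.sz m)

end Weights

/-- random graphs with the switching bound; `o` = marked nodes (the edges inside `o` are planted) -/
structure Meas {S : Type} [Fintype S] (M : Model S) (m : ℕ) (o : Finset (M.V m)) (Ω : Type)
    [Fintype Ω] (Γ : Ω → PAct S (M.V m)) (B : ℕ) : Prop where
  adm : ∀ ω, M.Adm m (Γ ω)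
  bound : ∀ E0 : Finset (S × M.V m × M.V m), (∀ e ∈ E0, ¬ (e.2.1 ∈ o ∧ e.2.2 ∈ o)) →
    E0.card ≤ B → (Nat.card {ω // ∀ e ∈ E0, (Γ ω).st (e.1, true) e.2.1 = some e.2.2} : ℝ) *
      ∏ e ∈ E0, (M.N e.1 * M.sz m) ≤ 2 * Fintype.card Ω

end Crest.Agent.R177.Loc
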