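import Crest.Agent.R177.LocDefs
import Crest.Agent.R177.Pieces

/-!
# LOC, task LE: first moment for one labelled level (helper286)
-/

set_option autoImplicit false
set_option linter.unusedSectionVars false
set_option linter.unusedVariables false

open scoped Classical

namespace Crest.Agent.R177.Loc

open Crest.Agent.R177
open Crest.Agent.R199 (PAct)
open Finset

namespace FM

variable {S : Type} {σ : Shape}

theorem exists_of_am {v w : ℕ} (h : 1 ≤ σ.am v w) : ∃ q ∈ σ.D,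
    (σ.cls q = v ∧ σ.cls (q + 1) = w) ∨ (σ.cls q = w ∧ σ.cls (q + 1) = v) := by
  unfold Shape.am at h
  obtain ⟨q, hq⟩ := card_pos.1 h
  rw [mem_filter] at hq
  exact ⟨q, hq.1, hq.2⟩

theorem mul_eq_am {q v w : ℕ}
    (h : (σ.cls q = v ∧ σ.cls (q + 1) = w) ∨ (σ.cls q = w ∧ σ.cls (q + 1) = v)) :
    σ.mul q = σ.am v w := by
  unfold Shape.mul Shape.am
  congr 1
  ext q'
  simp only [mem_filter]
  apply and_congr_right
  intro _
  unfold Shape.SameE
  rcases h with ⟨h1, h2⟩ | ⟨h1, h2⟩ <;> rw [h1, h2]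
  · constructor
    · rintro (⟨a, b⟩ | ⟨a, b⟩)
      · exact Or.inl ⟨a.symm, b.symm⟩
      · exact Or.inr ⟨b.symm, a.symm⟩
    · rintro (⟨a, b⟩ | ⟨a, b⟩)
      · exact Or.inl ⟨a.symm, b.symm⟩
      · exact Or.inr ⟨b.symm, a.symm⟩
  · constructor
    · rintro (⟨a, b⟩ | ⟨a, b⟩)
      · exact Or.inr ⟨a.symm, b.symm⟩
      · exact Or.inl ⟨b.symm, a.symm⟩
    · rintro (⟨a, b⟩ | ⟨a, b⟩)
      · exact Or.inr ⟨b.symm, a.symm⟩
      · exact Or.inl ⟨a.symm, b.symm⟩

theorem lt_T_of_mem {q : ℕ} (hσ : σ.Basic) (hq : q ∈ σ.D) : q + 1 < σ.T := hσ.D_lt q hq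

theorem cls_lt {q : ℕ} (hσ : σ.Basic) (hq : q < σ.T) : σ.cls q < σ.T :=
  lt_of_le_of_lt (hσ.cls_le q) hq

theorem class_of_am (hσ : σ.Basic) {v w : ℕ} (h : 1 ≤ σ.am v w) :
    (v < σ.T ∧ σ.cls v = v) ∧ (w < σ.T ∧ σ.cls w = w) := by
  obtain ⟨q, hq, h1 | h1⟩ := exists_of_am h
  · have h2 := hσ.D_lt q hq
    rw [← h1.1, ← h1.2]
    exact ⟨⟨cls_lt hσ (by omega), hσ.cls_cls _⟩, ⟨cls_lt hσ (by omega), hσ.cls_cls _⟩⟩
  · have h2 := hσ.D_lt q hq
    rw [← h1.1, ← h1.2]
    exact ⟨⟨cls_lt hσ (by omega), hσ.cls_cls _⟩, ⟨cls_lt hσ (by omega), hσ.cls_cls _⟩⟩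

theorem nd_cls {V : Type} {A : PAct S V} {o : Finset V} {nd : ℕ → V} {ℓ' : ℕ → S × Bool}
    (hσ : σ.Basic) (hR : σ.Real A o nd ℓ') {q : ℕ} (hq : q < σ.T) : nd (σ.cls q) = nd q :=
  (hR.node _ (cls_lt hσ hq) _ hq).2 (hσ.cls_cls q)

theorem st_he {V : Type} {A : PAct S V} {o : Finset V} {nd : ℕ → V} {ℓ ℓ' : ℕ → S × Bool} {t : ℕ}
    (hσ : σ.Basic) (hR : σ.Real A o nd ℓ') (hℓ' : ∀ p ∈ σ.D, t ≤ σ.mul p → ℓ' p = ℓ p)
    (ht : 1 ≤ t) {v w : ℕ} (h : t ≤ σ.am v w) :
    A.st (σ.he ℓ v w) (nd v) = some (nd w) := by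
  unfold Shape.he
  split_ifs with h1 h2
  · obtain ⟨hq, ha, hb⟩ := h1.choose_spec
    set q := h1.choose
    have h3 := hR.step q hq
    have h4 := hσ.D_lt q hq
    rw [hℓ' q hq (by rw [mul_eq_am (Or.inl ⟨ha, hb⟩)]; exact h)] at h3
    rw [← nd_cls hσ hR (show q < σ.T by omega), ← nd_cls hσ hR h4, ha, hb] at h3
    exact h3
  · obtain ⟨hq, ha, hb⟩ := h2.choose_spec
    set q := h2.choose
    have h3 := hR.step q hq
    have h4 := hσ.D_lt q hq
    rw [hℓ' q hq (by rw [mul_eq_am (Or.inr ⟨ha, hb⟩)]; exact h)] at h3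
    rw [← nd_cls hσ hR (show q < σ.T by omega), ← nd_cls hσ hR h4, ha, hb] at h3
    exact (st_hinv A).2 h3
  · obtain ⟨q, hq, h3 | h3⟩ := exists_of_am (ht.trans h)
    · exact absurd ⟨q, hq, h3⟩ h1
    · exact absurd ⟨q, hq, h3⟩ h2

/-- the positively oriented triple of an edge -/
noncomputable def tri {V : Type} (hl : S × Bool) (x y : V) : S × V × V :=
  if hl.2 then (hl.1, x, y) else (hl.1, y, x)

theorem tri_fst {V : Type} (hl : S × Bool) (x y : V) : (tri hl x y).1 = hl.1 := by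
  unfold tri; split_ifs <;> rfl

theorem st_tri {V : Type} {A : PAct S V} {hl : S × Bool} {x y : V} (h : A.st hl x = some y) :
    A.st ((tri hl x y).1, true) (tri hl x y).2.1 = some (tri hl x y).2.2 := by
  unfold tri
  rcases hl with ⟨s, b⟩
  cases b
  · simpa using A.symm _ _ _ h
  · simpa using h

theorem card_Et_le (hσ : σ.Basic) {t : ℕ} (ht : 1 ≤ t) : (σ.Et t).card ≤ σ.T := by
  have h1 : (σ.Et t).card ≤ (σ.D.image fun q =>
      if σ.cls q < σ.cls (q + 1) then (σ.cls q, σ.cls (q + 1)) else (σ.cls (q + 1), σ.cls q)).card := by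
    apply card_le_card
    rintro ⟨v, w⟩ he
    unfold Shape.Et at he
    rw [mem_filter] at he
    obtain ⟨-, h1, h2, -⟩ := he
    simp only at h1 h2
    rw [mem_image]
    obtain ⟨q, hq, h3 | h3⟩ := exists_of_am (ht.trans h2)
    · refine ⟨q, hq, ?_⟩
      rw [h3.1, h3.2, if_pos h1]
    · refine ⟨q, hq, ?_⟩
      rw [h3.1, h3.2, if_neg (by omega)]
  refine h1.trans (card_image_le.trans ?_)
  have h2 : σ.D ⊆ range σ.T := fun q hq => by
    rw [mem_range]; have := hσ.D_lt q hq; omega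
  simpa using card_le_card h2

end FM

open FM in
theorem first_moment {S : Type} [Fintype S] (M : Model S) (m : ℕ) (hsz : 1 ≤ M.sz m)
    (o : Finset (M.V m)) (Ω : Type)
    [Fintype Ω] (Γ : Ω → PAct S (M.V m)) (B : ℕ) (hM : Meas M m o Ω Γ B) (σ : Shape)
    (hσ : σ.Basic) (hB : σ.T ≤ B) (t : ℕ) (ht : 1 ≤ t) (ℓ : ℕ → S × Bool) (hℓ : σ.LabOK ℓ) :
    (Nat.card {ω // ∃ nd ℓ', σ.Real (Γ ω) o nd ℓ' ∧ σ.LabOK ℓ' ∧
      ∀ p ∈ σ.D, t ≤ σ.mul p → ℓ' p = ℓ p} : ℝ) ≤
      2 * Fintype.card Ω * (1 + o.card) ^ σ.mrk.card * At M m σ t ℓ := by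
  have := M.fin m
  let : Fintype (M.V m) := Fintype.ofFinite _
  -- relevant classes
  set C : Finset ℕ := σ.Vt t ∪ σ.mrk with hC
  have hdisj : Disjoint (σ.Vt t) σ.mrk := by
    rw [Finset.disjoint_left]
    intro v hv
    unfold Shape.Vt at hv
    rw [mem_filter] at hv
    exact hv.2.1
  -- admissible nodes
  set adm : C → Finset (M.V m) := fun c =>
    if (c : ℕ) ∈ σ.mrk then o else univ.filter (fun x => ∀ w ∈ σ.Nb t c, M.has m x (σ.he ℓ c w))
    with hadm
  set ext : (C → M.V m) → ℕ → Option (M.V m) := fun f v =>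
    if h : v ∈ C then some (f ⟨v, h⟩) else none with hext
  -- good placements
  set P : Finset (C → M.V m) := (Fintype.piFinset adm).filter
    (fun f => Function.Injective f ∧ ∀ c : C, (f c ∈ o ↔ (c : ℕ) ∈ σ.mrk)) with hP
  have hmemC : ∀ e ∈ σ.Et t, e.1 ∈ C ∧ e.2 ∈ C := by
    rintro ⟨v, w⟩ he
    unfold Shape.Et at he
    rw [mem_filter] at he
    obtain ⟨-, h1, h2, h3⟩ := he
    simp only at h1 h2 h3
    obtain ⟨⟨hv, hv'⟩, hw, hw'⟩ := class_of_am hσ (ht.trans h2)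
    have hsymm : σ.am w v = σ.am v w := by
      unfold Shape.am
      congr 1
      ext q
      rw [mem_filter, mem_filter]
      exact and_congr_right fun _ => or_comm
    have key : ∀ a b, a < σ.T → b < σ.T → t ≤ σ.am a b → a ∈ C := by
      intro a b ha hb hab
      rw [hC, mem_union]
      by_cases hm : a ∈ σ.mrk
      · exact Or.inr hm
      · left
        unfold Shape.Vt
        rw [mem_filter]
        refine ⟨mem_range.2 ha, hm, b, ?_⟩
        unfold Shape.Nb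
        rw [mem_filter]
        exact ⟨mem_range.2 hb, hab⟩
    exact ⟨key v w hv hw h2, key w v hw hv (by rw [hsymm]; exact h2)⟩
  -- edges
  set E0 : (C → M.V m) → Finset (S × M.V m × M.V m) := fun f =>
    (σ.Et t).attach.image fun e => tri (σ.he ℓ e.1.1 e.1.2) (f ⟨e.1.1, (hmemC e.1 e.2).1⟩)
      (f ⟨e.1.2, (hmemC e.1 e.2).2⟩) with hE0
  have hinjE : ∀ f : C → M.V m, Function.Injective f → Function.Injective
      (fun e : {e // e ∈ σ.Et t} => tri (σ.he ℓ e.1.1 e.1.2) (f ⟨e.1.1, (hmemC e.1 e.2).1⟩)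
      (f ⟨e.1.2, (hmemC e.1 e.2).2⟩)) := by
    rintro f hf ⟨⟨v, w⟩, he⟩ ⟨⟨v', w'⟩, he'⟩ h
    have hvw : v < w := by
      have h1 := he
      unfold Shape.Et at h1
      rw [mem_filter] at h1
      exact h1.2.1
    have hvw' : v' < w' := by
      have h1 := he'
      unfold Shape.Et at h1
      rw [mem_filter] at h1
      exact h1.2.1
    simp only [tri] at h
    have key : (f ⟨v, (hmemC _ he).1⟩ = f ⟨v', (hmemC _ he').1⟩ ∧
        f ⟨w, (hmemC _ he).2⟩ = f ⟨w', (hmemC _ he').2⟩) ∨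
        (f ⟨v, (hmemC _ he).1⟩ = f ⟨w', (hmemC _ he').2⟩ ∧
        f ⟨w, (hmemC _ he).2⟩ = f ⟨v', (hmemC _ he').1⟩) := by
      split_ifs at h <;> simp only [Prod.mk.injEq] at h
      · exact Or.inl h.2
      · exact Or.inr h.2
      · exact Or.inr ⟨h.2.2, h.2.1⟩
      · exact Or.inl ⟨h.2.2, h.2.1⟩
    rcases key with ⟨h1, h2⟩ | ⟨h1, h2⟩
    · have h3 := hf h1
      have h4 := hf h2
      simp only [Subtype.mk.injEq] at h3 h4
      apply Subtype.ext
      exact Prod.ext h3 h4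
    · have h3 := hf h1
      have h4 := hf h2
      simp only [Subtype.mk.injEq] at h3 h4
      omega
  set W : ℝ := ∏ e ∈ σ.Et t, (M.N (σ.he ℓ e.1 e.2).1 * M.sz m) with hW
  have hszR : (0 : ℝ) < M.sz m := by exact_mod_cast hsz
  have hW0 : 0 < W := prod_pos fun e _ => mul_pos (M.N_pos _) hszR
  -- bound for one placement
  have hone : ∀ f ∈ P, (((univ : Finset Ω).filter (fun ω => ∀ e ∈ E0 f,
      (Γ ω).st (e.1, true) e.2.1 = some e.2.2)).card : ℝ) * W ≤ 2 * Fintype.card Ω := by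
    intro f hf
    rw [hP, mem_filter] at hf
    obtain ⟨hf1, hf2, hf3⟩ := hf
    have hb := hM.bound (E0 f) (by
      intro e he
      rw [hE0, mem_image] at he
      obtain ⟨⟨⟨v, w⟩, he1⟩, -, rfl⟩ := he
      have h1 := he1
      unfold Shape.Et at h1
      rw [mem_filter] at h1
      intro h2
      apply h1.2.2.2
      have h3 : f ⟨v, (hmemC _ he1).1⟩ ∈ o ∧ f ⟨w, (hmemC _ he1).2⟩ ∈ o := by
        simp only [tri] at h2
        split_ifs at h2
        · exact h2
        · exact ⟨h2.2, h2.1⟩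
      exact ⟨(hf3 _).1 h3.1, (hf3 _).1 h3.2⟩)
      (by
        refine le_trans (card_image_le) ?_
        rw [card_attach]
        exact (card_Et_le hσ ht).trans hB)
    have h1 : ∏ e ∈ E0 f, (M.N e.1 * M.sz m) = W := by
      rw [hE0]
      rw [prod_image (fun a _ b _ h => hinjE f hf2 h)]
      rw [hW, ← prod_attach (σ.Et t)]
      refine prod_congr rfl fun e _ => ?_
      rw [tri_fst]
    rw [h1] at hb
    have h2 : Nat.card {ω // ∀ e ∈ E0 f, (Γ ω).st (e.1, true) e.2.1 = some e.2.2} =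
        ((univ : Finset Ω).filter (fun ω => ∀ e ∈ E0 f,
      (Γ ω).st (e.1, true) e.2.1 = some e.2.2)).card := by
      rw [Nat.card_eq_fintype_card, Fintype.card_subtype]
    rw [h2] at hb
    exact hb
  -- union bound
  have hsub : (univ : Finset Ω).filter (fun ω => ∃ nd ℓ', σ.Real (Γ ω) o nd ℓ' ∧ σ.LabOK ℓ' ∧
      ∀ p ∈ σ.D, t ≤ σ.mul p → ℓ' p = ℓ p) ⊆
      P.biUnion fun f => (univ : Finset Ω).filter (fun ω => ∀ e ∈ E0 f,
        (Γ ω).st (e.1, true) e.2.1 = some e.2.2) := by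
    intro ω hω
    rw [mem_filter] at hω
    obtain ⟨-, nd, ℓ', hR, hL, hlev⟩ := hω
    rw [mem_biUnion]
    have hst : ∀ v w, t ≤ σ.am v w → (Γ ω).st (σ.he ℓ v w) (nd v) = some (nd w) :=
      fun v w h => st_he hσ hR hlev ht h
    have hCT : ∀ c ∈ C, c < σ.T ∧ σ.cls c = c := by
      intro c hc
      rw [hC, mem_union] at hc
      rcases hc with hc | hc
      · unfold Shape.Vt at hc
        rw [mem_filter] at hc
        obtain ⟨h1, -, w, hw⟩ := hc
        unfold Shape.Nb at hw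
        rw [mem_filter] at hw
        exact (class_of_am hσ (ht.trans hw.2)).1
      · exact hσ.mrk_lt c hc
    refine ⟨fun c => nd c, ?_, ?_⟩
    · rw [hP, mem_filter, Fintype.mem_piFinset]
      refine ⟨?_, ?_, ?_⟩
      · intro c
        rw [hadm]
        simp only
        split_ifs with hm
        · exact (hR.mark c (hCT c c.2).1).2 (by rw [(hCT c c.2).2]; exact hm)
        · rw [mem_filter]
          refine ⟨mem_univ _, fun w hw => ?_⟩
          unfold Shape.Nb at hw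
          rw [mem_filter] at hw
          rw [← hM.adm ω, hst _ _ hw.2]; rfl
      · intro c c' h
        apply Subtype.ext
        have := (hR.node c (hCT c c.2).1 c' (hCT c' c'.2).1).1 h
        rwa [(hCT c c.2).2, (hCT c' c'.2).2] at this
      · intro c
        have := hR.mark c (hCT c c.2).1
        rwa [(hCT c c.2).2] at this
    · rw [mem_filter]
      refine ⟨mem_univ _, fun e he => ?_⟩
      rw [hE0, mem_image] at he
      obtain ⟨⟨⟨v, w⟩, he1⟩, -, rfl⟩ := he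
      apply st_tri
      apply hst
      have h1 := he1
      unfold Shape.Et at h1
      rw [mem_filter] at h1
      exact h1.2.2.1
  have hcardP : (P.card : ℝ) ≤ (∏ v ∈ σ.Vt t, cnt M m σ t ℓ v) * (1 + o.card) ^ σ.mrk.card := by
    have h1 : P.card ≤ ∏ c : C, (adm c).card := by
      rw [← Fintype.card_piFinset]; exact card_filter_le _ _
    have h2 : (∏ c : C, ((adm c).card : ℝ)) ≤
        (∏ v ∈ σ.Vt t, cnt M m σ t ℓ v) * (1 + o.card) ^ σ.mrk.card := by
      have h3 : (∏ c : C, ((adm c).card : ℝ)) = ∏ v ∈ C, (if v ∈ σ.mrk then (o.card : ℝ) else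
          cnt M m σ t ℓ v) := by
        rw [← prod_coe_sort C]
        refine prod_congr rfl fun c _ => ?_
        rw [hadm]
        simp only
        split_ifs with hm
        · rfl
        · unfold cnt
          rw [Nat.card_eq_fintype_card, Fintype.card_subtype]
      rw [h3, hC, prod_union hdisj]
      apply mul_le_mul
      · apply le_of_eq
        refine prod_congr rfl fun v hv => ?_
        rw [if_neg (Finset.disjoint_left.1 hdisj hv)]
      · rw [← prod_const]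
        refine prod_le_prod (fun v hv => ?_) fun v hv => ?_
        · rw [if_pos hv]; positivity
        · rw [if_pos hv]; linarith
      · refine prod_nonneg fun v hv => ?_
        rw [if_pos hv]; positivity
      · refine prod_nonneg fun v hv => ?_
        unfold cnt; positivity
    calc (P.card : ℝ) ≤ ((∏ c : C, (adm c).card : ℕ) : ℝ) := by exact_mod_cast h1
      _ = ∏ c : C, ((adm c).card : ℝ) := by push_cast; rfl
      _ ≤ _ := h2
  have hfin : (((univ : Finset Ω).filter (fun ω => ∃ nd ℓ', σ.Real (Γ ω) o nd ℓ' ∧ σ.LabOK ℓ' ∧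
      ∀ p ∈ σ.D, t ≤ σ.mul p → ℓ' p = ℓ p)).card : ℝ) * W ≤
      (2 * Fintype.card Ω) * P.card := by
    calc _ ≤ ((∑ f ∈ P, ((univ : Finset Ω).filter (fun ω => ∀ e ∈ E0 f,
        (Γ ω).st (e.1, true) e.2.1 = some e.2.2)).card : ℕ) : ℝ) * W := by
          apply mul_le_mul_of_nonneg_right _ hW0.le
          have h5 := (card_le_card hsub).trans card_biUnion_le
          exact Nat.cast_le.2 (by convert h5)
      _ = ∑ f ∈ P, (((univ : Finset Ω).filter (fun ω => ∀ e ∈ E0 f,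
        (Γ ω).st (e.1, true) e.2.1 = some e.2.2)).card : ℝ) * W := by
          push_cast
          rw [sum_mul]
      _ ≤ ∑ f ∈ P, (2 * Fintype.card Ω : ℝ) := sum_le_sum fun f hf => hone f hf
      _ = _ := by rw [sum_const, nsmul_eq_mul, mul_comm]
  have hcard : Nat.card {ω // ∃ nd ℓ', σ.Real (Γ ω) o nd ℓ' ∧ σ.LabOK ℓ' ∧
      ∀ p ∈ σ.D, t ≤ σ.mul p → ℓ' p = ℓ p} = ((univ : Finset Ω).filter (fun ω => ∃ nd ℓ',
      σ.Real (Γ ω) o nd ℓ' ∧ σ.LabOK ℓ' ∧ ∀ p ∈ σ.D, t ≤ σ.mul p → ℓ' p = ℓ p)).card := by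
    rw [Nat.card_eq_fintype_card, Fintype.card_subtype]
  rw [hcard]
  unfold At
  rw [← hW]
  have h9 : (0 : ℝ) ≤ 2 * Fintype.card Ω := by positivity
  calc _ ≤ (2 * Fintype.card Ω) * P.card / W := by
        rw [le_div_iff₀ hW0]; exact hfin
    _ ≤ (2 * Fintype.card Ω) * ((∏ v ∈ σ.Vt t, cnt M m σ t ℓ v) * (1 + o.card) ^ σ.mrk.card) / W := by
        gcongr
    _ = _ := by ring

end Crest.Agent.R177.Loc
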