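import Crest.Agent.R177.LocDefs

/-!
# Row 177, module LOC: LA2, the bounds `Z`, `I` for the shape of a configuration (helper755)
-/

set_option autoImplicit false

open scoped Classical

namespace Crest.Agent.R177.Loc

open Crest.Agent.R177

namespace LG

variable (σ : Shape) (g' : ℕ)

/-- start of a piece -/
def Stt (s : ℕ) : Prop := s % g' = 0 ∨ (1 ≤ s ∧ s - 1 ∉ σ.D)

/-- start of the piece of the position `p` -/
noncomputable def st (p : ℕ) : ℕ := Nat.findGreatest (Stt σ g') p

variable {σ g'}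

theorem stt_zero : Stt σ g' 0 := Or.inl (Nat.zero_mod _)

theorem st_le (p : ℕ) : st σ g' p ≤ p := Nat.findGreatest_le p

theorem st_stt (p : ℕ) : Stt σ g' (st σ g' p) :=
  Nat.findGreatest_spec (m := 0) (Nat.zero_le p) stt_zero

theorem not_stt {p i : ℕ} (h1 : st σ g' p < i) (h2 : i ≤ p) : ¬ Stt σ g' i :=
  Nat.findGreatest_is_greatest h1 h2

theorem le_st {p s : ℕ} (h : s ≤ p) (hs : Stt σ g' s) : s ≤ st σ g' p :=
  Nat.le_findGreatest h hs

theorem mem_D {p i : ℕ} (h1 : st σ g' p ≤ i) (h2 : i < p) : i ∈ σ.D := by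
  have h3 : ¬ Stt σ g' (i + 1) := not_stt (Nat.lt_succ_of_le h1) h2
  by_contra h4
  exact h3 (Or.inr ⟨by omega, by simpa using h4⟩)

theorem sub_lt (hg : 0 < g') (p : ℕ) : p < st σ g' p + g' := by
  by_contra h
  push Not at h
  have h1 : Stt σ g' (g' * (st σ g' p / g' + 1)) := Or.inl (Nat.mul_mod_right _ _)
  have h2 := Nat.div_add_mod (st σ g' p) g'
  have h3 := Nat.mod_lt (st σ g' p) hg
  have h4 : g' * (st σ g' p / g' + 1) = g' * (st σ g' p / g') + g' := by ring
  refine not_stt (σ := σ) (g' := g') (p := p) ?_ ?_ h1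
  · omega
  · omega

theorem st_eq {z i : ℕ} (h1 : st σ g' z ≤ i) (h2 : i ≤ z) : st σ g' i = st σ g' z := by
  apply le_antisymm
  · exact le_st ((st_le i).trans h2) (st_stt i)
  · exact le_st h1 (st_stt z)

/-- the starts of pieces -/
noncomputable def starts (σ : Shape) (g' : ℕ) : Finset ℕ := (Finset.range σ.T).filter (Stt σ g')

theorem st_mem {p : ℕ} (hp : p < σ.T) : st σ g' p ∈ starts σ g' := by
  simp only [starts, Finset.mem_filter, Finset.mem_range]
  exact ⟨(st_le p).trans_lt hp, st_stt p⟩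

theorem card_starts {K D1 Y : ℕ} (hσ : σ.Pre K D1 g') (hT : σ.T ≤ Y * g') (hg : 0 < g') :
    (starts σ g').card ≤ K + Y := by
  have h : starts σ g' ⊆ (Finset.range σ.T \ σ.D).image (· + 1) ∪
      (Finset.range Y).image (· * g') := by
    intro s hs
    simp only [starts, Finset.mem_filter, Finset.mem_range] at hs
    obtain ⟨h1, h2 | ⟨h2, h3⟩⟩ := hs
    · apply Finset.mem_union_right
      simp only [Finset.mem_image, Finset.mem_range]
      refine ⟨s / g', ?_, Nat.div_mul_cancel (Nat.dvd_of_mod_eq_zero h2)⟩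
      rw [Nat.div_lt_iff_lt_mul hg]
      omega
    · apply Finset.mem_union_left
      simp only [Finset.mem_image, Finset.mem_sdiff, Finset.mem_range]
      exact ⟨s - 1, ⟨by omega, h3⟩, by omega⟩
  calc (starts σ g').card ≤ _ := Finset.card_le_card h
    _ ≤ _ := Finset.card_union_le _ _
    _ ≤ K + Y := by
      refine Nat.add_le_add (Finset.card_image_le.trans hσ.paths_le) ?_
      exact Finset.card_image_le.trans (by simp)

/-- two positions of a piece are at different nodes -/
theorem cls_ne {K D1 : ℕ} (hσ : σ.Pre K D1 g') (hg : 0 < g') {p q : ℕ} (h : p < q)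
    (hst : st σ g' p = st σ g' q) : σ.cls p ≠ σ.cls q := by
  intro he
  have h1 := st_le (σ := σ) (g' := g') p
  have h2 := sub_lt (σ := σ) hg q
  have h3 := (hσ.ovl p p (q - p) 0 (by omega) (by omega)
    (fun i hi => mem_D (g' := g') (p := q) (by omega) (by omega)) (fun i hi => absurd hi (by omega))).1 rfl
    (by rw [Nat.add_sub_cancel' h.le, Nat.add_zero]; exact he.symm)
  omega

theorem eq_of_cls {K D1 : ℕ} (hσ : σ.Pre K D1 g') (hg : 0 < g') {p q : ℕ}
    (hst : st σ g' p = st σ g' q) (hc : σ.cls p = σ.cls q) : p = q := by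
  rcases lt_trichotomy p q with h | h | h
  · exact absurd hc (cls_ne hσ hg h hst)
  · exact h
  · exact absurd hc.symm (cls_ne hσ hg h hst.symm)

theorem Mv_le {K D1 Y : ℕ} (hσ : σ.Pre K D1 g') (hT : σ.T ≤ Y * g') (hg : 0 < g') (v : ℕ) :
    σ.Mv v ≤ K + Y := by
  refine le_trans ?_ (card_starts hσ hT hg)
  unfold Shape.Mv
  refine Finset.card_le_card_of_injOn (st σ g') ?_ ?_
  · intro p hp
    simp only [Finset.coe_filter, Set.mem_ofPred_eq, Finset.mem_range] at hp
    exact st_mem hp.1
  · intro p hp q hq he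
    simp only [Finset.coe_filter, Set.mem_ofPred_eq, Finset.mem_range] at hp hq
    exact eq_of_cls hσ hg he (hp.2.trans hq.2.symm)

/-- the middle one of three positions of a piece whose classes lie in a piece is parallel -/
theorem par_mid {K D1 : ℕ} (hσ : σ.Pre K D1 g') (hg : 0 < g') {a b c : ℕ} (hab : a < b)
    (hbc : b < c) (h1 : st σ g' a = st σ g' c) (h2 : st σ g' (σ.cls a) = st σ g' (σ.cls c))
    (h3 : st σ g' (σ.cls b) = st σ g' (σ.cls c)) : σ.Par b (σ.cls b) := by
  have hac : σ.cls a ≠ σ.cls c := cls_ne hσ hg (hab.trans hbc) h1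
  have ha := hσ.cls_cls a
  have hb := hσ.cls_cls b
  have hc := hσ.cls_cls c
  have e1 := st_le (σ := σ) (g' := g') a
  have e2 := sub_lt (σ := σ) hg c
  have e3 := st_le (σ := σ) (g' := g') (σ.cls a)
  have e4 := sub_lt (σ := σ) hg (σ.cls c)
  have e5 := st_le (σ := σ) (g' := g') (σ.cls c)
  have e6 := sub_lt (σ := σ) hg (σ.cls a)
  rcases lt_or_gt_of_ne hac with h | h
  · obtain ⟨f1, f2⟩ := (hσ.ovl a (σ.cls a) (c - a) (σ.cls c - σ.cls a) (by omega) (by omega)
      (fun i hi => mem_D (g' := g') (p := c) (by omega) (by omega))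
      (fun i hi => mem_D (g' := g') (p := σ.cls c) (by omega) (by omega))).1 ha.symm
      (by rw [Nat.add_sub_cancel' (hab.trans hbc).le, Nat.add_sub_cancel' h.le, hc])
    have f3 := f2 (b - a) (by omega)
    have f4 := f2 (b - a - 1) (by omega)
    have f5 := f2 (b - a + 1) (by omega)
    rw [show a + (b - a) = b by omega] at f3
    rw [show a + (b - a - 1) = b - 1 by omega] at f4
    rw [show a + (b - a + 1) = b + 1 by omega] at f5
    have f6 : σ.cls b = σ.cls a + (b - a) := by
      refine eq_of_cls hσ hg ?_ (hb.trans f3)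
      rw [h3]
      exact (st_eq (by omega) (by omega)).symm
    refine Or.inl ⟨?_, ?_⟩
    · rw [f4, f6]
      congr 1
      omega
    · rw [f5, f6]
      congr 1
  · obtain ⟨f1, f2⟩ := (hσ.ovl a (σ.cls c) (c - a) (σ.cls a - σ.cls c) (by omega) (by omega)
      (fun i hi => mem_D (g' := g') (p := c) (by omega) (by omega))
      (fun i hi => mem_D (g' := g') (p := σ.cls a) (by omega) (by omega))).2
      (by rw [Nat.add_sub_cancel' (le_of_lt h), ha])
      (by rw [Nat.add_sub_cancel' (hab.trans hbc).le, hc])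
    have f3 := f2 (b - a) (by omega)
    have f4 := f2 (b - a - 1) (by omega)
    have f5 := f2 (b - a + 1) (by omega)
    rw [show a + (b - a) = b by omega, show c - a - (b - a) = c - b by omega] at f3
    rw [show a + (b - a - 1) = b - 1 by omega,
      show c - a - (b - a - 1) = c - b + 1 by omega] at f4
    rw [show a + (b - a + 1) = b + 1 by omega,
      show c - a - (b - a + 1) = c - b - 1 by omega] at f5
    have f6 : σ.cls b = σ.cls c + (c - b) := by
      refine eq_of_cls hσ hg ?_ (hb.trans f3)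
      rw [h3, ← h2]
      exact (st_eq (by omega) (by omega)).symm
    refine Or.inr ⟨?_, ?_⟩
    · rw [f4, f6]
      congr 1
    · rw [f5, f6]
      congr 1
      omega

/-- positions which are not parallel to their class -/
noncomputable def badPar (σ : Shape) : Finset ℕ :=
  (Finset.range σ.T).filter (fun p => ¬ σ.Par p (σ.cls p))

theorem card_badPar {K D1 Y : ℕ} (hσ : σ.Pre K D1 g') (hT : σ.T ≤ Y * g') (hg : 0 < g') :
    (badPar σ).card ≤ 2 * ((K + Y) * (K + Y)) := by
  have h1 : (badPar σ).card ≤ 2 * (starts σ g' ×ˢ starts σ g').card := by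
    refine Finset.card_le_mul_card_image_of_maps_to
      (f := fun p => (st σ g' p, st σ g' (σ.cls p))) ?_ 2 ?_
    · intro p hp
      simp only [badPar, Finset.mem_filter, Finset.mem_range] at hp
      rw [Finset.mem_product]
      exact ⟨st_mem hp.1, st_mem ((hσ.cls_le p).trans_lt hp.1)⟩
    · rintro ⟨u, v⟩ -
      by_contra h
      push Not at h
      obtain ⟨a, ha, b, hb, c, hc, hab, hac, hbc⟩ := Finset.two_lt_card.1 h
      simp only [badPar, Finset.mem_filter, Finset.mem_range, Prod.mk.injEq] at ha hb hc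
      have key : ∀ x y z : ℕ, x < y → y < z → st σ g' x = u → st σ g' z = u →
          st σ g' (σ.cls x) = v → st σ g' (σ.cls y) = v → st σ g' (σ.cls z) = v →
          ¬ σ.Par y (σ.cls y) → False := by
        intro x y z hxy hyz h1 h2 h3 h4 h5 h6
        exact h6 (par_mid hσ hg hxy hyz (h1.trans h2.symm) (h3.trans h5.symm) (h4.trans h5.symm))
      rcases lt_or_gt_of_ne hab with h1 | h1 <;> rcases lt_or_gt_of_ne hac with h2 | h2 <;>
        rcases lt_or_gt_of_ne hbc with h3 | h3
      · exact key a b c h1 h3 ha.2.1 hc.2.1 ha.2.2 hb.2.2 hc.2.2 hb.1.2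
      · exact key a c b h2 h3 ha.2.1 hb.2.1 ha.2.2 hc.2.2 hb.2.2 hc.1.2
      · omega
      · exact key c a b h2 h1 hc.2.1 hb.2.1 hc.2.2 ha.2.2 hb.2.2 ha.1.2
      · exact key b a c h1 h2 hb.2.1 hc.2.1 hb.2.2 ha.2.2 hc.2.2 ha.1.2
      · omega
      · exact key b c a h3 h2 hb.2.1 ha.2.1 hb.2.2 hc.2.2 ha.2.2 hc.1.2
      · exact key c b a h3 h1 hc.2.1 ha.2.1 hc.2.2 hb.2.2 ha.2.2 hb.1.2
  rw [Finset.card_product] at h1
  refine h1.trans (Nat.mul_le_mul_left 2 (Nat.mul_le_mul ?_ ?_)) <;>
  exact card_starts hσ hT hg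

/-- last positions of runs of matched corners -/
noncomputable def endsR (σ : Shape) : Finset ℕ :=
  (Finset.range σ.T).filter (fun p => σ.mt p ≠ none ∧ σ.mt (p + 1) = none)

/-- first positions of runs of matched corners -/
noncomputable def startsR (σ : Shape) : Finset ℕ :=
  (Finset.range σ.T).filter (fun p => σ.mt p ≠ none ∧ σ.mt (p - 1) = none)

theorem mt_lt (hσ : σ.Basic) {p : ℕ} (h : σ.mt p ≠ none) : p < σ.T ∧ 1 ≤ p := by
  obtain ⟨p', hp⟩ := Option.ne_none_iff_exists'.1 h
  obtain ⟨h1, h2, h3⟩ := hσ.mt_cor p p' hp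
  have := hσ.D_lt p h3
  exact ⟨by omega, h1⟩

theorem card_startsR (hσ : σ.Basic) : (startsR σ).card ≤ (endsR σ).card := by
  refine Finset.card_le_card_of_injOn (fun p => (σ.mt p).getD 0) ?_ ?_
  · intro p hp
    simp only [startsR, Finset.coe_filter, Set.mem_ofPred_eq, Finset.mem_range] at hp
    obtain ⟨h1, h2, h3⟩ := hp
    obtain ⟨p', hp⟩ := Option.ne_none_iff_exists'.1 h2
    simp only [endsR, Finset.coe_filter, Set.mem_ofPred_eq, Finset.mem_range]
    rw [hp, Option.getD_some]
    have h4 := hσ.mt_symm p p' hp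
    have h5 : σ.mt p' ≠ none := by rw [h4]; simp
    refine ⟨(mt_lt hσ h5).1, h5, ?_⟩
    by_contra h6
    obtain ⟨q, hq⟩ := Option.ne_none_iff_exists'.1 h6
    have h7 := hσ.mt_coh p' p q h4 hq
    have h8 := hσ.mt_symm _ _ hq
    rw [show p - 1 = q by omega, h8] at h3
    exact absurd h3 (by simp)
  · intro p hp q hq he
    simp only [startsR, Finset.coe_filter, Set.mem_ofPred_eq, Finset.mem_range] at hp hq
    obtain ⟨p', hp'⟩ := Option.ne_none_iff_exists'.1 hp.2.1
    obtain ⟨q', hq'⟩ := Option.ne_none_iff_exists'.1 hq.2.1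
    simp only [hp', hq', Option.getD_some] at he
    subst he
    have h1 := hσ.mt_symm _ _ hp'
    rw [hσ.mt_symm _ _ hq'] at h1
    exact (Option.some.inj h1).symm

/-- positions which are not regular corners -/
noncomputable def badPReg (σ : Shape) : Finset ℕ :=
  (Finset.range σ.T).filter (fun p => ¬ σ.PReg p)

theorem card_badPReg {K D1 : ℕ} (hσ : σ.Pre K D1 g') :
    (badPReg σ).card ≤ 1 + K + K + D1 + D1 + D1 + D1 := by
  have h : badPReg σ ⊆ {0} ∪ (Finset.range σ.T \ σ.D).image (· + 1) ∪ (Finset.range σ.T \ σ.D) ∪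
      (endsR σ).image (· + 1) ∪ endsR σ ∪ (startsR σ).image (· - 1) ∪ startsR σ := by
    intro p hp
    simp only [badPReg, Finset.mem_filter, Finset.mem_range] at hp
    obtain ⟨h1, h2⟩ := hp
    simp only [Finset.mem_union, Finset.mem_image, Finset.mem_sdiff, Finset.mem_range,
      Finset.mem_singleton]
    by_cases h0 : p = 0
    · simp only [h0, true_or]
    by_cases hD1 : p - 1 ∈ σ.D
    swap
    · exact Or.inl (Or.inl (Or.inl (Or.inl (Or.inl (Or.inr ⟨p - 1, ⟨by omega, hD1⟩, by omega⟩)))))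
    by_cases hD2 : p ∈ σ.D
    swap
    · exact Or.inl (Or.inl (Or.inl (Or.inl (Or.inr ⟨h1, hD2⟩))))
    by_cases hm : σ.mt p = none
    · by_cases hm1 : σ.mt (p - 1) = none
      · by_cases hm2 : σ.mt (p + 1) = none
        · exact absurd ⟨⟨by omega, hD1, hD2⟩, fun _ => ⟨hm1, hm2⟩, fun h => absurd hm h⟩ h2
        · refine Or.inl (Or.inr ⟨p + 1, ?_, by omega⟩)
          simp only [startsR, Finset.mem_filter, Finset.mem_range]
          exact ⟨(mt_lt hσ.toBasic hm2).1, hm2, by simpa using hm⟩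
      · refine Or.inl (Or.inl (Or.inl (Or.inr ⟨p - 1, ?_, by omega⟩)))
        simp only [endsR, Finset.mem_filter, Finset.mem_range]
        exact ⟨(mt_lt hσ.toBasic hm1).1, hm1, by rw [show p - 1 + 1 = p by omega]; exact hm⟩
    · by_cases hm1 : σ.mt (p - 1) = none
      · refine Or.inr ?_
        simp only [startsR, Finset.mem_filter, Finset.mem_range]
        exact ⟨h1, hm, hm1⟩
      · by_cases hm2 : σ.mt (p + 1) = none
        · refine Or.inl (Or.inl (Or.inr ?_))
          simp only [endsR, Finset.mem_filter, Finset.mem_range]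
          exact ⟨h1, hm, hm2⟩
        · exact absurd ⟨⟨by omega, hD1, hD2⟩, fun h => absurd h hm, fun _ => ⟨hm1, hm2⟩⟩ h2
  have hE : (endsR σ).card ≤ D1 := hσ.ends_le
  have hS : (startsR σ).card ≤ D1 := (card_startsR hσ.toBasic).trans hE
  refine (Finset.card_le_card h).trans ?_
  refine (Finset.card_union_le _ _).trans (Nat.add_le_add ?_ hS)
  refine (Finset.card_union_le _ _).trans (Nat.add_le_add ?_ (Finset.card_image_le.trans hS))
  refine (Finset.card_union_le _ _).trans (Nat.add_le_add ?_ hE)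
  refine (Finset.card_union_le _ _).trans (Nat.add_le_add ?_ (Finset.card_image_le.trans hE))
  refine (Finset.card_union_le _ _).trans (Nat.add_le_add ?_ hσ.paths_le)
  refine (Finset.card_union_le _ _).trans (Nat.add_le_add ?_ (Finset.card_image_le.trans
    hσ.paths_le))
  simp

end LG

open LG in
/-- LA2: the bounds for the multiplicities and for the number of irregular classes -/
theorem good_of_pre (K D1 Y : ℕ) : ∃ Z I : ℕ, ∀ (g' : ℕ) (σ : Shape), 2 ≤ g' → σ.Pre K D1 g' →
    σ.T ≤ Y * g' → σ.Good Z I := by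
  refine ⟨K + Y, K + (1 + K + K + D1 + D1 + D1 + D1) + 2 * ((K + Y) * (K + Y)), ?_⟩
  intro g' σ hg2 hσ hT
  have hg : 0 < g' := by omega
  refine { toBasic := hσ.toBasic, card_cls := Mv_le hσ hT hg, irr := ?_ }
  have h : (Finset.range σ.T).filter (fun v => σ.cls v = v ∧ ¬ σ.Reg v) ⊆
      σ.mrk ∪ (badPReg σ).image σ.cls ∪ (badPar σ).image σ.cls := by
    intro v hv
    simp only [Finset.mem_filter, Finset.mem_range] at hv
    obtain ⟨h1, h2, h3⟩ := hv
    simp only [Finset.mem_union, Finset.mem_image]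
    by_cases hm : v ∈ σ.mrk
    · exact Or.inl (Or.inl hm)
    have h4 : ∃ p < σ.T, σ.cls p = v ∧ ¬ (σ.PReg p ∧ σ.Par p v) := by
      by_contra h5
      push Not at h5
      exact h3 ⟨h1, h2, hm, h5⟩
    obtain ⟨p, hp, hpv, h5⟩ := h4
    by_cases h6 : σ.PReg p
    · refine Or.inr ⟨p, ?_, hpv⟩
      simp only [badPar, Finset.mem_filter, Finset.mem_range]
      exact ⟨hp, fun h7 => h5 ⟨h6, by rw [← hpv]; exact h7⟩⟩
    · refine Or.inl (Or.inr ⟨p, ?_, hpv⟩)
      simp only [badPReg, Finset.mem_filter, Finset.mem_range]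
      exact ⟨hp, h6⟩
  refine (Finset.card_le_card h).trans ?_
  refine (Finset.card_union_le _ _).trans (Nat.add_le_add ?_
    (Finset.card_image_le.trans (card_badPar hσ hT hg)))
  exact (Finset.card_union_le _ _).trans (Nat.add_le_add hσ.mrk_card
    (Finset.card_image_le.trans (card_badPReg hσ)))

end Crest.Agent.R177.Loc
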