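import Crest.Agent.R177.Omega
import Crest.Agent.R177.LocDefs

/-!
# Row 177, module LOC: the measure (helper928)

`exists_meas` : the uniform measure on `OmegaSet` satisfies `Meas`, for every set `o` of marked
nodes.  `neighbour_type`: (S0274) the type of the neighbour of a given node has a positive
probability.
-/

set_option autoImplicit false
set_option linter.unusedSectionVars false

open scoped Classical

namespace Crest.Agent.R177.Loc

open Crest.Agent.R177
open Crest.Agent.R199 (PAct)

attribute [local instance] Omega.instFintypeV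

/-- The measure: uniform on `OmegaSet M m g`, `g = ⌊c log (sz m)⌋`. -/
theorem exists_meas_type {S : Type} [Fintype S] (M : Model S) :
    ∃ c : ℝ, 0 < c ∧ ∀ B θ : ℝ, 0 < θ → ∃ n0 : ℕ, ∀ m, n0 ≤ M.sz m →
      (OmegaSet M m ⌊c * Real.log (M.sz m)⌋₊).Finite ∧
      (OmegaSet M m ⌊c * Real.log (M.sz m)⌋₊).Nonempty ∧
      (∀ (o : Finset (M.V m)) (B' : ℕ), (B' : ℝ) ≤ B * Real.log (M.sz m) →
        ∀ [Fintype (OmegaSet M m ⌊c * Real.log (M.sz m)⌋₊)],
          Meas M m o (OmegaSet M m ⌊c * Real.log (M.sz m)⌋₊) (fun ω => ω.1) B') ∧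
      ∀ (y : S) (o : M.V m) (T : Set (M.V m)), M.has m o (y, false) →
        θ * Nat.card {v // M.has m v (y, true)} ≤ Nat.card {v // v ∈ T ∧ M.has m v (y, true)} →
        θ / 2 * Nat.card (OmegaSet M m ⌊c * Real.log (M.sz m)⌋₊) ≤
          Nat.card {A // A ∈ OmegaSet M m ⌊c * Real.log (M.sz m)⌋₊ ∧
            ∃ p ∈ T, A.st (y, true) p = some o} := by
  obtain ⟨c, hc, h⟩ := omega M
  refine ⟨c, hc, fun B θ hθ => ?_⟩
  obtain ⟨n1, h1⟩ := h B 1 one_pos
  obtain ⟨n2, h2⟩ := h 1 (θ / 2) (by positivity)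
  refine ⟨max (max n1 n2) 3, fun m hm => ?_⟩
  have hm1 : n1 ≤ M.sz m := le_trans (le_trans (le_max_left _ _) (le_max_left _ _)) hm
  have hm2 : n2 ≤ M.sz m := le_trans (le_trans (le_max_right _ _) (le_max_left _ _)) hm
  have hm3 : 3 ≤ M.sz m := le_trans (le_max_right _ _) hm
  obtain ⟨hfin, hne, hb⟩ := h1 m hm1
  obtain ⟨-, -, hb2⟩ := h2 m hm2
  set g : ℕ := ⌊c * Real.log (M.sz m)⌋₊ with hg
  have hlog : (1 : ℝ) ≤ Real.log (M.sz m) := by
    rw [Real.le_log_iff_exp_le (by positivity)]
    have h3 : (3 : ℝ) ≤ M.sz m := by exact_mod_cast hm3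
    linarith [Real.exp_one_lt_d9]
  refine ⟨hfin, hne, ?_, ?_⟩
  · intro o B' hB' _
    refine ⟨fun ω => ω.2.1, ?_⟩
    intro E0 _ hE0
    have hE0' : (E0.card : ℝ) ≤ B * Real.log (M.sz m) := le_trans (by exact_mod_cast hE0) hB'
    have := hb E0 hE0'
    rw [show (1 + 1 : ℝ) = 2 by norm_num, Nat.card_eq_fintype_card
      (α := (OmegaSet M m g))] at this
    refine le_trans ?_ this
    have hcard : Nat.card {ω : OmegaSet M m g //
        ∀ e ∈ E0, (ω.1 : PAct S (M.V m)).st (e.1, true) e.2.1 = some e.2.2} =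
        Nat.card {A : PAct S (M.V m) // A ∈ OmegaSet M m g ∧
          ∀ e ∈ E0, A.st (e.1, true) e.2.1 = some e.2.2} :=
      Nat.card_congr
        { toFun := fun ω => ⟨ω.1.1, ω.1.2, ω.2⟩
          invFun := fun A => ⟨⟨A.1, A.2.1⟩, A.2.2⟩
          left_inv := fun ω => rfl
          right_inv := fun A => rfl }
    rw [hcard]
    refine mul_le_mul_of_nonneg_left ?_ (Nat.cast_nonneg _)
    exact Finset.prod_le_prod (fun e _ => mul_nonneg (M.N_pos _).le (Nat.cast_nonneg _))
      (fun e _ => M.N_le m e.1)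
  · intro y o T ho hT
    have : Fintype (OmegaSet M m g) := hfin.fintype
    -- the neighbour
    have hex : ∀ ω : OmegaSet M m g, ∃ p, ω.1.st (y, false) o = some p := fun ω =>
      Option.isSome_iff_exists.1 ((ω.2.1 o (y, false)).2 ho)
    choose f hf using hex
    have hf' : ∀ (ω : OmegaSet M m g) p, f ω = p ↔ ω.1.st (y, true) p = some o := by
      intro ω p
      constructor
      · rintro rfl
        exact ω.1.symm _ _ _ (hf ω)
      · intro hp
        have := ω.1.symm _ _ _ hp
        have h2 := hf ω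
        simp only [Bool.not_true] at this
        rw [this] at h2
        exact (Option.some.inj h2).symm
    set Ny : ℝ := (Nat.card {v // M.has m v (y, true)} : ℝ) with hNy
    set H : Finset (M.V m) := Finset.univ.filter fun v => M.has m v (y, true) with hH
    have hHc : Ny = H.card := by
      rw [hNy, Nat.card_eq_fintype_card, Fintype.card_subtype]
    have hTc : (Nat.card {v // v ∈ T ∧ M.has m v (y, true)} : ℝ) =
        (H.filter (fun v => v ∈ T)).card := by
      rw [Nat.card_eq_fintype_card, Fintype.card_subtype, hH, Finset.filter_filter]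
      congr 2
      ext v
      simp [and_comm]
    have hfH : ∀ ω, f ω ∈ H := by
      intro ω
      rw [hH, Finset.mem_filter]
      refine ⟨Finset.mem_univ _, (ω.2.1 _ _).1 ?_⟩
      rw [(hf' ω (f ω)).1 rfl]
      rfl
    have hNpos : 0 < Ny := by
      have := M.N_le m y
      have h0 : 0 < M.N y * (M.sz m : ℝ) := mul_pos (M.N_pos y) (by positivity)
      rw [hNy]; linarith
    -- each fibre is small
    have hfib : ∀ p, ((Finset.univ.filter fun ω : OmegaSet M m g => f ω = p).card : ℝ) * Ny ≤
        (1 + θ / 2) * Nat.card (OmegaSet M m g) := by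
      intro p
      have := hb2 {(y, p, o)} (by simpa using hlog)
      simp only [Finset.mem_singleton, forall_eq, Finset.prod_singleton] at this
      refine le_trans (le_of_eq ?_) this
      rw [hNy]
      congr 2
      rw [← Fintype.card_subtype, ← Nat.card_eq_fintype_card]
      exact Nat.card_congr
        { toFun := fun ω => ⟨ω.1.1, ω.1.2, (hf' _ _).1 ω.2⟩
          invFun := fun A => ⟨⟨A.1, A.2.1⟩, (hf' _ _).2 A.2.2⟩
          left_inv := fun ω => rfl
          right_inv := fun A => rfl }
    have hgood : (Nat.card {A // A ∈ OmegaSet M m g ∧ ∃ p ∈ T, A.st (y, true) p = some o} : ℝ) =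
        (Finset.univ.filter fun ω : OmegaSet M m g => f ω ∈ T).card := by
      rw [← Fintype.card_subtype, ← Nat.card_eq_fintype_card]
      congr 1
      exact Nat.card_congr
        { toFun := fun A => ⟨⟨A.1, A.2.1⟩, by
            obtain ⟨p, hp, hp'⟩ := A.2.2
            have := (hf' ⟨A.1, A.2.1⟩ p).2 hp'
            rw [this]; exact hp⟩
          invFun := fun ω => ⟨ω.1.1, ω.1.2, f ω.1, ω.2, (hf' _ _).1 rfl⟩
          left_inv := fun A => rfl
          right_inv := fun ω => rfl }
    rw [hgood]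
    -- the bad part
    have hbad : ((Finset.univ.filter fun ω : OmegaSet M m g => ¬ f ω ∈ T).card : ℝ) * Ny ≤
        (1 - θ) * Ny * ((1 + θ / 2) * Nat.card (OmegaSet M m g)) := by
      have h3 : (Finset.univ.filter fun ω : OmegaSet M m g => ¬ f ω ∈ T).card =
          ∑ p ∈ H.filter (fun v => ¬ v ∈ T),
            (Finset.univ.filter fun ω : OmegaSet M m g => f ω = p).card := by
        rw [Finset.card_eq_sum_card_fiberwise (f := f) (t := H.filter (fun v => ¬ v ∈ T))]
        · apply Finset.sum_congr rfl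
          intro p hp
          congr 1
          ext ω
          simp only [Finset.mem_filter, Finset.mem_univ, true_and]
          constructor
          · rintro ⟨-, h⟩; exact h
          · rintro rfl
            exact ⟨(Finset.mem_filter.1 hp).2, rfl⟩
        · intro ω hω
          simp only [Finset.coe_filter, Finset.mem_univ, true_and, Set.mem_setOf_eq] at hω ⊢
          exact ⟨hfH ω, hω⟩
      rw [h3]
      push_cast
      rw [Finset.sum_mul]
      calc ∑ p ∈ H.filter (fun v => ¬ v ∈ T),
            ((Finset.univ.filter fun ω : OmegaSet M m g => f ω = p).card : ℝ) * Ny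
          ≤ ∑ p ∈ H.filter (fun v => ¬ v ∈ T), (1 + θ / 2) * Nat.card (OmegaSet M m g) :=
            Finset.sum_le_sum fun p _ => hfib p
        _ = (H.filter (fun v => ¬ v ∈ T)).card * ((1 + θ / 2) * Nat.card (OmegaSet M m g)) := by
            rw [Finset.sum_const, nsmul_eq_mul]
        _ ≤ _ := by
            refine mul_le_mul_of_nonneg_right ?_ (by positivity)
            have h4 := Finset.card_filter_add_card_filter_not (s := H) (fun v => v ∈ T)
            have h5 : ((H.filter (fun v => v ∈ T)).card : ℝ) +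
                ((H.filter (fun v => ¬ v ∈ T)).card : ℝ) = H.card := by exact_mod_cast h4
            rw [hTc] at hT
            rw [← hHc] at h5
            nlinarith
    have htot : ((Finset.univ.filter fun ω : OmegaSet M m g => f ω ∈ T).card : ℝ) +
        ((Finset.univ.filter fun ω : OmegaSet M m g => ¬ f ω ∈ T).card : ℝ) =
        Nat.card (OmegaSet M m g) := by
      rw [Nat.card_eq_fintype_card, ← Finset.card_univ]
      exact_mod_cast Finset.card_filter_add_card_filter_not
        (s := (Finset.univ : Finset (OmegaSet M m g))) (fun ω => f ω ∈ T)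
    have hbad' : ((Finset.univ.filter fun ω : OmegaSet M m g => ¬ f ω ∈ T).card : ℝ) ≤
        (1 - θ) * ((1 + θ / 2) * Nat.card (OmegaSet M m g)) := by
      have : ((Finset.univ.filter fun ω : OmegaSet M m g => ¬ f ω ∈ T).card : ℝ) * Ny ≤
        ((1 - θ) * ((1 + θ / 2) * Nat.card (OmegaSet M m g))) * Ny := by
        refine hbad.trans (le_of_eq ?_); ring
      exact le_of_mul_le_mul_right this hNpos
    have h0 : (0 : ℝ) ≤ Nat.card (OmegaSet M m g) := Nat.cast_nonneg _
    nlinarith [mul_nonneg (mul_nonneg hθ.le hθ.le) h0]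

/-- The measure: uniform on `OmegaSet M m g`, `g = ⌊c log (sz m)⌋`. -/
theorem exists_meas {S : Type} [Fintype S] (M : Model S) :
    ∃ c : ℝ, 0 < c ∧ ∀ B : ℝ, ∃ n0 : ℕ, ∀ m, n0 ≤ M.sz m →
      (OmegaSet M m ⌊c * Real.log (M.sz m)⌋₊).Finite ∧
      (OmegaSet M m ⌊c * Real.log (M.sz m)⌋₊).Nonempty ∧
      ∀ (o : Finset (M.V m)) (B' : ℕ), (B' : ℝ) ≤ B * Real.log (M.sz m) →
        ∀ [Fintype (OmegaSet M m ⌊c * Real.log (M.sz m)⌋₊)],
          Meas M m o (OmegaSet M m ⌊c * Real.log (M.sz m)⌋₊) (fun ω => ω.1) B' := by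
  obtain ⟨c, hc, h⟩ := exists_meas_type M
  refine ⟨c, hc, fun B => ?_⟩
  obtain ⟨n0, h0⟩ := h B 1 one_pos
  exact ⟨n0, fun m hm => ⟨(h0 m hm).1, (h0 m hm).2.1, (h0 m hm).2.2.1⟩⟩

end Crest.Agent.R177.Loc
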