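import Crest.Agent.R177.LocBasic
import Crest.Agent.R177.LocKraft2

/-!
# R177 LOC, module LC: the sum of the Kraft weights of one level (helper422)
-/

set_option autoImplicit false
set_option maxHeartbeats 400000

open scoped Classical

namespace Crest.Agent.R177.Loc


namespace LSum

/-! ## Telescoping products -/

/-- telescoping: `∏ f (v-1) / f v` over a set of positive numbers is bounded in terms of the number
of its runs -/
theorem prod_tele (R : Finset ℕ) (hR : ∀ v ∈ R, 1 ≤ v) (f : ℕ → ℝ) (U : ℝ) (hU : 1 ≤ U)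
    (h1 : ∀ v, f v ≤ U) (h2 : ∀ v, U⁻¹ ≤ f v) :
    ∏ v ∈ R, f (v - 1) / f v ≤ (U ^ 2) ^ (R.filter (fun v => v - 1 ∉ R)).card := by
  have hUp : 0 < U := lt_of_lt_of_le one_pos hU
  have hf : ∀ v, 0 < f v := fun v => lt_of_lt_of_le (inv_pos.2 hUp) (h2 v)
  have hinj : Set.InjOn (fun v : ℕ => v - 1) (R : Set ℕ) := by
    intro a ha b hb hab
    have := hR a ha
    have := hR b hb
    simp only at hab
    omega
  set R1 := R.image (fun v => v - 1) with hR1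
  have hcard : R1.card = R.card := Finset.card_image_of_injOn hinj
  have hnum : ∏ v ∈ R, f (v - 1) = ∏ x ∈ R1, f x := by
    rw [hR1, Finset.prod_image]
    exact fun a ha b hb h => hinj ha hb h
  rw [Finset.prod_div_distrib, hnum]
  have e1 : ∏ x ∈ R1, f x = (∏ x ∈ R1 \ R, f x) * ∏ x ∈ R1 ∩ R, f x := by
    rw [← Finset.prod_union]
    · rw [Finset.sdiff_union_inter]
    · exact Finset.disjoint_sdiff_inter _ _
  have e2 : ∏ x ∈ R, f x = (∏ x ∈ R \ R1, f x) * ∏ x ∈ R1 ∩ R, f x := by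
    rw [Finset.inter_comm R1 R, ← Finset.prod_union]
    · rw [Finset.sdiff_union_inter]
    · exact Finset.disjoint_sdiff_inter _ _
  have hc : (R1 \ R).card = (R \ R1).card := by
    have a1 := Finset.card_sdiff_add_card_inter R1 R
    have a2 := Finset.card_sdiff_add_card_inter R R1
    rw [Finset.inter_comm R R1] at a2
    omega
  have hb : (R1 \ R).card ≤ (R.filter (fun v => v - 1 ∉ R)).card := by
    have : R1 \ R = (R.filter (fun v => v - 1 ∉ R)).image (fun v => v - 1) := by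
      ext x
      simp only [hR1, Finset.mem_sdiff, Finset.mem_image, Finset.mem_filter]
      constructor
      · rintro ⟨⟨v, hv, rfl⟩, hx⟩
        exact ⟨v, ⟨hv, hx⟩, rfl⟩
      · rintro ⟨v, ⟨hv, hx⟩, rfl⟩
        exact ⟨⟨v, hv, rfl⟩, hx⟩
    rw [this]
    exact Finset.card_image_le
  have hpos3 : 0 < ∏ x ∈ R1 ∩ R, f x := Finset.prod_pos fun x _ => hf x
  have hpos2 : 0 < ∏ x ∈ R \ R1, f x := Finset.prod_pos fun x _ => hf x
  rw [e1, e2, mul_div_mul_right _ _ hpos3.ne', div_le_iff₀ hpos2]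
  have b1 : ∏ x ∈ R1 \ R, f x ≤ U ^ (R1 \ R).card := by
    rw [← Finset.prod_const]
    exact Finset.prod_le_prod (fun x _ => (hf x).le) fun x _ => h1 x
  have b2 : (U⁻¹) ^ (R \ R1).card ≤ ∏ x ∈ R \ R1, f x := by
    rw [← Finset.prod_const]
    exact Finset.prod_le_prod (fun x _ => (inv_pos.2 hUp).le) fun x _ => h2 x
  have b3 : U ^ (R1 \ R).card = (U ^ 2) ^ (R1 \ R).card * (U⁻¹) ^ (R \ R1).card := by
    rw [← hc, ← mul_pow]
    congr 1
    field_simp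
  have b4 : (U ^ 2) ^ (R1 \ R).card ≤ (U ^ 2) ^ (R.filter (fun v => v - 1 ∉ R)).card :=
    pow_le_pow_right₀ (one_le_pow₀ hU) hb
  calc ∏ x ∈ R1 \ R, f x ≤ (U ^ 2) ^ (R1 \ R).card * (U⁻¹) ^ (R \ R1).card := b3 ▸ b1
    _ ≤ (U ^ 2) ^ (R.filter (fun v => v - 1 ∉ R)).card * ∏ x ∈ R \ R1, f x :=
      mul_le_mul b4 b2 (by positivity) (by positivity)

/-! ## Labels around regular classes -/

variable {S : Type} {σ : Shape}

theorem hinv_hinv (a : S × Bool) : hinv (hinv a) = a := by simp [hinv]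

theorem cor_of_reg {v : ℕ} (hv : σ.Reg v) {p : ℕ} (hp : p < σ.T) (hc : σ.cls p = v) : σ.Cor p :=
  (hv.2.2.2 p hp hc).1.1

/-- labels around a position of a regular class are a function of the labels at the canonical
corner, and conversely -/
theorem lab_reg {v : ℕ} (hv : σ.Reg v) {p : ℕ} (hp : p < σ.T) (hc : σ.cls p = v) :
    (σ.cls (p - 1) = σ.cls (v - 1) ∧ σ.cls (p + 1) = σ.cls (v + 1) ∧
      ∀ ℓ : ℕ → S × Bool, σ.LabOK ℓ → ℓ (p - 1) = ℓ (v - 1) ∧ ℓ p = ℓ v) ∨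
    (σ.cls (p - 1) = σ.cls (v + 1) ∧ σ.cls (p + 1) = σ.cls (v - 1) ∧
      ∀ ℓ : ℕ → S × Bool, σ.LabOK ℓ → ℓ (p - 1) = hinv (ℓ v) ∧ ℓ p = hinv (ℓ (v - 1))) := by
  obtain ⟨hvT, hvv, _, hall⟩ := hv
  obtain ⟨⟨hcor, _⟩, hpar⟩ := hall p hp hc
  obtain ⟨⟨hcorv, _⟩, _⟩ := hall v hvT hvv
  obtain ⟨p1, p2, p3⟩ := hcor
  obtain ⟨v1, v2, v3⟩ := hcorv
  have ep : p - 1 + 1 = p := Nat.sub_add_cancel p1
  have ev : v - 1 + 1 = v := Nat.sub_add_cancel v1
  rcases hpar with ⟨h1, h2⟩ | ⟨h1, h2⟩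
  · refine Or.inl ⟨h1, h2, fun ℓ hℓ => ⟨?_, ?_⟩⟩
    · exact hℓ.same _ p2 _ v2 h1 (by rw [ep, ev, hc, hvv])
    · exact hℓ.same _ p3 _ v3 (by rw [hc, hvv]) h2
  · refine Or.inr ⟨h1, h2, fun ℓ hℓ => ⟨?_, ?_⟩⟩
    · exact hℓ.opp _ p2 _ v3 h1 (by rw [ep, hc, hvv])
    · exact hℓ.opp _ p3 _ v2 (by rw [ev, hc, hvv]) h2

/-- two labelings agree around a position of a regular class iff they agree around its canonical
corner -/
theorem agree_reg {v : ℕ} (hv : σ.Reg v) {ℓ ℓ' : ℕ → S × Bool} (hℓ : σ.LabOK ℓ)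
    (hℓ' : σ.LabOK ℓ') {p : ℕ} (hp : p < σ.T) (hc : σ.cls p = v) :
    (ℓ (p - 1) = ℓ' (p - 1) ∧ ℓ p = ℓ' p) ↔ (ℓ (v - 1) = ℓ' (v - 1) ∧ ℓ v = ℓ' v) := by
  have hinj : Function.Injective (hinv : S × Bool → S × Bool) := fun a b h => by
    rw [← hinv_hinv a, h, hinv_hinv]
  rcases lab_reg (S := S) hv hp hc with ⟨_, _, h⟩ | ⟨_, _, h⟩
  · rw [(h ℓ hℓ).1, (h ℓ hℓ).2, (h ℓ' hℓ').1, (h ℓ' hℓ').2]
  · rw [(h ℓ hℓ).1, (h ℓ hℓ).2, (h ℓ' hℓ').1, (h ℓ' hℓ').2]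
    constructor
    · rintro ⟨x, y⟩; exact ⟨hinj y, hinj x⟩
    · rintro ⟨x, y⟩; rw [x, y]; exact ⟨rfl, rfl⟩

/-- representatives of level `t` -/
noncomputable def Rt (σ : Shape) (t : ℕ) : Finset ℕ :=
  (Finset.range σ.T).filter (fun v => σ.InR v ∧ t ≤ σ.Mv v)

/-- darts starting at an irregular class -/
noncomputable def Irr (σ : Shape) : Finset ℕ := σ.D.filter (fun q => ¬ σ.Reg (σ.cls q))

theorem mem_Rt {t v : ℕ} : v ∈ Rt σ t ↔ σ.InR v ∧ t ≤ σ.Mv v := by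
  unfold Rt
  rw [Finset.mem_filter, Finset.mem_range]
  exact ⟨fun h => h.2, fun h => ⟨h.1.1.1, h⟩⟩

theorem card_Irr {Z I : ℕ} (hσ : σ.Good Z I) : (Irr σ).card ≤ I * Z := by
  have h1 : Irr σ ⊆ ((Finset.range σ.T).filter (fun v => σ.cls v = v ∧ ¬ σ.Reg v)).biUnion
      (fun v => (Finset.range σ.T).filter (fun p => σ.cls p = v)) := by
    intro q hq
    unfold Irr at hq
    rw [Finset.mem_filter] at hq
    have hqT : q < σ.T := by have := hσ.D_lt q hq.1; omega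
    rw [Finset.mem_biUnion]
    refine ⟨σ.cls q, ?_, ?_⟩
    · rw [Finset.mem_filter, Finset.mem_range]
      exact ⟨lt_of_le_of_lt (hσ.cls_le q) hqT, hσ.cls_cls q, hq.2⟩
    · rw [Finset.mem_filter, Finset.mem_range]
      exact ⟨hqT, rfl⟩
  refine (Finset.card_le_card h1).trans (Finset.card_biUnion_le.trans ?_)
  refine (Finset.sum_le_card_nsmul _ _ Z fun v _ => hσ.card_cls v).trans ?_
  rw [smul_eq_mul]
  exact Nat.mul_le_mul_right _ hσ.irr

/-- positions around which the labels are recorded -/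
noncomputable def Jt (σ : Shape) (t : ℕ) : Finset ℕ :=
  Rt σ t ∪ (Rt σ t).image (fun v => v - 1) ∪ Irr σ

/-- DETERMINATION around regular classes -/
theorem agree_of_Jt (hσ : σ.Basic) {t : ℕ} {ℓ ℓ' : ℕ → S × Bool} (hℓ : σ.LabOK ℓ)
    (hℓ' : σ.LabOK ℓ') (h : ∀ p ∈ Jt σ t, ℓ p = ℓ' p) :
    ∀ v, σ.Reg v → t ≤ σ.Mv v → ℓ (v - 1) = ℓ' (v - 1) ∧ ℓ v = ℓ' v := by
  -- multiplicities are bounded
  have hMv : ∀ v, σ.Mv v ≤ σ.T := by
    intro v
    unfold Shape.Mv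
    exact (Finset.card_filter_le _ _).trans (by rw [Finset.card_range])
  -- induction on the rank `(T - Mv v) * T + v`
  have key : ∀ n v, (σ.T - σ.Mv v) * σ.T + v ≤ n → σ.Reg v → t ≤ σ.Mv v →
      ℓ (v - 1) = ℓ' (v - 1) ∧ ℓ v = ℓ' v := by
    intro n
    induction n using Nat.strong_induction_on with
    | _ n ih =>
      intro v hn hv ht
      by_cases hR : σ.InR v
      · have h1 : v ∈ Rt σ t := mem_Rt.2 ⟨hR, ht⟩
        refine ⟨h _ ?_, h _ ?_⟩
        · unfold Jt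
          exact Finset.mem_union_left _ (Finset.mem_union_right _ (Finset.mem_image_of_mem _ h1))
        · unfold Jt
          exact Finset.mem_union_left _ (Finset.mem_union_left _ h1)
      · unfold Shape.InR at hR
        push Not at hR
        obtain ⟨p, p', hp, hc, hm, hw, hnp⟩ := hR hv
        have hm' := hσ.mt_symm _ _ hm
        have hcor' := hσ.mt_cor _ _ hm'
        have hcor := hσ.mt_cor _ _ hm
        have hp' : p' < σ.T := by have := hσ.D_lt _ hcor'.2.2; omega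
        have hne : v ≠ σ.cls p' := by rw [← hc]; exact hσ.mt_ne _ _ hm
        set w := σ.cls p' with hwdef
        have hprec : σ.Mv v ≤ σ.Mv w ∧ (σ.Mv v = σ.Mv w → w < v) := by
          unfold Shape.Prec at hnp
          push Not at hnp
          obtain ⟨a, b⟩ := hnp
          refine ⟨a, fun hab => ?_⟩
          have := b hab.symm
          omega
        have hrank : (σ.T - σ.Mv w) * σ.T + w < (σ.T - σ.Mv v) * σ.T + v := by
          have hw1 := hMv w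
          have hv1 := hMv v
          have hwT : w < σ.T := hw.1
          rcases hprec.1.lt_or_eq with hlt | heq
          · have : (σ.T - σ.Mv w) + 1 ≤ σ.T - σ.Mv v := by omega
            calc (σ.T - σ.Mv w) * σ.T + w < ((σ.T - σ.Mv w) + 1) * σ.T := by
                  rw [add_mul, one_mul]; omega
              _ ≤ (σ.T - σ.Mv v) * σ.T := Nat.mul_le_mul_right _ this
              _ ≤ _ := Nat.le_add_right _ _
          · rw [← heq]
            have := hprec.2 heq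
            omega
        have hind := ih _ (lt_of_lt_of_le hrank hn) w le_rfl hw (ht.trans hprec.1)
        have h1 := (agree_reg hw hℓ hℓ' hp' hwdef.symm).2 hind
        have h2 := hℓ.mate _ _ hm
        have h3 := hℓ'.mate _ _ hm
        have h4 := hℓ.mate _ _ hm'
        have h5 := hℓ'.mate _ _ hm'
        refine (agree_reg hv hℓ hℓ' hp hc).1 ⟨?_, ?_⟩
        · rw [← hinv_hinv (ℓ (p - 1)), ← hinv_hinv (ℓ' (p - 1)), ← h2, ← h3, h1.2]
        · rw [h4, h5, h1.1]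
  intro v hv ht
  exact key _ v le_rfl hv ht

/-- DETERMINATION: labels at level `t` are determined by the labels on `Jt` -/
theorem agree_level (hσ : σ.Basic) {t : ℕ} {ℓ ℓ' : ℕ → S × Bool} (hℓ : σ.LabOK ℓ)
    (hℓ' : σ.LabOK ℓ') (h : ∀ p ∈ Jt σ t, ℓ p = ℓ' p) :
    ∀ p ∈ σ.D, t ≤ σ.mul p → ℓ p = ℓ' p := by
  intro p hp ht
  by_cases hr : σ.Reg (σ.cls p)
  · rw [mul_eq hσ hr hp (Or.inl rfl)] at ht
    have hpT : p < σ.T := by have := hσ.D_lt p hp; omega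
    exact ((agree_reg hr hℓ hℓ' hpT rfl).2 (agree_of_Jt hσ hℓ hℓ' h _ hr ht)).2
  · apply h
    unfold Jt Irr
    exact Finset.mem_union_right _ (Finset.mem_filter.2 ⟨hp, hr⟩)

/-! ## The number of runs -/

/-- the number of runs of representatives is bounded -/
theorem card_runs {Z I : ℕ} (hσ : σ.Good Z I) (t : ℕ) :
    ((Rt σ t).filter (fun v => v - 1 ∉ Rt σ t)).card ≤ 2 * (I * Z) := by
  -- the three sources
  have hsub : (Rt σ t).filter (fun v => v - 1 ∉ Rt σ t) ⊆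
      (Irr σ).image (fun q => q + 1) ∪
        (Irr σ).image (fun q => match σ.mt q with | some d => σ.cls d | none => 0) := by
    intro v hv
    rw [Finset.mem_filter, mem_Rt] at hv
    obtain ⟨⟨hR, ht⟩, hnR⟩ := hv
    have hb := hσ.toBasic
    obtain ⟨hvT, hvv, _, hall⟩ := hR.1
    obtain ⟨v1, v2, v3⟩ := (hall v hvT hvv).1.1
    have ev : v - 1 + 1 = v := Nat.sub_add_cancel v1
    by_cases hu : σ.Reg (σ.cls (v - 1))
    swap
    · refine Finset.mem_union_left _ (Finset.mem_image.2 ⟨v - 1, ?_, ev⟩)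
      unfold Irr
      exact Finset.mem_filter.2 ⟨v2, hu⟩
    refine Finset.mem_union_right _ ?_
    -- `v - 1` is canonical
    have hadj := Reg.cls_adj hb hR.1 hu v2 (Or.inr ⟨rfl, by rw [ev, hvv]⟩)
    have hle := hb.cls_le (v - 1)
    have hcu : σ.cls (v - 1) = v - 1 := by omega
    rw [hcu] at hu
    have hMvu : σ.Mv (v - 1) = σ.Mv v := Mv_adj hb hu hR.1 v2 hcu (by rw [ev, hvv])
    have hnInR : ¬ σ.InR (v - 1) := fun h => hnR (mem_Rt.2 ⟨h, by omega⟩)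
    unfold Shape.InR at hnInR
    push Not at hnInR
    obtain ⟨p, p', hp, hc, hm, hw, hnp⟩ := hnInR hu
    have hm' := hb.mt_symm _ _ hm
    have hcor' := hb.mt_cor _ _ hm'
    have hcor := hb.mt_cor _ _ hm
    have hp' : p' < σ.T := by have := hb.D_lt _ hcor'.2.2; omega
    have hne : v - 1 ≠ σ.cls p' := by rw [← hc]; exact hb.mt_ne _ _ hm
    obtain ⟨⟨_, _, hmm⟩, _⟩ := hu.2.2.2 p hp hc
    have hmm := hmm (by rw [hm]; simp)
    -- the neighbouring corner in the class `v`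
    obtain ⟨d, d', hd, hcd, hmd, hdd⟩ : ∃ d d', d < σ.T ∧ σ.cls d = v ∧ σ.mt d = some d' ∧
        ((d' + 1 = p' ∧ d' ∈ σ.D) ∨ (d' = p' + 1 ∧ p' ∈ σ.D)) := by
      rcases lab_reg (S := ℕ) hu hp hc with ⟨h1, h2, _⟩ | ⟨h1, h2, _⟩
      · -- parallel: `p + 1` is in the class `v`
        rw [ev, hvv] at h2
        obtain ⟨d', hd'⟩ := Option.ne_none_iff_exists'.1 hmm.2
        have hcd := hb.mt_cor _ _ hd'
        have hcoh := hb.mt_coh _ _ _ hm hd'
        have hcd' := hb.mt_cor _ _ (hb.mt_symm _ _ hd')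
        refine ⟨p + 1, d', ?_, h2, hd', Or.inl ⟨hcoh, hcd'.2.2⟩⟩
        have := hb.D_lt _ hcd.2.2
        omega
      · rw [ev, hvv] at h1
        obtain ⟨d', hd'⟩ := Option.ne_none_iff_exists'.1 hmm.1
        have hcd := hb.mt_cor _ _ hd'
        have hcoh := hb.mt_coh _ _ _ hd' (by rw [Nat.sub_add_cancel hcor.1]; exact hm)
        refine ⟨p - 1, d', ?_, h1, hd', Or.inr ⟨hcoh.symm, hcor'.2.2⟩⟩
        omega
    have hmd' := hb.mt_symm _ _ hmd
    have hcord' := hb.mt_cor _ _ hmd'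
    have hd'T : d' < σ.T := by have := hb.D_lt _ hcord'.2.2; omega
    by_cases hw' : σ.Reg (σ.cls d')
    swap
    · refine Finset.mem_image.2 ⟨d', ?_, ?_⟩
      · unfold Irr
        exact Finset.mem_filter.2 ⟨hcord'.2.2, hw'⟩
      · rw [hmd']; exact hcd
    exfalso
    have hprec := hR.2 d d' hd hcd hmd hw'
    -- the dart between the classes of `p'` and `d'`
    obtain ⟨x, hx, hxx⟩ : ∃ x ∈ σ.D, (σ.cls x = σ.cls p' ∧ σ.cls (x + 1) = σ.cls d') ∨
        (σ.cls x = σ.cls d' ∧ σ.cls (x + 1) = σ.cls p') := by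
      rcases hdd with ⟨h1, h2⟩ | ⟨h1, h2⟩
      · exact ⟨d', h2, Or.inr ⟨rfl, by rw [h1]⟩⟩
      · exact ⟨p', h2, Or.inl ⟨rfl, by rw [h1]⟩⟩
    have hMw : σ.Mv (σ.cls p') = σ.Mv (σ.cls d') := by
      rcases hxx with ⟨h1, h2⟩ | ⟨h1, h2⟩
      · exact Mv_adj hb hw hw' hx h1 h2
      · exact (Mv_adj hb hw' hw hx h1 h2).symm
    have hadj' := Reg.cls_adj hb hw hw' hx hxx
    unfold Shape.Prec at hprec hnp
    push Not at hnp
    obtain ⟨a, b⟩ := hnp
    rcases hprec with h1 | ⟨h1, h2⟩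
    · omega
    · have := b (by omega)
      omega
  refine (Finset.card_le_card hsub).trans ((Finset.card_union_le _ _).trans ?_)
  have h1 : ((Irr σ).image (fun q => q + 1)).card ≤ (Irr σ).card := Finset.card_image_le
  have h2 : ((Irr σ).image (fun q => match σ.mt q with | some d => σ.cls d | none => 0)).card ≤
    (Irr σ).card := Finset.card_image_le
  have h3 := card_Irr hσ
  omega

/-! ## The kernel -/

variable [Fintype S] (κ : KD S)

/-- normalised kernel -/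
noncomputable def Kn (a b : S × Bool) : ℝ :=
  if b = hinv a then 0 else κ.q (hinv a) b * κ.u b / κ.u a

theorem q_pos (h h' : S × Bool) : 0 < κ.q h h' := lt_of_lt_of_le κ.q0_pos (κ.q0_le h h')

theorem Kn_nonneg (a b : S × Bool) : 0 ≤ Kn κ a b := by
  have := q_pos κ (hinv a) b
  have := κ.u_pos a
  have := κ.u_pos b
  unfold Kn
  split_ifs
  · exact le_rfl
  · positivity

theorem Kn_sum (a : S × Bool) : ∑ b, Kn κ a b ≤ 1 := by
  have hu := κ.u_pos a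
  have h1 := κ.sub a
  have h2 : ∑ b, Kn κ a b = (∑ b ∈ Finset.univ.filter (fun b => b ≠ hinv a),
      κ.q (hinv a) b * κ.u b) / κ.u a := by
    rw [Finset.sum_filter, Finset.sum_div]
    refine Finset.sum_congr rfl fun b _ => ?_
    unfold Kn
    by_cases hb : b = hinv a
    · simp [hb]
    · rw [if_neg hb, if_pos hb]
  rw [h2, div_le_one hu]
  exact h1

theorem exists_U : ∃ U : ℝ, 1 ≤ U ∧ (∀ h, κ.u h ≤ U) ∧ ∀ h, U⁻¹ ≤ κ.u h := by
  have hpos : ∀ h, 0 ≤ κ.u h + (κ.u h)⁻¹ := fun h => by have := κ.u_pos h; positivity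
  have hle : ∀ h, κ.u h + (κ.u h)⁻¹ ≤ ∑ h, (κ.u h + (κ.u h)⁻¹) := fun h =>
    Finset.single_le_sum (f := fun h => κ.u h + (κ.u h)⁻¹) (fun h _ => hpos h) (Finset.mem_univ h)
  have hsum : 0 ≤ ∑ h, (κ.u h + (κ.u h)⁻¹) := Finset.sum_nonneg fun h _ => hpos h
  refine ⟨1 + ∑ h, (κ.u h + (κ.u h)⁻¹), by linarith, fun h => ?_, fun h => ?_⟩
  · have := hle h
    have : 0 < (κ.u h)⁻¹ := inv_pos.2 (κ.u_pos h)
    linarith
  · have h1 := hle h
    have h2 := κ.u_pos h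
    rw [inv_le_comm₀ (by linarith) h2]
    linarith

omit [Fintype S] in
theorem reg_lab {v : ℕ} (hv : σ.Reg v) {ℓ : ℕ → S × Bool} (hℓ : σ.LabOK ℓ) :
    1 ≤ v ∧ ℓ v ≠ hinv (ℓ (v - 1)) := by
  obtain ⟨hvT, hvv, _, hall⟩ := hv
  obtain ⟨v1, v2, v3⟩ := (hall v hvT hvv).1.1
  refine ⟨v1, ?_⟩
  have := hℓ.red (v - 1) v2 (by rw [Nat.sub_add_cancel v1]; exact v3)
  rwa [Nat.sub_add_cancel v1] at this

theorem Wt_le {Z I : ℕ} (hσ : σ.Good Z I) (t : ℕ) (U : ℝ) (hU : 1 ≤ U) (hU1 : ∀ h, κ.u h ≤ U)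
    (hU2 : ∀ h, U⁻¹ ≤ κ.u h) {ℓ : ℕ → S × Bool} (hℓ : σ.LabOK ℓ) :
    Wt κ σ t ℓ ≤ (U ^ 2) ^ (2 * (I * Z)) * ∏ v ∈ Rt σ t, Kn κ (ℓ (v - 1)) (ℓ v) := by
  have h1 : Wt κ σ t ℓ = (∏ v ∈ Rt σ t, κ.u (ℓ (v - 1)) / κ.u (ℓ v)) *
      ∏ v ∈ Rt σ t, Kn κ (ℓ (v - 1)) (ℓ v) := by
    rw [← Finset.prod_mul_distrib]
    unfold Wt
    refine Finset.prod_congr rfl fun v hv => ?_
    have hR : σ.Reg v := (Finset.mem_filter.1 hv).2.1.1
    obtain ⟨_, hred⟩ := reg_lab hR hℓ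
    have hu1 := κ.u_pos (ℓ (v - 1))
    have hu2 := κ.u_pos (ℓ v)
    unfold Kn
    rw [if_neg hred]
    field_simp
  have hpos : 0 ≤ ∏ v ∈ Rt σ t, Kn κ (ℓ (v - 1)) (ℓ v) :=
    Finset.prod_nonneg fun _ _ => Kn_nonneg κ _ _
  rw [h1]
  refine mul_le_mul_of_nonneg_right ?_ hpos
  have h2 := prod_tele (Rt σ t) (fun v hv => (reg_lab (mem_Rt.1 hv).1.1 hℓ).1)
    (fun v => κ.u (ℓ v)) U hU (fun v => hU1 _) (fun v => hU2 _)
  refine h2.trans ?_
  exact pow_le_pow_right₀ (one_le_pow₀ hU) (card_runs hσ t)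

theorem sum_Kn {Z I : ℕ} (hσ : σ.Good Z I) (t : ℕ) (Λ : Finset (ℕ → S × Bool))
    (hΛ : ∀ ℓ ∈ Λ, σ.LabOK ℓ)
    (hinj : ∀ ℓ ∈ Λ, ∀ ℓ' ∈ Λ, (∀ p ∈ σ.D, t ≤ σ.mul p → ℓ p = ℓ' p) → ℓ = ℓ') :
    ∑ ℓ ∈ Λ, ∏ v ∈ Rt σ t, Kn κ (ℓ (v - 1)) (ℓ v) ≤
      ((Fintype.card (S × Bool) : ℝ) + 1) ^ (3 * (I * Z)) := by
  set J := Jt σ t with hJ
  set res : (ℕ → S × Bool) → (J → S × Bool) := fun ℓ e => ℓ e.1 with hres
  have hRJ : ∀ v ∈ Rt σ t, v ∈ J ∧ v - 1 ∈ J := by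
    intro v hv
    rw [hJ]
    unfold Jt
    exact ⟨Finset.mem_union_left _ (Finset.mem_union_left _ hv),
      Finset.mem_union_left _ (Finset.mem_union_right _ (Finset.mem_image_of_mem _ hv))⟩
  have hres_inj : Set.InjOn res (Λ : Set (ℕ → S × Bool)) := by
    intro ℓ hℓ ℓ' hℓ' h
    refine hinj ℓ hℓ ℓ' hℓ' ?_
    refine agree_level hσ.toBasic (hΛ ℓ hℓ) (hΛ ℓ' hℓ') fun p hp => ?_
    exact congrFun h ⟨p, hp⟩
  set Root : Finset J := Finset.univ.filter (fun e => e.1 ∉ Rt σ t) with hRoot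
  set Beta : Finset J := Finset.univ.filter (fun e => e.1 ∈ Rt σ t) with hBeta
  set pred : J → J := fun e => if h : e.1 - 1 ∈ J then ⟨e.1 - 1, h⟩ else e with hpred
  have hpv : ∀ e ∈ Beta, (pred e).1 = e.1 - 1 := by
    intro e he
    rw [hBeta, Finset.mem_filter] at he
    simp only [hpred, dif_pos (hRJ _ he.2).2]
  have hkraft := Kraft2.kraft (E := J) (fun e => e.1) Subtype.val_injective (Λ.image res)
    Root Beta pred
    (by
      intro e he
      rw [hpv e he]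
      rw [hBeta, Finset.mem_filter] at he
      obtain ⟨hvT, hvv, _, hall⟩ := (mem_Rt.1 he.2).1.1
      have := (hall _ hvT hvv).1.1.1
      omega)
    (by
      intro e he he'
      exfalso
      rw [hRoot, Finset.mem_filter] at he
      rw [hBeta, Finset.mem_filter] at he'
      simp only [Finset.mem_univ, true_and, not_not] at he he'
      exact he' he)
    (Kn κ) (Kn_nonneg κ) (Kn_sum κ)
  rw [Finset.sum_image (fun a ha b hb h => hres_inj ha hb h)] at hkraft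
  have hprod : ∀ ℓ : ℕ → S × Bool, ∏ e ∈ Beta, Kn κ (res ℓ (pred e)) (res ℓ e) =
      ∏ v ∈ Rt σ t, Kn κ (ℓ (v - 1)) (ℓ v) := by
    intro ℓ
    refine Finset.prod_bij (fun e _ => e.1) ?_ ?_ ?_ ?_
    · intro e he
      rw [hBeta, Finset.mem_filter] at he
      exact he.2
    · intro a _ b _ h
      exact Subtype.ext h
    · intro v hv
      refine ⟨⟨v, (hRJ v hv).1⟩, ?_, rfl⟩
      rw [hBeta, Finset.mem_filter]
      exact ⟨Finset.mem_univ _, hv⟩
    · intro e he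
      simp only [hres, hpv e he]
  simp only [hprod] at hkraft
  refine hkraft.trans ?_
  have hcard : Root.card ≤ 3 * (I * Z) := by
    have h1 : Root.card ≤ (((Rt σ t).filter (fun v => v - 1 ∉ Rt σ t)).image (fun v => v - 1) ∪
        Irr σ).card := by
      refine Finset.card_le_card_of_injOn (fun e => e.1) ?_ (Subtype.val_injective.injOn)
      intro e he
      have he' : e.1 ∉ Rt σ t := by
        have := Finset.mem_coe.1 he
        rw [hRoot, Finset.mem_filter] at this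
        exact this.2
      have h2 : (e : ℕ) ∈ Jt σ t := e.2
      unfold Jt at h2
      rw [Finset.mem_union, Finset.mem_union] at h2
      rw [Finset.mem_coe, Finset.mem_union]
      rcases h2 with (h2 | h2) | h2
      · exact absurd h2 he'
      · left
        obtain ⟨v, hv, hve⟩ := Finset.mem_image.1 h2
        refine Finset.mem_image.2 ⟨v, Finset.mem_filter.2 ⟨hv, ?_⟩, hve⟩
        rw [hve]; exact he'
      · right; exact h2
    refine h1.trans ((Finset.card_union_le _ _).trans ?_)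
    have h2 := card_runs hσ t
    have h3 := card_Irr hσ
    have h4 : (((Rt σ t).filter (fun v => v - 1 ∉ Rt σ t)).image (fun v => v - 1)).card ≤
      ((Rt σ t).filter (fun v => v - 1 ∉ Rt σ t)).card := Finset.card_image_le
    omega
  have hc0 : (0 : ℝ) ≤ Fintype.card (S × Bool) := Nat.cast_nonneg _
  calc (Fintype.card (S × Bool) : ℝ) ^ Root.card
      ≤ ((Fintype.card (S × Bool) : ℝ) + 1) ^ Root.card :=
        pow_le_pow_left₀ hc0 (by linarith) _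
    _ ≤ _ := pow_le_pow_right₀ (by linarith) hcard

end LSum

/-- LC: the sum of the Kraft weights of one level over all labelings is bounded -/
theorem sum_Wt {S : Type} [Fintype S] (κ : KD S) (Z I : ℕ) : ∃ Cs : ℝ, 0 < Cs ∧
    ∀ σ : Shape, σ.Good Z I →
    ∀ t, 1 ≤ t → ∀ Λ : Finset (ℕ → S × Bool), (∀ ℓ ∈ Λ, σ.LabOK ℓ) →
      (∀ ℓ ∈ Λ, ∀ ℓ' ∈ Λ, (∀ p ∈ σ.D, t ≤ σ.mul p → ℓ p = ℓ' p) → ℓ = ℓ') →
      ∑ ℓ ∈ Λ, Wt κ σ t ℓ ≤ Cs := by
  obtain ⟨U, hU, hU1, hU2⟩ := LSum.exists_U κ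
  refine ⟨(U ^ 2) ^ (2 * (I * Z)) * ((Fintype.card (S × Bool) : ℝ) + 1) ^ (3 * (I * Z)), ?_, ?_⟩
  · positivity
  intro σ hσ t _ Λ hΛ hinj
  calc ∑ ℓ ∈ Λ, Wt κ σ t ℓ ≤ ∑ ℓ ∈ Λ, (U ^ 2) ^ (2 * (I * Z)) *
        ∏ v ∈ LSum.Rt σ t, LSum.Kn κ (ℓ (v - 1)) (ℓ v) :=
        Finset.sum_le_sum fun ℓ hℓ => LSum.Wt_le κ hσ t U hU hU1 hU2 (hΛ ℓ hℓ)
    _ = (U ^ 2) ^ (2 * (I * Z)) * ∑ ℓ ∈ Λ, ∏ v ∈ LSum.Rt σ t, LSum.Kn κ (ℓ (v - 1)) (ℓ v) := by
        rw [Finset.mul_sum]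
    _ ≤ _ := mul_le_mul_of_nonneg_left (LSum.sum_Kn κ hσ t Λ hΛ hinj) (by positivity)

end Crest.Agent.R177.Loc
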