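import Crest.Agent.R177.LocUnion
import Crest.Agent.R177.LocMeas
import Crest.Agent.R177.LocConf
import Crest.Agent.R177.LocGood
import Crest.Agent.R177.LocSum
import Crest.Agent.R177.LocCore
import Crest.Agent.R177.LocCode
import Crest.Agent.R177.DefsO

/-!
# Row 177, module LOC: final assembly (helper928)
-/

set_option autoImplicit false
set_option linter.unusedSectionVars false

open scoped Classical

namespace Crest.Agent.R177.Loc

open Crest.Agent.R177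
open Crest.Agent.R199 (PAct)

lemma Shape.Good.mono {σ : Shape} {Z I Z' : ℕ} (h : σ.Good Z I) (hZ : Z ≤ Z') : σ.Good Z' I :=
  { toBasic := h.toBasic
    card_cls := fun v => (h.card_cls v).trans hZ
    irr := h.irr }

/-- a polynomial times a decreasing exponential -/
lemma tendsto_poly_exp (B : ℕ) (a b α : ℝ) (hα : 0 < α) :
    Filter.Tendsto (fun g : ℕ => (a * ((g : ℝ) + 1)) ^ B * (b * Real.exp (-(α * g))))
      Filter.atTop (nhds 0) := by
  have h1 := Real.tendsto_pow_mul_exp_neg_atTop_nhds_zero B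
  have h2 : Filter.Tendsto (fun g : ℕ => α * ((g : ℝ) + 1)) Filter.atTop Filter.atTop := by
    apply Filter.Tendsto.const_mul_atTop hα
    exact Filter.tendsto_atTop_add_const_right _ _ tendsto_natCast_atTop_atTop
  have h3 := (h1.comp h2).const_mul ((a / α) ^ B * b * Real.exp α)
  rw [mul_zero] at h3
  refine h3.congr fun g => ?_
  simp only [Function.comp_apply]
  have e1 : Real.exp (-(α * g)) = Real.exp α * Real.exp (-(α * ((g : ℝ) + 1))) := by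
    rw [← Real.exp_add]; congr 1; ring
  rw [e1]
  have e2 : (a * ((g : ℝ) + 1)) ^ B = (a / α) ^ B * (α * ((g : ℝ) + 1)) ^ B := by
    rw [← mul_pow]; congr 1; field_simp
  rw [e2]; ring

variable {S : Type} [Fintype S]

/-- bad graphs are rare -/
theorem bad_small (M : Model S) (hKD : ∃ κ : KD S, κ.Fits M) : ∃ (c : ℝ) (κ : KD S), 0 < c ∧
    ∀ (K D1 Y : ℕ) (η δ : ℝ), 0 < η → 0 < δ → ∃ n0 : ℕ, ∀ m, n0 ≤ M.sz m →
      (OmegaSet M m ⌊c * Real.log (M.sz m)⌋₊).Finite ∧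
      (OmegaSet M m ⌊c * Real.log (M.sz m)⌋₊).Nonempty ∧ ∀ o : Finset (M.V m), o.card ≤ 1 →
        (Nat.card {A // A ∈ OmegaSet M m ⌊c * Real.log (M.sz m)⌋₊ ∧
          ∃ (σ : Shape) (nd : ℕ → M.V m) (ℓ : ℕ → S × Bool),
            σ.Pre K D1 ((⌊c * Real.log (M.sz m)⌋₊ - 1) / 2) ∧
            σ.T ≤ Y * ((⌊c * Real.log (M.sz m)⌋₊ - 1) / 2) ∧
            σ.Real A o nd ℓ ∧ σ.LabOK ℓ ∧
            (M.sz m : ℝ) ^ σ.oe * (κ.q0⁻¹) ^ σ.ug * κ.ρ ^ σ.gl ≤
              Real.exp (-(η * ⌊c * Real.log (M.sz m)⌋₊)) * (M.sz m : ℝ) ^ σ.om} : ℝ) ≤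
          δ * Nat.card (OmegaSet M m ⌊c * Real.log (M.sz m)⌋₊) := by
  obtain ⟨κ, hκ⟩ := hKD
  obtain ⟨c, hc, hmeas⟩ := exists_meas M
  refine ⟨c, κ, hc, fun K D1 Y η δ hη hδ => ?_⟩
  obtain ⟨Z₀, I, hgood⟩ := good_of_pre K D1 Y
  set Z := max Z₀ 1 with hZdef
  have hZ1 : 1 ≤ Z := le_max_right _ _
  obtain ⟨Cs, hCs, hsum⟩ := sum_Wt κ Z I
  obtain ⟨Cc, hCc, hcore⟩ := core κ M hκ Z I
  obtain ⟨B, hB⟩ := card_shapes K D1 Y
  obtain ⟨n1, h1⟩ := hmeas (Y * c)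
  -- the final estimate
  have h2Z : 2 * Z ≠ 0 := by omega
  set α : ℝ := η * (((2 * Z : ℕ) : ℝ)⁻¹) with hα
  have hα0 : 0 < α := by positivity
  have hlim := tendsto_poly_exp B B
    ((Z * (2 * (1 + 1) ^ K)) * (Cc ^ (((2 * Z : ℕ) : ℝ)⁻¹) * Cs)) α hα0
  obtain ⟨g1, hg1⟩ := Filter.eventually_atTop.1 (hlim.eventually_le_const hδ)
  refine ⟨max (max n1 3) ⌈Real.exp ((max g1 5 : ℕ) / c)⌉₊, fun m hm => ?_⟩
  have hm1 : n1 ≤ M.sz m := le_trans (le_trans (le_max_left _ _) (le_max_left _ _)) hm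
  have hm3 : 3 ≤ M.sz m := le_trans (le_trans (le_max_right _ _) (le_max_left _ _)) hm
  have hme : Real.exp ((max g1 5 : ℕ) / c) ≤ M.sz m :=
    (Nat.le_ceil _).trans (by exact_mod_cast le_trans (le_max_right _ _) hm)
  obtain ⟨hfin, hne, hM⟩ := h1 m hm1
  set g : ℕ := ⌊c * Real.log (M.sz m)⌋₊ with hg
  have hszpos : (0 : ℝ) < M.sz m := by
    have : 0 < M.sz m := by omega
    exact_mod_cast this
  have hlog1 : (1 : ℝ) ≤ Real.log (M.sz m) := by
    rw [Real.le_log_iff_exp_le hszpos]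
    have h3 : (3 : ℝ) ≤ M.sz m := by exact_mod_cast hm3
    linarith [Real.exp_one_lt_d9]
  have hlog : ((max g1 5 : ℕ) : ℝ) / c ≤ Real.log (M.sz m) :=
    (Real.le_log_iff_exp_le hszpos).2 hme
  have hgge : max g1 5 ≤ g := by
    rw [hg]
    apply Nat.le_floor
    rwa [div_le_iff₀' hc] at hlog
  have hgg1 : g1 ≤ g := le_trans (le_max_left _ _) hgge
  have hg5 : 5 ≤ g := le_trans (le_max_right _ _) hgge
  have hgle : (g : ℝ) ≤ c * Real.log (M.sz m) := Nat.floor_le (by positivity)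
  set g' : ℕ := (g - 1) / 2 with hg'
  have hg'2 : 2 ≤ g' := by omega
  have hg'g : g' ≤ g := by omega
  refine ⟨hfin, hne, fun o ho => ?_⟩
  have : Fintype (OmegaSet M m g) := hfin.fintype
  have hM' := hM o (Y * g') (by
    push_cast
    have : (g' : ℝ) ≤ g := by exact_mod_cast hg'g
    calc (Y : ℝ) * g' ≤ Y * (c * Real.log (M.sz m)) :=
          mul_le_mul_of_nonneg_left (this.trans hgle) (Nat.cast_nonneg _)
      _ = _ := by ring)
  obtain ⟨𝒮, h𝒮c, h𝒮⟩ := hB g' hg'2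
  set E : ℝ := Real.exp (-(η * g)) with hE
  have hE0 : 0 < E := Real.exp_pos _
  set x : ℝ := (Cc * E) ^ (((2 * Z : ℕ) : ℝ)⁻¹) with hx
  have hx0 : 0 < x := by positivity
  have hxE : x ^ (2 * Z) = Cc * E := Real.rpow_inv_natCast_pow (by positivity) h2Z
  have hx' : x = Cc ^ (((2 * Z : ℕ) : ℝ)⁻¹) * Real.exp (-(α * g)) := by
    rw [hx, Real.mul_rpow hCc.le hE0.le, hE, ← Real.exp_mul]
    congr 2
    rw [hα]; ring
  set P : Shape → Prop := fun σ => σ.Pre K D1 g' ∧ σ.T ≤ Y * g' with hP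
  set Bad : Set (OmegaSet M m g) := {ω | ∃ (σ : Shape) (nd : ℕ → M.V m) (ℓ : ℕ → S × Bool),
            σ.Pre K D1 g' ∧ σ.T ≤ Y * g' ∧ σ.Real ω.1 o nd ℓ ∧ σ.LabOK ℓ ∧
            (M.sz m : ℝ) ^ σ.oe * (κ.q0⁻¹) ^ σ.ug * κ.ρ ^ σ.gl ≤ E * (M.sz m : ℝ) ^ σ.om} with hBad
  have hmain := card_bad_le κ M m (by omega) o (OmegaSet M m g) (fun ω => ω.1) (Y * g') hM' Z K
    Cs x hx0.le (𝒮.filter P) (by
      intro σ hσ
      obtain ⟨hσ1, hσ2, hσ3⟩ := Finset.mem_filter.1 hσ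
      exact ⟨hσ2.toBasic, hσ3, hσ2.mrk_card,
        hsum σ ((hgood g' σ hg'2 hσ2 hσ3).mono (le_max_left _ _))⟩) Bad (by
      rintro ω ⟨σ, nd, ℓ, hpre, hT, hR, hL, hv⟩
      refine ⟨σ, Finset.mem_filter.2 ⟨h𝒮 σ hpre hT, hpre, hT⟩, nd, ℓ, hR, hL, ?_⟩
      exact exists_level κ M m σ ℓ Z x Cc E hx0 hZ1 (by omega)
        (hcore σ ((hgood g' σ hg'2 hpre hT).mono (le_max_left _ _)) m (by omega) ℓ hL) hv hCc
        hxE.ge)
  have hcard : Nat.card Bad = Nat.card {A // A ∈ OmegaSet M m g ∧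
          ∃ (σ : Shape) (nd : ℕ → M.V m) (ℓ : ℕ → S × Bool),
            σ.Pre K D1 g' ∧ σ.T ≤ Y * g' ∧ σ.Real A o nd ℓ ∧ σ.LabOK ℓ ∧
            (M.sz m : ℝ) ^ σ.oe * (κ.q0⁻¹) ^ σ.ug * κ.ρ ^ σ.gl ≤ E * (M.sz m : ℝ) ^ σ.om} :=
    Nat.card_congr
      { toFun := fun ω => ⟨ω.1.1, ω.1.2, ω.2⟩
        invFun := fun A => ⟨⟨A.1, A.2.1⟩, A.2.2⟩
        left_inv := fun ω => rfl
        right_inv := fun A => rfl }
  rw [← hcard]
  refine hmain.trans ?_
  have hfinal := hg1 g hgg1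
  have hcs : ((𝒮.filter P).card : ℝ) ≤ (B * ((g : ℝ) + 1)) ^ B := by
    have h3 : ((𝒮.filter P).card : ℝ) ≤ (𝒮.card : ℝ) := by
      exact_mod_cast Finset.card_filter_le _ _
    have h4 : (𝒮.card : ℝ) ≤ ((B * (g' + 1)) ^ B : ℕ) := by exact_mod_cast h𝒮c
    refine h3.trans (h4.trans ?_)
    push_cast
    have : (g' : ℝ) ≤ g := by exact_mod_cast hg'g
    gcongr
  have hocard : (1 + (o.card : ℝ)) ^ K ≤ (1 + 1) ^ K := by
    have : (o.card : ℝ) ≤ 1 := by exact_mod_cast ho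
    gcongr
  have hΩ : (0 : ℝ) ≤ Fintype.card (OmegaSet M m g) := Nat.cast_nonneg _
  calc ((𝒮.filter P).card : ℝ) *
        (Z * (2 * Fintype.card (OmegaSet M m g) * (1 + (o.card : ℝ)) ^ K * (x * Cs)))
      ≤ (B * ((g : ℝ) + 1)) ^ B *
        (Z * (2 * Fintype.card (OmegaSet M m g) * (1 + 1) ^ K * (x * Cs))) := by
        gcongr
    _ = (B * ((g : ℝ) + 1)) ^ B * ((Z * (2 * (1 + 1) ^ K)) * (Cc ^ (((2 * Z : ℕ) : ℝ)⁻¹) * Cs) *
          Real.exp (-(α * g))) * Fintype.card (OmegaSet M m g) := by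
        rw [hx']; ring
    _ ≤ δ * Fintype.card (OmegaSet M m g) := mul_le_mul_of_nonneg_right hfinal hΩ
    _ = _ := by rw [Nat.card_eq_fintype_card]

/-- the general local lemma with at most one marked node -/
theorem local_lemma_gen (M : Model S) (hKD : ∃ κ : KD S, κ.Fits M) :
    ∃ κ C P : ℝ, 0 < κ ∧ 0 < C ∧ 0 < P ∧ ∀ (L K D0 : ℕ) (η δ : ℝ), 0 < η → 0 < δ → ∀ g₀ : ℕ,
      ∃ g, g₀ ≤ g ∧ ∃ m, (OmegaSet M m g).Finite ∧ (OmegaSet M m g).Nonempty ∧ ∀ o : Finset (M.V m), o.card ≤ 1 →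
        (Nat.card {A // A ∈ OmegaSet M m g ∧ ¬ ∀ (F : Frame) (c : Conf A F), F.K ≤ K →
          (∀ i, F.len i ≤ L * g) → c.ends ≤ D0 →
          κ * c.glued ≤ C * c.unglued +
            P * g * ((F.openN : ℝ) -
              ((Nat.card {i : Fin F.K // F.cl i = false ∧ c.node ⟨i, 0⟩ ∈ o} : ℝ) +
                Nat.card {i : Fin F.K // F.cl i = false ∧ c.node ⟨i, Fin.last _⟩ ∈ o})) + η * g} : ℝ) ≤
          δ * Nat.card (OmegaSet M m g) := by
  obtain ⟨c, κ, hc, hbad⟩ := bad_small M hKD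
  have hκ : 0 < Real.log κ.ρ⁻¹ := Real.log_pos ((one_lt_inv₀ κ.ρ_pos).2 κ.ρ_lt)
  have hC : 0 < Real.log κ.q0⁻¹ := Real.log_pos ((one_lt_inv₀ κ.q0_pos).2 κ.q0_lt)
  refine ⟨Real.log κ.ρ⁻¹, Real.log κ.q0⁻¹, 2 / c, hκ, hC, by positivity, ?_⟩
  intro L K D0 η δ hη hδ g₀
  obtain ⟨n0, h0⟩ := hbad (K + 1) (D0 + 4 * K) (K * (3 * L + 1)) (η / 2) δ (by positivity) hδ
  -- how large must `g` be
  set g1 : ℕ := max (max g₀ 5)
    ⌈(2 * K * (Real.log κ.ρ⁻¹ + Real.log κ.q0⁻¹) + 2 / c * K) / (η / 2)⌉₊ with hg1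
  obtain ⟨m, hm⟩ := M.sz_large (max (max n0 3) ⌈Real.exp (g1 / c)⌉₊)
  have hm0 : n0 ≤ M.sz m := le_trans (le_trans (le_max_left _ _) (le_max_left _ _)) hm
  have hm3 : 3 ≤ M.sz m := le_trans (le_trans (le_max_right _ _) (le_max_left _ _)) hm
  have hme : Real.exp (g1 / c) ≤ M.sz m :=
    (Nat.le_ceil _).trans (by exact_mod_cast le_trans (le_max_right _ _) hm)
  have hszpos : (0 : ℝ) < M.sz m := by
    have : 0 < M.sz m := by omega
    exact_mod_cast this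
  have hlog : (g1 : ℝ) / c ≤ Real.log (M.sz m) := (Real.le_log_iff_exp_le hszpos).2 hme
  have hgge : g1 ≤ ⌊c * Real.log (M.sz m)⌋₊ := by
    apply Nat.le_floor
    rwa [div_le_iff₀' hc] at hlog
  obtain ⟨hfin, hne, hsmall⟩ := h0 m hm0
  have hfloor : c * Real.log (M.sz m) < ⌊c * Real.log (M.sz m)⌋₊ + 1 := Nat.lt_floor_add_one _
  set g : ℕ := ⌊c * Real.log (M.sz m)⌋₊ with hg
  have hgg0 : g₀ ≤ g := le_trans (le_trans (le_max_left _ _) (le_max_left _ _)) hgge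
  have hg5 : 5 ≤ g := le_trans (le_trans (le_max_right _ _) (le_max_left _ _)) hgge
  have hgbig : 2 * K * (Real.log κ.ρ⁻¹ + Real.log κ.q0⁻¹) + 2 / c * K ≤ η / 2 * g := by
    have h3 : (2 * K * (Real.log κ.ρ⁻¹ + Real.log κ.q0⁻¹) + 2 / c * K) / (η / 2) ≤ g :=
      (Nat.le_ceil _).trans (by exact_mod_cast le_trans (le_max_right _ _) hgge)
    rw [div_le_iff₀ (by positivity)] at h3
    linarith
  have hlog0 : 0 ≤ Real.log (M.sz m) := Real.log_natCast_nonneg _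
  have hlogg1 : 2 / c * g ≤ 2 * Real.log (M.sz m) := by
    have h3 : (g : ℝ) ≤ c * Real.log (M.sz m) := Nat.floor_le (by positivity)
    rw [div_mul_eq_mul_div, div_le_iff₀ hc]
    nlinarith
  have hlogg2 : 2 * Real.log (M.sz m) ≤ 2 / c * g + 2 / c := by
    have h3 : 2 / c * g + 2 / c = (2 * g + 2) / c := by ring
    rw [h3, le_div_iff₀ hc]
    nlinarith
  refine ⟨g, hgg0, m, hfin, hne, fun o ho => ?_⟩
  refine le_trans ?_ (hsmall o ho)
  have hfinΩ : Finite {A // A ∈ OmegaSet M m g ∧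
          ∃ (σ : Shape) (nd : ℕ → M.V m) (ℓ : ℕ → S × Bool),
            σ.Pre (K + 1) (D0 + 4 * K) ((g - 1) / 2) ∧
            σ.T ≤ K * (3 * L + 1) * ((g - 1) / 2) ∧
            σ.Real A o nd ℓ ∧ σ.LabOK ℓ ∧
            (M.sz m : ℝ) ^ σ.oe * (κ.q0⁻¹) ^ σ.ug * κ.ρ ^ σ.gl ≤
              Real.exp (-(η / 2 * g)) * (M.sz m : ℝ) ^ σ.om} :=
    Set.Finite.subset hfin (fun A hA => hA.1)
  have himp : ∀ A : PAct S (M.V m), (A ∈ OmegaSet M m g ∧ ¬ ∀ (F : Frame) (c' : Conf A F),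
      F.K ≤ K → (∀ i, F.len i ≤ L * g) → c'.ends ≤ D0 →
        Real.log κ.ρ⁻¹ * c'.glued ≤ Real.log κ.q0⁻¹ * c'.unglued +
          2 / c * g * ((F.openN : ℝ) -
              ((Nat.card {i : Fin F.K // F.cl i = false ∧ c'.node ⟨i, 0⟩ ∈ o} : ℝ) +
                Nat.card {i : Fin F.K // F.cl i = false ∧ c'.node ⟨i, Fin.last _⟩ ∈ o})) + η * g) →
      A ∈ OmegaSet M m g ∧
          ∃ (σ : Shape) (nd : ℕ → M.V m) (ℓ : ℕ → S × Bool),
            σ.Pre (K + 1) (D0 + 4 * K) ((g - 1) / 2) ∧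
            σ.T ≤ K * (3 * L + 1) * ((g - 1) / 2) ∧
            σ.Real A o nd ℓ ∧ σ.LabOK ℓ ∧
            (M.sz m : ℝ) ^ σ.oe * (κ.q0⁻¹) ^ σ.ug * κ.ρ ^ σ.gl ≤
              Real.exp (-(η / 2 * g)) * (M.sz m : ℝ) ^ σ.om := by
    rintro A ⟨hA, hneg⟩
    refine ⟨hA, ?_⟩
    push Not at hneg
    obtain ⟨F, c', hFK, hFL, hD, hlt⟩ := hneg
    rcases Nat.eq_zero_or_pos F.K with hF0 | hFpos
    · exfalso
      obtain ⟨h1, h2, h3, h4⟩ := glued_eq_zero c' hF0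
      have : IsEmpty (Fin F.K) := ⟨fun x => by have := x.2; omega⟩
      rw [h1, h2, h4] at hlt
      simp only [Nat.card_of_isEmpty, Nat.cast_zero, mul_zero, add_zero, sub_zero, zero_add] at hlt
      have : 0 ≤ η * g := by positivity
      linarith
    obtain ⟨σ, nd, ℓ, hpre, -, hT, hR, hL, hgl, hug, hoe, hom⟩ :=
      exists_shape A g ((g - 1) / 2) hA.2 (by omega) (by omega) K D0 (L * g) F c' hFK hFpos hFL hD
        o ho
    refine ⟨σ, nd, ℓ, hpre, ?_, hR, hL, ?_⟩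
    · refine hT.trans ?_
      rw [mul_assoc]
      refine Nat.mul_le_mul_left _ ?_
      have h1 : g ≤ 3 * ((g - 1) / 2) := by omega
      have h2 : 1 ≤ (g - 1) / 2 := by omega
      calc L * g + 1 ≤ L * (3 * ((g - 1) / 2)) + (g - 1) / 2 :=
            add_le_add (Nat.mul_le_mul_left _ h1) h2
        _ = _ := by ring
    · set s : ℕ := Nat.card {i : Fin F.K // F.cl i = false ∧ c'.node ⟨i, 0⟩ ∈ o} with hs
      set e : ℕ := Nat.card {i : Fin F.K // F.cl i = false ∧ c'.node ⟨i, Fin.last _⟩ ∈ o} with he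
      have e1 : (M.sz m : ℝ) ^ σ.oe = Real.exp (σ.oe * Real.log (M.sz m)) := by
        rw [Real.exp_nat_mul, Real.exp_log hszpos]
      have e2 : (M.sz m : ℝ) ^ σ.om = Real.exp (σ.om * Real.log (M.sz m)) := by
        rw [Real.exp_nat_mul, Real.exp_log hszpos]
      have e3 : (κ.q0⁻¹) ^ σ.ug = Real.exp (σ.ug * Real.log κ.q0⁻¹) := by
        rw [Real.exp_nat_mul, Real.exp_log (inv_pos.2 κ.q0_pos)]
      have e4 : κ.ρ ^ σ.gl = Real.exp (-(σ.gl * Real.log κ.ρ⁻¹)) := by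
        rw [Real.log_inv, mul_neg, neg_neg, Real.exp_nat_mul, Real.exp_log κ.ρ_pos]
      rw [e1, e2, e3, e4, ← Real.exp_add, ← Real.exp_add, ← Real.exp_add, Real.exp_le_exp]
      have hgl' : (c'.glued : ℝ) ≤ σ.gl + 2 * K := by exact_mod_cast hgl
      have hug' : (σ.ug : ℝ) ≤ c'.unglued + 2 * K := by exact_mod_cast hug
      have h1 : (σ.oe : ℝ) + (s + e) ≤ 2 * F.openN := by exact_mod_cast hoe
      have h2 : (s : ℝ) + e ≤ σ.om := by exact_mod_cast hom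
      have hoo : (σ.oe : ℝ) - σ.om ≤ 2 * ((F.openN : ℝ) - (s + e)) := by linarith
      have hoN : (F.openN : ℝ) ≤ K := by
        have h3 : F.openN ≤ F.K := by
          unfold Frame.openN
          refine (Nat.card_le_card_of_injective (fun i : {i : Fin F.K // F.cl i = false} => i.1)
            Subtype.val_injective).trans (by simp)
        exact_mod_cast h3.trans hFK
      have hd1 : (F.openN : ℝ) - (s + e) ≤ K := by
        have h3 : (0 : ℝ) ≤ (s : ℝ) + e := by positivity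
        linarith
      have hd2 : -(K : ℝ) ≤ (F.openN : ℝ) - (s + e) := by
        have h3 : (0 : ℝ) ≤ σ.oe := Nat.cast_nonneg _
        linarith
      have h5 : ((σ.oe : ℝ) - σ.om) * Real.log (M.sz m) ≤
          2 / c * g * ((F.openN : ℝ) - (s + e)) + 2 / c * K := by
        calc ((σ.oe : ℝ) - σ.om) * Real.log (M.sz m) ≤
              (2 * ((F.openN : ℝ) - (s + e))) * Real.log (M.sz m) :=
              mul_le_mul_of_nonneg_right hoo hlog0
          _ = 2 / c * g * ((F.openN : ℝ) - (s + e)) +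
              (2 * Real.log (M.sz m) - 2 / c * g) * ((F.openN : ℝ) - (s + e)) := by ring
          _ ≤ 2 / c * g * ((F.openN : ℝ) - (s + e)) +
              (2 * Real.log (M.sz m) - 2 / c * g) * K := by
              have := mul_le_mul_of_nonneg_left hd1 (sub_nonneg.2 hlogg1)
              linarith
          _ ≤ _ := by
              have := mul_le_mul_of_nonneg_right
                (show 2 * Real.log (M.sz m) - 2 / c * g ≤ 2 / c by linarith)
                (Nat.cast_nonneg (α := ℝ) K)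
              linarith
      have h6 := mul_le_mul_of_nonneg_right hgl' hκ.le
      have h7 := mul_le_mul_of_nonneg_right hug' hC.le
      nlinarith
  exact_mod_cast Nat.card_le_card_of_injective
    (fun A : {A // A ∈ OmegaSet M m g ∧ ¬ ∀ (F : Frame) (c' : Conf A F),
      F.K ≤ K → (∀ i, F.len i ≤ L * g) → c'.ends ≤ D0 →
        Real.log κ.ρ⁻¹ * c'.glued ≤ Real.log κ.q0⁻¹ * c'.unglued +
          2 / c * g * ((F.openN : ℝ) -
              ((Nat.card {i : Fin F.K // F.cl i = false ∧ c'.node ⟨i, 0⟩ ∈ o} : ℝ) +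
                Nat.card {i : Fin F.K // F.cl i = false ∧ c'.node ⟨i, Fin.last _⟩ ∈ o})) + η * g} =>
      (⟨A.1, himp A.1 A.2⟩ : {A // A ∈ OmegaSet M m g ∧
          ∃ (σ : Shape) (nd : ℕ → M.V m) (ℓ : ℕ → S × Bool),
            σ.Pre (K + 1) (D0 + 4 * K) ((g - 1) / 2) ∧
            σ.T ≤ K * (3 * L + 1) * ((g - 1) / 2) ∧
            σ.Real A o nd ℓ ∧ σ.LabOK ℓ ∧
            (M.sz m : ℝ) ^ σ.oe * (κ.q0⁻¹) ^ σ.ug * κ.ρ ^ σ.gl ≤
              Real.exp (-(η / 2 * g)) * (M.sz m : ℝ) ^ σ.om}))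
    (fun A A' h => Subtype.ext (by simpa using congrArg Subtype.val h))

/-- existence of a good graph, at most one marked node -/
theorem local_lemma_exists (M : Model S) (hKD : ∃ κ : KD S, κ.Fits M) :
    ∃ κ C P : ℝ, 0 < κ ∧ 0 < C ∧ 0 < P ∧ ∀ (L K D0 : ℕ) (η : ℝ), 0 < η → ∀ g₀ : ℕ,
      ∃ g, g₀ ≤ g ∧ ∃ m, ∀ o : Finset (M.V m), o.card ≤ 1 → ∃ A : PAct S (M.V m),
        M.Adm m A ∧ Girth A g ∧ ∀ (F : Frame) (c : Conf A F), F.K ≤ K →
          (∀ i, F.len i ≤ L * g) → c.ends ≤ D0 →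
          κ * c.glued ≤ C * c.unglued +
            P * g * ((F.openN : ℝ) -
              ((Nat.card {i : Fin F.K // F.cl i = false ∧ c.node ⟨i, 0⟩ ∈ o} : ℝ) +
                Nat.card {i : Fin F.K // F.cl i = false ∧ c.node ⟨i, Fin.last _⟩ ∈ o})) + η * g := by
  obtain ⟨κ, C, P, hκ, hC, hP, h⟩ := local_lemma_gen M hKD
  refine ⟨κ, C, P, hκ, hC, hP, fun L K D0 η hη g₀ => ?_⟩
  obtain ⟨g, hg, m, hfin, hne, hb⟩ := h L K D0 η (1 / 2) hη (by norm_num) g₀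
  refine ⟨g, hg, m, fun o ho => ?_⟩
  have hbo := hb o ho
  by_contra hcon
  push Not at hcon
  have : Finite (OmegaSet M m g) := hfin
  have hpos : 0 < Nat.card (OmegaSet M m g) := by
    have : Nonempty (OmegaSet M m g) := hne.to_subtype
    exact Nat.card_pos
  have hall : Nat.card (OmegaSet M m g) ≤ Nat.card {A // A ∈ OmegaSet M m g ∧
      ¬ ∀ (F : Frame) (c : Conf A F), F.K ≤ K → (∀ i, F.len i ≤ L * g) → c.ends ≤ D0 →
          κ * c.glued ≤ C * c.unglued +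
            P * g * ((F.openN : ℝ) -
              ((Nat.card {i : Fin F.K // F.cl i = false ∧ c.node ⟨i, 0⟩ ∈ o} : ℝ) +
                Nat.card {i : Fin F.K // F.cl i = false ∧ c.node ⟨i, Fin.last _⟩ ∈ o})) + η * g} := by
    have hfin' : Finite {A // A ∈ OmegaSet M m g ∧
      ¬ ∀ (F : Frame) (c : Conf A F), F.K ≤ K → (∀ i, F.len i ≤ L * g) → c.ends ≤ D0 →
          κ * c.glued ≤ C * c.unglued +
            P * g * ((F.openN : ℝ) -
              ((Nat.card {i : Fin F.K // F.cl i = false ∧ c.node ⟨i, 0⟩ ∈ o} : ℝ) +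
                Nat.card {i : Fin F.K // F.cl i = false ∧ c.node ⟨i, Fin.last _⟩ ∈ o})) + η * g} :=
      Set.Finite.subset hfin (fun A hA => hA.1)
    refine Nat.card_le_card_of_injective (fun A : OmegaSet M m g => ⟨A.1, A.2, ?_⟩)
      (fun A A' h => Subtype.ext (by simpa using congrArg Subtype.val h))
    push Not
    obtain ⟨F, c, h1, h2, h3, h4⟩ := hcon A.1 A.2.1 A.2.2
    exact ⟨F, c, h1, h2, h3, h4⟩
  have h1 : (Nat.card (OmegaSet M m g) : ℝ) ≤ 1 / 2 * Nat.card (OmegaSet M m g) :=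
    le_trans (by exact_mod_cast hall) hbo
  have h2 : (0 : ℝ) < Nat.card (OmegaSet M m g) := by exact_mod_cast hpos
  linarith

end Crest.Agent.R177.Loc
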