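import Crest.Agent.R177.LocBasic

/-!
# Row 177, module LOC: labels of half-edges `he` (helper143)
-/

set_option autoImplicit false

open scoped Classical

namespace Crest.Agent.R177.Loc

open Crest.Agent.R177
open Shape

variable {S : Type} {σ : Shape} {ℓ : ℕ → S × Bool}

@[simp] theorem hinv_hinv (a : S × Bool) : hinv (hinv a) = a := by
  unfold hinv; simp

theorem hinv_ne (a : S × Bool) : hinv a ≠ a := by
  intro h
  have h1 := congrArg Prod.snd h
  simp [hinv] at h1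

@[simp] theorem hinv_fst (a : S × Bool) : (hinv a).1 = a.1 := rfl

theorem hinv_inj {a b : S × Bool} (h : hinv a = hinv b) : a = b := by
  rw [← hinv_hinv a, h, hinv_hinv]

/-- label of the half-edge at the start of a dart -/
theorem he_eq (hσ : σ.Basic) (hℓ : σ.LabOK ℓ) {q : ℕ} (hq : q ∈ σ.D) :
    σ.he ℓ (σ.cls q) (σ.cls (q + 1)) = ℓ q := by
  unfold Shape.he
  have h : ∃ r ∈ σ.D, σ.cls r = σ.cls q ∧ σ.cls (r + 1) = σ.cls (q + 1) := ⟨q, hq, rfl, rfl⟩
  rw [dif_pos h]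
  exact hℓ.same _ h.choose_spec.1 _ hq h.choose_spec.2.1 h.choose_spec.2.2

/-- label of the half-edge at the end of a dart -/
theorem he_eq' (hσ : σ.Basic) (hℓ : σ.LabOK ℓ) {q : ℕ} (hq : q ∈ σ.D) :
    σ.he ℓ (σ.cls (q + 1)) (σ.cls q) = hinv (ℓ q) := by
  unfold Shape.he
  by_cases h : ∃ r ∈ σ.D, σ.cls r = σ.cls (q + 1) ∧ σ.cls (r + 1) = σ.cls q
  · rw [dif_pos h]
    exact hℓ.opp _ h.choose_spec.1 _ hq h.choose_spec.2.1 h.choose_spec.2.2
  · rw [dif_neg h]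
    have h2 : ∃ r ∈ σ.D, σ.cls r = σ.cls q ∧ σ.cls (r + 1) = σ.cls (q + 1) := ⟨q, hq, rfl, rfl⟩
    rw [dif_pos h2]
    rw [hℓ.same _ h2.choose_spec.1 _ hq h2.choose_spec.2.1 h2.choose_spec.2.2]

theorem exists_of_am {v w : ℕ} (h : 1 ≤ σ.am v w) :
    ∃ q ∈ σ.D, (σ.cls q = v ∧ σ.cls (q + 1) = w) ∨ (σ.cls q = w ∧ σ.cls (q + 1) = v) := by
  unfold Shape.am at h
  obtain ⟨q, hq⟩ := Finset.card_pos.mp h
  rw [Finset.mem_filter] at hq
  exact ⟨q, hq.1, hq.2⟩

theorem he_symm (hσ : σ.Basic) (hℓ : σ.LabOK ℓ) {v w : ℕ} (h : 1 ≤ σ.am v w) :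
    σ.he ℓ w v = hinv (σ.he ℓ v w) := by
  obtain ⟨q, hq, ⟨h1, h2⟩ | ⟨h1, h2⟩⟩ := exists_of_am h
  · rw [← h1, ← h2, he_eq' hσ hℓ hq, he_eq hσ hℓ hq]
  · rw [← h1, ← h2, he_eq' hσ hℓ hq, he_eq hσ hℓ hq, hinv_hinv]

theorem he_fst_comm (hσ : σ.Basic) (hℓ : σ.LabOK ℓ) {v w : ℕ} (h : 1 ≤ σ.am v w) :
    (σ.he ℓ w v).1 = (σ.he ℓ v w).1 := by
  rw [he_symm hσ hℓ h, hinv_fst]

theorem am_self (hσ : σ.Basic) (v : ℕ) : σ.am v v = 0 := by
  by_contra h
  obtain ⟨q, hq, h1⟩ := exists_of_am (σ := σ) (v := v) (w := v) (by omega)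
  have := hσ.cls_ne q hq
  rcases h1 with ⟨h1, h2⟩ | ⟨h1, h2⟩ <;> exact this (h1.trans h2.symm)

theorem am_ne (hσ : σ.Basic) {v w : ℕ} (h : 1 ≤ σ.am v w) : v ≠ w := by
  rintro rfl
  rw [am_self hσ] at h
  omega

/-- the ends of an edge are canonical positions -/
theorem cls_of_am (hσ : σ.Basic) {v w : ℕ} (h : 1 ≤ σ.am v w) : σ.cls v = v ∧ v < σ.T := by
  obtain ⟨q, hq, ⟨h1, h2⟩ | ⟨h1, h2⟩⟩ := exists_of_am h
  · rw [← h1]
    exact ⟨hσ.cls_cls q, lt_of_le_of_lt (hσ.cls_le q) (hσ.lt_of_mem hq)⟩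
  · rw [← h2]
    exact ⟨hσ.cls_cls _, lt_of_le_of_lt (hσ.cls_le _) (hσ.succ_lt_of_mem hq)⟩

/-- the number of dart ends at a class -/
theorem sum_am (hσ : σ.Basic) (v : ℕ) : (∑ w ∈ Finset.range σ.T, σ.am v w) =
    (σ.D.filter (fun q => σ.cls q = v)).card + (σ.D.filter (fun q => σ.cls (q + 1) = v)).card := by
  have h1 : ∀ w, σ.am v w = (σ.D.filter (fun q => σ.cls q = v ∧ σ.cls (q + 1) = w)).card +
      (σ.D.filter (fun q => σ.cls q = w ∧ σ.cls (q + 1) = v)).card := by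
    intro w
    unfold Shape.am
    rw [← Finset.card_union_of_disjoint, ← Finset.filter_or]
    rw [Finset.disjoint_filter]
    rintro q hq ⟨h1, h2⟩ ⟨h3, h4⟩
    exact hσ.cls_ne q hq (h1.trans h4.symm)
  simp_rw [h1]
  rw [Finset.sum_add_distrib]
  congr 1
  · have := Finset.card_eq_sum_card_fiberwise (s := σ.D.filter (fun q => σ.cls q = v))
      (t := Finset.range σ.T) (f := fun q => σ.cls (q + 1)) (by
        intro q hq
        simp only [Finset.coe_filter, Set.mem_ofPred_eq] at hq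
        simp only [Finset.coe_range, Set.mem_Iio]
        exact lt_of_le_of_lt (hσ.cls_le _) (hσ.succ_lt_of_mem hq.1))
    rw [this]
    refine Finset.sum_congr rfl fun w _ => ?_
    rw [Finset.filter_filter]
  · have := Finset.card_eq_sum_card_fiberwise (s := σ.D.filter (fun q => σ.cls (q + 1) = v))
      (t := Finset.range σ.T) (f := fun q => σ.cls q) (by
        intro q hq
        simp only [Finset.coe_filter, Set.mem_ofPred_eq] at hq
        simp only [Finset.coe_range, Set.mem_Iio]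
        exact lt_of_le_of_lt (hσ.cls_le _) (hσ.lt_of_mem hq.1))
    rw [this]
    refine Finset.sum_congr rfl fun w _ => ?_
    rw [Finset.filter_filter]
    congr 1
    ext q
    simp only [Finset.mem_filter]
    tauto

theorem sum_am_le (hσ : σ.Basic) (v : ℕ) : (∑ w ∈ Finset.range σ.T, σ.am v w) ≤ 2 * σ.Mv v := by
  rw [sum_am hσ]
  have h1 : (σ.D.filter (fun q => σ.cls q = v)).card ≤ σ.Mv v := by
    unfold Shape.Mv
    apply Finset.card_le_card
    intro q hq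
    rw [Finset.mem_filter] at hq ⊢
    exact ⟨Finset.mem_range.mpr (hσ.lt_of_mem hq.1), hq.2⟩
  have h2 : (σ.D.filter (fun q => σ.cls (q + 1) = v)).card ≤ σ.Mv v := by
    unfold Shape.Mv
    refine Finset.card_le_card_of_injOn (fun q => q + 1) ?_ ?_
    · intro q hq
      simp only [Finset.coe_filter, Set.mem_ofPred_eq, Finset.mem_range] at hq ⊢
      exact ⟨hσ.succ_lt_of_mem hq.1, hq.2⟩
    · intro q _ q' _ h
      simpa using h
  omega

end Crest.Agent.R177.Loc
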