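import Crest.Agent.R177.LocDefs

/-!
# Row 177, module LOC: frozen internal statements (NOT imported by proofs)

Each theorem is to be proved with this name and statement (namespace `Crest.Agent.R177.Loc`) in the
file named in its docstring.
-/

set_option autoImplicit false

open scoped Classical

namespace Crest.Agent.R177.Loc.Iface

open Crest.Agent.R177 Crest.Agent.R177.Loc
open Crest.Agent.R199 (PAct)

/-- LA (file LocConf.lean, helper506) : linearisation of a configuration. The corners at the start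
of closed paths (and their mates) are dropped. `o` = set of marked nodes (`∅` for S0267, one node
for S0274). -/
theorem exists_shape {S V : Type} (A : PAct S V) (g g' : ℕ) (hg : Girth A g) (hg' : 2 * g' < g)
    (h2 : 2 ≤ g') (K D0 L : ℕ) (F : Frame) (c : Conf A F) (hK : F.K ≤ K)
    (hL : ∀ i, F.len i ≤ L) (hD : c.ends ≤ D0) (o : Finset V) (ho : o.card ≤ 1) :
    ∃ (σ : Shape) (nd : ℕ → V) (ℓ : ℕ → S × Bool), σ.Pre (K + 1) (D0 + 4 * K) g' ∧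
      σ.mrk.card ≤ o.card ∧
      σ.T ≤ K * (L + 1) ∧ σ.Real A o nd ℓ ∧ σ.LabOK ℓ ∧ c.glued ≤ σ.gl + 2 * K ∧
      σ.ug ≤ c.unglued + 2 * K ∧
      σ.oe + (Nat.card {i : Fin F.K // F.cl i = false ∧ c.node ⟨i, 0⟩ ∈ o} +
        Nat.card {i : Fin F.K // F.cl i = false ∧ c.node ⟨i, Fin.last _⟩ ∈ o}) ≤ 2 * F.openN ∧
      Nat.card {i : Fin F.K // F.cl i = false ∧ c.node ⟨i, 0⟩ ∈ o} +
        Nat.card {i : Fin F.K // F.cl i = false ∧ c.node ⟨i, Fin.last _⟩ ∈ o} ≤ σ.om := by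
  sorry

/-- LA2 (file LocGood.lean, helper755) -/
theorem good_of_pre (K D1 Y : ℕ) : ∃ Z I : ℕ, ∀ (g' : ℕ) (σ : Shape), 2 ≤ g' → σ.Pre K D1 g' →
    σ.T ≤ Y * g' → σ.Good Z I := by
  sorry

/-- LB (file LocCode.lean, helper541) -/
theorem card_shapes (K D1 Y : ℕ) : ∃ B : ℕ, ∀ g' : ℕ, 2 ≤ g' → ∃ 𝒮 : Finset Shape,
    𝒮.card ≤ (B * (g' + 1)) ^ B ∧ ∀ σ : Shape, σ.Pre K D1 g' → σ.T ≤ Y * g' → σ ∈ 𝒮 := by
  sorry

section

variable {S : Type} [Fintype S]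

/-- LC1 (file LocRuns.lean, helper566): few runs of representatives -/
theorem runs_card {σ : Shape} {Z I : ℕ} (hσ : σ.Good Z I) (t : ℕ) :
    ((Finset.range σ.T).filter (fun v => (σ.InR v ∧ t ≤ σ.Mv v) ∧
      ¬ (σ.InR (v - 1) ∧ t ≤ σ.Mv (v - 1)))).card ≤ 2 * Z * I := by
  sorry

/-- LC2 (file LocDet.lean, helper251): the labels at level `t` are determined by the labels of the
darts at irregular classes and at representatives -/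
theorem determined {σ : Shape} (hσ : σ.Basic) (t : ℕ) (ht : 1 ≤ t) (ℓ ℓ' : ℕ → S × Bool)
    (hℓ : σ.LabOK ℓ) (hℓ' : σ.LabOK ℓ')
    (hJ : ∀ q ∈ σ.D, t ≤ σ.mul q → (¬ σ.Reg (σ.cls q) ∨ (σ.InR q ∧ t ≤ σ.Mv q) ∨
      (σ.InR (q + 1) ∧ t ≤ σ.Mv (q + 1))) → ℓ q = ℓ' q) :
    ∀ p ∈ σ.D, t ≤ σ.mul p → ℓ p = ℓ' p := by
  sorry

/-- LC (file LocSum.lean, helper422), from LC1, LC2 and LocKraft -/
theorem sum_Wt (κ : KD S) (Z I : ℕ) : ∃ Cs : ℝ, 0 < Cs ∧ ∀ σ : Shape, σ.Good Z I →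
    ∀ t, 1 ≤ t → ∀ Λ : Finset (ℕ → S × Bool), (∀ ℓ ∈ Λ, σ.LabOK ℓ) →
      (∀ ℓ ∈ Λ, ∀ ℓ' ∈ Λ, (∀ p ∈ σ.D, t ≤ σ.mul p → ℓ p = ℓ' p) → ℓ = ℓ') →
      ∑ ℓ ∈ Λ, Wt κ σ t ℓ ≤ Cs := by
  sorry

/-- LD3 (file LocChi.lean, helper753): every passage uses two different edges at a node -/
theorem chi_le {σ : Shape} (hσ : σ.Basic) (v w : ℕ) (hv : v < σ.T) :
    2 * σ.am v w ≤ (∑ w' ∈ Finset.range σ.T, σ.am v w') +
      ((Finset.range σ.T).filter (fun p => σ.OpenEnd p ∧ σ.cls p = v)).card := by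
  sorry

/-- LD (file LocCore.lean, helper143) -/
theorem core (κ : KD S) (M : Model S) (hf : κ.Fits M) (Z I : ℕ) : ∃ Cc : ℝ, 0 < Cc ∧
    ∀ σ : Shape, σ.Good Z I → ∀ m, 1 ≤ M.sz m → ∀ ℓ : ℕ → S × Bool, σ.LabOK ℓ →
      (∏ t ∈ Finset.Icc 1 Z, At M m σ t ℓ) ^ 2 * (M.sz m : ℝ) ^ σ.om ≤
        Cc * (M.sz m : ℝ) ^ σ.oe * (κ.q0⁻¹) ^ σ.ug * κ.ρ ^ σ.gl *
          (∏ t ∈ Finset.Icc 1 Z, Wt κ σ t ℓ) ^ 2 := by
  sorry

/-- LE (file LocFM.lean) : first moment of one labeled level -/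
theorem first_moment (M : Model S) (m : ℕ) (hsz : 1 ≤ M.sz m) (o : Finset (M.V m)) (Ω : Type)
    [Fintype Ω] (Γ : Ω → PAct S (M.V m)) (B : ℕ) (hM : Meas M m o Ω Γ B) (σ : Shape)
    (hσ : σ.Basic) (hB : σ.T ≤ B) (t : ℕ) (ht : 1 ≤ t) (ℓ : ℕ → S × Bool) (hℓ : σ.LabOK ℓ) :
    (Nat.card {ω // ∃ nd ℓ', σ.Real (Γ ω) o nd ℓ' ∧ σ.LabOK ℓ' ∧
      ∀ p ∈ σ.D, t ≤ σ.mul p → ℓ' p = ℓ p} : ℝ) ≤
      2 * Fintype.card Ω * (1 + o.card) ^ σ.mrk.card * At M m σ t ℓ := by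
  sorry

/-- LK (file LocKD.lean, helper143) -/
theorem exists_KD (M : Model S) : ∃ κ : KD S, κ.Fits M := by
  sorry

end

/-- LBASIC (file LocBasic.lean, helper143): multiplicities at regular classes -/
theorem mul_eq {σ : Shape} (hσ : σ.Basic) {v : ℕ} (hv : σ.Reg v) {q : ℕ} (hq : q ∈ σ.D)
    (h : σ.cls q = v ∨ σ.cls (q + 1) = v) : σ.mul q = σ.Mv v := by
  sorry

theorem Mv_adj {σ : Shape} (hσ : σ.Basic) {v w : ℕ} (hv : σ.Reg v) (hw : σ.Reg w) {q : ℕ}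
    (hq : q ∈ σ.D) (h : σ.cls q = v) (h' : σ.cls (q + 1) = w) : σ.Mv v = σ.Mv w := by
  sorry

/-- a regular position has a regular canonical corner parallel to it; neighbours -/
theorem Reg.cls_adj {σ : Shape} (hσ : σ.Basic) {v w : ℕ} (hv : σ.Reg v) (hw : σ.Reg w) {q : ℕ}
    (hq : q ∈ σ.D) (h : (σ.cls q = v ∧ σ.cls (q + 1) = w) ∨ (σ.cls q = w ∧ σ.cls (q + 1) = v)) :
    w = v + 1 ∨ v = w + 1 := by
  sorry

end Crest.Agent.R177.Loc.Iface
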