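import Crest.Agent.R177.LocDefs

/-!
# Row 177, module LOC: task LK, Kraft data of a model (helper143)
-/

set_option autoImplicit false

open scoped Classical

namespace Crest.Agent.R177.Loc

open Crest.Agent.R177
open Finset

variable {S : Type} [Fintype S]

namespace KDa

/-- `δ` on half-edges -/
noncomputable def dl (M : Model S) (h : S × Bool) : ℝ := if h.2 then M.δ h.1 else (M.δ h.1)⁻¹

theorem dl_pos (M : Model S) (h : S × Bool) : 0 < dl M h := by
  unfold dl
  have := M.δ_pos h.1
  split_ifs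
  · exact this
  · exact inv_pos.mpr this

theorem dl_inv (M : Model S) (h : S × Bool) : dl M (hinv h) = (dl M h)⁻¹ := by
  rcases h with ⟨s, b⟩
  cases b <;> simp [dl, hinv]

/-- the Kraft matrix of the model -/
noncomputable def q (M : Model S) (h h' : S × Bool) : ℝ :=
  M.n h h' ^ 2 / (M.N h.1 * M.N h'.1) * dl M h * dl M h' / M.ρ

theorem q_nonneg (M : Model S) (h h' : S × Bool) : 0 ≤ q M h h' := by
  unfold q
  have h1 := M.N_pos h.1
  have h2 := M.N_pos h'.1
  have h3 := dl_pos M h
  have h4 := dl_pos M h'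
  have h5 := M.ρ_pos
  positivity

theorem q_symm (M : Model S) (h h' : S × Bool) : q M h h' = q M h' h := by
  unfold q
  rw [M.n_symm h h']
  ring

theorem q_le_one (M : Model S) (h h' : S × Bool) (hh : h ≠ h') : q M h h' ≤ 1 :=
  M.q_le_one h h' hh

theorem q_key (M : Model S) (h h' : S × Bool) :
    M.n h h' ^ 2 * dl M h * dl M h' = M.ρ * q M h h' * (M.N h.1 * M.N h'.1) := by
  unfold q
  have h1 := M.N_pos h.1
  have h2 := M.N_pos h'.1
  have h5 := M.ρ_pos
  field_simp

theorem q_sub (M : Model S) (h : S × Bool) :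
    (∑ h' ∈ univ.filter (fun h' => h' ≠ hinv h), q M (hinv h) h' * M.u h') ≤ M.u h := by
  refine le_trans (le_of_eq ?_) (M.sub h)
  refine sum_congr rfl fun h' _ => ?_
  unfold q
  rcases h with ⟨s, b⟩
  cases b <;> simp [dl, hinv]

end KDa

open KDa

theorem exists_KD (M : Model S) : ∃ κ : KD S, κ.Fits M := by
  set e : ℝ := 1 + ∑ h, (M.u h)⁻¹ with he
  set U : ℝ := ∑ h, M.u h with hU
  have hU0 : 0 ≤ U := sum_nonneg fun h _ => (M.u_pos h).le
  have he1 : 1 ≤ e := by
    have : 0 ≤ ∑ h, (M.u h)⁻¹ := sum_nonneg fun h _ => (inv_pos.mpr (M.u_pos h)).le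
    linarith
  have hule : ∀ h, 1 ≤ e * M.u h := by
    intro h
    have h1 : (M.u h)⁻¹ ≤ e := by
      have := single_le_sum (f := fun h => (M.u h)⁻¹)
        (fun h _ => (inv_pos.mpr (M.u_pos h)).le) (mem_univ h)
      linarith
    have h2 := M.u_pos h
    calc (1 : ℝ) = (M.u h)⁻¹ * M.u h := by field_simp
      _ ≤ e * M.u h := by gcongr
  have hρ := M.ρ_pos
  have hρ1 := M.ρ_lt
  set r : ℝ := (1 + M.ρ) / 2 with hr
  have hr0 : 0 < r := by rw [hr]; linarith
  have hr1 : r < 1 := by rw [hr]; linarith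
  have hρr : M.ρ < r := by rw [hr]; linarith
  set a : ℝ := M.ρ / r with ha
  have ha0 : 0 < a := div_pos hρ hr0
  have ha1 : a < 1 := (div_lt_one hr0).mpr hρr
  have har : r * a = M.ρ := by rw [ha]; field_simp
  set q0 : ℝ := (1 - a) / (1 + e * U) with hq0
  have hden : 0 < 1 + e * U := by positivity
  have hq0p : 0 < q0 := div_pos (by linarith) hden
  have hq0a : q0 ≤ 1 - a := by
    rw [hq0, div_le_iff₀ hden]
    nlinarith [mul_nonneg (by linarith : (0 : ℝ) ≤ e) hU0]
  have hq0U : ∀ h, q0 * U ≤ (1 - a) * M.u h := by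
    intro h
    have h1 := hule h
    have h2 := M.u_pos h
    rw [hq0, div_mul_eq_mul_div, div_le_iff₀ hden]
    have h3 : U ≤ M.u h * (1 + e * U) := by nlinarith
    nlinarith
  refine ⟨{
    tot := max 1 M.tot
    one_le_tot := le_max_left _ _
    N := M.N
    N_pos := M.N_pos
    n := M.n
    n_symm := M.n_symm
    n_nonneg := M.n_nonneg
    δ := dl M
    δ_pos := dl_pos M
    δ_inv := dl_inv M
    u := M.u
    u_pos := M.u_pos
    ρ := r
    ρ_pos := hr0
    ρ_lt := hr1
    q := fun h h' => a * q M h h' + q0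
    q_symm := fun h h' => by rw [q_symm M h h']
    q0 := q0
    q0_pos := hq0p
    q0_lt := by linarith
    q0_le := fun h h' => by
      have := mul_nonneg ha0.le (q_nonneg M h h')
      linarith
    q_le_one := fun h h' hh => by
      have h1 := q_le_one M h h' hh
      nlinarith
    key := fun h h' hh => by
      rw [q_key M h h']
      have h1 := M.N_pos h.1
      have h2 := M.N_pos h'.1
      have h3 : r * (a * q M h h' + q0) = M.ρ * q M h h' + r * q0 := by rw [← har]; ring
      rw [h3]
      have h4 : 0 ≤ r * q0 * (M.N h.1 * M.N h'.1) := by positivity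
      nlinarith
    sub := fun h => by
      have h1 := q_sub M h
      have h2 := hq0U h
      have h3 : ∑ h' ∈ univ.filter (fun h' => h' ≠ hinv h), M.u h' ≤ U :=
        sum_le_sum_of_subset_of_nonneg (filter_subset _ _) fun h' _ _ => (M.u_pos h').le
      calc ∑ h' ∈ univ.filter (fun h' => h' ≠ hinv h), (a * q M (hinv h) h' + q0) * M.u h'
          = a * (∑ h' ∈ univ.filter (fun h' => h' ≠ hinv h), q M (hinv h) h' * M.u h') +
            q0 * ∑ h' ∈ univ.filter (fun h' => h' ≠ hinv h), M.u h' := by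
            rw [mul_sum, mul_sum, ← sum_add_distrib]
            exact sum_congr rfl fun h' _ => by ring
        _ ≤ a * M.u h + q0 * U := by gcongr
        _ ≤ M.u h := by linarith }, ?_⟩
  refine ⟨fun m => (M.tot_le m).trans ?_, rfl, rfl⟩
  exact mul_le_mul_of_nonneg_right (le_max_right _ _) (Nat.cast_nonneg _)

end Crest.Agent.R177.Loc
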