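import Mathlib

/-!
Row 177, LOC: abstract Kraft / determination lemma (helper776).

`n` steps, step `i` reveals the label `lam i ∈ H`.  Steps are *Kraft* (`K i`: weight
`q (inv (lam (i-1))) (lam i)`, where `u` is sub-invariant), *determined* (`D i`: the label is
determined by the previous labels) or *free*.
-/

set_option autoImplicit false

open scoped Classical

namespace Crest.Agent.R177.Kraft

open Finset

variable {H : Type*} [Fintype H]

/-- the weight of a step -/
noncomputable def fac (inv : H → H) (q : H → H → ℝ) (K : ℕ → Prop) {n : ℕ} (lam : Fin n → H)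
    (i : Fin n) : ℝ :=
  if K i then q (inv (lam ⟨i.val - 1, lt_of_le_of_lt (Nat.sub_le _ _) i.2⟩)) (lam i) else 1

/-- the bound -/
noncomputable def bnd (H : Type*) [Fintype H] (A : ℝ) (K D : ℕ → Prop) : ℕ → ℝ
  | 0 => 1
  | n + 1 => bnd H A K D n *
      (if K n then (if K (n - 1) then 1 else A) else if D n then 1 else (Fintype.card H : ℝ))

theorem bnd_nonneg {A : ℝ} (hA : 0 ≤ A) (K D : ℕ → Prop) (n : ℕ) : 0 ≤ bnd H A K D n := by
  induction n with
  | zero => simp [bnd]
  | succ n ih =>
    unfold bnd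
    apply mul_nonneg ih
    split_ifs <;> first | exact zero_le_one | exact hA | positivity

theorem bnd_eq (A : ℝ) (K D : ℕ → Prop) (n : ℕ) :
    bnd H A K D n = (Fintype.card H : ℝ) ^ ((range n).filter fun i => ¬ K i ∧ ¬ D i).card *
      A ^ ((range n).filter fun i => K i ∧ ¬ K (i - 1)).card := by
  induction n with
  | zero => simp [bnd]
  | succ n ih =>
    have hn1 : n ∉ (range n).filter fun i => ¬ K i ∧ ¬ D i := by simp
    have hn2 : n ∉ (range n).filter fun i => K i ∧ ¬ K (i - 1) := by simp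
    rw [range_add_one, filter_insert, filter_insert]
    unfold bnd
    rw [ih]
    by_cases hK : K n
    · by_cases hK' : K (n - 1)
      · simp [hK, hK']
      · simp only [hK, hK', if_true, if_false, not_true_eq_false, false_and, not_false_eq_true,
          and_self, card_insert_of_notMem hn2]
        rw [pow_succ]; ring
    · by_cases hD : D n
      · simp [hK, hD]
      · simp only [hK, hD, if_false, not_false_eq_true, and_self, if_true, false_and,
          card_insert_of_notMem hn1]
        rw [pow_succ]; ring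

omit [Fintype H] in
theorem prod_fac_succ (inv : H → H) (q : H → H → ℝ) (K : ℕ → Prop) {n : ℕ}
    (mu : Fin n → H) (h : H) :
    ∏ i, fac inv q K (Fin.snoc mu h : Fin (n + 1) → H) i =
      (∏ i, fac inv q K mu i) *
        (if K n then q (inv ((Fin.snoc mu h : Fin (n + 1) → H) ⟨n - 1, by omega⟩)) h else 1) := by
  rw [Fin.prod_univ_castSucc]
  congr 1
  · refine Finset.prod_congr rfl fun i _ => ?_
    unfold fac
    simp only [Fin.val_castSucc, Fin.snoc_castSucc]
    have : (⟨i.val - 1, by omega⟩ : Fin (n + 1)) = Fin.castSucc ⟨i.val - 1, by omega⟩ := by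
      ext; rfl
    rw [this, Fin.snoc_castSucc]
  · unfold fac
    simp only [Fin.val_last, Fin.snoc_last]

section

variable (inv : H → H) (q : H → H → ℝ) (u : H → ℝ) (umin umax : ℝ) (K D : ℕ → Prop)

theorem kraft_aux (hmin : 0 < umin) (h1 : ∀ h, umin ≤ u h) (h2 : ∀ h, u h ≤ umax)
    (hmax : 0 ≤ umax) (hq : ∀ h h', 0 ≤ q h h')
    (sub : ∀ h, ∑ h' ∈ univ.filter (fun h' => h' ≠ inv h), q (inv h) h' * u h' ≤ u h)
    (hK0 : ¬ K 0) (n : ℕ) : ∀ (Lam : Finset (Fin n → H)),
    (∀ i (hi : i + 1 < n), K (i + 1) → ∀ lam ∈ Lam,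
      lam ⟨i + 1, hi⟩ ≠ inv (lam ⟨i, Nat.lt_of_succ_lt hi⟩)) →
    (∀ i (hi : i < n), D i → ¬ K i → ∀ lam ∈ Lam, ∀ lam' ∈ Lam,
      (∀ j (hj : j < i), lam ⟨j, hj.trans hi⟩ = lam' ⟨j, hj.trans hi⟩) →
        lam ⟨i, hi⟩ = lam' ⟨i, hi⟩) →
    (∑ lam ∈ Lam, ∏ i, fac inv q K lam i ≤ bnd H (umax / umin) K D n) ∧
    (∀ hn : 0 < n, K (n - 1) →
      ∑ lam ∈ Lam, (∏ i, fac inv q K lam i) * u (lam ⟨n - 1, by omega⟩) ≤
        umin * bnd H (umax / umin) K D n) := by
  have hfac : ∀ {n : ℕ} (lam : Fin n → H), 0 ≤ ∏ i, fac inv q K lam i := by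
    intro n lam
    refine Finset.prod_nonneg fun i _ => ?_
    unfold fac
    split_ifs
    · exact hq _ _
    · exact zero_le_one
  have hA : 0 ≤ umax / umin := by positivity
  induction n with
  | zero =>
    intro Lam _ _
    refine ⟨?_, fun hn => absurd hn (lt_irrefl _)⟩
    simp only [bnd, Finset.univ_eq_empty, Finset.prod_empty, Finset.sum_const, nsmul_eq_mul,
      mul_one]
    have : Lam.card ≤ 1 := by
      refine (Finset.card_le_univ _).trans ?_
      simp
    exact_mod_cast this
  | succ n ih =>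
    intro Lam hK hD
    set Lam' : Finset (Fin n → H) := Lam.image (fun lam => Fin.init lam) with hLam'
    have hmem : ∀ mu ∈ Lam', ∃ lam ∈ Lam, Fin.init lam = mu := by
      intro mu hmu
      obtain ⟨lam, hl, rfl⟩ := Finset.mem_image.1 hmu
      exact ⟨lam, hl, rfl⟩
    obtain ⟨ih1, ih2⟩ := ih Lam'
      (by
        intro i hi hKi mu hmu
        obtain ⟨lam, hl, rfl⟩ := hmem mu hmu
        exact hK i (by omega) hKi lam hl)
      (by
        intro i hi hDi hKi mu hmu mu' hmu' hj
        obtain ⟨lam, hl, rfl⟩ := hmem mu hmu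
        obtain ⟨lam', hl', rfl⟩ := hmem mu' hmu'
        exact hD i (by omega) hDi hKi lam hl lam' hl' hj)
    -- split the sum
    have hsplit : ∀ f : (Fin (n + 1) → H) → ℝ, ∑ lam ∈ Lam, f lam =
        ∑ mu ∈ Lam', ∑ h ∈ univ.filter (fun h => (Fin.snoc mu h : Fin (n + 1) → H) ∈ Lam),
          f (Fin.snoc mu h) := by
      intro f
      rw [← Finset.sum_fiberwise_of_maps_to (t := Lam') (g := fun lam => Fin.init lam)
        (fun lam hl => Finset.mem_image_of_mem _ hl)]
      refine Finset.sum_congr rfl fun mu _ => ?_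
      refine Finset.sum_bij' (fun lam _ => lam (Fin.last n))
        (fun h _ => (Fin.snoc mu h : Fin (n + 1) → H)) ?_ ?_ ?_ ?_ ?_
      · intro lam hl
        rw [Finset.mem_filter] at hl ⊢
        refine ⟨Finset.mem_univ _, ?_⟩
        rw [← hl.2, Fin.snoc_init_self]
        exact hl.1
      · intro h hh
        rw [Finset.mem_filter] at hh ⊢
        exact ⟨hh.2, by rw [Fin.init_snoc]⟩
      · intro lam hl
        rw [Finset.mem_filter] at hl
        rw [← hl.2, Fin.snoc_init_self]
      · intro h hh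
        simp
      · intro lam hl
        rw [Finset.mem_filter] at hl
        rw [← hl.2, Fin.snoc_init_self]
    by_cases hKn : K n
    · -- Kraft step
      have hn0 : 0 < n := by
        rcases Nat.eq_zero_or_pos n with h | h
        · subst h; exact absurd hKn hK0
        · exact h
      have hlast : ∀ (mu : Fin n → H) (h : H),
          (Fin.snoc mu h : Fin (n + 1) → H) ⟨n - 1, by omega⟩ = mu ⟨n - 1, by omega⟩ := by
        intro mu h
        have : (⟨n - 1, by omega⟩ : Fin (n + 1)) = Fin.castSucc ⟨n - 1, by omega⟩ := by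
          ext; rfl
        rw [this, Fin.snoc_castSucc]
      have hG : ∑ lam ∈ Lam, (∏ i, fac inv q K lam i) * u (lam (Fin.last n)) ≤
          ∑ mu ∈ Lam', (∏ i, fac inv q K mu i) * u (mu ⟨n - 1, by omega⟩) := by
        rw [hsplit]
        refine Finset.sum_le_sum fun mu hmu => ?_
        have h3 : ∀ h ∈ univ.filter (fun h => (Fin.snoc mu h : Fin (n + 1) → H) ∈ Lam),
            (∏ i, fac inv q K (Fin.snoc mu h : Fin (n + 1) → H) i) *
              u ((Fin.snoc mu h : Fin (n + 1) → H) (Fin.last n)) =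
            (∏ i, fac inv q K mu i) * (q (inv (mu ⟨n - 1, by omega⟩)) h * u h) := by
          intro h _
          rw [prod_fac_succ, if_pos hKn, hlast, Fin.snoc_last]
          ring
        rw [Finset.sum_congr rfl h3, ← Finset.mul_sum]
        refine mul_le_mul_of_nonneg_left ?_ (hfac mu)
        refine le_trans ?_ (sub (mu ⟨n - 1, by omega⟩))
        refine Finset.sum_le_sum_of_subset_of_nonneg ?_ ?_
        · intro h hh
          rw [Finset.mem_filter] at hh ⊢
          refine ⟨Finset.mem_univ _, ?_⟩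
          obtain ⟨n', rfl⟩ : ∃ n', n = n' + 1 := ⟨n - 1, by omega⟩
          have := hK n' (by omega) hKn _ hh.2
          have e1 : (Fin.snoc mu h : Fin (n' + 1 + 1) → H) ⟨n' + 1, by omega⟩ = h := by
            have : (⟨n' + 1, by omega⟩ : Fin (n' + 1 + 1)) = Fin.last (n' + 1) := rfl
            rw [this, Fin.snoc_last]
          have e2 : (Fin.snoc mu h : Fin (n' + 1 + 1) → H) ⟨n', by omega⟩ =
              mu ⟨n' + 1 - 1, by omega⟩ := hlast mu h
          rw [e1, e2] at this
          exact this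
        · intro h _ _
          exact mul_nonneg (hq _ _) (hmin.le.trans (h1 h))
      have hG2 : ∑ mu ∈ Lam', (∏ i, fac inv q K mu i) * u (mu ⟨n - 1, by omega⟩) ≤
          umin * bnd H (umax / umin) K D (n + 1) := by
        unfold bnd
        rw [if_pos hKn]
        by_cases hK' : K (n - 1)
        · rw [if_pos hK', mul_one]
          exact ih2 hn0 hK'
        · rw [if_neg hK']
          calc ∑ mu ∈ Lam', (∏ i, fac inv q K mu i) * u (mu ⟨n - 1, by omega⟩)
              ≤ ∑ mu ∈ Lam', (∏ i, fac inv q K mu i) * umax :=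
                Finset.sum_le_sum fun mu _ => mul_le_mul_of_nonneg_left (h2 _) (hfac mu)
            _ = (∑ mu ∈ Lam', ∏ i, fac inv q K mu i) * umax := by rw [Finset.sum_mul]
            _ ≤ bnd H (umax / umin) K D n * umax := mul_le_mul_of_nonneg_right ih1 hmax
            _ = umin * (bnd H (umax / umin) K D n * (umax / umin)) := by field_simp
      have hG3 := hG.trans hG2
      refine ⟨?_, fun _ _ => hG3⟩
      have h4 : umin * ∑ lam ∈ Lam, ∏ i, fac inv q K lam i ≤
          ∑ lam ∈ Lam, (∏ i, fac inv q K lam i) * u (lam (Fin.last n)) := by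
        rw [Finset.mul_sum]
        refine Finset.sum_le_sum fun lam _ => ?_
        rw [mul_comm]
        exact mul_le_mul_of_nonneg_left (h1 _) (hfac lam)
      exact le_of_mul_le_mul_left (h4.trans hG3) hmin
    · refine ⟨?_, fun _ hK' => absurd hK' hKn⟩
      rw [hsplit]
      have h3 : ∀ mu ∈ Lam', ∑ h ∈ univ.filter (fun h => (Fin.snoc mu h : Fin (n + 1) → H) ∈ Lam),
          ∏ i, fac inv q K (Fin.snoc mu h : Fin (n + 1) → H) i =
          (∏ i, fac inv q K mu i) *
            ((univ.filter (fun h => (Fin.snoc mu h : Fin (n + 1) → H) ∈ Lam)).card : ℝ) := by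
        intro mu _
        rw [Finset.sum_congr rfl fun h _ => by rw [prod_fac_succ, if_neg hKn, mul_one]]
        rw [Finset.sum_const, nsmul_eq_mul, mul_comm]
      rw [Finset.sum_congr rfl h3]
      unfold bnd
      rw [if_neg hKn]
      by_cases hDn : D n
      · rw [if_pos hDn, mul_one]
        refine le_trans (Finset.sum_le_sum fun mu _ => ?_) ih1
        have hc : (univ.filter (fun h => (Fin.snoc mu h : Fin (n + 1) → H) ∈ Lam)).card ≤ 1 := by
          rw [Finset.card_le_one]
          intro a ha b hb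
          rw [Finset.mem_filter] at ha hb
          have := hD n (Nat.lt_succ_self n) hDn hKn _ ha.2 _ hb.2 (by
            intro j hj
            have e : (⟨j, by omega⟩ : Fin (n + 1)) = Fin.castSucc ⟨j, hj⟩ := rfl
            rw [e, Fin.snoc_castSucc, Fin.snoc_castSucc])
          have e : (⟨n, Nat.lt_succ_self n⟩ : Fin (n + 1)) = Fin.last n := rfl
          rw [e, Fin.snoc_last, Fin.snoc_last] at this
          exact this
        calc (∏ i, fac inv q K mu i) *
            ((univ.filter (fun h => (Fin.snoc mu h : Fin (n + 1) → H) ∈ Lam)).card : ℝ)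
            ≤ (∏ i, fac inv q K mu i) * 1 :=
              mul_le_mul_of_nonneg_left (by exact_mod_cast hc) (hfac mu)
          _ = _ := mul_one _
      · rw [if_neg hDn]
        calc ∑ mu ∈ Lam', (∏ i, fac inv q K mu i) *
            ((univ.filter (fun h => (Fin.snoc mu h : Fin (n + 1) → H) ∈ Lam)).card : ℝ)
            ≤ ∑ mu ∈ Lam', (∏ i, fac inv q K mu i) * (Fintype.card H : ℝ) :=
              Finset.sum_le_sum fun mu _ => mul_le_mul_of_nonneg_left
                (by exact_mod_cast Finset.card_le_univ _) (hfac mu)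
          _ = (∑ mu ∈ Lam', ∏ i, fac inv q K mu i) * (Fintype.card H : ℝ) := by
              rw [Finset.sum_mul]
          _ ≤ _ := mul_le_mul_of_nonneg_right ih1 (by positivity)

/-- **Abstract Kraft lemma.** -/
theorem kraft (hmin : 0 < umin) (h1 : ∀ h, umin ≤ u h) (h2 : ∀ h, u h ≤ umax)
    (hmax : 0 ≤ umax) (hq : ∀ h h', 0 ≤ q h h')
    (sub : ∀ h, ∑ h' ∈ univ.filter (fun h' => h' ≠ inv h), q (inv h) h' * u h' ≤ u h)
    (hK0 : ¬ K 0) (n : ℕ) (Lam : Finset (Fin n → H))
    (hK : ∀ i (hi : i + 1 < n), K (i + 1) → ∀ lam ∈ Lam,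
      lam ⟨i + 1, hi⟩ ≠ inv (lam ⟨i, Nat.lt_of_succ_lt hi⟩))
    (hD : ∀ i (hi : i < n), D i → ¬ K i → ∀ lam ∈ Lam, ∀ lam' ∈ Lam,
      (∀ j (hj : j < i), lam ⟨j, hj.trans hi⟩ = lam' ⟨j, hj.trans hi⟩) →
        lam ⟨i, hi⟩ = lam' ⟨i, hi⟩) :
    ∑ lam ∈ Lam, ∏ i, fac inv q K lam i ≤
      (Fintype.card H : ℝ) ^ ((range n).filter fun i => ¬ K i ∧ ¬ D i).card *
      (umax / umin) ^ ((range n).filter fun i => K i ∧ ¬ K (i - 1)).card := by
  rw [← bnd_eq (H := H) (umax / umin) K D n]
  exact (kraft_aux inv q u umin umax K D hmin h1 h2 hmax hq sub hK0 n Lam hK hD).1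

end

end Crest.Agent.R177.Kraft
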