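import Crest.Agent.R177.LocDefs

/-!
# Row 177, LOC, LA2 (helper516): non-parallel positions from the overlap property

`pc g' p` = index of the piece of the position `p`: pieces are the maximal `D`-connected parts of
the windows `[j g', (j+1) g')`.
-/

set_option autoImplicit false

open scoped Classical

namespace Crest.Agent.R177.Loc

variable {σ : Shape}

/-- index of the piece of a position -/
noncomputable def pc (σ : Shape) (g' p : ℕ) : ℕ :=
  p / g' + ((Finset.range p).filter (fun r => r ∉ σ.D)).card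

theorem pc_mono (σ : Shape) (g' : ℕ) {p q : ℕ} (h : p ≤ q) : pc σ g' p ≤ pc σ g' q := by
  unfold pc
  refine add_le_add (Nat.div_le_div_right h) (Finset.card_le_card ?_)
  intro r hr
  simp only [Finset.mem_filter, Finset.mem_range] at hr ⊢
  exact ⟨lt_of_lt_of_le hr.1 h, hr.2⟩

/-- positions of the same piece are close and connected -/
theorem pc_eq {g' : ℕ} (hg : 1 ≤ g') {p q : ℕ} (h : p ≤ q) (he : pc σ g' p = pc σ g' q) :
    q - p ≤ g' ∧ ∀ i < q - p, p + i ∈ σ.D := by
  unfold pc at he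
  have h1 : p / g' ≤ q / g' := Nat.div_le_div_right h
  have hsub : (Finset.range p).filter (fun r => r ∉ σ.D) ⊆
      (Finset.range q).filter (fun r => r ∉ σ.D) := by
    intro r hr
    simp only [Finset.mem_filter, Finset.mem_range] at hr ⊢
    exact ⟨lt_of_lt_of_le hr.1 h, hr.2⟩
  have h2 := Finset.card_le_card hsub
  constructor
  · have h3 : p / g' = q / g' := by omega
    have h4 := Nat.div_add_mod p g'
    have h5 := Nat.div_add_mod q g'
    have h6 := Nat.mod_lt q hg
    rw [h3] at h4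
    omega
  · intro i hi
    by_contra hD
    have h3 : (Finset.range p).filter (fun r => r ∉ σ.D) =
        (Finset.range q).filter (fun r => r ∉ σ.D) :=
      Finset.eq_of_subset_of_card_le hsub (by omega)
    have h4 : p + i ∈ (Finset.range q).filter (fun r => r ∉ σ.D) := by
      simp only [Finset.mem_filter, Finset.mem_range]
      exact ⟨by omega, hD⟩
    rw [← h3] at h4
    simp only [Finset.mem_filter, Finset.mem_range] at h4
    omega

theorem pc_lt {g' K Y : ℕ} (hg : 1 ≤ g') (hK : (Finset.range σ.T \ σ.D).card ≤ K)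
    (hT : σ.T ≤ Y * g') {p : ℕ} (hp : p < σ.T) : pc σ g' p < Y + K + 1 := by
  unfold pc
  have h1 : p / g' < Y := by
    rw [Nat.div_lt_iff_lt_mul hg]
    omega
  have h2 : ((Finset.range p).filter (fun r => r ∉ σ.D)).card ≤ K := by
    refine le_trans (Finset.card_le_card ?_) hK
    intro r hr
    simp only [Finset.mem_filter, Finset.mem_range, Finset.mem_sdiff] at hr ⊢
    exact ⟨by omega, hr.2⟩
  omega

/-- a piece is injective -/
theorem pc_inj {g' : ℕ} (hg : 1 ≤ g') (ho : σ.Ovl g') {p q : ℕ} (he : pc σ g' p = pc σ g' q)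
    (hc : σ.cls p = σ.cls q) : p = q := by
  have key : ∀ p q : ℕ, p ≤ q → pc σ g' p = pc σ g' q → σ.cls p = σ.cls q → p = q := by
    intro p q h he hc
    obtain ⟨h1, h2⟩ := pc_eq hg h he
    have h3 := (ho p p 0 (q - p) (Nat.zero_le _) h1 (fun i hi => absurd hi (Nat.not_lt_zero i))
      h2).1 rfl (by rw [Nat.add_zero, Nat.add_sub_cancel' h]; exact hc)
    omega
  rcases le_total p q with h | h
  · exact key p q h he hc
  · exact (key q p h he.symm hc.symm).symm

theorem Mv_le {g' K Y : ℕ} (hg : 1 ≤ g') (ho : σ.Ovl g')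
    (hK : (Finset.range σ.T \ σ.D).card ≤ K) (hT : σ.T ≤ Y * g') (v : ℕ) :
    σ.Mv v ≤ Y + K + 1 := by
  unfold Shape.Mv
  refine le_trans (Finset.card_le_card_of_injOn (t := Finset.range (Y + K + 1)) (pc σ g') ?_ ?_)
    (by simp)
  · intro p hp
    simp only [Finset.coe_filter, Finset.mem_range, Set.mem_ofPred_eq] at hp
    simp only [Finset.coe_range, Set.mem_Iio]
    exact pc_lt hg hK hT hp.1
  · intro p hp q hq he
    simp only [Finset.coe_filter, Finset.mem_range, Set.mem_ofPred_eq] at hp hq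
    exact pc_inj hg ho he (hp.2.trans hq.2.symm)

/-- three positions of one piece whose classes lie in one piece: the middle one is parallel -/
theorem par_of_between (hσ : σ.Basic) {g' : ℕ} (hg : 1 ≤ g') (ho : σ.Ovl g') {p₁ p₂ p₃ : ℕ}
    (h12 : p₁ < p₂) (h23 : p₂ < p₃) (hp : pc σ g' p₁ = pc σ g' p₃)
    (hv : pc σ g' (σ.cls p₁) = pc σ g' (σ.cls p₃))
    (hv2 : pc σ g' (σ.cls p₂) = pc σ g' (σ.cls p₁)) : σ.Par p₂ (σ.cls p₂) := by
  obtain ⟨a1, a2⟩ := pc_eq hg (by omega : p₁ ≤ p₃) hp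
  rcases le_total (σ.cls p₁) (σ.cls p₃) with h | h
  · obtain ⟨b1, b2⟩ := pc_eq hg h hv
    obtain ⟨c1, c2⟩ := (ho p₁ (σ.cls p₁) (p₃ - p₁) (σ.cls p₃ - σ.cls p₁) a1 b1 a2 b2).1
      (hσ.cls_cls p₁).symm (by
        rw [Nat.add_sub_cancel' (by omega : p₁ ≤ p₃), Nat.add_sub_cancel' h, hσ.cls_cls])
    have e2 : σ.cls p₂ = σ.cls p₁ + (p₂ - p₁) := by
      have h1 := c2 (p₂ - p₁) (by omega)
      rw [Nat.add_sub_cancel' (by omega : p₁ ≤ p₂)] at h1
      refine pc_inj hg ho ?_ (by rw [hσ.cls_cls, h1])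
      rw [hv2]
      refine le_antisymm (pc_mono σ g' (by omega)) ?_
      rw [hv]
      exact pc_mono σ g' (by omega)
    left
    constructor
    · have h1 := c2 (p₂ - p₁ - 1) (by omega)
      rw [show p₂ - 1 = p₁ + (p₂ - p₁ - 1) by omega, h1]
      congr 1
      omega
    · have h1 := c2 (p₂ - p₁ + 1) (by omega)
      rw [show p₂ + 1 = p₁ + (p₂ - p₁ + 1) by omega, h1]
      congr 1
      omega
  · obtain ⟨b1, b2⟩ := pc_eq hg h hv.symm
    obtain ⟨c1, c2⟩ := (ho p₁ (σ.cls p₃) (p₃ - p₁) (σ.cls p₁ - σ.cls p₃) a1 b1 a2 b2).2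
      (by rw [Nat.add_sub_cancel' h, hσ.cls_cls]) (by
        rw [Nat.add_sub_cancel' (by omega : p₁ ≤ p₃), hσ.cls_cls])
    have e2 : σ.cls p₂ = σ.cls p₃ + (p₃ - p₂) := by
      have h1 := c2 (p₂ - p₁) (by omega)
      rw [Nat.add_sub_cancel' (by omega : p₁ ≤ p₂)] at h1
      refine pc_inj hg ho ?_ (by
        rw [hσ.cls_cls, h1]; congr 1; omega)
      rw [hv2]
      refine le_antisymm ?_ (pc_mono σ g' (by omega))
      rw [hv]
      exact pc_mono σ g' (by omega)
    right
    constructor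
    · have h1 := c2 (p₂ - p₁ - 1) (by omega)
      rw [show p₂ - 1 = p₁ + (p₂ - p₁ - 1) by omega, h1]
      congr 1
      omega
    · have h1 := c2 (p₂ - p₁ + 1) (by omega)
      rw [show p₂ + 1 = p₁ + (p₂ - p₁ + 1) by omega, h1]
      congr 1
      omega

/-- the number of positions which are not parallel to the first position of their class -/
theorem nonpar_card (hσ : σ.Basic) {g' K Y : ℕ} (hg : 1 ≤ g') (ho : σ.Ovl g')
    (hK : (Finset.range σ.T \ σ.D).card ≤ K) (hT : σ.T ≤ Y * g') :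
    ((Finset.range σ.T).filter (fun p => ¬ σ.Par p (σ.cls p))).card ≤ 2 * (Y + K + 1) ^ 2 := by
  have h1 := Finset.card_le_mul_card_image_of_maps_to
    (s := (Finset.range σ.T).filter (fun p => ¬ σ.Par p (σ.cls p)))
    (t := Finset.range (Y + K + 1) ×ˢ Finset.range (Y + K + 1))
    (f := fun p => (pc σ g' p, pc σ g' (σ.cls p))) (by
      intro p hp
      simp only [Finset.mem_filter, Finset.mem_range] at hp
      simp only [Finset.mem_product, Finset.mem_range]
      exact ⟨pc_lt hg hK hT hp.1, pc_lt hg hK hT (lt_of_le_of_lt (hσ.cls_le p) hp.1)⟩) 2 (by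
      rintro ⟨i, j⟩ _
      by_contra hcon
      rw [not_le] at hcon
      obtain ⟨a, ha, b, hb, c, hc, hab, hac, hbc⟩ := Finset.two_lt_card.1 hcon
      simp only [Finset.mem_filter, Finset.mem_range, Prod.mk.injEq] at ha hb hc
      have key : ∀ a b c : ℕ, ((a < σ.T ∧ ¬ σ.Par a (σ.cls a)) ∧ pc σ g' a = i ∧
          pc σ g' (σ.cls a) = j) → ((b < σ.T ∧ ¬ σ.Par b (σ.cls b)) ∧ pc σ g' b = i ∧
          pc σ g' (σ.cls b) = j) → ((c < σ.T ∧ ¬ σ.Par c (σ.cls c)) ∧ pc σ g' c = i ∧
          pc σ g' (σ.cls c) = j) → a < b → b < c → False := by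
        rintro a b c ⟨_, ha1, ha2⟩ ⟨⟨_, hb0⟩, hb1, hb2⟩ ⟨_, hc1, hc2⟩ h1 h2
        exact hb0 (par_of_between hσ hg ho h1 h2 (ha1.trans hc1.symm) (ha2.trans hc2.symm)
          (hb2.trans ha2.symm))
      rcases lt_or_gt_of_ne hab with h1 | h1 <;> rcases lt_or_gt_of_ne hac with h2 | h2 <;>
        rcases lt_or_gt_of_ne hbc with h3 | h3
      · exact key a b c ha hb hc h1 h3
      · exact key a c b ha hc hb h2 h3
      · omega
      · exact key c a b hc ha hb h2 h1
      · exact key b a c hb ha hc h1 h2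
      · omega
      · exact key b c a hb hc ha h3 h2
      · exact key c b a hc hb ha h3 h1)
  rw [Finset.card_product, Finset.card_range] at h1
  calc _ ≤ 2 * ((Y + K + 1) * (Y + K + 1)) := h1
    _ = _ := by ring

end Crest.Agent.R177.Loc
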