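import Mathlib

/-!
# R177 LOC: the pairing inequality (deterministic part of the local lemma)

`T` = corners of a configuration, `mate` = partial matching of the corners, `reg` = corners at
regular nodes, `R` = corners at representative nodes, `g τ` = logarithm of the corner weight,
`x τ` = half of the logarithm of the reference weight.
-/

set_option autoImplicit false

open scoped Classical

namespace Crest.Agent.R177

/-- Pairing inequality. -/
theorem pairing_ineq {T : Type} [Fintype T] (mate : T → Option T)
    (msymm : ∀ a b, mate a = some b → mate b = some a)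
    (reg R : T → Prop) (hR : ∀ a, R a → reg a) (g x : T → ℝ) (C : ℝ)
    (hgx : ∀ a, g a ≤ x a) (hg : ∀ a b, mate a = some b → g a = g b)
    (hx : ∀ a b, mate a = some b → x a = x b)
    (hind : ∀ a b, mate a = some b → R a → ¬ R b)
    (hC1 : ∀ a, -g a ≤ C) (hC2 : ∀ a, - x a ≤ C) (hC3 : ∀ a, x a - g a ≤ C) :
    (∑ a, if reg a then g a else 0) - (∑ a, if R a then 2 * (g a - x a) else 0) ≤
      (∑ a, x a) + C * (Nat.card {a // R a ∧ mate a = none} : ℝ) +
        C * (Nat.card {a // ¬ reg a} : ℝ) := by
  -- transfer terms
  set MR : T → Prop := fun a => R a ∧ mate a ≠ none with hMR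
  set I : T → Prop := fun a => ∃ b, mate a = some b ∧ R b with hI
  have hsum : (∑ a, if MR a then (x a - g a) else 0) = ∑ a, if I a then (x a - g a) else 0 := by
    rw [← Finset.sum_filter, ← Finset.sum_filter]
    refine Finset.sum_nbij' (fun a => (mate a).getD a) (fun a => (mate a).getD a) ?_ ?_ ?_ ?_ ?_
    · intro a ha
      simp only [Finset.mem_filter, Finset.mem_univ, true_and, hMR, hI] at ha ⊢
      obtain ⟨b, hb⟩ := Option.ne_none_iff_exists'.1 ha.2
      rw [hb]
      exact ⟨a, by simpa using msymm a b hb, ha.1⟩
    · intro a ha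
      simp only [Finset.mem_filter, Finset.mem_univ, true_and, hMR, hI] at ha ⊢
      obtain ⟨b, hb, hRb⟩ := ha
      rw [hb]
      simp only [Option.getD_some]
      exact ⟨hRb, by rw [msymm a b hb]; simp⟩
    · intro a ha
      simp only [Finset.mem_filter, Finset.mem_univ, true_and, hMR] at ha
      obtain ⟨b, hb⟩ := Option.ne_none_iff_exists'.1 ha.2
      simp [hb, msymm a b hb]
    · intro a ha
      simp only [Finset.mem_filter, Finset.mem_univ, true_and, hI] at ha
      obtain ⟨b, hb, _⟩ := ha
      simp [hb, msymm a b hb]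
    · intro a ha
      simp only [Finset.mem_filter, Finset.mem_univ, true_and, hMR] at ha
      obtain ⟨b, hb⟩ := Option.ne_none_iff_exists'.1 ha.2
      rw [hb]
      simp only [Option.getD_some]
      rw [hx a b hb, hg a b hb]
  have hcard1 : (Nat.card {a // R a ∧ mate a = none} : ℝ) =
      ∑ a, if R a ∧ mate a = none then (1 : ℝ) else 0 := by
    rw [Nat.card_eq_fintype_card, Fintype.card_subtype, Finset.card_eq_sum_ones,
      Nat.cast_sum, Finset.sum_filter]
    simp
  have hcard2 : (Nat.card {a // ¬ reg a} : ℝ) = ∑ a, if ¬ reg a then (1 : ℝ) else 0 := by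
    rw [Nat.card_eq_fintype_card, Fintype.card_subtype, Finset.card_eq_sum_ones,
      Nat.cast_sum, Finset.sum_filter]
    simp
  rw [hcard1, hcard2, Finset.mul_sum, Finset.mul_sum, ← Finset.sum_add_distrib,
    ← Finset.sum_add_distrib, ← Finset.sum_sub_distrib]
  have key : ∀ a, ((if reg a then g a else 0) - (if R a then 2 * (g a - x a) else 0)) -
      (if MR a then (x a - g a) else 0) + (if I a then (x a - g a) else 0) ≤
      x a + C * (if R a ∧ mate a = none then (1 : ℝ) else 0) +
        C * (if ¬ reg a then (1 : ℝ) else 0) := by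
    intro a
    have h1 := hgx a
    have h2 := hC1 a
    have h3 := hC2 a
    have h4 := hC3 a
    by_cases hRa : R a
    · have hra := hR a hRa
      have hIa : ¬ I a := by
        rintro ⟨b, hb, hRb⟩
        exact hind a b hb hRa hRb
      by_cases hm : mate a = none
      · have : ¬ MR a := fun h => h.2 hm
        simp only [hra, hRa, this, hIa, hm, if_true, if_false, and_self, not_true_eq_false]
        linarith
      · have : MR a := ⟨hRa, hm⟩
        simp only [hra, hRa, this, hIa, hm, if_true, if_false, and_false, not_true_eq_false]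
        linarith
    · have hMRa : ¬ MR a := fun h => hRa h.1
      by_cases hIa : I a
      · by_cases hra : reg a
        · simp only [hra, hRa, hMRa, hIa, if_true, if_false, false_and, not_true_eq_false]
          linarith
        · simp only [hra, hRa, hMRa, hIa, if_true, if_false, false_and, not_false_eq_true]
          linarith
      · by_cases hra : reg a
        · simp only [hra, hRa, hMRa, hIa, if_true, if_false, false_and, not_true_eq_false]
          linarith
        · simp only [hra, hRa, hMRa, hIa, if_true, if_false, false_and, not_false_eq_true]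
          linarith
  have tot := Finset.sum_le_sum (fun a (_ : a ∈ Finset.univ) => key a)
  rw [Finset.sum_add_distrib, Finset.sum_sub_distrib, hsum] at tot
  linarith

/-- Exponent of a node summed over the levels: if every corner at the node uses two different
half-edges, the largest multiplicity is at most the sum of the others plus the number of path
ends. -/
theorem level_exponent {H : Type} (U : Finset H) (m : H → ℕ) (e : ℕ)
    (h : ∀ i ∈ U, m i ≤ ∑ j ∈ U.erase i, m j + e) (T : ℕ) (hT : ∀ i ∈ U, m i ≤ T) :
    ∑ t ∈ Finset.Icc 1 T,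
      ((if (U.filter fun i => t ≤ m i).Nonempty then (1 : ℝ) else 0) -
        ((U.filter fun i => t ≤ m i).card : ℝ) / 2) ≤ (e : ℝ) / 2 := by
  rcases U.eq_empty_or_nonempty with rfl | hU
  · simp only [Finset.filter_empty, Finset.not_nonempty_empty, if_false, Finset.card_empty,
      Nat.cast_zero, zero_div, sub_zero, Finset.sum_const_zero]
    positivity
  obtain ⟨i₀, hi₀, hmax⟩ := Finset.exists_max_image U m hU
  have h1 : ∀ t ∈ Finset.Icc 1 T, (U.filter fun i => t ≤ m i).Nonempty ↔ t ≤ m i₀ := by
    intro t _
    constructor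
    · rintro ⟨i, hi⟩
      rw [Finset.mem_filter] at hi
      exact hi.2.trans (hmax i hi.1)
    · intro ht
      exact ⟨i₀, by simp [hi₀, ht]⟩
  have h2 : ∀ i ∈ U, ((Finset.Icc 1 T).filter fun t => t ≤ m i).card = m i := by
    intro i hi
    have : (Finset.Icc 1 T).filter (fun t => t ≤ m i) = Finset.Icc 1 (m i) := by
      ext t
      simp only [Finset.mem_filter, Finset.mem_Icc]
      have := hT i hi
      omega
    rw [this]; simp
  have h3 : ∑ t ∈ Finset.Icc 1 T, (if (U.filter fun i => t ≤ m i).Nonempty then (1 : ℝ) else 0) =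
      m i₀ := by
    rw [Finset.sum_congr rfl (fun t ht => by rw [if_congr (h1 t ht) rfl rfl]),
      ← Finset.sum_filter, Finset.sum_const, h2 i₀ hi₀]
    simp
  have h4 : ∑ t ∈ Finset.Icc 1 T, ((U.filter fun i => t ≤ m i).card : ℝ) = ∑ i ∈ U, (m i : ℝ) := by
    have : ∀ t, ((U.filter fun i => t ≤ m i).card : ℝ) = ∑ i ∈ U, if t ≤ m i then (1 : ℝ) else 0 := by
      intro t
      rw [← Finset.sum_filter, Finset.sum_const]; simp
    simp_rw [this]
    rw [Finset.sum_comm]
    refine Finset.sum_congr rfl fun i hi => ?_
    rw [← Finset.sum_filter, Finset.sum_const, h2 i hi]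
    simp
  rw [Finset.sum_sub_distrib, h3, ← Finset.sum_div, h4]
  have h5 : (m i₀ : ℝ) ≤ ∑ j ∈ U.erase i₀, (m j : ℝ) + e := by exact_mod_cast h i₀ hi₀
  have h6 : ∑ i ∈ U, (m i : ℝ) = m i₀ + ∑ j ∈ U.erase i₀, (m j : ℝ) :=
    (Finset.add_sum_erase U (fun i => (m i : ℝ)) hi₀).symm
  rw [h6]
  linarith

end Crest.Agent.R177
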