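import Crest.Agent.R177.LocBasic

/-!
# Row 177, module LOC (LC1, helper566): few runs of representatives
-/

set_option autoImplicit false

open scoped Classical

namespace Crest.Agent.R177.Loc

open Crest.Agent.R177
open Shape

/-- the number of positions in irregular classes -/
theorem card_irr_pos {σ : Shape} {Z I : ℕ} (hσ : σ.Good Z I) :
    ((Finset.range σ.T).filter (fun p => ¬ σ.Reg (σ.cls p))).card ≤ Z * I := by
  have h1 : ((Finset.range σ.T).filter (fun p => ¬ σ.Reg (σ.cls p))) ⊆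
    ((Finset.range σ.T).filter (fun v => σ.cls v = v ∧ ¬ σ.Reg v)).biUnion
      (fun v => (Finset.range σ.T).filter (fun p => σ.cls p = v)) := by
    intro p hp
    simp only [Finset.mem_filter, Finset.mem_range, Finset.mem_biUnion] at hp ⊢
    exact ⟨σ.cls p, ⟨lt_of_le_of_lt (hσ.cls_le p) hp.1, hσ.cls_cls p, hp.2⟩, hp.1, rfl⟩
  refine (Finset.card_le_card h1).trans ?_
  refine (Finset.card_biUnion_le).trans ?_
  refine (Finset.sum_le_card_nsmul _ _ Z ?_).trans ?_
  · intro v _
    exact hσ.card_cls v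
  · rw [smul_eq_mul, mul_comm]
    exact Nat.mul_le_mul_left _ hσ.irr

/-- LC1: few runs of representatives -/
theorem runs_card {σ : Shape} {Z I : ℕ} (hσ : σ.Good Z I) (t : ℕ) :
    ((Finset.range σ.T).filter (fun v => (σ.InR v ∧ t ≤ σ.Mv v) ∧
      ¬ (σ.InR (v - 1) ∧ t ≤ σ.Mv (v - 1)))).card ≤ 2 * Z * I := by
  have hB : σ.Basic := hσ.toBasic
  have hcov : ((Finset.range σ.T).filter (fun v => (σ.InR v ∧ t ≤ σ.Mv v) ∧
      ¬ (σ.InR (v - 1) ∧ t ≤ σ.Mv (v - 1)))) ⊆
      ((Finset.range σ.T).filter (fun p => ¬ σ.Reg (σ.cls p))).image (fun p => p + 1) ∪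
      ((Finset.range σ.T).filter (fun p => ¬ σ.Reg (σ.cls p))).image
        (fun p => σ.cls ((σ.mt p).getD 0)) := by
    intro v hv
    simp only [Finset.mem_filter, Finset.mem_range] at hv
    obtain ⟨hvT, ⟨hR, htv⟩, hn⟩ := hv
    have hReg : σ.Reg v := hR.1
    have hc := hReg.cor_self
    have e1 : v - 1 + 1 = v := by have := hc.1; omega
    have hcv : σ.cls (v - 1 + 1) = v := by rw [e1]; exact hReg.cls_self
    simp only [Finset.mem_union, Finset.mem_image, Finset.mem_filter, Finset.mem_range]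
    by_cases hw : σ.Reg (σ.cls (v - 1))
    · right
      have hadj := Reg.cls_adj hB hw hReg hc.2.1 (Or.inl ⟨rfl, hcv⟩)
      have hle := hB.cls_le (v - 1)
      have hw1 : σ.cls (v - 1) = v - 1 := by omega
      rw [hw1] at hw
      have hMv : σ.Mv (v - 1) = σ.Mv v := Mv_adj hB hw hReg hc.2.1 hw1 hcv
      have hnR : ¬ σ.InR (v - 1) := fun h => hn ⟨h, by omega⟩
      have hex : ∃ p p', p < σ.T ∧ σ.cls p = v - 1 ∧ σ.mt p = some p' ∧ σ.Reg (σ.cls p') ∧
          ¬ σ.Prec (v - 1) (σ.cls p') := by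
        by_contra hcon
        push Not at hcon
        exact hnR ⟨hw, fun p p' h1 h2 h3 h4 => hcon p p' h1 h2 h3 h4⟩
      obtain ⟨p, p', hpT, hpc, hmt, hRp', hPrec⟩ := hex
      have hne : v - 1 ≠ σ.cls p' := by
        rw [← hpc]; exact hB.mt_ne p p' hmt
      have hcor' : σ.Cor p' := hB.mt_cor p' p (hB.mt_symm p p' hmt)
      have hcorp : σ.Cor p := hB.mt_cor p p' hmt
      have hpreg := hw.preg hpT hpc
      have hnn := hpreg.2.2 (by rw [hmt]; simp)
      have hpar := (hw.2.2.2 p hpT hpc).2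
      rcases hpar with ⟨_, h2⟩ | ⟨h1, _⟩
      · -- the next corner lies over `v`
        rw [hcv] at h2
        obtain ⟨q, hq⟩ := Option.ne_none_iff_exists'.mp hnn.2
        have hqp : q + 1 = p' := hB.mt_coh p p' q hmt hq
        have hmq := hB.mt_symm _ _ hq
        have hcq : σ.Cor q := hB.mt_cor _ _ hmq
        refine ⟨q, ⟨hB.lt_of_mem hcq.2.2, ?_⟩, ?_⟩
        · intro hRq
          have hP1 := hR.2 (p + 1) q (hB.succ_lt_of_mem hcorp.2.2) h2 hq hRq
          have hM2 : σ.Mv (σ.cls q) = σ.Mv (σ.cls p') :=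
            Mv_adj hB hRq hRp' hcq.2.2 rfl (by rw [hqp])
          have hadj2 := Reg.cls_adj hB hRq hRp' hcq.2.2 (Or.inl ⟨rfl, by rw [hqp]⟩)
          unfold Shape.Prec at hP1 hPrec
          omega
        · rw [hmq]
          simpa using h2
      · rw [hcv] at h1
        obtain ⟨q, hq⟩ := Option.ne_none_iff_exists'.mp hnn.1
        have e2 : p - 1 + 1 = p := by have := hcorp.1; omega
        have hqp : p' + 1 = q := hB.mt_coh (p - 1) q p' hq (by rw [e2]; exact hmt)
        have hmq := hB.mt_symm _ _ hq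
        have hcq : σ.Cor q := hB.mt_cor _ _ hmq
        refine ⟨q, ⟨hB.lt_of_mem hcq.2.2, ?_⟩, ?_⟩
        · intro hRq
          have hP1 := hR.2 (p - 1) q (hB.lt_of_mem hcorp.2.1) h1 hq hRq
          have hM2 : σ.Mv (σ.cls p') = σ.Mv (σ.cls q) :=
            Mv_adj hB hRp' hRq hcor'.2.2 rfl (by rw [hqp])
          have hadj2 := Reg.cls_adj hB hRp' hRq hcor'.2.2 (Or.inl ⟨rfl, by rw [hqp]⟩)
          unfold Shape.Prec at hP1 hPrec
          omega
        · rw [hmq]
          simpa using h1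
    · left
      exact ⟨v - 1, ⟨hB.lt_of_mem hc.2.1, hw⟩, e1⟩
  refine (Finset.card_le_card hcov).trans ?_
  refine (Finset.card_union_le _ _).trans ?_
  refine (Nat.add_le_add Finset.card_image_le Finset.card_image_le).trans ?_
  have h3 := card_irr_pos hσ
  calc _ ≤ Z * I + Z * I := Nat.add_le_add h3 h3
    _ = 2 * Z * I := by ring

end Crest.Agent.R177.Loc
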