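import Crest.Agent.R177.LocFM

/-!
# Row 177, module LOC: the union bound (helper928)
-/

set_option autoImplicit false
set_option linter.unusedSectionVars false

open scoped Classical

namespace Crest.Agent.R177.Loc

open Crest.Agent.R177
open Crest.Agent.R199 (PAct)

variable {S : Type} [Fintype S]

/-- representatives of the labelings of the level `t` satisfying `P` -/
lemma exists_reps (σ : Shape) (t : ℕ) (P : (ℕ → S × Bool) → Prop) :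
    ∃ Λ : Finset (ℕ → S × Bool), (∀ ℓ ∈ Λ, P ℓ) ∧
      (∀ ℓ ∈ Λ, ∀ ℓ' ∈ Λ, (∀ p ∈ σ.D, t ≤ σ.mul p → ℓ p = ℓ' p) → ℓ = ℓ') ∧
      ∀ ℓ', P ℓ' → ∃ ℓ ∈ Λ, ∀ p ∈ σ.D, t ≤ σ.mul p → ℓ' p = ℓ p := by
  let E := σ.D.filter (fun p => t ≤ σ.mul p)
  let r : (ℕ → S × Bool) → (E → S × Bool) := fun ℓ p => ℓ p
  have hex : ∀ f : {f : E → S × Bool // ∃ ℓ, P ℓ ∧ r ℓ = f}, ∃ ℓ, P ℓ ∧ r ℓ = f := fun f => f.2
  choose s hs using hex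
  refine ⟨Finset.univ.image s, ?_, ?_, ?_⟩
  · intro ℓ hℓ
    obtain ⟨f, -, rfl⟩ := Finset.mem_image.1 hℓ
    exact (hs f).1
  · intro ℓ hℓ ℓ' hℓ' h
    obtain ⟨f, -, rfl⟩ := Finset.mem_image.1 hℓ
    obtain ⟨f', -, rfl⟩ := Finset.mem_image.1 hℓ'
    have : f = f' := by
      apply Subtype.ext
      rw [← (hs f).2, ← (hs f').2]
      funext p
      exact h p (Finset.mem_filter.1 p.2).1 (Finset.mem_filter.1 p.2).2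
    rw [this]
  · intro ℓ' hℓ'
    refine ⟨s ⟨r ℓ', ℓ', hℓ', rfl⟩, Finset.mem_image_of_mem _ (Finset.mem_univ _), ?_⟩
    intro p hp hpt
    have := congrFun (hs ⟨r ℓ', ℓ', hℓ', rfl⟩).2 ⟨p, Finset.mem_filter.2 ⟨hp, hpt⟩⟩
    exact this.symm

/-- union bound over shapes, levels and labelings -/
theorem card_bad_le (κ : KD S) (M : Model S) (m : ℕ) (hsz : 1 ≤ M.sz m) (o : Finset (M.V m))
    (Ω : Type) [Fintype Ω] (Γ : Ω → PAct S (M.V m)) (B : ℕ) (hM : Meas M m o Ω Γ B) (Z K : ℕ)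
    (Cs x : ℝ) (hx : 0 ≤ x) (𝒮 : Finset Shape)
    (h𝒮 : ∀ σ ∈ 𝒮, σ.Basic ∧ σ.T ≤ B ∧ σ.mrk.card ≤ K ∧
      ∀ t, 1 ≤ t → ∀ Λ : Finset (ℕ → S × Bool), (∀ ℓ ∈ Λ, σ.LabOK ℓ) →
      (∀ ℓ ∈ Λ, ∀ ℓ' ∈ Λ, (∀ p ∈ σ.D, t ≤ σ.mul p → ℓ p = ℓ' p) → ℓ = ℓ') →
      ∑ ℓ ∈ Λ, Wt κ σ t ℓ ≤ Cs)
    (Bad : Set Ω) (hBad : ∀ ω ∈ Bad, ∃ σ ∈ 𝒮, ∃ nd ℓ, σ.Real (Γ ω) o nd ℓ ∧ σ.LabOK ℓ ∧
      ∃ t ∈ Finset.Icc 1 Z, At M m σ t ℓ ≤ x * Wt κ σ t ℓ) :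
    (Nat.card Bad : ℝ) ≤
      𝒮.card * (Z * (2 * Fintype.card Ω * (1 + o.card) ^ K * (x * Cs))) := by
  choose Λ hΛ1 hΛ2 hΛ3 using fun (σ : Shape) (t : ℕ) =>
    exists_reps (S := S) σ t (fun ℓ => σ.LabOK ℓ ∧ At M m σ t ℓ ≤ x * Wt κ σ t ℓ)
  let ev : Shape → ℕ → (ℕ → S × Bool) → Finset Ω := fun σ t ℓ =>
    Finset.univ.filter (fun ω => ∃ nd ℓ', σ.Real (Γ ω) o nd ℓ' ∧ σ.LabOK ℓ' ∧
      ∀ p ∈ σ.D, t ≤ σ.mul p → ℓ' p = ℓ p)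
  have hsub : (Finset.univ.filter (fun ω => ω ∈ Bad)) ⊆
      𝒮.biUnion fun σ => (Finset.Icc 1 Z).biUnion fun t => (Λ σ t).biUnion fun ℓ => ev σ t ℓ := by
    intro ω hω
    rw [Finset.mem_filter] at hω
    obtain ⟨σ, hσ, nd, ℓ, hR, hL, t, ht, hA⟩ := hBad ω hω.2
    obtain ⟨ℓ₁, hℓ₁, h₁⟩ := hΛ3 σ t ℓ ⟨hL, hA⟩
    simp only [Finset.mem_biUnion]
    exact ⟨σ, hσ, t, ht, ℓ₁, hℓ₁, Finset.mem_filter.2 ⟨Finset.mem_univ _, nd, ℓ, hR, hL, h₁⟩⟩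
  have hcard : Nat.card Bad = (Finset.univ.filter (fun ω => ω ∈ Bad)).card := by
    rw [← Fintype.card_subtype, ← Nat.card_eq_fintype_card]
  have h1 : (Nat.card Bad : ℝ) ≤ ∑ σ ∈ 𝒮, ∑ t ∈ Finset.Icc 1 Z, ∑ ℓ ∈ Λ σ t,
      ((ev σ t ℓ).card : ℝ) := by
    rw [hcard]
    have h2 := Finset.card_le_card hsub
    have h3 : (𝒮.biUnion fun σ => (Finset.Icc 1 Z).biUnion fun t =>
        (Λ σ t).biUnion fun ℓ => ev σ t ℓ).card ≤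
        ∑ σ ∈ 𝒮, ∑ t ∈ Finset.Icc 1 Z, ∑ ℓ ∈ Λ σ t, (ev σ t ℓ).card :=
      Finset.card_biUnion_le.trans (Finset.sum_le_sum fun σ _ =>
        Finset.card_biUnion_le.trans (Finset.sum_le_sum fun t _ => Finset.card_biUnion_le))
    exact_mod_cast h2.trans h3
  refine h1.trans ?_
  have hΩ0 : (0 : ℝ) ≤ 2 * Fintype.card Ω * (1 + o.card) ^ K := by positivity
  have h2 : ∀ σ ∈ 𝒮, ∀ t ∈ Finset.Icc 1 Z, ∑ ℓ ∈ Λ σ t, ((ev σ t ℓ).card : ℝ) ≤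
      2 * Fintype.card Ω * (1 + o.card) ^ K * (x * Cs) := by
    intro σ hσ t ht
    obtain ⟨hb, hT, hmk, hsum⟩ := h𝒮 σ hσ
    have ht1 : 1 ≤ t := (Finset.mem_Icc.1 ht).1
    have h3 : ∀ ℓ ∈ Λ σ t, ((ev σ t ℓ).card : ℝ) ≤
        2 * Fintype.card Ω * (1 + o.card) ^ K * (x * Wt κ σ t ℓ) := by
      intro ℓ hℓ
      have hfm := first_moment M m hsz o Ω Γ B hM σ hb hT t ht1 ℓ (hΛ1 σ t ℓ hℓ).1
      rw [Nat.card_eq_fintype_card, Fintype.card_subtype] at hfm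
      have hAt0 : 0 ≤ At M m σ t ℓ := by
        refine div_nonneg (Finset.prod_nonneg fun v _ => Nat.cast_nonneg _)
          (Finset.prod_nonneg fun e _ => mul_nonneg (M.N_pos _).le (Nat.cast_nonneg _))
      refine hfm.trans ?_
      calc 2 * (Fintype.card Ω : ℝ) * (1 + o.card) ^ σ.mrk.card * At M m σ t ℓ
          ≤ 2 * (Fintype.card Ω : ℝ) * (1 + o.card) ^ K * At M m σ t ℓ := by
            refine mul_le_mul_of_nonneg_right ?_ hAt0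
            refine mul_le_mul_of_nonneg_left ?_ (by positivity)
            exact pow_le_pow_right₀ (by
              have : (0 : ℝ) ≤ o.card := Nat.cast_nonneg _
              linarith) hmk
        _ ≤ _ := mul_le_mul_of_nonneg_left (hΛ1 σ t ℓ hℓ).2 hΩ0
    calc ∑ ℓ ∈ Λ σ t, ((ev σ t ℓ).card : ℝ)
        ≤ ∑ ℓ ∈ Λ σ t, 2 * Fintype.card Ω * (1 + o.card) ^ K * (x * Wt κ σ t ℓ) :=
          Finset.sum_le_sum h3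
      _ = 2 * Fintype.card Ω * (1 + o.card) ^ K * (x * ∑ ℓ ∈ Λ σ t, Wt κ σ t ℓ) := by
          rw [Finset.mul_sum, Finset.mul_sum]
      _ ≤ _ := by
          refine mul_le_mul_of_nonneg_left (mul_le_mul_of_nonneg_left ?_ hx) hΩ0
          exact hsum t ht1 (Λ σ t) (fun ℓ hℓ => (hΛ1 σ t ℓ hℓ).1) (hΛ2 σ t)
  calc ∑ σ ∈ 𝒮, ∑ t ∈ Finset.Icc 1 Z, ∑ ℓ ∈ Λ σ t, ((ev σ t ℓ).card : ℝ)
      ≤ ∑ σ ∈ 𝒮, ∑ t ∈ Finset.Icc 1 Z, 2 * Fintype.card Ω * (1 + o.card) ^ K * (x * Cs) :=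
        Finset.sum_le_sum fun σ hσ => Finset.sum_le_sum fun t ht => h2 σ hσ t ht
    _ = _ := by
        rw [Finset.sum_const, Finset.sum_const, Nat.card_Icc, nsmul_eq_mul, nsmul_eq_mul,
          Nat.add_sub_cancel]

/-- from the core inequality to a good level -/
lemma exists_level (κ : KD S) (M : Model S) (m : ℕ) (σ : Shape) (ℓ : ℕ → S × Bool) (Z : ℕ)
    (x Cc E : ℝ) (hx : 0 < x) (hZ : 1 ≤ Z) (hsz : 1 ≤ M.sz m)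
    (hcore : (∏ t ∈ Finset.Icc 1 Z, At M m σ t ℓ) ^ 2 * (M.sz m : ℝ) ^ σ.om ≤
        Cc * (M.sz m : ℝ) ^ σ.oe * (κ.q0⁻¹) ^ σ.ug * κ.ρ ^ σ.gl *
          (∏ t ∈ Finset.Icc 1 Z, Wt κ σ t ℓ) ^ 2)
    (hv : (M.sz m : ℝ) ^ σ.oe * (κ.q0⁻¹) ^ σ.ug * κ.ρ ^ σ.gl ≤ E * (M.sz m : ℝ) ^ σ.om)
    (hCc : 0 < Cc) (hxE : Cc * E ≤ x ^ (2 * Z)) :
    ∃ t ∈ Finset.Icc 1 Z, At M m σ t ℓ ≤ x * Wt κ σ t ℓ := by
  by_contra hcon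
  push Not at hcon
  have hW : ∀ t, 0 < Wt κ σ t ℓ := fun t =>
    Finset.prod_pos fun v _ => lt_of_lt_of_le κ.q0_pos (κ.q0_le _ _)
  have hszp : (0 : ℝ) < (M.sz m : ℝ) ^ σ.om := by
    have : (0 : ℝ) < M.sz m := by exact_mod_cast hsz
    positivity
  have h1 : x ^ Z * ∏ t ∈ Finset.Icc 1 Z, Wt κ σ t ℓ < ∏ t ∈ Finset.Icc 1 Z, At M m σ t ℓ := by
    have h2 : ∏ t ∈ Finset.Icc 1 Z, (x * Wt κ σ t ℓ) < ∏ t ∈ Finset.Icc 1 Z, At M m σ t ℓ := by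
      apply Finset.prod_lt_prod_of_nonempty (fun t _ => mul_pos hx (hW t)) hcon
      exact ⟨1, Finset.mem_Icc.2 ⟨le_refl _, hZ⟩⟩
    rwa [Finset.prod_mul_distrib, Finset.prod_const, Nat.card_Icc, Nat.add_sub_cancel] at h2
  set W := ∏ t ∈ Finset.Icc 1 Z, Wt κ σ t ℓ with hWdef
  set A := ∏ t ∈ Finset.Icc 1 Z, At M m σ t ℓ with hAdef
  have hW0 : 0 < W := Finset.prod_pos fun t _ => hW t
  have h3 : (x ^ Z * W) ^ 2 < A ^ 2 := by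
    have : 0 < x ^ Z * W := by positivity
    nlinarith
  have h4 : x ^ (2 * Z) * W ^ 2 * (M.sz m : ℝ) ^ σ.om < A ^ 2 * (M.sz m : ℝ) ^ σ.om := by
    apply mul_lt_mul_of_pos_right _ hszp
    calc x ^ (2 * Z) * W ^ 2 = (x ^ Z * W) ^ 2 := by ring
      _ < _ := h3
  have h5 : A ^ 2 * (M.sz m : ℝ) ^ σ.om ≤ Cc * E * W ^ 2 * (M.sz m : ℝ) ^ σ.om := by
    refine hcore.trans ?_
    have : Cc * (M.sz m : ℝ) ^ σ.oe * (κ.q0⁻¹) ^ σ.ug * κ.ρ ^ σ.gl * W ^ 2 =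
        (Cc * W ^ 2) * ((M.sz m : ℝ) ^ σ.oe * (κ.q0⁻¹) ^ σ.ug * κ.ρ ^ σ.gl) := by ring
    rw [this]
    calc (Cc * W ^ 2) * ((M.sz m : ℝ) ^ σ.oe * (κ.q0⁻¹) ^ σ.ug * κ.ρ ^ σ.gl)
        ≤ (Cc * W ^ 2) * (E * (M.sz m : ℝ) ^ σ.om) := mul_le_mul_of_nonneg_left hv (by positivity)
      _ = _ := by ring
  have h6 : Cc * E * W ^ 2 * (M.sz m : ℝ) ^ σ.om ≤ x ^ (2 * Z) * W ^ 2 * (M.sz m : ℝ) ^ σ.om := by
    have : (0 : ℝ) ≤ W ^ 2 * (M.sz m : ℝ) ^ σ.om := by positivity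
    nlinarith
  linarith

end Crest.Agent.R177.Loc
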