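import Crest.Agent.R177.LocFinal
import Crest.Agent.R177.LocKD

/-!
# Rows 177 / 184: the local lemma, in the frozen form of Iface.lean and IfaceO.lean (helper928)
-/

set_option autoImplicit false

open scoped Classical

namespace Crest.Agent.R177

open Crest.Agent.R199 (PAct)

/-- LOCAL -/
theorem local_lemma {S : Type} [Fintype S] (M : Model S) :
    ∃ κ C P : ℝ, 0 < κ ∧ 0 < C ∧ 0 < P ∧ ∀ (L K D0 : ℕ) (η : ℝ), 0 < η → ∀ g₀ : ℕ,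
      ∃ g, g₀ ≤ g ∧ ∃ (m : ℕ) (A : PAct S (M.V m)), M.Adm m A ∧ Girth A g ∧
        LocalIneq A K D0 (L * g) κ C (P * g) (η * g) := by
  obtain ⟨κ, C, P, hκ, hC, hP, h⟩ := Loc.local_lemma_exists M (Loc.exists_KD M)
  refine ⟨κ, C, P, hκ, hC, hP, fun L K D0 η hη g₀ => ?_⟩
  obtain ⟨g, hg, m, hm⟩ := h L K D0 η hη g₀
  obtain ⟨A, h1, h2, h3⟩ := hm ∅ (by simp)
  refine ⟨g, hg, m, A, h1, h2, fun F c hK hL hD => ?_⟩
  have := h3 F c hK hL hD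
  simpa using this

/-- LOCAL-O -/
theorem local_lemmaO {S : Type} [Fintype S] (M : Model S) (o : ∀ m, M.V m) :
    ∃ κ C P : ℝ, 0 < κ ∧ 0 < C ∧ 0 < P ∧ ∀ (L K D0 : ℕ) (η : ℝ), 0 < η → ∀ g₀ : ℕ,
      ∃ g, g₀ ≤ g ∧ ∃ (m : ℕ) (A : PAct S (M.V m)), M.Adm m A ∧ Girth A g ∧
        LocalIneqO A (o m) K D0 (L * g) κ C (P * g) (η * g) := by
  obtain ⟨κ, C, P, hκ, hC, hP, h⟩ := Loc.local_lemma_exists M (Loc.exists_KD M)
  refine ⟨κ, C, P, hκ, hC, hP, fun L K D0 η hη g₀ => ?_⟩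
  obtain ⟨g, hg, m, hm⟩ := h L K D0 η hη g₀
  obtain ⟨A, h1, h2, h3⟩ := hm {o m} (by simp)
  refine ⟨g, hg, m, A, h1, h2, fun F c hK hL hD => ?_⟩
  have := h3 F c hK hL hD
  simpa [Conf.endsAt] using this

end Crest.Agent.R177
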