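import Mathlib

/-!
# Rows 177 / 184, module (8c), part 1: open box filling in dimension three

`exists_glue_closed` : gluing continuous maps along a finite closed cover.
`exists_box_fill` : a map on five faces of the cube `I × I × I` (all but `τ = 1`) extends to the cube.
-/

set_option autoImplicit false

open scoped unitInterval
open Set

namespace Crest.Agent.R177.Top

/-- gluing along a finite closed cover -/
theorem exists_glue_closed {ι X E : Type} [Finite ι] [TopologicalSpace X] [TopologicalSpace E]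
    (C : ι → Set X) (hC : ∀ i, IsClosed (C i)) (hcov : ∀ x, ∃ i, x ∈ C i) (g : ι → C(X, E))
    (agree : ∀ i j x, x ∈ C i → x ∈ C j → g i x = g j x) :
    ∃ G : C(X, E), ∀ i x, x ∈ C i → G x = g i x := by
  classical
  choose c hc using hcov
  have key : ∀ i x, x ∈ C i → g (c x) x = g i x := fun i x hx => agree _ _ _ (hc x) hx
  refine ⟨⟨fun x => g (c x) x, ?_⟩, key⟩
  refine (locallyFinite_of_finite C).continuous ?_ hC ?_
  · exact eq_univ_of_forall fun x => mem_iUnion.2 ⟨c x, hc x⟩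
  · intro i
    exact (g i).continuous.continuousOn.congr fun x hx => key i x hx

/-- the five closed faces -/
def openBox : Set (I × I × I) :=
  {p | p.2.2 = 0 ∨ p.1 = 0 ∨ p.1 = 1 ∨ p.2.1 = 0 ∨ p.2.1 = 1}

/-- scaling factor of the retraction -/
noncomputable def boxM (p : I × I × I) : ℝ :=
  max (max |2 * (p.1 : ℝ) - 1| |2 * (p.2.1 : ℝ) - 1|) (1 - (p.2.2 : ℝ) / 2)

theorem boxM_ge (p : I × I × I) : 1 / 2 ≤ boxM p := by
  refine le_trans ?_ (le_max_right _ _)
  have := p.2.2.2.2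
  linarith

theorem boxM_pos (p : I × I × I) : 0 < boxM p := lt_of_lt_of_le (by norm_num) (boxM_ge p)

theorem boxM_le (p : I × I × I) : boxM p ≤ 1 := by
  have h1 := p.1.2.1; have h2 := p.1.2.2
  have h3 := p.2.1.2.1; have h4 := p.2.1.2.2
  have h5 := p.2.2.2.1
  refine max_le (max_le ?_ ?_) ?_
  · rw [abs_le]; constructor <;> linarith
  · rw [abs_le]; constructor <;> linarith
  · linarith

theorem continuous_boxM : Continuous boxM := by
  unfold boxM
  fun_prop

theorem box_aux1 (x m : ℝ) (hm : 0 < m) (h : |x| ≤ m) : (x / m + 1) / 2 ∈ Icc (0 : ℝ) 1 := by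
  have h1 : |x / m| ≤ 1 := by
    rw [abs_div, abs_of_pos hm, div_le_one hm]; exact h
  rw [abs_le] at h1
  constructor <;> linarith [h1.1, h1.2]

theorem box_aux2 (p : I × I × I) : 2 - (2 - (p.2.2 : ℝ)) / boxM p ∈ Icc (0 : ℝ) 1 := by
  have hm := boxM_pos p
  have h1 : 1 - (p.2.2 : ℝ) / 2 ≤ boxM p := le_max_right _ _
  have h2 := boxM_le p
  have h3 := p.2.2.2.2
  have h4 := p.2.2.2.1
  constructor
  · rw [sub_nonneg, div_le_iff₀ hm]; linarith
  · rw [sub_le_comm, le_div_iff₀ hm]; nlinarith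

/-- the retraction of the cube onto the open box -/
noncomputable def boxR (p : I × I × I) : I × I × I :=
  (⟨((2 * (p.1 : ℝ) - 1) / boxM p + 1) / 2,
      box_aux1 _ _ (boxM_pos p) ((le_max_left _ _).trans (le_max_left _ _))⟩,
   ⟨((2 * (p.2.1 : ℝ) - 1) / boxM p + 1) / 2,
      box_aux1 _ _ (boxM_pos p) ((le_max_right _ _).trans (le_max_left _ _))⟩,
   ⟨2 - (2 - (p.2.2 : ℝ)) / boxM p, box_aux2 p⟩)

theorem continuous_boxR : Continuous boxR := by
  have h := continuous_boxM
  have h0 : ∀ p, boxM p ≠ 0 := fun p => (boxM_pos p).ne'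
  unfold boxR
  refine Continuous.prodMk ?_ (Continuous.prodMk ?_ ?_) <;> refine Continuous.subtype_mk ?_ _
  · fun_prop (disch := exact h0 _)
  · fun_prop (disch := exact h0 _)
  · fun_prop (disch := exact h0 _)

theorem box_half (x : ℝ) (m : ℝ) (hm : 0 < m) (h : |x| = m) : (x / m + 1) / 2 = 0 ∨ (x / m + 1) / 2 = 1 := by
  rcases abs_eq hm.le |>.1 h with h1 | h1
  · right; rw [h1, div_self hm.ne']; norm_num
  · left; rw [h1, neg_div, div_self hm.ne']; norm_num

theorem boxR_mem (p : I × I × I) : boxR p ∈ openBox := by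
  have hm := boxM_pos p
  unfold openBox
  rcases max_choice (max |2 * (p.1 : ℝ) - 1| |2 * (p.2.1 : ℝ) - 1|) (1 - (p.2.2 : ℝ) / 2)
    with h | h
  · rcases max_choice |2 * (p.1 : ℝ) - 1| |2 * (p.2.1 : ℝ) - 1| with h' | h'
    · have : |2 * (p.1 : ℝ) - 1| = boxM p := by unfold boxM; rw [h, h']
      rcases box_half _ _ hm this with h1 | h1
      · right; left; exact Subtype.ext h1
      · right; right; left; exact Subtype.ext h1
    · have : |2 * (p.2.1 : ℝ) - 1| = boxM p := by unfold boxM; rw [h, h']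
      rcases box_half _ _ hm this with h1 | h1
      · right; right; right; left; exact Subtype.ext h1
      · right; right; right; right; exact Subtype.ext h1
  · left
    have h2 : boxM p = 1 - (p.2.2 : ℝ) / 2 := h
    apply Subtype.ext
    show 2 - (2 - (p.2.2 : ℝ)) / boxM p = 0
    rw [sub_eq_zero, eq_comm, div_eq_iff hm.ne', h2]; ring

theorem boxR_eq (p : I × I × I) (hp : p ∈ openBox) : boxR p = p := by
  have h1 := p.1.2.1; have h2 := p.1.2.2
  have h3 := p.2.1.2.1; have h4 := p.2.1.2.2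
  have h5 := p.2.2.2.1
  have hm : boxM p = 1 := by
    refine le_antisymm (boxM_le p) ?_
    rcases hp with h | h | h | h | h
    · refine le_trans ?_ (le_max_right _ _)
      rw [h]; norm_num
    · refine le_trans ?_ ((le_max_left _ _).trans (le_max_left _ _))
      rw [h]; norm_num
    · refine le_trans ?_ ((le_max_left _ _).trans (le_max_left _ _))
      rw [h]; norm_num
    · refine le_trans ?_ ((le_max_right _ _).trans (le_max_left _ _))
      rw [h]; norm_num
    · refine le_trans ?_ ((le_max_right _ _).trans (le_max_left _ _))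
      rw [h]; norm_num
  refine Prod.ext (Subtype.ext ?_) (Prod.ext (Subtype.ext ?_) (Subtype.ext ?_))
  · show ((2 * (p.1 : ℝ) - 1) / boxM p + 1) / 2 = _
    rw [hm]; ring
  · show ((2 * (p.2.1 : ℝ) - 1) / boxM p + 1) / 2 = _
    rw [hm]; ring
  · show 2 - (2 - (p.2.2 : ℝ)) / boxM p = _
    rw [hm]; ring

/-- Open box filling: five faces (all but `τ = 1`) extend to the cube. -/
theorem exists_box_fill {E : Type} [TopologicalSpace E] (f0 fl fr fb ft : C(I × I, E))
    (hl : ∀ t, f0 (0, t) = fl (t, 0)) (hr : ∀ t, f0 (1, t) = fr (t, 0))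
    (hb : ∀ s, f0 (s, 0) = fb (s, 0)) (ht : ∀ s, f0 (s, 1) = ft (s, 0))
    (hlb : ∀ τ, fl (0, τ) = fb (0, τ)) (hlt : ∀ τ, fl (1, τ) = ft (0, τ))
    (hrb : ∀ τ, fr (0, τ) = fb (1, τ)) (hrt : ∀ τ, fr (1, τ) = ft (1, τ)) :
    ∃ Q : C(I × I × I, E), (∀ s t, Q (s, t, 0) = f0 (s, t)) ∧ (∀ t τ, Q (0, t, τ) = fl (t, τ)) ∧
      (∀ t τ, Q (1, t, τ) = fr (t, τ)) ∧ (∀ s τ, Q (s, 0, τ) = fb (s, τ)) ∧
      (∀ s τ, Q (s, 1, τ) = ft (s, τ)) := by
  let C : Fin 5 → Set openBox := ![{p | p.1.2.2 = 0}, {p | p.1.1 = 0}, {p | p.1.1 = 1},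
    {p | p.1.2.1 = 0}, {p | p.1.2.1 = 1}]
  let g : Fin 5 → C(openBox, E) := ![f0.comp ⟨fun p => (p.1.1, p.1.2.1), by fun_prop⟩,
    fl.comp ⟨fun p => (p.1.2.1, p.1.2.2), by fun_prop⟩,
    fr.comp ⟨fun p => (p.1.2.1, p.1.2.2), by fun_prop⟩,
    fb.comp ⟨fun p => (p.1.1, p.1.2.2), by fun_prop⟩,
    ft.comp ⟨fun p => (p.1.1, p.1.2.2), by fun_prop⟩]
  have hC : ∀ i, IsClosed (C i) := by
    intro i
    fin_cases i <;> simp only [C] <;> exact isClosed_eq (by fun_prop) continuous_const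
  have hcov : ∀ x, ∃ i, x ∈ C i := by
    rintro ⟨p, hp⟩
    rcases hp with h | h | h | h | h
    · exact ⟨0, h⟩
    · exact ⟨1, h⟩
    · exact ⟨2, h⟩
    · exact ⟨3, h⟩
    · exact ⟨4, h⟩
  have h01 : (0 : I) ≠ 1 := by
    intro h
    have := congrArg Subtype.val h
    simp at this
  have agree : ∀ i j x, x ∈ C i → x ∈ C j → g i x = g j x := by
    have key : ∀ i j x, i < j → x ∈ C i → x ∈ C j → g i x = g j x := by
      rintro i j ⟨⟨s, t, τ⟩, hp⟩ hij hi hj
      fin_cases i <;> fin_cases j <;> first | (exact absurd hij (by decide)) | skip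
      all_goals
        simp [C, g] at hi hj ⊢
        subst hi
        first
          | subst hj
            first
              | exact hl _
              | exact hr _
              | exact hb _
              | exact ht _
              | exact hlb _
              | exact hlt _
              | exact hrb _
              | exact hrt _
          | exact absurd hj h01
          | exact absurd hj.symm h01
    intro i j x hi hj
    rcases lt_trichotomy i j with h | h | h
    · exact key i j x h hi hj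
    · rw [h]
    · exact (key j i x h hj hi).symm
  obtain ⟨B, hB⟩ := exists_glue_closed C hC hcov g agree
  refine ⟨B.comp ⟨fun p => ⟨boxR p, boxR_mem p⟩, continuous_boxR.subtype_mk _⟩, ?_, ?_, ?_, ?_, ?_⟩
  · intro s t
    have h : ((s, t, 0) : I × I × I) ∈ openBox := Or.inl rfl
    have h2 : (⟨boxR (s, t, 0), boxR_mem _⟩ : openBox) = ⟨(s, t, 0), h⟩ :=
      Subtype.ext (boxR_eq _ h)
    show B ⟨boxR (s, t, 0), boxR_mem _⟩ = _
    rw [h2]
    exact hB 0 _ rfl
  · intro t τ
    have h : ((0, t, τ) : I × I × I) ∈ openBox := Or.inr (Or.inl rfl)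
    have h2 : (⟨boxR (0, t, τ), boxR_mem _⟩ : openBox) = ⟨(0, t, τ), h⟩ :=
      Subtype.ext (boxR_eq _ h)
    show B ⟨boxR (0, t, τ), boxR_mem _⟩ = _
    rw [h2]
    exact hB 1 _ rfl
  · intro t τ
    have h : ((1, t, τ) : I × I × I) ∈ openBox := Or.inr (Or.inr (Or.inl rfl))
    have h2 : (⟨boxR (1, t, τ), boxR_mem _⟩ : openBox) = ⟨(1, t, τ), h⟩ :=
      Subtype.ext (boxR_eq _ h)
    show B ⟨boxR (1, t, τ), boxR_mem _⟩ = _
    rw [h2]
    exact hB 2 _ rfl
  · intro s τ
    have h : ((s, 0, τ) : I × I × I) ∈ openBox := Or.inr (Or.inr (Or.inr (Or.inl rfl)))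
    have h2 : (⟨boxR (s, 0, τ), boxR_mem _⟩ : openBox) = ⟨(s, 0, τ), h⟩ :=
      Subtype.ext (boxR_eq _ h)
    show B ⟨boxR (s, 0, τ), boxR_mem _⟩ = _
    rw [h2]
    exact hB 3 _ rfl
  · intro s τ
    have h : ((s, 1, τ) : I × I × I) ∈ openBox := Or.inr (Or.inr (Or.inr (Or.inr rfl)))
    have h2 : (⟨boxR (s, 1, τ), boxR_mem _⟩ : openBox) = ⟨(s, 1, τ), h⟩ :=
      Subtype.ext (boxR_eq _ h)
    show B ⟨boxR (s, 1, τ), boxR_mem _⟩ = _
    rw [h2]
    exact hB 4 _ rfl

end Crest.Agent.R177.Top
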