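import Mathlib
import Crest.Agent.R177.Defs

/-!
# Rows 177 / 184, module TOPOLOGY: definitions (helper961)

* `Cx`      : combinatorial two-complex whose 2-cells are squares with collapsed bottom side
              (triangles), left and right sides "cone edges" (`B`), top side a "letter edge" (`A`).
* `ConeCx E`: `E` is the realization of a `Cx` (universal property `glue`).
* `coneX A` : the universal cover of the cone complex of the folded graph `A`.
* `Triv`, `Solv` : the algebraic inputs of the contraction theorem.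
-/

set_option autoImplicit false

open scoped unitInterval

namespace Crest.Agent.R177.Top

open Crest.Agent.R199 (PAct)

/-- combinatorial data of a cone complex -/
structure Cx where
  /-- vertices -/
  P : Type
  /-- letter edges -/
  A : Type
  /-- cone edges -/
  B : Type
  /-- triangles = squares with collapsed bottom side -/
  F : Type
  asrc : A → P
  atgt : A → P
  bsrc : B → P
  btgt : B → P
  fb : F → P
  fl : F → B
  fr : F → B
  ft : F → A
  bsrc_fl : ∀ f, bsrc (fl f) = fb f
  bsrc_fr : ∀ f, bsrc (fr f) = fb f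
  btgt_fl : ∀ f, btgt (fl f) = asrc (ft f)
  btgt_fr : ∀ f, btgt (fr f) = atgt (ft f)

/-- a compatible family of maps from the cells of `X` to `Z` -/
structure Fam (X : Cx) (Z : Type) [TopologicalSpace Z] where
  vert : X.P → Z
  ea : X.A → C(I, Z)
  eb : X.B → C(I, Z)
  sq : X.F → C(I × I, Z)
  ea_zero : ∀ a, ea a 0 = vert (X.asrc a)
  ea_one : ∀ a, ea a 1 = vert (X.atgt a)
  eb_zero : ∀ b, eb b 0 = vert (X.bsrc b)
  eb_one : ∀ b, eb b 1 = vert (X.btgt b)
  sq_bot : ∀ f s, sq f (s, 0) = vert (X.fb f)
  sq_left : ∀ f t, sq f (0, t) = eb (X.fl f) t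
  sq_right : ∀ f t, sq f (1, t) = eb (X.fr f) t
  sq_top : ∀ f s, sq f (s, 1) = ea (X.ft f) s

/-- `E` is the realization of the cone complex `X`. -/
structure ConeCx (X : Cx) (E : Type) [TopologicalSpace E] extends Fam X E where
  /-- universal property -/
  glue : ∀ (Z : Type) [TopologicalSpace Z] (h : Fam X Z), ∃ g : C(E, Z),
    (∀ p, g (vert p) = h.vert p) ∧ (∀ a s, g (ea a s) = h.ea a s) ∧
    (∀ b s, g (eb b s) = h.eb b s) ∧ (∀ f x, g (sq f x) = h.sq f x)
  cover : ∀ x : E, (∃ p, x = vert p) ∨ (∃ a s, x = ea a s) ∨ (∃ b s, x = eb b s) ∨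
    ∃ f y, x = sq f y

namespace Fam

variable {X : Cx} {E : Type} [TopologicalSpace E] (M : Fam X E)

/-- a letter edge as a path -/
def pa (a : X.A) : Path (M.vert (X.asrc a)) (M.vert (X.atgt a)) where
  toContinuousMap := M.ea a
  source' := M.ea_zero a
  target' := M.ea_one a

/-- a cone edge as a path -/
def pb (b : X.B) : Path (M.vert (X.bsrc b)) (M.vert (X.btgt b)) where
  toContinuousMap := M.eb b
  source' := M.eb_zero b
  target' := M.eb_one b

@[simp] theorem pa_apply (a : X.A) (s : I) : M.pa a s = M.ea a s := rfl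

@[simp] theorem pb_apply (b : X.B) (s : I) : M.pb b s = M.eb b s := rfl

end Fam

/-- Universal trivialization: every "flat" labelling of the edges is a coboundary. -/
def Triv (X : Cx) : Prop :=
  ∀ (H : Type) [Group H] (θA : X.A → H) (θB : X.B → H),
    (∀ f, θB (X.fl f) * θA (X.ft f) = θB (X.fr f)) →
    ∃ ρ : X.P → H, (∀ a, θA a = (ρ (X.asrc a))⁻¹ * ρ (X.atgt a)) ∧
      ∀ b, θB b = (ρ (X.bsrc b))⁻¹ * ρ (X.btgt b)

/-- Every 2-cochain is the coboundary of a 1-cochain. -/
def Solv (X : Cx) : Prop :=
  ∀ (K : Type) [AddCommGroup K] (o : X.F → K),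
    ∃ (ka : X.A → K) (kb : X.B → K), ∀ f, o f = ka (X.ft f) + kb (X.fr f) - kb (X.fl f)

/-! ## The cone complex of a folded graph -/

section coneX

variable {S V : Type} (A : PAct S V)

/-- cells of the cone complex (lifts of the components of the graph `A`) -/
def Cell : Type :=
  Quot fun x y : Grp A × V =>
    ∃ s, A.st (s, true) x.2 = some y.2 ∧ y.1 = x.1 * gw A [(s, true)]

/-- the cell of the node `v` at the position `p` -/
def cell (x : Grp A × V) : Cell A := Quot.mk _ x

theorem cell_step (p : Grp A) (v w : V) (s : S) (h : A.st (s, true) v = some w) :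
    cell A (p * gw A [(s, true)], w) = cell A (p, v) :=
  (Quot.sound ⟨s, h, rfl⟩ : cell A (p, v) = cell A (p * gw A [(s, true)], w)).symm

/-- the universal cover of the cone complex of the folded graph `A` -/
def coneX : Cx where
  P := Grp A ⊕ Cell A
  A := Grp A × S
  B := Grp A × V
  F := {e : Grp A × V × S // (A.st (e.2.2, true) e.2.1).isSome}
  asrc a := Sum.inl a.1
  atgt a := Sum.inl (a.1 * gw A [(a.2, true)])
  bsrc b := Sum.inr (cell A b)
  btgt b := Sum.inl b.1
  fb e := Sum.inr (cell A (e.1.1, e.1.2.1))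
  fl e := (e.1.1, e.1.2.1)
  fr e := (e.1.1 * gw A [(e.1.2.2, true)], (A.st (e.1.2.2, true) e.1.2.1).get e.2)
  ft e := (e.1.1, e.1.2.2)
  bsrc_fl _ := rfl
  bsrc_fr e := congrArg Sum.inr (cell_step A _ _ _ _ (Option.some_get e.2).symm)
  btgt_fl _ := rfl
  btgt_fr _ := rfl

end coneX

end Crest.Agent.R177.Top
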