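import Mathlib

/-!
# Rows 177 / 184, module (8c), part 2: the class of the missing face of a cube in `π₂`
-/

set_option autoImplicit false

open scoped unitInterval Topology Topology.Homotopy
open Set

namespace Crest.Agent.R177.Top

variable {E : Type} [TopologicalSpace E] {x : E}

/-- a square with boundary at `x`, as a generalized loop -/
def gl (f : C(I × I, E)) (h0 : ∀ t, f (0, t) = x) (h1 : ∀ t, f (1, t) = x)
    (h2 : ∀ s, f (s, 0) = x) (h3 : ∀ s, f (s, 1) = x) : Ω^ (Fin 2) E x :=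
  ⟨f.comp ⟨fun y => (y 0, y 1), by fun_prop⟩, by
    rintro y ⟨i, hi⟩
    fin_cases i
    · rcases hi with hi | hi
      · have hi' : y 0 = 0 := hi
        show f (y 0, y 1) = x
        rw [hi']; exact h0 _
      · have hi' : y 0 = 1 := hi
        show f (y 0, y 1) = x
        rw [hi']; exact h1 _
    · rcases hi with hi | hi
      · have hi' : y 1 = 0 := hi
        show f (y 0, y 1) = x
        rw [hi']; exact h2 _
      · have hi' : y 1 = 1 := hi
        show f (y 0, y 1) = x
        rw [hi']; exact h3 _⟩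

@[simp] theorem gl_apply (f : C(I × I, E)) (h0 : ∀ t, f (0, t) = x) (h1 : ∀ t, f (1, t) = x)
    (h2 : ∀ s, f (s, 0) = x) (h3 : ∀ s, f (s, 1) = x) (y : Fin 2 → I) :
    gl f h0 h1 h2 h3 y = f (y 0, y 1) := rfl

/-- boundary values of a generalized loop of dimension two -/
theorem gen_left (β : Ω^ (Fin 2) E x) (t : I) : β ![0, t] = x := β.2 _ ⟨0, Or.inl rfl⟩
theorem gen_right (β : Ω^ (Fin 2) E x) (t : I) : β ![1, t] = x := β.2 _ ⟨0, Or.inr rfl⟩
theorem gen_bot (β : Ω^ (Fin 2) E x) (t : I) : β ![t, 0] = x := β.2 _ ⟨1, Or.inl rfl⟩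
theorem gen_top (β : Ω^ (Fin 2) E x) (t : I) : β ![t, 1] = x := β.2 _ ⟨1, Or.inr rfl⟩

theorem eta2 (y : Fin 2 → I) : ![y 0, y 1] = y := by
  ext i; fin_cases i <;> rfl

/-- the class of a generalized loop -/
def cl (p : Ω^ (Fin 2) E x) : HomotopyGroup (Fin 2) E x :=
  @Quotient.mk _ (GenLoop.Homotopic.setoid (Fin 2) x) p

theorem cl_surj (c : HomotopyGroup (Fin 2) E x) : ∃ p, cl p = c := Quotient.exists_rep c

theorem cl_exact {p q : Ω^ (Fin 2) E x} (h : cl p = cl q) : GenLoop.Homotopic p q :=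
  Quotient.exact h

theorem cl_sound {p q : Ω^ (Fin 2) E x} (h : GenLoop.Homotopic p q) : cl p = cl q :=
  Quotient.sound h

theorem cl_transAt (i : Fin 2) (p q : Ω^ (Fin 2) E x) :
    cl (GenLoop.transAt i p q) = cl q * cl p :=
  (HomotopyGroup.mul_spec (i := i) (p := q) (q := p)).symm

theorem cl_const : cl (GenLoop.const : Ω^ (Fin 2) E x) = 1 := rfl

theorem cl_symmAt (i : Fin 2) (p : Ω^ (Fin 2) E x) :
    cl (GenLoop.symmAt i p) = (cl p)⁻¹ :=
  (HomotopyGroup.inv_spec (i := i) (p := p)).symm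

/-- first half / second half reparametrizations of `Path.trans` -/
noncomputable def d1 (t : I) : I := Set.projIcc 0 1 zero_le_one (2 * (t : ℝ))
noncomputable def d2 (t : I) : I := Set.projIcc 0 1 zero_le_one (2 * (t : ℝ) - 1)

theorem continuous_d1 : Continuous d1 := by unfold d1; fun_prop
theorem continuous_d2 : Continuous d2 := by unfold d2; fun_prop

theorem d1_zero : d1 0 = 0 := by
  unfold d1; simp

theorem d1_half {t : I} (h : (t : ℝ) = 1 / 2) : d1 t = 1 := by
  unfold d1; rw [h]; norm_num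

theorem d2_half {t : I} (h : (t : ℝ) = 1 / 2) : d2 t = 0 := by
  unfold d2; rw [h]; norm_num

theorem d2_one : d2 1 = 1 := by
  unfold d2; norm_num

/-- stacking two cubes in the middle coordinate -/
theorem exists_stack {Y : Type} [TopologicalSpace Y] (A B : C(I × I × I, Y))
    (h : ∀ s τ, A (s, 1, τ) = B (s, 0, τ)) :
    ∃ D : C(I × I × I, Y), ∀ s t τ, D (s, t, τ) =
      if (t : ℝ) ≤ 1 / 2 then A (s, d1 t, τ) else B (s, d2 t, τ) := by
  refine ⟨⟨fun p => if (p.2.1 : ℝ) ≤ 1 / 2 then A (p.1, d1 p.2.1, p.2.2)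
    else B (p.1, d2 p.2.1, p.2.2), ?_⟩, fun s t τ => rfl⟩
  have h1 := continuous_d1
  have h2 := continuous_d2
  refine Continuous.if_le (by fun_prop) (by fun_prop) (by fun_prop) (by fun_prop) ?_
  rintro ⟨s, t, τ⟩ ht
  show A (s, d1 t, τ) = B (s, d2 t, τ)
  rw [d1_half ht, d2_half ht]
  exact h s τ

/-- A cube with `s, τ` coordinates and loops in the `t` coordinate. -/
theorem square_homotopic (D : C(I × I × I, E)) (h0 : ∀ s τ, D (s, 0, τ) = x)
    (h1 : ∀ s τ, D (s, 1, τ) = x) (hτ : ∀ s t, D (s, t, 0) = x)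
    (l r g : Ω^ (Fin 2) E x) (hl : ∀ y, l y = D (0, y 1, y 0)) (hr : ∀ y, r y = D (1, y 1, y 0))
    (hg : ∀ y, g y = D (y 0, y 1, 1)) :
    cl r = cl g * cl l := by
  classical
  -- the map of the square into the space of one dimensional loops
  let Y := Ω^ {j : Fin 2 // j ≠ 0} E x
  let j1 : {j : Fin 2 // j ≠ 0} := ⟨1, by decide⟩
  have hj : ∀ j : {j : Fin 2 // j ≠ 0}, j = j1 := by
    rintro ⟨j, hj⟩
    apply Subtype.ext
    fin_cases j
    · exact absurd rfl hj
    · rfl
  let Φ₀ : C(I × I, C({j : Fin 2 // j ≠ 0} → I, E)) :=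
    (D.comp ⟨fun p : (I × I) × ({j : Fin 2 // j ≠ 0} → I) => (p.1.1, p.2 j1, p.1.2),
      by fun_prop⟩).curry
  have hΦ₀ : ∀ p u, Φ₀ p u = D (p.1, u j1, p.2) := fun p u => rfl
  have hmem : ∀ p, Φ₀ p ∈ Y := by
    rintro p u ⟨j, hju⟩
    rw [hj j] at hju
    rw [hΦ₀]
    rcases hju with h | h
    · rw [h]; exact h0 _ _
    · rw [h]; exact h1 _ _
  let Φ : C(I × I, Y) := ⟨fun p => ⟨Φ₀ p, hmem p⟩, Φ₀.continuous.subtype_mk hmem⟩
  -- four sides in the square
  have hI : ContractibleSpace I :=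
    (convex_Icc (0 : ℝ) 1).contractibleSpace ⟨0, by simp⟩
  have hins0 : ∀ (a : I) (u : {j : Fin 2 // j ≠ 0} → I), Cube.insertAt (0 : Fin 2) (a, u) 0 = a := by
    intro a u
    simp [Homeomorph.funSplitAt_symm_apply]
  have hins1 : ∀ (a : I) (u : {j : Fin 2 // j ≠ 0} → I),
      Cube.insertAt (0 : Fin 2) (a, u) 1 = u j1 := by
    intro a u
    simp [Homeomorph.funSplitAt_symm_apply, j1]
  let pb : Path ((0, 0) : I × I) (1, 0) := ⟨⟨fun s => (s, 0), by fun_prop⟩, rfl, rfl⟩
  let pr : Path ((1, 0) : I × I) (1, 1) := ⟨⟨fun τ => (1, τ), by fun_prop⟩, rfl, rfl⟩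
  let pl : Path ((0, 0) : I × I) (0, 1) := ⟨⟨fun τ => (0, τ), by fun_prop⟩, rfl, rfl⟩
  let pt : Path ((0, 1) : I × I) (1, 1) := ⟨⟨fun s => (s, 1), by fun_prop⟩, rfl, rfl⟩
  have hhom : (pb.trans pr).Homotopic (pl.trans pt) :=
    SimplyConnectedSpace.paths_homotopic _ _
  have hmap := hhom.map Φ
  have c00 : Φ (0, 0) = GenLoop.const := by
    apply GenLoop.ext; intro u; exact hτ _ _
  have c10 : Φ (1, 0) = GenLoop.const := by
    apply GenLoop.ext; intro u; exact hτ _ _
  have c11 : Φ (1, 1) = GenLoop.const := by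
    apply GenLoop.ext; intro u
    show D (1, u j1, 1) = x
    have := hr ![1, u j1]
    rw [gen_right] at this
    exact this.symm
  have c01 : Φ (0, 1) = GenLoop.const := by
    apply GenLoop.ext; intro u
    show D (0, u j1, 1) = x
    have := hl ![1, u j1]
    rw [gen_right] at this
    exact this.symm
  -- translate to transAt
  have e1 : ((pb.trans pr).map Φ.continuous).cast c00.symm c11.symm =
      (GenLoop.toLoop 0 (GenLoop.const : Ω^ (Fin 2) E x)).trans (GenLoop.toLoop 0 r) := by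
    ext τ u
    simp only [Path.cast_coe, Path.map_coe, Function.comp, Path.trans_apply]
    split_ifs with h
    · show D (_, _, 0) = x
      exact hτ _ _
    · show D (1, u j1, _) = r (Cube.insertAt (0 : Fin 2) (_, u))
      rw [hr, hins0, hins1]
      rfl
  have e2 : ((pl.trans pt).map Φ.continuous).cast c00.symm c11.symm =
      (GenLoop.toLoop 0 l).trans (GenLoop.toLoop 0 g) := by
    ext τ u
    simp only [Path.cast_coe, Path.map_coe, Function.comp, Path.trans_apply]
    split_ifs with h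
    · show D (0, u j1, _) = l (Cube.insertAt (0 : Fin 2) (_, u))
      rw [hl, hins0, hins1]
      rfl
    · show D (_, u j1, 1) = g (Cube.insertAt (0 : Fin 2) (_, u))
      rw [hg, hins0, hins1]
      rfl
  have h3 : (((pb.trans pr).map Φ.continuous).cast c00.symm c11.symm).Homotopic
      (((pl.trans pt).map Φ.continuous).cast c00.symm c11.symm) := by
    obtain ⟨H⟩ := hmap
    exact ⟨H.cast rfl rfl⟩
  rw [e1, e2] at h3
  have h4 : (GenLoop.toLoop 0 (GenLoop.transAt 0 GenLoop.const r)).Homotopic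
      (GenLoop.toLoop 0 (GenLoop.transAt 0 l g)) := by
    rw [← GenLoop.fromLoop_trans_toLoop, ← GenLoop.fromLoop_trans_toLoop, GenLoop.to_from,
      GenLoop.to_from]
    exact h3
  have h5 := cl_sound (GenLoop.homotopicFrom 0 h4)
  rw [cl_transAt, cl_transAt, cl_const, mul_one] at h5
  exact h5

/-- Homotopy addition for a cube with two trivial faces: `Q (s, t, τ)` is trivial for `τ = 0` and for
`t = 0`; the class of the face `τ = 1` is `[t = 1] + [s = 1] - [s = 0]`. -/
theorem missing_face (Q : C(I × I × I, E)) (L R T : Ω^ (Fin 2) E x)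
    (hQ0 : ∀ s t, Q (s, t, 0) = x) (hQb : ∀ s τ, Q (s, 0, τ) = x)
    (hL : ∀ t τ, Q (0, t, τ) = L ![τ, t]) (hR : ∀ t τ, Q (1, t, τ) = R ![τ, t])
    (hT : ∀ s τ, Q (s, 1, τ) = T ![s, τ]) (r0 : Ω^ (Fin 2) E x)
    (hr0 : ∀ y, r0 y = Q (y 0, y 1, 1)) :
    cl r0 = cl T * cl R * (cl L)⁻¹ := by
  classical
  let T' : C(I × I × I, E) := ⟨fun p => T ![p.1, min p.2.2 (unitInterval.symm p.2.1)], by
      have : Continuous fun p : I × I × I => (![p.1, min p.2.2 (unitInterval.symm p.2.1)] : Fin 2 → I) := by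
        refine continuous_pi fun i => ?_
        fin_cases i
        · exact continuous_fst
        · exact (continuous_snd.snd).min (unitInterval.continuous_symm.comp continuous_snd.fst)
      exact T.1.continuous.comp this⟩
  have hT' : ∀ s t τ, T' (s, t, τ) = T ![s, min τ (unitInterval.symm t)] := fun s t τ => rfl
  obtain ⟨D, hD⟩ := exists_stack Q T' (fun s τ => by
      rw [hT, hT', unitInterval.symm_zero]
      congr 3
      exact (min_eq_left (unitInterval.le_one' (t := τ))).symm)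
  have hu : ∀ (y : Fin 2 → I) (c : I), Function.update y 1 c 0 = y 0 := fun y c => by
    rw [Function.update_of_ne (by decide)]
  have hu1 : ∀ (y : Fin 2 → I) (c : I), Function.update y 1 c = ![y 0, c] := fun y c => by
    ext i; fin_cases i
    · show ((Function.update y 1 c 0 : I) : ℝ) = y 0
      rw [hu]
    · simp
  have htr : ∀ (f g : Ω^ (Fin 2) E x) (y : Fin 2 → I), GenLoop.transAt 1 f g y =
      if (y 1 : ℝ) ≤ 1 / 2 then f ![y 0, d1 (y 1)] else g ![y 0, d2 (y 1)] := by
    intro f g y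
    show (if (y 1 : ℝ) ≤ 1 / 2 then f (Function.update y 1 (d1 (y 1)))
      else g (Function.update y 1 (d2 (y 1)))) = _
    rw [hu1, hu1]
  have key := square_homotopic D (x := x) ?_ ?_ ?_ (GenLoop.transAt 1 L GenLoop.const)
    (GenLoop.transAt 1 R GenLoop.const) (GenLoop.transAt 1 r0 (GenLoop.symmAt 1 T)) ?_ ?_ ?_
  · rw [cl_transAt, cl_transAt, cl_transAt, cl_const, one_mul, one_mul, cl_symmAt] at key
    rw [key]
    group
  · intro s τ
    rw [hD, if_pos (by norm_num), d1_zero]
    exact hQb _ _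
  · intro s τ
    rw [hD, if_neg (by norm_num), d2_one, hT', unitInterval.symm_one]
    have : min τ 0 = 0 := min_eq_right (unitInterval.nonneg τ)
    rw [this]
    exact gen_bot _ _
  · intro s t
    rw [hD]
    split_ifs
    · exact hQ0 _ _
    · rw [hT']
      have : min 0 (unitInterval.symm (d2 t)) = 0 := min_eq_left (unitInterval.nonneg _)
      rw [this]
      exact gen_bot _ _
  · intro y
    rw [hD, htr]
    split_ifs
    · rw [hL]
    · rw [hT', gen_left]
      rfl
  · intro y
    rw [hD, htr]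
    split_ifs
    · rw [hR]
    · rw [hT', gen_right]
      rfl
  · intro y
    rw [hD, htr]
    split_ifs
    · rw [hr0]
      rfl
    · rw [hT']
      have : min 1 (unitInterval.symm (d2 (y 1))) = unitInterval.symm (d2 (y 1)) :=
        min_eq_right (unitInterval.le_one _)
      rw [this]
      show T (fun j => if j = 1 then unitInterval.symm (![y 0, d2 (y 1)] 1) else ![y 0, d2 (y 1)] j) = _
      congr 1
      ext i; fin_cases i <;> simp

end Crest.Agent.R177.Top
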