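import Mathlib
import Crest.Agent.R177.TopDefs
import Crest.Agent.R177.TopBox
import Crest.Agent.R177.TopPi2

/-!
# Rows 177 / 184, module (8c): the contraction theorem

A realization of a cone complex whose edge loops are null-homotopic and all of whose 2-cochains are
coboundaries is contractible (obstruction theory with values in `π₂`).
-/

set_option autoImplicit false

open scoped unitInterval Topology Topology.Homotopy
open Set

namespace Crest.Agent.R177.Top

section fill

variable {E : Type} [TopologicalSpace E]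

/-- a commutative triangle of paths as a square with constant top -/
theorem exists_square {a b c : E} (q : Path a b) (r : Path b c) (p : Path a c)
    (h : (q.trans r).Homotopic p) :
    ∃ F : C(I × I, E), (∀ s, F (s, 0) = q s) ∧ (∀ s, F (s, 1) = c) ∧ (∀ τ, F (0, τ) = p τ) ∧
      ∀ τ, F (1, τ) = r τ := by
  obtain ⟨H⟩ := h
  have hφ : ∀ z : I × I, (z.1 : ℝ) * (1 - z.2) / 2 + z.2 ∈ Icc (0 : ℝ) 1 := by
    rintro ⟨s, t⟩
    have h1 := s.2.1; have h2 := s.2.2; have h3 := t.2.1; have h4 := t.2.2
    constructor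
    · have : 0 ≤ (s : ℝ) * (1 - t) := mul_nonneg h1 (by linarith)
      show 0 ≤ (s : ℝ) * (1 - t) / 2 + t
      linarith
    · have : (s : ℝ) * (1 - t) ≤ 1 * (1 - t) := mul_le_mul_of_nonneg_right h2 (by linarith)
      show (s : ℝ) * (1 - t) / 2 + t ≤ 1
      linarith
  let F0 : C(I × I, E) := ⟨fun z => (q.trans r) ⟨(z.1 : ℝ) * (1 - z.2) / 2 + z.2, hφ z⟩, by
    refine (q.trans r).continuous.comp (Continuous.subtype_mk ?_ _)
    fun_prop⟩
  have F0e : ∀ s t, F0 (s, t) = (q.trans r) ⟨(s : ℝ) * (1 - t) / 2 + t, hφ (s, t)⟩ :=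
    fun s t => rfl
  have e1 : ∀ s, F0 (s, 0) = q s := by
    intro s
    rw [F0e, Path.trans_apply, dif_pos (by simp; have := s.2.2; linarith)]
    congr 1
    ext
    simp
    ring
  have e2 : ∀ s, F0 (s, 1) = c := by
    intro s
    rw [F0e]
    have : (⟨(s : ℝ) * (1 - (1 : I)) / 2 + (1 : I), hφ (s, 1)⟩ : I) = 1 := by
      ext; simp
    rw [this]
    exact (q.trans r).target
  have e3 : ∀ t, F0 (0, t) = (q.trans r) t := by
    intro t
    rw [F0e]
    congr 1
    ext; simp
  have e4 : ∀ t, F0 (1, t) = r t := by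
    intro t
    rw [F0e, Path.trans_apply]
    split_ifs with h
    · have ht : (t : ℝ) = 0 := by
        have := t.2.1
        simp at h
        linarith
      have ht' : t = 0 := Subtype.ext ht
      subst ht'
      rw [r.source]
      have : (⟨2 * (((1 : I) : ℝ) * (1 - ((0 : I) : ℝ)) / 2 + ((0 : I) : ℝ)), by simp⟩ : I) = 1 := by
        ext; simp
      rw [this]
      exact q.target
    · congr 1
      ext
      simp
      ring
  obtain ⟨Q, h0, hl, hr, hb, ht⟩ := exists_box_fill F0
    (⟨fun z => H (z.2, z.1), by fun_prop⟩) (⟨fun z => r z.1, by fun_prop⟩)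
    (⟨fun z => q z.1, by fun_prop⟩) (ContinuousMap.const _ c)
    (fun t => by
      rw [e3]
      show _ = H (0, t)
      rw [H.apply_zero]; rfl)
    (fun t => e4 t) (fun s => e1 s) (fun s => e2 s)
    (fun τ => by
      show H (τ, 0) = q 0
      rw [H.source, q.source])
    (fun τ => by
      show H (τ, 1) = c
      rw [H.target])
    (fun τ => by
      show r 0 = q 1
      rw [r.source, q.target])
    (fun τ => by
      show r 1 = c
      rw [r.target])
  refine ⟨⟨fun z => Q (z.1, z.2, 1), by fun_prop⟩, ?_, ?_, ?_, ?_⟩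
  · intro s
    exact hb s 1
  · intro s
    exact ht s 1
  · intro τ
    show Q (0, τ, 1) = p τ
    rw [hl]
    show H (1, τ) = p τ
    rw [H.apply_one]; rfl
  · intro τ
    exact hr τ 1

end fill

section homot

variable {E : Type} [TopologicalSpace E]

theorem homotopic_of_curry (g : C(E, C(I, E))) (f0 f1 : C(E, E)) (h0 : ∀ x, g x 0 = f0 x)
    (h1 : ∀ x, g x 1 = f1 x) : f0.Homotopic f1 :=
  ⟨{ toFun := fun z => g z.2 z.1
     continuous_toFun := by fun_prop
     map_zero_left := h0
     map_one_left := h1 }⟩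

/-- a cube as a map of the square into the space of paths -/
def cubeCurry (Q : C(I × I × I, E)) : C(I × I, C(I, E)) :=
  (Q.comp ⟨fun p : (I × I) × I => (p.1.1, p.1.2, p.2), by fun_prop⟩).curry

@[simp] theorem cubeCurry_apply (Q : C(I × I × I, E)) (s t τ : I) :
    cubeCurry Q (s, t) τ = Q (s, t, τ) := rfl

end homot

section main

variable {X : Cx} {E : Type} [TopologicalSpace E]

theorem ext_cover (M : ConeCx X E) {Z : Type} (f g : E → Z) (hv : ∀ p, f (M.vert p) = g (M.vert p))
    (ha : ∀ a s, f (M.ea a s) = g (M.ea a s)) (hb : ∀ b s, f (M.eb b s) = g (M.eb b s))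
    (hf : ∀ c s t, f (M.sq c (s, t)) = g (M.sq c (s, t))) : ∀ x, f x = g x := by
  intro x
  rcases M.cover x with ⟨p, rfl⟩ | ⟨a, s, rfl⟩ | ⟨b, s, rfl⟩ | ⟨c, ⟨s, t⟩, rfl⟩
  · exact hv _
  · exact ha _ _
  · exact hb _ _
  · exact hf _ _ _

/-- Step 1: push the one-skeleton to the base point. -/
theorem exists_step1 (M : ConeCx X E) (p0 : X.P)
    (gam : ∀ p, Path (M.vert p) (M.vert p0))
    (H1a : ∀ a, ((M.pa a).trans (gam (X.atgt a))).Homotopic (gam (X.asrc a)))
    (H1b : ∀ b, ((M.pb b).trans (gam (X.btgt b))).Homotopic (gam (X.bsrc b))) :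
    ∃ r : C(E, E), (ContinuousMap.id E).Homotopic r ∧ (∀ a s, r (M.ea a s) = M.vert p0) ∧
      (∀ b s, r (M.eb b s) = M.vert p0) ∧ ∀ p, r (M.vert p) = M.vert p0 := by
  choose FA ha0 ha1 hal har using fun a => exists_square (M.pa a) (gam (X.atgt a)) _ (H1a a)
  choose FB hb0 hb1 hbl hbr using fun b => exists_square (M.pb b) (gam (X.btgt b)) _ (H1b b)
  choose Q hQ0 hQl hQr hQb hQt using fun f => exists_box_fill (M.sq f) (FB (X.fl f)) (FB (X.fr f))
    (⟨fun z => gam (X.fb f) z.2, by fun_prop⟩) (FA (X.ft f))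
    (fun t => by rw [M.sq_left, hb0]; rfl) (fun t => by rw [M.sq_right, hb0]; rfl)
    (fun s => by
      rw [M.sq_bot]
      show _ = gam (X.fb f) 0
      rw [(gam (X.fb f)).source])
    (fun s => by rw [M.sq_top, ha0]; rfl)
    (fun τ => by
      rw [hbl]
      show _ = gam (X.fb f) τ
      rw [X.bsrc_fl f])
    (fun τ => by rw [hbr, hal, X.btgt_fl f])
    (fun τ => by
      rw [hbl]
      show _ = gam (X.fb f) τ
      rw [X.bsrc_fr f])
    (fun τ => by rw [hbr, har, X.btgt_fr f])
  let h : Fam X C(I, E) :=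
    { vert := fun p => (gam p).toContinuousMap
      ea := fun a => (FA a).curry
      eb := fun b => (FB b).curry
      sq := fun f => cubeCurry (Q f)
      ea_zero := fun a => by ext τ; exact hal a τ
      ea_one := fun a => by ext τ; exact har a τ
      eb_zero := fun b => by ext τ; exact hbl b τ
      eb_one := fun b => by ext τ; exact hbr b τ
      sq_bot := fun f s => by ext τ; exact hQb f s τ
      sq_left := fun f t => by ext τ; exact hQl f t τ
      sq_right := fun f t => by ext τ; exact hQr f t τ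
      sq_top := fun f s => by ext τ; exact hQt f s τ }
  obtain ⟨g, gv, ga, gb, gf⟩ := M.glue C(I, E) h
  refine ⟨⟨fun x => g x 1, by fun_prop⟩, homotopic_of_curry g _ _ ?_ (fun x => rfl), ?_, ?_, ?_⟩
  · refine ext_cover M (fun x => g x 0) (fun x => x) ?_ ?_ ?_ ?_
    · intro p
      show g (M.vert p) 0 = _
      rw [gv]
      exact (gam p).source
    · intro a s
      show g (M.ea a s) 0 = _
      rw [ga]
      exact ha0 a s
    · intro b s
      show g (M.eb b s) 0 = _
      rw [gb]
      exact hb0 b s
    · intro f s t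
      show g (M.sq f (s, t)) 0 = _
      rw [gf]
      exact hQ0 f s t
  · intro a s
    show g (M.ea a s) 1 = _
    rw [ga]
    exact ha1 a s
  · intro b s
    show g (M.eb b s) 1 = _
    rw [gb]
    exact hb1 b s
  · intro p
    show g (M.vert p) 1 = _
    rw [gv]
    exact (gam p).target

/-- a map that is constant on the one-skeleton, on a triangle -/
def glSq (M : ConeCx X E) {x : E} (r : C(E, E)) (ha : ∀ a s, r (M.ea a s) = x)
    (hb : ∀ b s, r (M.eb b s) = x) (hv : ∀ p, r (M.vert p) = x) (f : X.F) : Ω^ (Fin 2) E x :=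
  gl (r.comp (M.sq f))
    (fun t => by
      show r (M.sq f (0, t)) = x
      rw [M.sq_left]; exact hb _ _)
    (fun t => by
      show r (M.sq f (1, t)) = x
      rw [M.sq_right]; exact hb _ _)
    (fun s => by
      show r (M.sq f (s, 0)) = x
      rw [M.sq_bot]; exact hv _)
    (fun s => by
      show r (M.sq f (s, 1)) = x
      rw [M.sq_top]; exact ha _ _)

/-- Step 2: two maps constant on the one-skeleton with the same classes are homotopic. -/
theorem step2 (M : ConeCx X E) {x : E} (r r' : C(E, E)) (ha : ∀ a s, r (M.ea a s) = x)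
    (hb : ∀ b s, r (M.eb b s) = x) (hv : ∀ p, r (M.vert p) = x)
    (ha' : ∀ a s, r' (M.ea a s) = x)
    (hb' : ∀ b s, r' (M.eb b s) = x) (hv' : ∀ p, r' (M.vert p) = x)
    (h : ∀ f, cl (glSq M r ha hb hv f) = cl (glSq M r' ha' hb' hv' f)) : r.Homotopic r' := by
  have W : ∀ f, (glSq M r ha hb hv f).1.HomotopyRel (glSq M r' ha' hb' hv' f).1
      (Cube.boundary (Fin 2)) := fun f => Classical.choice (cl_exact (h f))
  have hW : ∀ f τ y, y ∈ Cube.boundary (Fin 2) → W f (τ, y) = x := by
    intro f τ y hy
    rw [(W f).eq_fst τ hy]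
    exact (glSq M r ha hb hv f).2 y hy
  let Q : X.F → C(I × I × I, E) := fun f =>
    ⟨fun p => W f (p.2.2, ![p.1, p.2.1]), by
      have : Continuous fun p : I × I × I => (![p.1, p.2.1] : Fin 2 → I) := by
        refine continuous_pi fun i => ?_
        fin_cases i
        · exact continuous_fst
        · exact continuous_snd.fst
      fun_prop⟩
  have hQ : ∀ f s t τ, Q f (s, t, τ) = W f (τ, ![s, t]) := fun _ _ _ _ => rfl
  let h : Fam X C(I, E) :=
    { vert := fun p => ContinuousMap.const _ x
      ea := fun a => ContinuousMap.const _ (ContinuousMap.const _ x)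
      eb := fun b => ContinuousMap.const _ (ContinuousMap.const _ x)
      sq := fun f => cubeCurry (Q f)
      ea_zero := fun a => rfl
      ea_one := fun a => rfl
      eb_zero := fun b => rfl
      eb_one := fun b => rfl
      sq_bot := fun f s => by
        ext τ
        exact hW _ _ _ ⟨1, Or.inl rfl⟩
      sq_left := fun f t => by
        ext τ
        exact hW _ _ _ ⟨0, Or.inl rfl⟩
      sq_right := fun f t => by
        ext τ
        exact hW _ _ _ ⟨0, Or.inr rfl⟩
      sq_top := fun f s => by
        ext τ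
        exact hW _ _ _ ⟨1, Or.inr rfl⟩ }
  obtain ⟨g, gv, ga, gb, gf⟩ := M.glue C(I, E) h
  refine homotopic_of_curry g _ _ ?_ ?_
  · refine ext_cover M (fun x => g x 0) r ?_ ?_ ?_ ?_
    · intro p
      show g (M.vert p) 0 = _
      rw [gv, hv]
      rfl
    · intro a s
      show g (M.ea a s) 0 = _
      rw [ga, ha]
      rfl
    · intro b s
      show g (M.eb b s) 0 = _
      rw [gb, hb]
      rfl
    · intro f s t
      show g (M.sq f (s, t)) 0 = _
      rw [gf]
      exact (W f).apply_zero _
  · refine ext_cover M (fun x => g x 1) r' ?_ ?_ ?_ ?_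
    · intro p
      show g (M.vert p) 1 = _
      rw [gv, hv']
      rfl
    · intro a s
      show g (M.ea a s) 1 = _
      rw [ga, ha']
      rfl
    · intro b s
      show g (M.eb b s) 1 = _
      rw [gb, hb']
      rfl
    · intro f s t
      show g (M.sq f (s, t)) 1 = _
      rw [gf]
      exact (W f).apply_one _

/-- Step 3: for prescribed classes on the edges there is a null-homotopic map, constant on the
one-skeleton, whose class on a triangle is the coboundary of the prescribed classes. -/
theorem exists_step3 (M : ConeCx X E) (x : E) (βa : X.A → Ω^ (Fin 2) E x)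
    (βb : X.B → Ω^ (Fin 2) E x) :
    ∃ (r : C(E, E)) (ha : ∀ a s, r (M.ea a s) = x) (hb : ∀ b s, r (M.eb b s) = x)
      (hv : ∀ p, r (M.vert p) = x), (ContinuousMap.const E x).Homotopic r ∧
      ∀ f, cl (glSq M r ha hb hv f) =
        cl (βa (X.ft f)) * cl (βb (X.fr f)) * (cl (βb (X.fl f)))⁻¹ := by
  have c1 : Continuous fun p : I × I => (![p.1, p.2] : Fin 2 → I) := by
    refine continuous_pi fun i => ?_
    fin_cases i
    · exact continuous_fst
    · exact continuous_snd
  have c2 : Continuous fun p : I × I => (![p.2, p.1] : Fin 2 → I) := by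
    refine continuous_pi fun i => ?_
    fin_cases i
    · exact continuous_snd
    · exact continuous_fst
  let FA : X.A → C(I × I, E) := fun a => (βa a).1.comp ⟨_, c1⟩
  let FB : X.B → C(I × I, E) := fun b => (βb b).1.comp ⟨_, c2⟩
  have hFA : ∀ a s τ, FA a (s, τ) = βa a ![s, τ] := fun _ _ _ => rfl
  have hFB : ∀ b t τ, FB b (t, τ) = βb b ![τ, t] := fun _ _ _ => rfl
  choose Q hQ0 hQl hQr hQb hQt using fun f => exists_box_fill (ContinuousMap.const _ x)
    (FB (X.fl f)) (FB (X.fr f)) (ContinuousMap.const _ x) (FA (X.ft f))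
    (fun t => by rw [hFB, gen_left]; rfl) (fun t => by rw [hFB, gen_left]; rfl)
    (fun s => rfl) (fun s => by rw [hFA, gen_bot]; rfl)
    (fun τ => by rw [hFB, gen_bot]; rfl)
    (fun τ => by rw [hFB, gen_top, hFA, gen_left])
    (fun τ => by rw [hFB, gen_bot]; rfl)
    (fun τ => by rw [hFB, gen_top, hFA, gen_right])
  let h : Fam X C(I, E) :=
    { vert := fun p => ContinuousMap.const _ x
      ea := fun a => (FA a).curry
      eb := fun b => (FB b).curry
      sq := fun f => cubeCurry (Q f)
      ea_zero := fun a => by ext τ; exact gen_left _ _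
      ea_one := fun a => by ext τ; exact gen_right _ _
      eb_zero := fun b => by ext τ; exact gen_bot _ _
      eb_one := fun b => by ext τ; exact gen_top _ _
      sq_bot := fun f s => by ext τ; exact hQb f s τ
      sq_left := fun f t => by ext τ; exact hQl f t τ
      sq_right := fun f t => by ext τ; exact hQr f t τ
      sq_top := fun f s => by ext τ; exact hQt f s τ }
  obtain ⟨g, gv, ga, gb, gf⟩ := M.glue C(I, E) h
  let r : C(E, E) := ⟨fun x => g x 1, by fun_prop⟩
  have ha : ∀ a s, r (M.ea a s) = x := by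
    intro a s
    show g (M.ea a s) 1 = _
    rw [ga]
    exact gen_top _ _
  have hb : ∀ b s, r (M.eb b s) = x := by
    intro b s
    show g (M.eb b s) 1 = _
    rw [gb]
    exact gen_right _ _
  have hv : ∀ p, r (M.vert p) = x := by
    intro p
    show g (M.vert p) 1 = _
    rw [gv]
    rfl
  refine ⟨r, ha, hb, hv, homotopic_of_curry g _ _ ?_ (fun x => rfl), ?_⟩
  · refine ext_cover M (fun x => g x 0) (fun _ => x) ?_ ?_ ?_ ?_
    · intro p
      show g (M.vert p) 0 = _
      rw [gv]
      rfl
    · intro a s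
      show g (M.ea a s) 0 = _
      rw [ga]
      exact gen_bot _ _
    · intro b s
      show g (M.eb b s) 0 = _
      rw [gb]
      exact gen_left _ _
    · intro f s t
      show g (M.sq f (s, t)) 0 = _
      rw [gf]
      exact hQ0 f s t
  · intro f
    refine missing_face (Q f) _ _ _ (hQ0 f) (hQb f) (hQl f) (hQr f) (hQt f) _ ?_
    intro y
    show g (M.sq f (y 0, y 1)) 1 = _
    rw [gf]
    rfl

/-- **Contraction theorem.** -/
theorem contractible_of_cone (M : ConeCx X E) (p0 : X.P)
    (gam : ∀ p, Path (M.vert p) (M.vert p0))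
    (H1a : ∀ a, ((M.pa a).trans (gam (X.atgt a))).Homotopic (gam (X.asrc a)))
    (H1b : ∀ b, ((M.pb b).trans (gam (X.btgt b))).Homotopic (gam (X.bsrc b)))
    (H2 : Solv X) : ContractibleSpace E := by
  obtain ⟨r, hid, ha, hb, hv⟩ := exists_step1 M p0 gam H1a H1b
  obtain ⟨ka, kb, hk⟩ := H2 (Additive (HomotopyGroup (Fin 2) E (M.vert p0)))
    (fun f => Additive.ofMul (cl (glSq M r ha hb hv f)))
  choose βa hβa using fun a => cl_surj (Additive.toMul (ka a))
  choose βb hβb using fun b => cl_surj (Additive.toMul (kb b))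
  obtain ⟨r', ha', hb', hv', hc, hcl⟩ := exists_step3 M (M.vert p0) βa βb
  have h2 : r.Homotopic r' := by
    refine step2 M r r' ha hb hv ha' hb' hv' fun f => ?_
    rw [hcl, hβa, hβb, hβb]
    have := congrArg Additive.toMul (hk f)
    rw [sub_eq_add_neg] at this
    exact this
  rw [contractible_iff_id_nullhomotopic]
  exact ⟨M.vert p0, (hid.trans h2).trans hc.symm⟩

end main

end Crest.Agent.R177.Top
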