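import Crest.Agent.R177.TopAlg
import Crest.Agent.R177.TopContract

/-!
# Rows 177 / 184, module TOPOLOGY: simple connectivity of the cone complex (helper753)

* `exists_gam` : paths from the vertices to a base vertex, compatible with all edges, from `Triv`;
* `contractible_coneX` : realizations of `coneX A` are contractible if `A` is aspherical.
-/

set_option autoImplicit false

open scoped unitInterval Topology

namespace Crest.Agent.R177.Top

section square

variable {E : Type} [TopologicalSpace E]

theorem contractibleI : ContractibleSpace I :=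
  (convex_Icc (0 : ℝ) 1).contractibleSpace ⟨0, by simp⟩

/-- a square with constant bottom side -/
theorem square_tri (W : C(I × I, E)) {x y z : E} (l : Path x y) (t : Path y z) (r : Path x z)
    (hb : ∀ s, W (s, 0) = x) (hl : ∀ s, W (0, s) = l s) (ht : ∀ s, W (s, 1) = t s)
    (hr : ∀ s, W (1, s) = r s) : (l.trans t).Homotopic r := by
  have := contractibleI
  obtain rfl : W (0, 0) = x := hb 0
  obtain rfl : W (0, 1) = y := (hl 1).trans l.target
  obtain rfl : W (1, 1) = z := (hr 1).trans r.target
  let L : Path ((0, 0) : I × I) (0, 1) :=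
    { toFun := fun s => (0, s), continuous_toFun := by fun_prop, source' := rfl, target' := rfl }
  let T : Path ((0, 1) : I × I) (1, 1) :=
    { toFun := fun s => (s, 1), continuous_toFun := by fun_prop, source' := rfl, target' := rfl }
  let B : Path ((0, 0) : I × I) (1, 0) :=
    { toFun := fun s => (s, 0), continuous_toFun := by fun_prop, source' := rfl, target' := rfl }
  let R : Path ((1, 0) : I × I) (1, 1) :=
    { toFun := fun s => (1, s), continuous_toFun := by fun_prop, source' := rfl, target' := rfl }
  have h1 : (L.trans T).Homotopic (B.trans R) := SimplyConnectedSpace.paths_homotopic _ _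
  have h2 := h1.map W
  rw [Path.map_trans, Path.map_trans] at h2
  have e1 : L.map W.continuous = l := by ext s; exact hl s
  have e2 : T.map W.continuous = t := by ext s; exact ht s
  rw [e1, e2] at h2
  refine h2.trans ?_
  have e3 : (R.map W.continuous).cast (hb 1).symm rfl = r := by ext s; exact hr s
  have e4 : (B.map W.continuous).trans (R.map W.continuous) =
      (Path.refl (W (0, 0))).trans ((R.map W.continuous).cast (hb 1).symm rfl) := by
    ext s
    rw [Path.trans_apply, Path.trans_apply]
    split_ifs
    · exact hb _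
    · rfl
  rw [e4, e3]
  exact ⟨Path.Homotopy.reflTrans r⟩

end square

section gam

variable {X : Cx} {E : Type} [TopologicalSpace E]

open Path.Homotopic (Quotient)

/-- the loops at `x` up to homotopy -/
@[reducible] noncomputable def loopGroup (x : E) : Group (Path.Homotopic.Quotient x x) where
  mul := Path.Homotopic.Quotient.trans
  one := Path.Homotopic.Quotient.refl x
  inv := Path.Homotopic.Quotient.symm
  mul_assoc := Path.Homotopic.Quotient.trans_assoc
  one_mul := Path.Homotopic.Quotient.refl_trans
  mul_one := Path.Homotopic.Quotient.trans_refl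
  inv_mul_cancel := Path.Homotopic.Quotient.symm_trans

/-- flat labellings defined by a choice of paths to the base point -/
theorem exists_gam (M : Fam X E) (hT : Triv X) (p0 : X.P)
    (hc : ∀ p, Nonempty (Path (M.vert p) (M.vert p0))) :
    ∃ gam : ∀ p, Path (M.vert p) (M.vert p0),
      (∀ a, ((M.pa a).trans (gam (X.atgt a))).Homotopic (gam (X.asrc a))) ∧
      ∀ b, ((M.pb b).trans (gam (X.btgt b))).Homotopic (gam (X.bsrc b)) := by
  let c : ∀ p, Path (M.vert p) (M.vert p0) := fun p => (hc p).some
  let _ : Group (Path.Homotopic.Quotient (M.vert p0) (M.vert p0)) := loopGroup _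
  -- the loop of a path
  let th : ∀ (p q : X.P), Path (M.vert p) (M.vert q) →
      Path.Homotopic.Quotient (M.vert p0) (M.vert p0) := fun p q γ =>
    ((Path.Homotopic.Quotient.mk (c p)).symm.trans (Path.Homotopic.Quotient.mk γ)).trans
      (Path.Homotopic.Quotient.mk (c q))
  have hth : ∀ (p q r : X.P) (γ : Path (M.vert p) (M.vert q)) (δ : Path (M.vert q) (M.vert r))
      (ε : Path (M.vert p) (M.vert r)), (γ.trans δ).Homotopic ε → th p q γ * th q r δ = th p r ε := by
    intro p q r γ δ ε h
    have h1 : (Path.Homotopic.Quotient.mk γ).trans (Path.Homotopic.Quotient.mk δ) =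
        Path.Homotopic.Quotient.mk ε := Path.Homotopic.Quotient.eq.mpr h
    change Path.Homotopic.Quotient.trans (th p q γ) (th q r δ) = th p r ε
    simp only [th]
    rw [← h1]
    simp only [Path.Homotopic.Quotient.trans_assoc]
    congr 2
    rw [← Path.Homotopic.Quotient.trans_assoc (Path.Homotopic.Quotient.mk (c q)),
      Path.Homotopic.Quotient.trans_symm, Path.Homotopic.Quotient.refl_trans]
  have hcast : ∀ (p p' q q' : X.P) (γ : Path (M.vert p) (M.vert q))
      (γ' : Path (M.vert p') (M.vert q')), p = p' → q = q' → (∀ s, γ s = γ' s) →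
      th p q γ = th p' q' γ' := by
    rintro p _ q _ γ γ' rfl rfl h
    obtain rfl : γ = γ' := by ext s; exact h s
    rfl
  obtain ⟨ρ, hA, hB⟩ := hT (Path.Homotopic.Quotient (M.vert p0) (M.vert p0))
    (fun a => th _ _ (M.pa a)) (fun b => th _ _ (M.pb b)) (by
      intro f
      let l : Path (M.vert (X.fb f)) (M.vert (X.asrc (X.ft f))) :=
        (M.pb (X.fl f)).cast (by rw [X.bsrc_fl]) (by rw [X.btgt_fl])
      let r : Path (M.vert (X.fb f)) (M.vert (X.atgt (X.ft f))) :=
        (M.pb (X.fr f)).cast (by rw [X.bsrc_fr]) (by rw [X.btgt_fr])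
      have h1 : (l.trans (M.pa (X.ft f))).Homotopic r :=
        square_tri (M.sq f) l (M.pa (X.ft f)) r (M.sq_bot f) (M.sq_left f) (M.sq_top f)
          (M.sq_right f)
      have h2 := hth _ _ _ _ _ _ h1
      rw [hcast _ _ _ _ (M.pb (X.fl f)) l (X.bsrc_fl f) (X.btgt_fl f) (fun s => rfl),
        hcast _ _ _ _ (M.pb (X.fr f)) r (X.bsrc_fr f) (X.btgt_fr f) (fun s => rfl)]
      exact h2)
  have hg : ∀ p, ∃ g : Path (M.vert p) (M.vert p0), Path.Homotopic.Quotient.mk g =
      (Path.Homotopic.Quotient.mk (c p)).trans (ρ p)⁻¹ := fun p =>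
    Path.Homotopic.Quotient.mk_surjective _
  choose gam hgam using hg
  have key : ∀ (p q : X.P) (γ : Path (M.vert p) (M.vert q)), th p q γ = (ρ p)⁻¹ * ρ q →
      (γ.trans (gam q)).Homotopic (gam p) := by
    intro p q γ h
    apply Path.Homotopic.Quotient.eq.mp
    rw [Path.Homotopic.Quotient.mk_trans, hgam, hgam]
    have h3 : th p q γ * (ρ q)⁻¹ = (ρ p)⁻¹ := by rw [h]; group
    rw [← h3]
    change _ = (Path.Homotopic.Quotient.mk (c p)).trans
      (Path.Homotopic.Quotient.trans (th p q γ) (ρ q)⁻¹)
    simp only [th]
    simp only [Path.Homotopic.Quotient.trans_assoc]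
    rw [← Path.Homotopic.Quotient.trans_assoc (Path.Homotopic.Quotient.mk (c p)),
      Path.Homotopic.Quotient.trans_symm, Path.Homotopic.Quotient.refl_trans]
  exact ⟨gam, fun a => key _ _ _ (hA a), fun b => key _ _ _ (hB b)⟩

end gam

section cone

open Crest.Agent.R199 (PAct)

variable {S V : Type} (A : PAct S V) {E : Type} [TopologicalSpace E]

/-- the realization of the cone complex is path connected (on vertices) -/
theorem joined_letter (M : Fam (coneX A) E) (g : Grp A) :
    Joined (M.vert (Sum.inl (1 : Grp A))) (M.vert (Sum.inl g)) := by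
  induction g using PresentedGroup.induction_on with
  | _ w =>
    suffices h : ∀ p : Grp A, Joined (M.vert (Sum.inl p))
        (M.vert (Sum.inl (p * PresentedGroup.mk (rels A) w))) by
      have := h 1
      rwa [one_mul] at this
    induction w using FreeGroup.induction_on with
    | C1 =>
      intro p
      rw [map_one, mul_one]
    | of s =>
      intro p
      exact ⟨M.pa (p, s)⟩
    | inv_of s ih =>
      intro p
      rw [map_inv]
      have h1 := ih (p * (PresentedGroup.mk (rels A) (FreeGroup.of s))⁻¹)
      rw [inv_mul_cancel_right] at h1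
      exact h1.symm
    | mul w w' ih ih' =>
      intro p
      rw [map_mul, ← mul_assoc]
      exact (ih p).trans (ih' _)

theorem joined_vert (M : Fam (coneX A) E) (p : (coneX A).P) :
    Joined (M.vert (Sum.inl (1 : Grp A))) (M.vert p) := by
  rcases p with g | x
  · exact joined_letter A M g
  · induction x using Quot.inductionOn with
    | _ y =>
      obtain ⟨g, v⟩ := y
      have h1 : Joined (M.vert (Sum.inr (cell A (g, v)))) (M.vert (Sum.inl g)) := ⟨M.pb (g, v)⟩
      exact (joined_letter A M g).trans h1.symm

/-- (8) the cone complex of an aspherical graph is contractible -/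
theorem contractible_coneX (h : Aspherical A) (M : ConeCx (coneX A) E) : ContractibleSpace E := by
  obtain ⟨gam, H1a, H1b⟩ := exists_gam M.toFam (triv_coneX A) (Sum.inl 1) (fun p =>
    (joined_vert A M.toFam p).symm)
  exact contractible_of_cone M (Sum.inl 1) gam H1a H1b (solv_coneX A h)

end cone

end Crest.Agent.R177.Top
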