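import Crest.Agent.R177.TopCone
import Crest.Agent.R177.TopPaths

/-!
# Rows 177 / 184, module TOPOLOGY: final statement (helper961)
-/

set_option autoImplicit false

namespace Crest.Agent.R177

open Crest.Agent.R199 (PAct)

/-- TOP (files Top*.lean): the cone complex of an aspherical graphical presentation -/
theorem classifying_of_aspherical {S V : Type} (A : PAct S V) [Finite S] [Finite V]
    (h : Aspherical A) : Crest.Topology.HasFiniteClassifyingComplex (Grp A) 2 := by
  have : ContractibleSpace (Top.Real (Top.coneX A)) := Top.contractible_coneX A h (Top.Real.cone _)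
  have : Finite (Top.gcxCone A).TP :=
    inferInstanceAs (Finite (Option (Quotient (Dev.conn A))))
  have : Finite (Top.gcxCone A).TA := inferInstanceAs (Finite S)
  have : Finite (Top.gcxCone A).TB := inferInstanceAs (Finite V)
  have : Finite (Top.gcxCone A).TF :=
    inferInstanceAs (Finite {e : V × S // (A.st (e.2, true) e.1).isSome})
  exact Top.GCx.classifying (Top.gcxCone A)

end Crest.Agent.R177
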