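import Crest.Agent.R177.Dev
import Crest.Agent.R177.Design67

/-!
# Row 177 (S0267): the zero divisor (helper891)
-/

set_option autoImplicit false

open scoped Classical

namespace Crest.Agent.R177

open Crest.Agent.R199 (PAct)

namespace ZD

variable {V : Type} (A : PAct L67 V)

/-- letters as group elements -/
noncomputable def t (k : Fin 4) : Grp A := gw A [(Sum.inl k, true)]

noncomputable def y (q : Fin 3 × Fin 2) : Grp A := gw A [(Sum.inr q, true)]

/-- distinct products -/
theorem ty_inj (hshort : ∀ w : List (L67 × Bool), w ≠ [] → FreeGroup.IsReduced w → w.length ≤ 4 →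
      gw A w ≠ 1) (k k' : Fin 4) (q q' : Fin 3 × Fin 2) (h : t A k * y A q = t A k' * y A q') :
    k = k' ∧ q = q' := by
  by_cases hq : q = q'
  · subst hq
    refine ⟨?_, rfl⟩
    by_contra hk
    have h1 : t A k * (t A k')⁻¹ = 1 := by
      rw [mul_inv_eq_one]; exact mul_right_cancel h
    have h2 : gw A [((Sum.inl k : L67), true), (Sum.inl k', false)] ≠ 1 := by
      refine hshort _ (by simp) ?_ (by simp)
      simp [FreeGroup.IsReduced, hk]
    apply h2
    rw [Dev.gw_cons]
    have : gw A [((Sum.inl k' : L67), false)] = (t A k')⁻¹ := Dev.gw_hinv A (Sum.inl k', true)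
    rw [this]; exact h1
  · exfalso
    have h1 : t A k * (y A q * ((y A q')⁻¹ * (t A k')⁻¹)) = 1 := by
      rw [← mul_inv_rev, ← h]
      group
    have h2 : gw A [((Sum.inl k : L67), true), (Sum.inr q, true), (Sum.inr q', false),
        (Sum.inl k', false)] ≠ 1 := by
      refine hshort _ (by simp) ?_ (by simp)
      simp [FreeGroup.IsReduced, hq]
    apply h2
    rw [Dev.gw_cons, Dev.gw_cons A (Sum.inr q, true), Dev.gw_cons A (Sum.inr q', false)]
    have e1 : gw A [((Sum.inl k' : L67), false)] = (t A k')⁻¹ := Dev.gw_hinv A (Sum.inl k', true)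
    have e2 : gw A [((Sum.inr q' : L67), false)] = (y A q')⁻¹ := Dev.gw_hinv A (Sum.inr q', true)
    rw [e1, e2]; exact h1

theorem natCast_two (n : ℕ) : (n : ZMod 2) = if Odd n then 1 else 0 := by
  split_ifs with h
  · exact (ZMod.natCast_eq_one_iff_odd).2 h
  · exact (ZMod.natCast_eq_zero_iff_even).2 (Nat.not_odd_iff_even.1 h)

end ZD

open ZD in
/-- ZD -/
theorem zero_divisor {V : Type} [Finite V] (A : PAct L67 V) (hT : Typed67 A)
    (hshort : ∀ w : List (L67 × Bool), w ≠ [] → FreeGroup.IsReduced w → w.length ≤ 4 →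
      gw A w ≠ 1) :
    ∃ a b : MonoidAlgebra (ZMod 2) (Grp A), a ≠ 0 ∧ b ≠ 0 ∧ a * b = 0 := by
  have : Fintype V := Fintype.ofFinite V
  obtain ⟨γ, hγ, -, -⟩ := Dev.exists_dev A (fun _ => False) (fun _ _ h => h.elim)
  set sg : Grp A → MonoidAlgebra (ZMod 2) (Grp A) := fun g => MonoidAlgebra.single g 1 with hsg
  have hmul : ∀ g h, sg g * sg h = sg (g * h) := fun g h => by simp [hsg]
  refine ⟨∑ v, if (A.st (Sum.inl 0, true) v).isSome then sg (γ v) else 0,
    ∑ q : Fin 3 × Fin 2, ∑ k : Fin 4, if inc q.1 k then sg (t A k * y A q) else 0, ?_, ?_, ?_⟩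
  · intro h0
    have h1 := congrArg (MonoidAlgebra.lift (ZMod 2) (ZMod 2) (Grp A) 1) h0
    rw [map_sum, map_zero] at h1
    have h2 : ∀ v : V, (MonoidAlgebra.lift (ZMod 2) (ZMod 2) (Grp A) 1)
        (if (A.st (Sum.inl 0, true) v).isSome then sg (γ v) else 0) =
        if (A.st (Sum.inl 0, true) v).isSome then 1 else 0 := by
      intro v
      split_ifs
      · simp [hsg]
      · simp
    rw [Finset.sum_congr rfl fun v _ => h2 v, Finset.sum_boole, ← Fintype.card_subtype,
      ← Nat.card_eq_fintype_card, natCast_two, if_pos hT.odd_a] at h1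
    exact one_ne_zero h1
  · intro h0
    have h1 := congrArg (fun x => x.coeff (t A 0 * y A (0, 0))) h0
    simp only [MonoidAlgebra.coeff_sum, MonoidAlgebra.coeff_zero, Finsupp.coe_finsetSum,
      Finset.sum_apply, Finsupp.coe_zero, Pi.zero_apply] at h1
    rw [Finset.sum_eq_single ((0, 0) : Fin 3 × Fin 2), Finset.sum_eq_single (0 : Fin 4),
      if_pos (by simp [inc]), MonoidAlgebra.coeff_single, Finsupp.single_eq_same] at h1
    · exact one_ne_zero h1
    · intro k _ hk
      split_ifs
      · rw [MonoidAlgebra.coeff_single, Finsupp.single_apply, if_neg]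
        intro h
        exact hk (ty_inj A hshort _ _ _ _ h).1
      · simp
    · simp
    · intro q _ hq
      refine Finset.sum_eq_zero fun k _ => ?_
      split_ifs
      · rw [MonoidAlgebra.coeff_single, Finsupp.single_apply, if_neg]
        intro h
        exact hq (ty_inj A hshort _ _ _ _ h).2
      · simp
    · simp
  · -- product
    have htau : ∀ v k, (A.st (Sum.inl 0, true) v).isSome ↔ (A.st (Sum.inl k, true) v).isSome :=
      fun v k => ⟨hT.tau v 0 k, hT.tau v k 0⟩
    rw [Finset.mul_sum]
    have h1 : ∀ q : Fin 3 × Fin 2,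
        (∑ v, if (A.st (Sum.inl 0, true) v).isSome then sg (γ v) else 0) *
          (∑ k : Fin 4, if inc q.1 k then sg (t A k * y A q) else 0) =
        ∑ v, if (A.st (Sum.inr q, false) v).isSome then sg (γ v) else 0 := by
      intro q
      rw [Finset.mul_sum]
      have h2 : ∀ k : Fin 4, (∑ v, if (A.st (Sum.inl 0, true) v).isSome then sg (γ v) else 0) *
          (if inc q.1 k then sg (t A k * y A q) else 0) =
          ∑ v, if inc q.1 k ∧ (A.st (Sum.inl k, false) v).isSome then sg (γ v * y A q) else 0 := by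
        intro k
        by_cases hk : inc q.1 k
        · rw [if_pos hk, Finset.sum_mul]
          have h3 := Dev.sum_edges A γ hγ (Sum.inl k) (fun g => sg (g * y A q))
          simp only [hk, true_and]
          rw [← h3]
          refine Finset.sum_congr rfl fun v _ => ?_
          by_cases hv : (A.st (Sum.inl 0, true) v).isSome
          · rw [if_pos hv, if_pos ((htau v k).1 hv), hmul, ← mul_assoc]; rfl
          · rw [if_neg hv, if_neg (fun h => hv ((htau v k).2 h)), zero_mul]
        · simp [hk]
      rw [Finset.sum_congr rfl fun k _ => h2 k, Finset.sum_comm,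
        ← Dev.sum_edges A γ hγ (Sum.inr q) sg]
      refine Finset.sum_congr rfl fun v _ => ?_
      have h4 : (∑ k : Fin 4, if inc q.1 k ∧ (A.st (Sum.inl k, false) v).isSome then
          sg (γ v * y A q) else 0) = ((Nat.card {k : Fin 4 // inc q.1 k ∧
            (A.st (Sum.inl k, false) v).isSome} : ℕ) : ZMod 2) • sg (γ v * y A q) := by
        rw [← Finset.sum_filter, Finset.sum_const, Nat.card_eq_fintype_card,
          Fintype.card_subtype, Nat.cast_smul_eq_nsmul]
      rw [h4, natCast_two]
      have h5 := hT.y_out v q.1 q.2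
      by_cases hv : (A.st (Sum.inr q, true) v).isSome
      · rw [if_pos hv, if_pos (h5.1 hv), one_smul]; rfl
      · rw [if_neg hv, if_neg (fun h => hv (h5.2 h)), zero_smul]
    rw [Finset.sum_congr rfl fun q _ => h1 q, Finset.sum_comm]
    refine Finset.sum_eq_zero fun v _ => ?_
    have h4 : (∑ q : Fin 3 × Fin 2, if (A.st (Sum.inr q, false) v).isSome then
        sg (γ v) else 0) = ((Nat.card {q : Fin 3 × Fin 2 //
          (A.st (Sum.inr q, false) v).isSome} : ℕ) : ZMod 2) • sg (γ v) := by
      rw [← Finset.sum_filter, Finset.sum_const, Nat.card_eq_fintype_card,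
        Fintype.card_subtype, Nat.cast_smul_eq_nsmul]
    rw [h4, natCast_two, if_neg (Nat.not_odd_iff_even.2 (hT.z_in v)), zero_smul]

end Crest.Agent.R177
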