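import Crest.Agent.R177.Asph
import Crest.Agent.R177.FinPres
import Crest.Agent.R177.TorsionFree
import Crest.Agent.R177.TopFinal
import Crest.Agent.R177.Local
import Crest.Agent.R177.Geom
import Crest.Agent.R177.Design67
import Crest.Agent.R177.ZeroDiv

/-!
# Row 177 (S0267): assembly
-/

set_option autoImplicit false

open scoped Classical

namespace Crest.Agent.R177

open Crest.Agent.R199 (PAct)

/-- MAIN -/
theorem main67 : ∃ (G : Type) (_ : Group G), Group.IsFinitelyPresented G ∧
    (∀ g : G, IsOfFinOrder g → g = 1) ∧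
      Crest.Topology.HasFiniteClassifyingComplex G 2 ∧
      ∃ a b : MonoidAlgebra (ZMod 2) G, a ≠ 0 ∧ b ≠ 0 ∧ a * b = 0 := by
  obtain ⟨M, hM⟩ := design67
  obtain ⟨κ, C, P, hκ, hC, hP, hL⟩ := local_lemma M
  obtain ⟨L, K, D0, C', g₀, η, hη, hG⟩ := geom κ C P hκ hC hP
  obtain ⟨g, hg, m, A, hA, hgir, hloc⟩ := hL L K D0 η hη (max g₀ (C' * 4 + 1))
  have hiso : Iso A C' := hG _ _ A g (le_trans (le_max_left _ _) hg) hgir hloc
  have hgir' : Girth A (C' * 4 + 1) := fun x w h1 h2 h3 =>
    le_trans (le_trans (le_max_right _ _) hg) (hgir x w h1 h2 h3)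
  have : Finite (M.V m) := M.fin m
  have hasph := aspherical_of_iso A C' hiso
  exact ⟨Grp A, inferInstance, finitelyPresented A, torsionFree_of_aspherical A hasph,
    classifying_of_aspherical A hasph,
    zero_divisor A (hM m A hA) fun w hw hr hl => short_of_iso A C' 4 hiso hgir' w hw hr hl⟩

end Crest.Agent.R177
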