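import Crest.Agent.R177.Dev
import Crest.Agent.R177.Defs74

/-!
# Row 184 (S0274): the one-sided inverse (helper455)
-/

set_option autoImplicit false

open scoped Classical

namespace Crest.Agent.R177

open Crest.Agent.R199 (PAct)

namespace OS

variable {V : Type} (A : PAct L74 V)

/-- letters as group elements -/
noncomputable def t (k : Fin 4) : Grp A := gw A [(Sum.inl k, true)]

noncomputable def y (q : Fin 3) : Grp A := gw A [(Sum.inr q, true)]

theorem natCast_two (n : ℕ) : (n : ZMod 2) = if Odd n then 1 else 0 := by
  split_ifs with h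
  · exact (ZMod.natCast_eq_one_iff_odd).2 h
  · exact (ZMod.natCast_eq_zero_iff_even).2 (Nat.not_odd_iff_even.1 h)

/-- summation over the edges labelled `s`, grouped by the end node -/
theorem sum_edges {S V : Type} [Fintype V] (A : PAct S V) {M : Type*} [AddCommMonoid M] (s : S)
    (G : V → M) (F : V → M) (h : ∀ v v', A.st (s, true) v = some v' → G v = F v') :
    (∑ v, if (A.st (s, true) v).isSome then G v else 0) =
      ∑ v, if (A.st (s, false) v).isSome then F v else 0 := by
  rw [← Finset.sum_filter, ← Finset.sum_filter]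
  refine Finset.sum_bij' (fun v _ => (A.st (s, true) v).getD v)
    (fun v _ => (A.st (s, false) v).getD v) ?_ ?_ ?_ ?_ ?_
  · intro v hv
    rw [Finset.mem_filter] at hv ⊢
    obtain ⟨x, hx⟩ := Option.isSome_iff_exists.1 hv.2
    have := A.symm _ _ _ hx
    simp only [hx, Option.getD_some]
    refine ⟨Finset.mem_univ _, ?_⟩
    simp only [Bool.not_true] at this
    rw [this]; rfl
  · intro v hv
    rw [Finset.mem_filter] at hv ⊢
    obtain ⟨x, hx⟩ := Option.isSome_iff_exists.1 hv.2
    have := A.symm _ _ _ hx
    simp only [hx, Option.getD_some]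
    refine ⟨Finset.mem_univ _, ?_⟩
    simp only [Bool.not_false] at this
    rw [this]; rfl
  · intro v hv
    rw [Finset.mem_filter] at hv
    obtain ⟨x, hx⟩ := Option.isSome_iff_exists.1 hv.2
    have := A.symm _ _ _ hx
    simp only [Bool.not_true] at this
    simp only [hx, Option.getD_some, this]
  · intro v hv
    rw [Finset.mem_filter] at hv
    obtain ⟨x, hx⟩ := Option.isSome_iff_exists.1 hv.2
    have := A.symm _ _ _ hx
    simp only [Bool.not_false] at this
    simp only [hx, Option.getD_some, this]
  · intro v hv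
    rw [Finset.mem_filter] at hv
    obtain ⟨x, hx⟩ := Option.isSome_iff_exists.1 hv.2
    simp only [hx, Option.getD_some]
    exact h _ _ hx

/-- the solutions of `t k * y q * γ v = t 2 * (t h)⁻¹` -/
theorem solve (o : V) (hT : Typed74 A o)
    (hms : ∀ (c p : List (L74 × Bool)) (v : V), FreeGroup.IsReduced c → c.length ≤ 5 →
      A.read p o = some v → gw A (c ++ p) = 1 → A.read (FreeGroup.invRev c) o = some v)
    (h k : Fin 4) (q : Fin 3) (hh : h ≠ 2) (hq : inc74 q k) (p : List (L74 × Bool)) (v : V)
    (hp : A.read p o = some v)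
    (he : t A k * y A q * ((y A 0)⁻¹ * gw A p) = t A 2 * (t A h)⁻¹) :
    q = 0 ∧ ((k = 2 ∧ h = 1 ∧ A.read [(Sum.inl h, false)] o = some v) ∨
      (k = 1 ∧ A.read [(Sum.inl 1, false), (Sum.inl 2, true), (Sum.inl h, false)] o = some v)) := by
  have e1 : ∀ k : Fin 4, gw A [((Sum.inl k : L74), false)] = (t A k)⁻¹ :=
    fun k => Dev.gw_hinv A (Sum.inl k, true)
  have e2 : ∀ q : Fin 3, gw A [((Sum.inr q : L74), false)] = (y A q)⁻¹ :=
    fun q => Dev.gw_hinv A (Sum.inr q, true)
  have ht : ∀ k, gw A [((Sum.inl k : L74), true)] = t A k := fun k => rfl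
  have hy : ∀ q, gw A [((Sum.inr q : L74), true)] = y A q := fun q => rfl
  -- the relation
  have hrel : t A h * (t A 2)⁻¹ * t A k * y A q * (y A 0)⁻¹ * gw A p = 1 := by
    have : t A k * y A q * (y A 0)⁻¹ * gw A p = t A 2 * (t A h)⁻¹ := by
      rw [← he]; group
    calc t A h * (t A 2)⁻¹ * t A k * y A q * (y A 0)⁻¹ * gw A p
        = t A h * (t A 2)⁻¹ * (t A k * y A q * (y A 0)⁻¹ * gw A p) := by group
      _ = 1 := by rw [this]; group
  have hno : A.st ((Sum.inr 0 : L74), true) o = none := by
    have := (hT.o_y 0)
    rw [← Option.not_isSome_iff_eq_none, this]; decide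
  by_cases hq0 : q = 0
  · subst hq0
    refine ⟨rfl, ?_⟩
    by_cases hk : k = 2
    · subst hk
      left
      have h1 := hms [(Sum.inl h, true)] p v (by simp [FreeGroup.IsReduced]) (by simp) hp (by
        rw [Dev.gw_append, ht, ← hrel]; group)
      have h2 : FreeGroup.invRev [((Sum.inl h : L74), true)] = [(Sum.inl h, false)] := by
        simp [FreeGroup.invRev]
      rw [h2] at h1
      refine ⟨rfl, ?_, h1⟩
      rw [Dev.read_single] at h1
      exact (hT.o_tau h).1 (by rw [h1]; rfl)
    · right
      have h1 := hms [(Sum.inl h, true), (Sum.inl 2, false), (Sum.inl k, true)] p v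
        (by simp [FreeGroup.IsReduced, Ne.symm hk, hh]) (by simp) hp (by
        rw [Dev.gw_append, Dev.gw_cons, Dev.gw_cons A (Sum.inl 2, false), ht, ht, e1, ← hrel]
        group)
      have h2 : FreeGroup.invRev [((Sum.inl h : L74), true), (Sum.inl 2, false), (Sum.inl k, true)]
          = [(Sum.inl k, false), (Sum.inl 2, true), (Sum.inl h, false)] := by
        simp [FreeGroup.invRev]
      rw [h2] at h1
      have h3 : k = 1 := by
        refine (hT.o_tau k).1 ?_
        simp only [PAct.read] at h1
        cases hx : A.st (Sum.inl k, false) o with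
        | none => rw [hx] at h1; simp at h1
        | some z => rfl
      subst h3
      exact ⟨rfl, h1⟩
  · exfalso
    by_cases hk : k = 2
    · subst hk
      have h1 := hms [(Sum.inl h, true), (Sum.inr q, true), (Sum.inr 0, false)] p v
        (by simp [FreeGroup.IsReduced, hq0]) (by simp) hp (by
        rw [Dev.gw_append, Dev.gw_cons, Dev.gw_cons A (Sum.inr q, true), ht, hy, e2, ← hrel]
        group)
      have h2 : FreeGroup.invRev [((Sum.inl h : L74), true), (Sum.inr q, true), (Sum.inr 0, false)]
          = [(Sum.inr 0, true), (Sum.inr q, false), (Sum.inl h, false)] := by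
        simp [FreeGroup.invRev]
      rw [h2] at h1
      simp only [PAct.read, hno] at h1
      simp at h1
    · have h1 := hms [(Sum.inl h, true), (Sum.inl 2, false), (Sum.inl k, true), (Sum.inr q, true),
        (Sum.inr 0, false)] p v
        (by simp [FreeGroup.IsReduced, Ne.symm hk, hh, hq0]) (by simp) hp (by
        rw [Dev.gw_append, Dev.gw_cons, Dev.gw_cons A (Sum.inl 2, false),
          Dev.gw_cons A (Sum.inl k, true), Dev.gw_cons A (Sum.inr q, true), ht, ht, hy, e1, e2,
          ← hrel]
        group)
      have h2 : FreeGroup.invRev [((Sum.inl h : L74), true), (Sum.inl 2, false), (Sum.inl k, true),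
          (Sum.inr q, true), (Sum.inr 0, false)]
          = [(Sum.inr 0, true), (Sum.inr q, false), (Sum.inl k, false), (Sum.inl 2, true),
            (Sum.inl h, false)] := by
        simp [FreeGroup.invRev]
      rw [h2] at h1
      simp only [PAct.read, hno] at h1
      simp at h1

end OS

open OS in
/-- ONE-SIDED -/
theorem one_sided {V : Type} [Finite V] (A : PAct L74 V) (o : V) (hT : Typed74 A o)
    (hshort : ∀ w : List (L74 × Bool), w ≠ [] → FreeGroup.IsReduced w → w.length ≤ 2 →
      gw A w ≠ 1)
    (hms : ∀ (c p : List (L74 × Bool)) (v : V), FreeGroup.IsReduced c → c.length ≤ 5 →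
      A.read p o = some v → gw A (c ++ p) = 1 → A.read (FreeGroup.invRev c) o = some v) :
    ∃ a b : MonoidAlgebra (ZMod 2) (Grp A), a * b = 1 ∧ b * a ≠ 1 := by
  have : Fintype V := Fintype.ofFinite V
  obtain ⟨γ, hγ, hγw, hγo⟩ := Dev.exists_dev A (fun x => x = o) (fun _ _ h h' => h.trans h'.symm)
  set sg : Grp A → MonoidAlgebra (ZMod 2) (Grp A) := fun g => MonoidAlgebra.single g 1 with hsg
  have hmul : ∀ g h, sg g * sg h = sg (g * h) := fun g h => by simp [hsg]
  set cn : V → Prop := fun v => ∃ p, A.read p o = some v with hcn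
  have hcn1 : ∀ a v v', A.st a v = some v' → cn v → cn v' := by
    rintro a v v' h ⟨p, hp⟩
    exact ⟨p ++ [a], by rw [Dev.read_append A _ _ _ _ hp, Dev.read_single, h]⟩
  have hcn2 : ∀ a v v', A.st a v = some v' → (cn v ↔ cn v') := fun a v v' h =>
    ⟨hcn1 a v v' h, hcn1 _ _ _ (A.symm _ _ _ h)⟩
  -- normalised development
  set γ' : V → Grp A := fun v => (y A 0)⁻¹ * γ v with hγ'
  have hγ's : ∀ a v v', A.st a v = some v' → γ' v' = γ' v * gw A [a] := by
    intro a v v' h
    simp only [hγ', hγ a v v' h, mul_assoc]
  have htau : ∀ v k, (A.st (Sum.inl 0, true) v).isSome ↔ (A.st (Sum.inl k, true) v).isSome :=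
    fun v k => ⟨hT.tau v 0 k, hT.tau v k 0⟩
  refine ⟨∑ v, if (A.st (Sum.inl 0, true) v).isSome ∧ cn v then sg (γ' v) else 0,
    ∑ q : Fin 3, ∑ k : Fin 4, if inc74 q k then sg (t A k * y A q) else 0, ?_, ?_⟩
  · -- α β = 1
    rw [Finset.mul_sum]
    have h1 : ∀ q : Fin 3,
        (∑ v, if (A.st (Sum.inl 0, true) v).isSome ∧ cn v then sg (γ' v) else 0) *
          (∑ k : Fin 4, if inc74 q k then sg (t A k * y A q) else 0) =
        (∑ v, if (A.st (Sum.inr q, false) v).isSome then (if cn v then sg (γ' v) else 0) else 0) +
          if q = 0 then 1 else 0 := by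
      intro q
      rw [Finset.mul_sum]
      have h2 : ∀ k : Fin 4,
          (∑ v, if (A.st (Sum.inl 0, true) v).isSome ∧ cn v then sg (γ' v) else 0) *
          (if inc74 q k then sg (t A k * y A q) else 0) =
          ∑ v, if inc74 q k ∧ (A.st (Sum.inl k, false) v).isSome then
            (if cn v then sg (γ' v * y A q) else 0) else 0 := by
        intro k
        by_cases hk : inc74 q k
        · rw [if_pos hk, Finset.sum_mul]
          have h3 := sum_edges A (Sum.inl k)
            (fun v => if cn v then sg (γ' v * (t A k * y A q)) else 0)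
            (fun v => if cn v then sg (γ' v * y A q) else 0) (by
              intro v v' h
              simp only [hcn2 _ _ _ h, hγ's _ _ _ h, t, mul_assoc])
          simp only [hk, true_and]
          rw [← h3]
          refine Finset.sum_congr rfl fun v _ => ?_
          by_cases hv : (A.st (Sum.inl 0, true) v).isSome
          · rw [if_pos ((htau v k).1 hv)]
            by_cases hc : cn v
            · rw [if_pos ⟨hv, hc⟩, if_pos hc, hmul]
            · rw [if_neg (fun h => hc h.2), if_neg hc, zero_mul]
          · rw [if_neg (fun h => hv h.1), if_neg (fun h => hv ((htau v k).2 h)), zero_mul]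
        · simp [hk]
      rw [Finset.sum_congr rfl fun k _ => h2 k, Finset.sum_comm]
      have h4 : ∀ v : V, (∑ k : Fin 4, if inc74 q k ∧ (A.st (Sum.inl k, false) v).isSome then
            (if cn v then sg (γ' v * y A q) else 0) else 0) =
          if Odd (Nat.card {k : Fin 4 // inc74 q k ∧ (A.st (Sum.inl k, false) v).isSome}) then
            (if cn v then sg (γ' v * y A q) else 0) else 0 := by
        intro v
        have h5 : (∑ k : Fin 4, if inc74 q k ∧ (A.st (Sum.inl k, false) v).isSome then
            (if cn v then sg (γ' v * y A q) else 0) else 0) =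
            ((Nat.card {k : Fin 4 // inc74 q k ∧
              (A.st (Sum.inl k, false) v).isSome} : ℕ) : ZMod 2) •
              (if cn v then sg (γ' v * y A q) else 0) := by
          rw [← Finset.sum_filter, Finset.sum_const, Nat.card_eq_fintype_card,
            Fintype.card_subtype, Nat.cast_smul_eq_nsmul]
        rw [h5, natCast_two]
        split_ifs <;> simp
      rw [Finset.sum_congr rfl fun v _ => h4 v,
        ← sum_edges A (Sum.inr q) (fun v => if cn v then sg (γ' v * y A q) else 0)
          (fun v => if cn v then sg (γ' v) else 0) (by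
            intro v v' h
            simp only [hcn2 _ _ _ h, hγ's _ _ _ h, y])]
      rw [← Finset.add_sum_erase _ _ (Finset.mem_univ o),
        ← Finset.add_sum_erase Finset.univ (fun v => if (A.st (Sum.inr q, true) v).isSome then
          (if cn v then sg (γ' v * y A q) else 0) else 0) (Finset.mem_univ o)]
      have h6 : (∑ v ∈ Finset.univ.erase o,
          if Odd (Nat.card {k : Fin 4 // inc74 q k ∧ (A.st (Sum.inl k, false) v).isSome}) then
            (if cn v then sg (γ' v * y A q) else 0) else 0) =
          ∑ v ∈ Finset.univ.erase o, if (A.st (Sum.inr q, true) v).isSome then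
            (if cn v then sg (γ' v * y A q) else 0) else 0 := by
        refine Finset.sum_congr rfl fun v hv => ?_
        have := hT.y_out v (Finset.ne_of_mem_erase hv) q
        by_cases hv : (A.st (Sum.inr q, true) v).isSome
        · rw [if_pos hv, if_pos (this.1 hv)]
        · rw [if_neg hv, if_neg (fun h => hv (this.2 h))]
      have hco : cn o := ⟨[], rfl⟩
      have h7 : Nat.card {k : Fin 4 // inc74 q k ∧ (A.st (Sum.inl k, false) o).isSome} =
          if inc74 q 1 then 1 else 0 := by
        simp only [hT.o_tau]
        split_ifs with hi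
        · rw [Nat.card_eq_one_iff_exists]
          exact ⟨⟨1, hi, rfl⟩, fun b => Subtype.ext b.2.2⟩
        · rw [Nat.card_eq_zero]
          left
          exact ⟨fun b => hi (b.2.2 ▸ b.2.1)⟩
      rw [h6, h7]
      have h8 : (if Odd (if inc74 q 1 then 1 else 0 : ℕ) then
            (if cn o then sg (γ' o * y A q) else 0) else 0) =
          (if (A.st (Sum.inr q, true) o).isSome then
            (if cn o then sg (γ' o * y A q) else 0) else 0) + if q = 0 then 1 else 0 := by
        simp only [hT.o_y, if_pos hco]
        fin_cases q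
        · have : γ' o * y A 0 = 1 := by simp [hγ', hγo o rfl]
          simp only [Fin.zero_eta, this]
          simp [inc74, hsg, MonoidAlgebra.one_def]
        · simp [inc74]
        · simp [inc74]
      rw [h8]
      abel
    rw [Finset.sum_congr rfl fun q _ => h1 q, Finset.sum_add_distrib, Finset.sum_comm]
    have h9 : (∑ v, ∑ q : Fin 3, if (A.st (Sum.inr q, false) v).isSome then
        (if cn v then sg (γ' v) else 0) else 0) = 0 := by
      refine Finset.sum_eq_zero fun v _ => ?_
      have h4 : (∑ q : Fin 3, if (A.st (Sum.inr q, false) v).isSome then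
          (if cn v then sg (γ' v) else 0) else 0) = ((Nat.card {q : Fin 3 //
            (A.st (Sum.inr q, false) v).isSome} : ℕ) : ZMod 2) •
              (if cn v then sg (γ' v) else 0) := by
        rw [← Finset.sum_filter, Finset.sum_const, Nat.card_eq_fintype_card,
          Fintype.card_subtype, Nat.cast_smul_eq_nsmul]
      rw [h4, natCast_two, if_neg (Nat.not_odd_iff_even.2 (hT.z_in v)), zero_smul]
    rw [h9, zero_add]
    simp
  · -- β α ≠ 1
    intro hba
    -- the product as a triple sum
    have hprod : (∑ q : Fin 3, ∑ k : Fin 4, if inc74 q k then sg (t A k * y A q) else 0) *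
        (∑ v, if (A.st (Sum.inl 0, true) v).isSome ∧ cn v then sg (γ' v) else 0) =
        ∑ q : Fin 3, ∑ k : Fin 4, ∑ v, if inc74 q k ∧ (A.st (Sum.inl 0, true) v).isSome ∧ cn v then
          sg (t A k * y A q * γ' v) else 0 := by
      rw [Finset.sum_mul]
      refine Finset.sum_congr rfl fun q _ => ?_
      rw [Finset.sum_mul]
      refine Finset.sum_congr rfl fun k _ => ?_
      rw [Finset.mul_sum]
      refine Finset.sum_congr rfl fun v _ => ?_
      by_cases hk : inc74 q k
      · by_cases hv : (A.st (Sum.inl 0, true) v).isSome ∧ cn v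
        · rw [if_pos hk, if_pos hv, if_pos ⟨hk, hv⟩, hmul]
        · rw [if_pos hk, if_neg hv, mul_zero, if_neg (fun h : _ ∧ _ => hv h.2)]
      · rw [if_neg hk, zero_mul, if_neg (fun h : _ ∧ _ => hk h.1)]
    -- local structure at `o`
    obtain ⟨a0, ha0⟩ := Option.isSome_iff_exists.1 ((hT.o_tau 1).2 rfl)
    have ha0' : A.st (Sum.inl 1, true) a0 = some o := A.symm _ _ _ ha0
    have hhub0 : (A.st (Sum.inl 0, true) a0).isSome := (htau a0 1).2 (by rw [ha0']; rfl)
    obtain ⟨p1, hp1⟩ := Option.isSome_iff_exists.1 ((htau a0 2).1 hhub0)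
    have hp1' : A.st (Sum.inl 2, false) p1 = some a0 := A.symm _ _ _ hp1
    have hcn0 : cn a0 := hcn1 _ _ _ ha0 ⟨[], rfl⟩
    -- key: a nontrivial element with coefficient one
    have key : ∀ (h : Fin 4) (hh : h ≠ 2) (k0 : Fin 4) (hk0 : inc74 0 k0) (v0 : V)
        (hv0 : (A.st (Sum.inl 0, true) v0).isSome) (hc0 : cn v0)
        (he0 : t A k0 * y A 0 * γ' v0 = t A 2 * (t A h)⁻¹)
        (huni : ∀ q k v p, inc74 q k → A.read p o = some v →
          t A k * y A q * ((y A 0)⁻¹ * gw A p) = t A 2 * (t A h)⁻¹ → q = 0 ∧ k = k0 ∧ v = v0),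
        False := by
      intro h hh k0 hk0 v0 hv0 hc0 he0 huni
      have h1 := congrArg (fun x => x.coeff (t A 2 * (t A h)⁻¹)) hba
      simp only [hprod] at h1
      simp only [MonoidAlgebra.coeff_sum, Finsupp.coe_finsetSum, Finset.sum_apply] at h1
      have hu' : ∀ q k v, inc74 q k → cn v → t A k * y A q * γ' v = t A 2 * (t A h)⁻¹ →
          q = 0 ∧ k = k0 ∧ v = v0 := by
        rintro q k v hi ⟨p, hp⟩ he
        refine huni q k v p hi hp ?_
        rw [← he]
        simp only [hγ', hγw _ _ _ hp, hγo o rfl, one_mul]
      rw [Finset.sum_eq_single (0 : Fin 3), Finset.sum_eq_single k0, Finset.sum_eq_single v0,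
        if_pos ⟨hk0, hv0, hc0⟩, he0] at h1
      · rw [hsg] at h1
        simp only [MonoidAlgebra.coeff_single, Finsupp.single_eq_same, MonoidAlgebra.one_def] at h1
        rw [Finsupp.single_apply, if_neg] at h1
        · exact one_ne_zero h1
        · intro h2
          refine hshort [(Sum.inl 2, true), (Sum.inl h, false)] (by simp)
            (by simp [FreeGroup.IsReduced, Ne.symm hh]) (by simp) ?_
          rw [Dev.gw_cons]
          have : gw A [((Sum.inl h : L74), false)] = (t A h)⁻¹ := Dev.gw_hinv A (Sum.inl h, true)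
          rw [this]; exact h2.symm
      · intro v _ hv
        split_ifs with hc
        · rw [hsg, MonoidAlgebra.coeff_single, Finsupp.single_apply, if_neg]
          intro he
          exact hv (hu' 0 k0 v hc.1 hc.2.2 he).2.2
        · simp
      · simp
      · intro k _ hk
        refine Finset.sum_eq_zero fun v _ => ?_
        split_ifs with hc
        · rw [hsg, MonoidAlgebra.coeff_single, Finsupp.single_apply, if_neg]
          intro he
          exact hk (hu' 0 k v hc.1 hc.2.2 he).2.1
        · simp
      · simp
      · intro q _ hq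
        refine Finset.sum_eq_zero fun k _ => Finset.sum_eq_zero fun v _ => ?_
        split_ifs with hc
        · rw [hsg, MonoidAlgebra.coeff_single, Finsupp.single_apply, if_neg]
          intro he
          exact hq (hu' q k v hc.1 hc.2.2 he).1
        · simp
      · simp
    have e1 : ∀ k : Fin 4, gw A [((Sum.inl k : L74), false)] = (t A k)⁻¹ :=
      fun k => Dev.gw_hinv A (Sum.inl k, true)
    by_cases hc : (A.st (Sum.inl 1, false) p1).isSome
    · -- `{1,2,3}`: use `h = 3`
      obtain ⟨v1, hv1⟩ := Option.isSome_iff_exists.1 (hT.t123 p1 hc (by rw [hp1']; rfl))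
      have hv1' : A.st (Sum.inl 3, true) v1 = some p1 := A.symm _ _ _ hv1
      have hr : A.read [((Sum.inl 1 : L74), false), (Sum.inl 2, true), (Sum.inl 3, false)] o =
          some v1 := by
        simp only [PAct.read, ha0, Option.bind_some, hp1, hv1]
      refine key 3 (by decide) 1 (by simp [inc74]) v1 ((htau v1 3).2 (by rw [hv1']; rfl))
        ⟨_, hr⟩ ?_ ?_
      · have h1 : γ' v1 = (y A 0)⁻¹ * ((t A 1)⁻¹ * t A 2 * (t A 3)⁻¹) := by
          simp only [hγ', hγw _ _ _ hr, hγo o rfl, one_mul]
          rw [Dev.gw_cons, Dev.gw_cons A (Sum.inl 2, true), e1, e1, ← mul_assoc]; rfl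
        rw [h1]; group
      · intro q k v p hi hp he
        obtain ⟨hq, h2 | h2⟩ := solve A o hT hms 3 k q (by decide) hi p v hp he
        · exact absurd h2.2.1 (by decide)
        · refine ⟨hq, h2.1, ?_⟩
          have := h2.2
          rw [hr] at this
          exact (Option.some_inj.1 this).symm
    · -- `1 ∉ type (p1)`: use `h = 1`
      have hr : A.read [((Sum.inl 1 : L74), false)] o = some a0 := by
        rw [Dev.read_single, ha0]
      refine key 1 (by decide) 2 (by simp [inc74]) a0 hhub0 hcn0 ?_ ?_
      · have h1 : γ' a0 = (y A 0)⁻¹ * (t A 1)⁻¹ := by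
          simp only [hγ', hγw _ _ _ hr, hγo o rfl, one_mul, e1]
        rw [h1]; group
      · intro q k v p hi hp he
        obtain ⟨hq, h2 | h2⟩ := solve A o hT hms 1 k q (by decide) hi p v hp he
        · refine ⟨hq, h2.1, ?_⟩
          have := h2.2.2
          rw [hr] at this
          exact (Option.some_inj.1 this).symm
        · exfalso
          have h3 := h2.2
          simp only [PAct.read, ha0, Option.bind_some, hp1] at h3
          apply hc
          cases hx : A.st (Sum.inl 1, false) p1 with
          | none => rw [hx] at h3; simp at h3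
          | some z => rfl

end Crest.Agent.R177
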