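import Crest.Agent.R177.Asph
import Crest.Agent.R177.FinPres
import Crest.Agent.R177.TorsionFree
import Crest.Agent.R177.TopFinal
import Crest.Agent.R177.Local
import Crest.Agent.R177.Geom
import Crest.Agent.R177.Cut
import Crest.Agent.R177.Far
import Crest.Agent.R177.Design74
import Crest.Agent.R177.OneSided

/-!
# Row 184 (S0274): assembly (helper455)
-/

set_option autoImplicit false

open scoped Classical

namespace Crest.Agent.R177

open Crest.Agent.R199 (PAct)

theorem geomO (κ C P : ℝ) (n : ℕ) (hκ : 0 < κ) (hC : 0 < C) (hP : 0 < P) :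
    ∃ (L K D0 C' g₀ : ℕ) (η : ℝ), 0 < η ∧ ∀ (S V : Type) (A : PAct S V) (o : V) (g : ℕ), g₀ ≤ g →
      Girth A g → LocalIneqO A o K D0 (L * g) κ C (P * g) (η * g) → Iso A C' ∧
        (∀ w : List (S × Bool), w ≠ [] → FreeGroup.IsReduced w → w.length ≤ n → gw A w ≠ 1) ∧
        ∀ (c p : List (S × Bool)) (v : V), FreeGroup.IsReduced c → c.length ≤ n →
          A.read p o = some v → gw A (c ++ p) = 1 → A.read (FreeGroup.invRev c) o = some v :=
  Far.geomO_of geom
    (fun A v o g' K K' D0 L κ C P η a b c d e f h => cut A v o g' K K' D0 L κ C P η a b c d e f h)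
    κ C P n hκ hC hP

/-- MAIN -/
theorem main74 : ∃ (G : Type) (_ : Group G), Group.IsFinitelyPresented G ∧
    (∀ g : G, IsOfFinOrder g → g = 1) ∧
      Crest.Topology.HasFiniteClassifyingComplex G 2 ∧
      ∃ a b : MonoidAlgebra (ZMod 2) G, a * b = 1 ∧ b * a ≠ 1 := by
  obtain ⟨M, o, hM⟩ := design74
  obtain ⟨κ, C, P, hκ, hC, hP, hL⟩ := local_lemmaO M o
  obtain ⟨L, K, D0, C', g₀, η, hη, hG⟩ := geomO κ C P 5 hκ hC hP
  obtain ⟨g, hg, m, A, hA, hgir, hloc⟩ := hL L K D0 η hη g₀
  obtain ⟨hiso, hshort, hms⟩ := hG L74 (M.V m) A (o m) g hg hgir hloc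
  have : Finite (M.V m) := M.fin m
  have hasph := aspherical_of_iso A C' hiso
  exact ⟨Grp A, inferInstance, finitelyPresented A, torsionFree_of_aspherical A hasph,
    classifying_of_aspherical A hasph,
    one_sided A (o m) (hM m A hA)
      (fun w hw hr hl => hshort w hw hr (hl.trans (by norm_num))) hms⟩

end Crest.Agent.R177
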