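import Crest.Agent.R177.Defs

/-!
# Rows 177/184: from partial successor maps to frames (helper323)

`D` finite, `nx : D → Option D` injective partial successor. `exists_frame`: there are a `Frame F`
and `e : D ≃ F.Dart` with `F.Next (e x) (e y) ↔ nx x = some y`.
-/

set_option autoImplicit false

open scoped Classical

namespace Crest.Agent.R177.Mk

variable {D : Type}

/-- iterates of a partial map -/
def it (nx : D → Option D) : ℕ → D → Option D
  | 0, x => some x
  | n + 1, x => (it nx n x).bind nx

section it
variable {nx : D → Option D}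

@[simp] theorem it_zero (x : D) : it nx 0 x = some x := rfl

theorem it_succ (n : ℕ) (x : D) : it nx (n + 1) x = (it nx n x).bind nx := rfl

theorem it_add (m n : ℕ) (x : D) : it nx (m + n) x = (it nx m x).bind (it nx n) := by
  induction n with
  | zero => simp [it]
  | succ n ih =>
    rw [← Nat.add_assoc, it_succ, ih]
    cases h : it nx m x with
    | none => simp
    | some y => simp [it_succ]

theorem it_succ' (n : ℕ) (x : D) : it nx (n + 1) x = (nx x).bind (it nx n) := by
  rw [Nat.add_comm, it_add]
  simp [it]

theorem it_none_mono {m n : ℕ} (h : m ≤ n) {x : D} (hx : it nx m x = none) : it nx n x = none := by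
  obtain ⟨k, rfl⟩ := Nat.exists_eq_add_of_le h
  rw [it_add, hx]; rfl

variable (inj : ∀ x y z, nx x = some z → nx y = some z → x = y)

include inj in
/-- backwards cancellation -/
theorem it_cancel (n : ℕ) {x y z : D} (hx : it nx n x = some z) (hy : it nx n y = some z) :
    x = y := by
  induction n generalizing z with
  | zero => simp at hx hy; rw [hx, hy]
  | succ n ih =>
    rw [it_succ] at hx hy
    cases h1 : it nx n x with
    | none => simp [h1] at hx
    | some u =>
      cases h2 : it nx n y with
      | none => simp [h2] at hy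
      | some v =>
        simp only [h1, Option.bind_some] at hx
        simp only [h2, Option.bind_some] at hy
        have := inj _ _ _ hx hy
        subst this
        exact ih h1 h2

include inj in
theorem it_sub {m n : ℕ} {x y z : D} (h : m ≤ n) (hx : it nx n x = some z)
    (hy : it nx m y = some z) : it nx (n - m) x = some y := by
  obtain ⟨k, rfl⟩ := Nat.exists_eq_add_of_le h
  have e : m + k - m = k := by omega
  rw [e]
  rw [Nat.add_comm, it_add] at hx
  cases h1 : it nx k x with
  | none => simp [h1] at hx
  | some u =>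
    simp only [h1, Option.bind_some] at hx
    rw [it_cancel inj m hx hy]

/-- periodic -/
def Per (nx : D → Option D) (x : D) : Prop := ∃ n, 0 < n ∧ it nx n x = some x

theorem Per.mul {x : D} {n : ℕ} (h : it nx n x = some x) (k : ℕ) : it nx (k * n) x = some x := by
  induction k with
  | zero => simp
  | succ k ih => rw [Nat.add_mul, Nat.one_mul, it_add, ih]; simpa using h

include inj in
/-- a point from which a periodic point is reachable is reachable from it -/
theorem Per.back {x r : D} {n : ℕ} (hr : Per nx r) (h : it nx n x = some r) :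
    ∃ k, 0 < k ∧ it nx k r = some x := by
  obtain ⟨m, hm, hm'⟩ := hr
  have h1 := Per.mul hm' (n + 1)
  have h2 : n < (n + 1) * m := by nlinarith
  exact ⟨_, Nat.sub_pos_of_lt h2, it_sub inj h2.le h1 h⟩

include inj in
theorem Per.of_back {x r : D} {n : ℕ} (hr : Per nx r) (h : it nx n x = some r) : Per nx x := by
  obtain ⟨k, hk0, hk⟩ := Per.back inj hr h
  refine ⟨n + k, by omega, ?_⟩
  rw [it_add, h]; exact hk

theorem Per.of_forw {x r : D} {n : ℕ} (hr : Per nx r) (h : it nx n r = some x) : Per nx x := by
  obtain ⟨m, hm, hm'⟩ := hr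
  have h1 := Per.mul hm' (n + 1)
  have h2 : n < (n + 1) * m := by nlinarith
  -- it ((n+1)m - n) x = r
  have h3 : it nx ((n + 1) * m - n) x = some r := by
    have e : (n + 1) * m = n + ((n + 1) * m - n) := by omega
    rw [e, it_add, h] at h1
    exact h1
  refine ⟨((n + 1) * m - n) + n, by omega, ?_⟩
  rw [it_add, h3]; exact h

/-- roots: no predecessor, or minimal on a cycle -/
def Root (nx : D → Option D) (idx : D → ℕ) (r : D) : Prop :=
  (∀ y, nx y ≠ some r) ∨ (Per nx r ∧ ∀ k y, it nx k r = some y → idx r ≤ idx y)

include inj in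
theorem exists_root [Finite D] (idx : D → ℕ) (x : D) :
    ∃ r k, Root nx idx r ∧ it nx k r = some x := by
  by_cases hx : Per nx x
  · -- choose the minimal index on the cycle
    have hne : ∃ m, ∃ y k, it nx k x = some y ∧ idx y = m := ⟨_, x, 0, rfl, rfl⟩
    obtain ⟨y, k, h1, h2⟩ := Nat.find_spec hne
    have hy : Per nx y := Per.of_forw hx h1
    obtain ⟨j, _, hj⟩ := Per.back inj hy h1
    refine ⟨y, j, Or.inr ⟨hy, ?_⟩, hj⟩
    intro l z hz
    rw [h2]
    refine Nat.find_min' hne ⟨z, k + l, ?_, rfl⟩
    rw [it_add, h1]; exact hz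
  · -- go back as far as possible
    by_contra hcon
    push Not at hcon
    have key : ∀ n, ∃ y, it nx n y = some x := by
      intro n
      induction n with
      | zero => exact ⟨x, rfl⟩
      | succ n ih =>
        obtain ⟨y, hy⟩ := ih
        have h1 : ¬ Root nx idx y := fun h => hcon y n h hy
        have h2 : ∃ z, nx z = some y := by
          by_contra h3
          push Not at h3
          exact h1 (Or.inl h3)
        obtain ⟨z, hz⟩ := h2
        refine ⟨z, ?_⟩
        rw [it_succ', hz]; exact hy
    choose f hf using key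
    obtain ⟨i, j, hij, he⟩ := Finite.exists_ne_map_eq_of_infinite f
    wlog hlt : i < j generalizing i j
    · exact this j i hij.symm he.symm (lt_of_le_of_ne (not_lt.1 hlt) hij.symm)
    have h1 := hf j
    have h2 := hf i
    rw [← he] at h1
    -- it j (f i) = x, it i (f i) = x
    have e : j = i + (j - i) := by omega
    rw [e, it_add, h2] at h1
    exact hx ⟨j - i, by omega, h1⟩

include inj in
theorem it_sub_root {r x : D} {i j : ℕ} (hij : i ≤ j) (hj : it nx j r = some x)
    (hi : it nx i r = some x) : it nx (j - i) r = some r := by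
  have e : j = (j - i) + i := by omega
  rw [e, it_add] at hj
  cases h4 : it nx (j - i) r with
  | none => simp [h4] at hj
  | some u =>
    simp only [h4, Option.bind_some] at hj
    rw [it_cancel inj i hj hi]

include inj in
theorem stops [Finite D] (r : D) : ∃ n, 0 < n ∧ (it nx n r = none ∨ it nx n r = some r) := by
  by_contra hcon
  push Not at hcon
  have key : ∀ n, ∃ y, it nx n r = some y := by
    intro n
    rcases Nat.eq_zero_or_pos n with rfl | hn
    · exact ⟨r, rfl⟩
    · exact Option.ne_none_iff_exists'.1 (hcon n hn).1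
  choose f hf using key
  obtain ⟨i, j, hij, he⟩ := Finite.exists_ne_map_eq_of_infinite f
  wlog hlt : i < j generalizing i j
  · exact this j i hij.symm he.symm (lt_of_le_of_ne (not_lt.1 hlt) hij.symm)
  have h1 := hf j
  rw [← he] at h1
  exact (hcon (j - i) (by omega)).2 (it_sub_root inj hlt.le h1 (hf i))

/-- length of the component of a root -/
noncomputable def ln [Finite D] (inj : ∀ x y z, nx x = some z → nx y = some z → x = y) (r : D) :
    ℕ := Nat.find (stops inj r)

theorem ln_pos [Finite D] (r : D) : 0 < ln inj r := (Nat.find_spec (stops inj r)).1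

theorem ln_spec [Finite D] (r : D) : it nx (ln inj r) r = none ∨ it nx (ln inj r) r = some r :=
  (Nat.find_spec (stops inj r)).2

theorem ln_min [Finite D] {r : D} {n : ℕ} (h0 : 0 < n) (h : n < ln inj r) :
    it nx n r ≠ none ∧ it nx n r ≠ some r := by
  have := Nat.find_min (stops inj r) h
  push Not at this
  exact this h0

theorem ln_ne_none [Finite D] {r : D} {n : ℕ} (h : n < ln inj r) : it nx n r ≠ none := by
  rcases Nat.eq_zero_or_pos n with rfl | h0
  · simp
  · exact (ln_min inj h0 h).1

theorem it_inj_lt [Finite D] {r x : D} {i j : ℕ} (hj : j < ln inj r) (hi : it nx i r = some x)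
    (hj' : it nx j r = some x) (hij : i ≤ j) : i = j := by
  by_contra hne
  have hlt : i < j := lt_of_le_of_ne hij hne
  have h3 : it nx (j - i) r = some r := it_sub_root inj hij hj' hi
  exact (ln_min inj (n := j - i) (by omega) (by omega)).2 h3

include inj in
theorem root_unique [Finite D] {idx : D → ℕ} (hidx : Function.Injective idx) {r r' x : D}
    (hr : Root nx idx r) (hr' : Root nx idx r') {i j : ℕ} (hi : it nx i r = some x)
    (hj : it nx j r' = some x) : r = r' := by
  wlog hij : i ≤ j generalizing r r' i j
  · exact (this hr' hr hj hi (le_of_not_ge hij)).symm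
  -- it (j - i) r' = r
  have h1 : it nx (j - i) r' = some r := by
    have e : j = (j - i) + i := by omega
    rw [e, it_add] at hj
    cases h4 : it nx (j - i) r' with
    | none => simp [h4] at hj
    | some u =>
      simp only [h4, Option.bind_some] at hj
      rw [it_cancel inj i hj hi]
  rcases Nat.eq_zero_or_pos (j - i) with h0 | h0
  · rw [h0] at h1; simpa using h1.symm
  have hpred : ∃ y, nx y = some r := by
    have e : j - i = (j - i - 1) + 1 := by omega
    rw [e, it_succ] at h1
    cases h4 : it nx (j - i - 1) r' with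
    | none => simp [h4] at h1
    | some u =>
      simp only [h4, Option.bind_some] at h1
      exact ⟨u, h1⟩
  rcases hr with hr | ⟨hp, hmin⟩
  · obtain ⟨y, hy⟩ := hpred
    exact absurd hy (hr y)
  have hp' : Per nx r' := Per.of_back inj hp h1
  rcases hr' with hr' | ⟨_, hmin'⟩
  · obtain ⟨n, hn, hn'⟩ := hp'
    have e : n = (n - 1) + 1 := by omega
    rw [e, it_succ] at hn'
    cases h4 : it nx (n - 1) r' with
    | none => simp [h4] at hn'
    | some u =>
      simp only [h4, Option.bind_some] at hn'
      exact absurd hn' (hr' u)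
  · obtain ⟨k, _, hk⟩ := Per.back inj hp h1
    exact hidx (le_antisymm (hmin k _ hk) (hmin' _ _ h1))

end it

/-- **Frames from partial successor maps.** -/
theorem exists_frame [Finite D] (nx : D → Option D)
    (inj : ∀ x y z, nx x = some z → nx y = some z → x = y) :
    ∃ (F : Frame) (e : D ≃ F.Dart),
      (∀ x y, F.Next (e x) (e y) ↔ nx x = some y) ∧
      (∀ i, F.cl i = false ↔ ∀ x, nx x ≠ some (e.symm ⟨i, ⟨0, F.len_pos i⟩⟩)) ∧
      (∀ i, F.cl i = false ↔
        nx (e.symm ⟨i, ⟨F.len i - 1, Nat.sub_lt (F.len_pos i) one_pos⟩⟩) = none) := by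
  let idx : D → ℕ := fun x => (Finite.equivFin D x).val
  have hidx : Function.Injective idx := fun x y h => (Finite.equivFin D).injective (Fin.ext h)
  let R := {r : D // Root nx idx r}
  let eR : R ≃ Fin (Nat.card R) := Finite.equivFin R
  let F : Frame :=
    { K := Nat.card R
      len := fun i => ln inj (eR.symm i).1
      cl := fun i => decide (it nx (ln inj (eR.symm i).1) (eR.symm i).1 = some (eR.symm i).1)
      len_pos := fun i => ln_pos inj _ }
  have hsome : ∀ a : F.Dart, ∃ y, it nx a.2.val (eR.symm a.1).1 = some y := fun a =>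
    Option.ne_none_iff_exists'.1 (ln_ne_none inj a.2.isLt)
  choose f hf using hsome
  have finj : Function.Injective f := by
    intro a b hab
    have h1 := hf a
    have h2 := hf b
    rw [← hab] at h2
    have h3 := root_unique inj hidx (eR.symm a.1).2 (eR.symm b.1).2 h1 h2
    have h4 : a.1 = b.1 := eR.symm.injective (Subtype.ext h3)
    obtain ⟨i, j⟩ := a
    obtain ⟨i', j'⟩ := b
    simp only at h4
    subst h4
    have h5 : j.val = j'.val := by
      rcases le_total j.val j'.val with h | h
      · exact it_inj_lt inj j'.isLt h1 h2 h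
      · exact (it_inj_lt inj j.isLt h2 h1 h).symm
    rw [Fin.ext h5]
  have fsurj : Function.Surjective f := by
    intro x
    obtain ⟨r, k, hr, hk⟩ := exists_root inj idx x
    have hk' : ∃ k, it nx k r = some x := ⟨k, hk⟩
    have hlt : Nat.find hk' < ln inj r := by
      by_contra hcon
      push Not at hcon
      have h1 := Nat.find_spec hk'
      rcases ln_spec inj r with h2 | h2
      · rw [it_none_mono hcon h2] at h1; cases h1
      · obtain ⟨m, hm⟩ := Nat.exists_eq_add_of_le hcon
        rw [hm, it_add, h2] at h1
        exact Nat.find_min hk' (m := m) (by have := ln_pos inj r; omega) h1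
    refine ⟨⟨eR ⟨r, hr⟩, ⟨Nat.find hk', ?_⟩⟩, ?_⟩
    · show _ < ln inj (eR.symm (eR ⟨r, hr⟩)).1
      simpa using hlt
    · have h1 := hf ⟨eR ⟨r, hr⟩, ⟨Nat.find hk', by
        show _ < ln inj (eR.symm (eR ⟨r, hr⟩)).1
        simpa using hlt⟩⟩
      simp only [Equiv.symm_apply_apply] at h1
      rw [Nat.find_spec hk'] at h1
      exact (Option.some.inj h1).symm
  have hnext : ∀ a b : F.Dart, F.Next a b ↔ nx (f a) = some (f b) := by
    intro a b
    constructor
    · rintro ⟨h1, h2⟩
      have ha : it nx (a.2.val + 1) (eR.symm a.1).1 = nx (f a) := by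
        rw [it_succ, hf a]; rfl
      rw [← ha]
      rcases h2 with h2 | ⟨h2, h3, h4⟩
      · rw [← h2, h1]; exact hf b
      · have h5 := hf b
        rw [h2, it_zero] at h5
        rw [h3]
        have h6 := of_decide_eq_true h4
        show it nx (ln inj (eR.symm a.1).1) _ = _
        rw [h6, h1]
        exact h5
    · intro h
      have ha : it nx (a.2.val + 1) (eR.symm a.1).1 = some (f b) := by
        rw [it_succ, hf a]; exact h
      by_cases hlt : a.2.val + 1 < F.len a.1
      · have h1 := hf ⟨a.1, ⟨a.2.val + 1, hlt⟩⟩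
        have h2 : f ⟨a.1, ⟨a.2.val + 1, hlt⟩⟩ = f b := Option.some.inj (h1.symm.trans ha)
        have h3 := finj h2
        rw [← h3]
        exact ⟨rfl, Or.inl rfl⟩
      · have hlen : a.2.val + 1 = F.len a.1 := by
          have := a.2.isLt
          omega
        rw [hlen] at ha
        rcases ln_spec inj (eR.symm a.1).1 with h2 | h2
        · have h3 : it nx (ln inj (eR.symm a.1).1) (eR.symm a.1).1 = some (f b) := ha
          rw [h2] at h3; cases h3
        · have h3 : it nx (ln inj (eR.symm a.1).1) (eR.symm a.1).1 = some (f b) := ha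
          have h4 := hf ⟨a.1, ⟨0, F.len_pos a.1⟩⟩
          rw [it_zero] at h4
          have h5 : f ⟨a.1, ⟨0, F.len_pos a.1⟩⟩ = f b := by
            rw [h2] at h3
            exact Option.some.inj (h4.symm.trans h3)
          have h6 := finj h5
          rw [← h6]
          exact ⟨rfl, Or.inr ⟨rfl, hlen, decide_eq_true h2⟩⟩
  let e : F.Dart ≃ D := Equiv.ofBijective f ⟨finj, fsurj⟩
  have he : ∀ a, e a = f a := fun _ => rfl
  refine ⟨F, e.symm, ?_, ?_, ?_⟩
  · intro x y
    rw [hnext, ← he, ← he, Equiv.apply_symm_apply, Equiv.apply_symm_apply]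
  · intro i
    have h0 : e.symm.symm ⟨i, ⟨0, F.len_pos i⟩⟩ = f ⟨i, ⟨0, F.len_pos i⟩⟩ := rfl
    rw [h0]
    constructor
    · intro hcl x hx
      obtain ⟨a, rfl⟩ := fsurj x
      have h1 := (hnext _ _).2 hx
      obtain ⟨h2, h3 | ⟨_, _, h4⟩⟩ := h1
      · simp at h3
      · rw [h2] at h4
        rw [hcl] at h4
        cases h4
    · intro h
      by_contra hcl
      have hcl' : F.cl i = true := by simpa using hcl
      refine h (f ⟨i, ⟨F.len i - 1, Nat.sub_lt (F.len_pos i) one_pos⟩⟩) ((hnext _ _).1 ?_)
      refine ⟨rfl, Or.inr ⟨rfl, ?_, hcl'⟩⟩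
      show F.len i - 1 + 1 = F.len i
      have := F.len_pos i
      omega
  · intro i
    have h0 : e.symm.symm ⟨i, ⟨F.len i - 1, Nat.sub_lt (F.len_pos i) one_pos⟩⟩ =
      f ⟨i, ⟨F.len i - 1, Nat.sub_lt (F.len_pos i) one_pos⟩⟩ := rfl
    rw [h0]
    constructor
    · intro hcl
      by_contra hne
      obtain ⟨y, hy⟩ := Option.ne_none_iff_exists'.1 hne
      obtain ⟨b, rfl⟩ := fsurj y
      obtain ⟨h2, h3 | ⟨_, _, h4⟩⟩ := (hnext _ _).2 hy
      · have h5 := b.2.isLt
        obtain ⟨b1, b2⟩ := b
        simp only at h2
        subst h2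
        simp only at h3 h5
        have := F.len_pos i
        omega
      · simp only at h4
        rw [hcl] at h4
        cases h4
    · intro h
      by_contra hcl
      have hcl' : F.cl i = true := by simpa using hcl
      have h1 : nx (f ⟨i, ⟨F.len i - 1, Nat.sub_lt (F.len_pos i) one_pos⟩⟩) =
          some (f ⟨i, ⟨0, F.len_pos i⟩⟩) := (hnext _ _).1 ⟨rfl, Or.inr ⟨rfl, by
            show F.len i - 1 + 1 = F.len i
            have := F.len_pos i
            omega, hcl'⟩⟩
      rw [h] at h1
      cases h1

end Crest.Agent.R177.Mk
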