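import Mathlib

set_option autoImplicit false
set_option linter.unusedSectionVars false

namespace Crest.Agent.R177.Omega

open Finset

variable {S V : Type} [Fintype S] [DecidableEq S] [Fintype V] [DecidableEq V]

/-- inverse half-edge label -/
def hinv (h : S × Bool) : S × Bool := (h.1, !h.2)

@[simp] lemma hinv_hinv (h : S × Bool) : hinv (hinv h) = h := by
  simp [hinv]

lemma hinv_ne (h : S × Bool) : hinv h ≠ h := by
  rcases h with ⟨s, b⟩; cases b <;> simp [hinv]

/-- folded labelled graphs with prescribed sources and targets of each letter -/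
abbrev Gam (src tgt : S → Finset V) := (s : S) → (src s ≃ tgt s)

variable {src tgt : S → Finset V}

/-- `E b h x y`: there is a dart labelled `h` from `x` to `y`. -/
def E (b : Gam src tgt) (h : S × Bool) (x y : V) : Prop :=
  if h.2 then ∃ hx : x ∈ src h.1, (b h.1 ⟨x, hx⟩ : V) = y
  else ∃ hy : y ∈ src h.1, (b h.1 ⟨y, hy⟩ : V) = x

lemma E_true (b : Gam src tgt) (s : S) (x y : V) :
    E b (s, true) x y ↔ ∃ hx : x ∈ src s, (b s ⟨x, hx⟩ : V) = y := by
  simp [E]

lemma E_false (b : Gam src tgt) (s : S) (x y : V) :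
    E b (s, false) x y ↔ E b (s, true) y x := by
  simp [E]

lemma E_hinv (b : Gam src tgt) (h : S × Bool) (x y : V) :
    E b (hinv h) x y ↔ E b h y x := by
  rcases h with ⟨s, c⟩
  cases c
  · simp only [hinv, Bool.not_false]
    rw [E_false]
  · simp only [hinv, Bool.not_true]
    rw [E_false]

lemma E_det {b : Gam src tgt} {h : S × Bool} {x y z : V} (h1 : E b h x y) (h2 : E b h x z) :
    y = z := by
  rcases h with ⟨s, c⟩
  cases c
  · rw [E_false, E_true] at h1 h2
    obtain ⟨hy, h1⟩ := h1
    obtain ⟨hz, h2⟩ := h2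
    have : b s ⟨y, hy⟩ = b s ⟨z, hz⟩ := Subtype.ext (h1.trans h2.symm)
    have := (b s).injective this
    exact congrArg Subtype.val this
  · rw [E_true] at h1 h2
    obtain ⟨hy, h1⟩ := h1
    obtain ⟨hz, h2⟩ := h2
    exact h1.symm.trans h2

/-- walks -/
def W (b : Gam src tgt) : V → List (S × Bool) → V → Prop
  | x, [], y => x = y
  | x, h :: u, y => ∃ z, E b h x z ∧ W b z u y

@[simp] lemma W_nil (b : Gam src tgt) (x y : V) : W b x [] y ↔ x = y := Iff.rfl

@[simp] lemma W_cons (b : Gam src tgt) (x y : V) (h : S × Bool) (u : List (S × Bool)) :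
    W b x (h :: u) y ↔ ∃ z, E b h x z ∧ W b z u y := Iff.rfl

lemma W_append (b : Gam src tgt) (x y : V) (u v : List (S × Bool)) :
    W b x (u ++ v) y ↔ ∃ z, W b x u z ∧ W b z v y := by
  induction u generalizing x with
  | nil => simp
  | cons h u ih =>
    simp only [List.cons_append, W_cons]
    constructor
    · rintro ⟨z, hz, hw⟩
      obtain ⟨t, ht, hv⟩ := (ih z).1 hw
      exact ⟨t, ⟨z, hz, ht⟩, hv⟩
    · rintro ⟨t, ⟨z, hz, ht⟩, hv⟩
      exact ⟨z, hz, (ih z).2 ⟨t, ht, hv⟩⟩

/-- inverse word -/
def winv (u : List (S × Bool)) : List (S × Bool) := (u.map hinv).reverse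

@[simp] lemma length_winv (u : List (S × Bool)) : (winv u).length = u.length := by simp [winv]

lemma W_winv (b : Gam src tgt) (x y : V) (u : List (S × Bool)) :
    W b x (winv u) y ↔ W b y u x := by
  induction u generalizing x y with
  | nil => simp [winv, eq_comm]
  | cons h u ih =>
    have : winv (h :: u) = winv u ++ [hinv h] := by simp [winv]
    rw [this, W_append]
    simp only [W_cons, W_nil]
    constructor
    · rintro ⟨z, hz, t, ht, rfl⟩
      exact ⟨z, (E_hinv b h z t).1 ht, (ih x z).1 hz⟩
    · rintro ⟨z, hz, hw⟩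
      exact ⟨z, (ih x z).2 hw, y, (E_hinv b h z y).2 hz, rfl⟩

/-- reduced words -/
def Red (u : List (S × Bool)) : Prop := List.IsChain (fun a c => c ≠ hinv a) u

/-- no reduced closed walk of length `< t` -/
def NS (b : Gam src tgt) (t : ℕ) : Prop :=
  ∀ x u, u ≠ [] → Red u → u.length < t → ¬ W b x u x

lemma NS.mono {b : Gam src tgt} {t t' : ℕ} (h : NS b t) (htt : t' ≤ t) : NS b t' :=
  fun x u h1 h2 h3 => h x u h1 h2 (lt_of_lt_of_le h3 htt)

/-- switching at letter `s` -/
def sw (b : Gam src tgt) (s : S) (v v' : src s) : Gam src tgt :=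
  Function.update b s ((Equiv.swap v v').trans (b s))

section Switch

variable (b : Gam src tgt) (s : S) (v v' : src s)

/-- special darts -/
def Sp (h : S × Bool) (x : V) : Prop :=
  h.1 = s ∧ ((h.2 = true ∧ (x = v ∨ x = v')) ∨ (h.2 = false ∧ (x = b s v ∨ x = b s v')))

lemma E_sw_of_not_Sp {h : S × Bool} {x y : V} (hn : ¬ Sp b s v v' h x) :
    E (sw b s v v') h x y ↔ E b h x y := by
  rcases h with ⟨r, c⟩
  by_cases hr : r = s
  · subst hr
    cases c
    · have h1 : x ≠ b r v := fun hx => hn ⟨rfl, Or.inr ⟨rfl, Or.inl hx⟩⟩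
      have h2 : x ≠ b r v' := fun hx => hn ⟨rfl, Or.inr ⟨rfl, Or.inr hx⟩⟩
      simp only [E, sw, Bool.false_eq_true, if_false, Function.update_self, Equiv.trans_apply]
      constructor
      · rintro ⟨hy, he⟩
        refine ⟨hy, ?_⟩
        by_cases e1 : (⟨y, hy⟩ : src r) = v
        · rw [e1, Equiv.swap_apply_left] at he; exact absurd he.symm h2
        by_cases e2 : (⟨y, hy⟩ : src r) = v'
        · rw [e2, Equiv.swap_apply_right] at he; exact absurd he.symm h1
        rwa [Equiv.swap_apply_of_ne_of_ne e1 e2] at he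
      · rintro ⟨hy, he⟩
        refine ⟨hy, ?_⟩
        have e1 : (⟨y, hy⟩ : src r) ≠ v := fun e => h1 (by rw [← e, he])
        have e2 : (⟨y, hy⟩ : src r) ≠ v' := fun e => h2 (by rw [← e, he])
        rwa [Equiv.swap_apply_of_ne_of_ne e1 e2]
    · have h1 : x ≠ v := fun hx => hn ⟨rfl, Or.inl ⟨rfl, Or.inl hx⟩⟩
      have h2 : x ≠ v' := fun hx => hn ⟨rfl, Or.inl ⟨rfl, Or.inr hx⟩⟩
      simp only [E, sw, if_true, Function.update_self, Equiv.trans_apply]
      constructor
      · rintro ⟨hy, he⟩
        refine ⟨hy, ?_⟩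
        have e1 : (⟨x, hy⟩ : src r) ≠ v := fun e => h1 (congrArg Subtype.val e)
        have e2 : (⟨x, hy⟩ : src r) ≠ v' := fun e => h2 (congrArg Subtype.val e)
        rwa [Equiv.swap_apply_of_ne_of_ne e1 e2] at he
      · rintro ⟨hy, he⟩
        refine ⟨hy, ?_⟩
        have e1 : (⟨x, hy⟩ : src r) ≠ v := fun e => h1 (congrArg Subtype.val e)
        have e2 : (⟨x, hy⟩ : src r) ≠ v' := fun e => h2 (congrArg Subtype.val e)
        rwa [Equiv.swap_apply_of_ne_of_ne e1 e2]
  · have : sw b s v v' r = b r := by simp [sw, Function.update_of_ne hr]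
    simp only [E, this]

lemma sw_apply_left : sw b s v v' s v = b s v' := by simp [sw]
lemma sw_apply_right : sw b s v v' s v' = b s v := by simp [sw]

/-- the crossing darts -/
lemma E_sw_of_Sp (hvv : v ≠ v') {h : S × Bool} {x y : V} (hs : Sp b s v v' h x)
    (he : E (sw b s v v') h x y) :
    (h = (s, true) ∧ x = v ∧ y = b s v') ∨ (h = (s, true) ∧ x = v' ∧ y = b s v) ∨
    (h = (s, false) ∧ x = b s v ∧ y = v') ∨ (h = (s, false) ∧ x = b s v' ∧ y = v) := by
  rcases h with ⟨r, c⟩
  obtain ⟨hr, hs⟩ := hs
  simp only at hr hs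
  subst hr
  rcases hs with ⟨rfl, hx | hx⟩ | ⟨rfl, hx | hx⟩
  · left
    rw [E_true] at he
    obtain ⟨hx', he⟩ := he
    have : (⟨x, hx'⟩ : src r) = v := Subtype.ext hx
    rw [this, sw_apply_left] at he
    exact ⟨rfl, hx, he.symm⟩
  · right; left
    rw [E_true] at he
    obtain ⟨hx', he⟩ := he
    have : (⟨x, hx'⟩ : src r) = v' := Subtype.ext hx
    rw [this, sw_apply_right] at he
    exact ⟨rfl, hx, he.symm⟩
  · right; right; left
    refine ⟨rfl, hx, ?_⟩
    rw [E_false] at he
    have h2 : E (sw b r v v') (r, true) v' x := by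
      rw [E_true]; exact ⟨v'.2, by rw [hx]; exact congrArg Subtype.val (sw_apply_right b r v v')⟩
    have h3 : E (sw b r v v') (r, false) x y := by rw [E_false]; exact he
    have h4 : E (sw b r v v') (r, false) x v' := by rw [E_false]; exact h2
    exact E_det h3 h4
  · right; right; right
    refine ⟨rfl, hx, ?_⟩
    rw [E_false] at he
    have h2 : E (sw b r v v') (r, true) v x := by
      rw [E_true]; exact ⟨v.2, by rw [hx]; exact congrArg Subtype.val (sw_apply_left b r v v')⟩
    have h3 : E (sw b r v v') (r, false) x y := by rw [E_false]; exact he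
    have h4 : E (sw b r v v') (r, false) x v := by rw [E_false]; exact h2
    exact E_det h3 h4

/-- clean walks: avoid the special darts -/
def CW : V → List (S × Bool) → V → Prop
  | x, [], y => x = y
  | x, h :: u, y => ¬ Sp b s v v' h x ∧ ∃ z, E b h x z ∧ CW z u y

@[simp] lemma CW_nil (x y : V) : CW b s v v' x [] y ↔ x = y := Iff.rfl
@[simp] lemma CW_cons (x y : V) (h : S × Bool) (u : List (S × Bool)) :
    CW b s v v' x (h :: u) y ↔ ¬ Sp b s v v' h x ∧ ∃ z, E b h x z ∧ CW b s v v' z u y := Iff.rfl

lemma CW.toW {x y : V} {u : List (S × Bool)} (h : CW b s v v' x u y) : W b x u y := by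
  induction u generalizing x with
  | nil => exact h
  | cons a u ih =>
    obtain ⟨_, z, hz, hw⟩ := h
    exact ⟨z, hz, ih hw⟩

lemma W_sw_decomp {x y : V} {u : List (S × Bool)} (h : W (sw b s v v') x u y) :
    CW b s v v' x u y ∨ ∃ u1 a u2 q p, u = u1 ++ a :: u2 ∧ CW b s v v' x u1 q ∧
      Sp b s v v' a q ∧ E (sw b s v v') a q p ∧ W (sw b s v v') p u2 y := by
  induction u generalizing x with
  | nil => exact Or.inl h
  | cons a u ih =>
    obtain ⟨z, hz, hw⟩ := h
    by_cases hs : Sp b s v v' a x
    · right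
      exact ⟨[], a, u, x, z, rfl, rfl, hs, hz, hw⟩
    · have hz' : E b a x z := (E_sw_of_not_Sp b s v v' hs).1 hz
      rcases ih hw with hc | ⟨u1, a', u2, q, p, rfl, h1, h2, h3, h4⟩
      · left; exact ⟨hs, z, hz', hc⟩
      · right
        exact ⟨a :: u1, a', u2, q, p, rfl, ⟨hs, z, hz', h1⟩, h2, h3, h4⟩

/-- `far t`: no walk of length `< t` between the two edges -/
def Far (t : ℕ) : Prop :=
  ∀ x y : V, (x = v ∨ x = b s v) → (y = v' ∨ y = b s v') →
    ∀ u : List (S × Bool), u.length < t → ¬ W b x u y

lemma Far.symm' {b : Gam src tgt} {s : S} {v v' : src s} {t : ℕ} (hf : Far b s v v' t) {x y : V}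
    (hx : x = v ∨ x = b s v) (hy : y = v' ∨ y = b s v') {u : List (S × Bool)}
    (hu : u.length < t) : ¬ W b y u x := by
  intro hw
  exact hf x y hx hy (winv u) (by simpa using hu) ((W_winv b x y u).2 hw)

lemma red_of_infix {u1 u2 u3 : List (S × Bool)} (h : Red (u1 ++ u2 ++ u3)) : Red u2 := by
  unfold Red at *
  exact (List.isChain_append.1 (List.isChain_append.1 h).1).2.1

theorem switch_clean {t : ℕ} (hns : NS b t) (hf : Far b s v v' t) {x : V}
    {u : List (S × Bool)} (hu : Red u) (hlen : u.length ≤ t)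
    (hw : W (sw b s v v') x u x) : CW b s v v' x u x := by
  rcases Nat.eq_zero_or_pos t with ht | ht
  · subst ht
    have : u = [] := List.length_eq_zero_iff.1 (Nat.le_zero.1 hlen)
    subst this; simp
  have hvv : v ≠ v' := by
    intro h
    exact hf v v' (Or.inl rfl) (Or.inl rfl) [] (by simpa using ht) (by simp [h])
  have hA : ∀ x y : V, (x = v ∨ x = b s v) → (y = v' ∨ y = b s v') → x ≠ y := by
    intro x y hx hy hxy
    exact hf x y hx hy [] (by simpa using ht) (by simpa using hxy)
  rcases W_sw_decomp b s v v' hw with hc | ⟨u1, a, u2, q, p, rfl, h1, h2, h3, h4⟩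
  · exact hc
  exfalso
  have hcross := E_sw_of_Sp b s v v' hvv h2 h3
  -- sides
  have hside : ((q = v ∨ q = b s v) ∧ (p = v' ∨ p = b s v')) ∨
      ((q = v' ∨ q = b s v') ∧ (p = v ∨ p = b s v)) := by
    rcases hcross with ⟨_, rfl, rfl⟩ | ⟨_, rfl, rfl⟩ | ⟨_, rfl, rfl⟩ | ⟨_, rfl, rfl⟩ <;> simp
  simp only [List.length_append, List.length_cons] at hlen
  rcases W_sw_decomp b s v v' h4 with hc | ⟨u3, a', u4, q', p', rfl, g1, g2, g3, g4⟩
  · -- single crossing
    have hw' : W b p (u2 ++ u1) q :=
      (W_append b p q u2 u1).2 ⟨x, CW.toW b s v v' hc, CW.toW b s v v' h1⟩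
    have hl : (u2 ++ u1).length < t := by simp only [List.length_append]; omega
    rcases hside with ⟨hq, hp⟩ | ⟨hq, hp⟩
    · exact hf.symm' hq hp hl hw'
    · exact hf p q hp hq _ hl hw'
  · have hw3 : W b p u3 q' := CW.toW b s v v' g1
    simp only [List.length_append, List.length_cons] at hlen
    have hl3 : u3.length < t := by omega
    have hl3' : u3.length + 1 < t := by omega
    have hcross' := E_sw_of_Sp b s v v' hvv g2 g3
    have hred3 : Red u3 := by
      have : u1 ++ a :: (u3 ++ a' :: u4) = (u1 ++ [a]) ++ u3 ++ (a' :: u4) := by simp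
      rw [this] at hu
      exact red_of_infix hu
    have hred4 : Red (a :: u3) := by
      have : u1 ++ a :: (u3 ++ a' :: u4) = u1 ++ (a :: u3) ++ (a' :: u4) := by simp
      rw [this] at hu
      exact red_of_infix hu
    have hred5 : Red (a :: (u3 ++ [a'])) := by
      have : u1 ++ a :: (u3 ++ a' :: u4) = u1 ++ (a :: (u3 ++ [a'])) ++ u4 := by simp
      rw [this] at hu
      exact red_of_infix hu
    -- key: same side
    have key : (a' = hinv a ∧ q' = p) ∨ (a' = a ∧ E b a q' p) := by
      have hside' : ∀ y, (q' = y) → ((p = v ∨ p = b s v) → ¬ (y = v' ∨ y = b s v')) ∧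
          ((p = v' ∨ p = b s v') → ¬ (y = v ∨ y = b s v)) := by
        rintro y rfl
        exact ⟨fun hp hy => hf p q' hp hy u3 hl3 hw3, fun hp hy => hf.symm' hy hp hl3 hw3⟩
      have hE1 : E b (s, true) v (b s v) := by rw [E_true]; exact ⟨v.2, rfl⟩
      have hE2 : E b (s, true) v' (b s v') := by rw [E_true]; exact ⟨v'.2, rfl⟩
      have hE3 : E b (s, false) (b s v) v := by rw [E_false]; exact hE1
      have hE4 : E b (s, false) (b s v') v' := by rw [E_false]; exact hE2
      rcases hcross with ⟨rfl, _, hp⟩ | ⟨rfl, _, hp⟩ | ⟨rfl, _, hp⟩ | ⟨rfl, _, hp⟩ <;>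
      rcases hcross' with ⟨rfl, hq, _⟩ | ⟨rfl, hq, _⟩ | ⟨rfl, hq, _⟩ | ⟨rfl, hq, _⟩ <;>
      first
        | exact Or.inl ⟨rfl, hq.trans hp.symm⟩
        | exact Or.inr ⟨rfl, by rw [hq, hp]; assumption⟩
        | exact absurd (by simp : (q' = q')) (by
            have := hside' q' rfl
            rw [hp, hq] at this
            simp at this)
    rcases key with ⟨ha, hq⟩ | ⟨ha, hE⟩
    · subst hq
      rcases List.eq_nil_or_concat u3 with h0 | _
      · subst h0
        simp only [List.nil_append] at hred5
        unfold Red at hred5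
        simp at hred5
        exact hred5 ha
      · by_cases h0 : u3 = []
        · subst h0
          simp only [List.nil_append] at hred5
          unfold Red at hred5
          simp at hred5
          exact hred5 ha
        · exact hns q' u3 h0 hred3 hl3 hw3
    · exact hns q' (a :: u3) (by simp) hred4 (by simpa using hl3') ⟨p, hE, hw3⟩

end Switch


section Ball

/-- nodes reachable by words of length `< t` -/
noncomputable def Ball (b : Gam src tgt) (x : V) (t : ℕ) : Finset V := by
  classical exact univ.filter (fun y => ∃ u : List (S × Bool), u.length < t ∧ W b x u y)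

lemma mem_Ball {b : Gam src tgt} {x y : V} {t : ℕ} :
    y ∈ Ball b x t ↔ ∃ u : List (S × Bool), u.length < t ∧ W b x u y := by
  classical
  simp [Ball]

lemma card_Ball (b : Gam src tgt) (x : V) (t : ℕ) :
    (Ball b x t).card ≤ (2 * Fintype.card S + 1) ^ t := by
  classical
  induction t generalizing x with
  | zero =>
    have : Ball b x 0 = ∅ := by
      ext y; simp [mem_Ball]
    simp [this]
  | succ t ih =>
    set f : S × Bool → Finset V := fun h =>
      if hz : ∃ z, E b h x z then Ball b hz.choose t else ∅ with hf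
    have hsub : Ball b x (t + 1) ⊆ {x} ∪ univ.biUnion f := by
      intro y hy
      obtain ⟨u, hu, hw⟩ := mem_Ball.1 hy
      cases u with
      | nil => simp at hw; simp [hw]
      | cons h u =>
        obtain ⟨z, hz, hw⟩ := hw
        have hex : ∃ z, E b h x z := ⟨z, hz⟩
        have hzz : hex.choose = z := E_det hex.choose_spec hz
        rw [mem_union, mem_biUnion]
        right
        refine ⟨h, mem_univ _, ?_⟩
        simp only [hf, dif_pos hex, hzz]
        exact mem_Ball.2 ⟨u, by simpa using hu, hw⟩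
    have hfc : ∀ h, (f h).card ≤ (2 * Fintype.card S + 1) ^ t := by
      intro h
      simp only [hf]
      split_ifs with hz
      · exact ih _
      · simp
    calc (Ball b x (t + 1)).card ≤ ({x} ∪ univ.biUnion f).card := card_le_card hsub
      _ ≤ ({x} : Finset V).card + (univ.biUnion f).card := card_union_le _ _
      _ ≤ 1 + ∑ h, (f h).card := by
          gcongr
          · simp
          · exact card_biUnion_le
      _ ≤ 1 + ∑ _h : S × Bool, (2 * Fintype.card S + 1) ^ t := by
          gcongr; exact hfc _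
      _ = 1 + 2 * Fintype.card S * (2 * Fintype.card S + 1) ^ t := by
          simp [Fintype.card_prod]; ring
      _ ≤ (2 * Fintype.card S + 1) ^ t + 2 * Fintype.card S * (2 * Fintype.card S + 1) ^ t := by
          gcongr; exact Nat.one_le_pow _ _ (by omega)
      _ = (2 * Fintype.card S + 1) ^ (t + 1) := by ring

lemma card_not_Far (b : Gam src tgt) (s : S) (v : src s) (t : ℕ)
    [DecidablePred fun v' => ¬ Far b s v v' t] :
    (univ.filter (fun v' : src s => ¬ Far b s v v' t)).card ≤
      4 * (2 * Fintype.card S + 1) ^ t := by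
  classical
  set B : Finset V := Ball b v t ∪ Ball b (b s v) t with hB
  have hBc : B.card ≤ 2 * (2 * Fintype.card S + 1) ^ t := by
    calc B.card ≤ (Ball b v t).card + (Ball b (b s v) t).card := card_union_le _ _
      _ ≤ (2 * Fintype.card S + 1) ^ t + (2 * Fintype.card S + 1) ^ t :=
          add_le_add (card_Ball _ _ _) (card_Ball _ _ _)
      _ = _ := by ring
  have hsub : univ.filter (fun v' : src s => ¬ Far b s v v' t) ⊆
      univ.filter (fun v' : src s => (v' : V) ∈ B) ∪
      univ.filter (fun v' : src s => ((b s v' : tgt s) : V) ∈ B) := by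
    intro v' hv'
    simp only [mem_filter, mem_univ, true_and, Far, not_forall, not_not] at hv'
    obtain ⟨x, y, hx, hy, u, hu, hw⟩ := hv'
    have hyB : y ∈ B := by
      rw [hB, mem_union]
      rcases hx with rfl | rfl
      · left; exact mem_Ball.2 ⟨u, hu, hw⟩
      · right; exact mem_Ball.2 ⟨u, hu, hw⟩
    rw [mem_union]
    rcases hy with rfl | rfl
    · left; simpa using hyB
    · right; simpa using hyB
  have h1 : (univ.filter (fun v' : src s => (v' : V) ∈ B)).card ≤ B.card := by
    refine card_le_card_of_injOn (fun v' => (v' : V)) ?_ ?_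
    · intro v' hv'; simpa using hv'
    · intro a _ c _ h; exact Subtype.ext h
  have h2 : (univ.filter (fun v' : src s => ((b s v' : tgt s) : V) ∈ B)).card ≤ B.card := by
    refine card_le_card_of_injOn (fun v' => ((b s v' : tgt s) : V)) ?_ ?_
    · intro v' hv'; simpa using hv'
    · intro a _ c _ h
      exact (b s).injective (Subtype.ext h)
  calc _ ≤ _ := card_le_card hsub
    _ ≤ _ := card_union_le _ _
    _ ≤ B.card + B.card := add_le_add h1 h2
    _ ≤ 4 * (2 * Fintype.card S + 1) ^ t := by omega

end Ball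

section Exist

lemma NS_one (b : Gam src tgt) : NS b 1 := by
  intro x u hu _ hl
  exact absurd (List.length_eq_zero_iff.1 (Nat.lt_one_iff.1 hl)) hu

/-- reduced closed words of length `t` -/
noncomputable def closedSet (b : Gam src tgt) (t : ℕ) : Finset (V × (Fin t → S × Bool)) := by
  classical exact univ.filter (fun p => Red (List.ofFn p.2) ∧ W b p.1 (List.ofFn p.2) p.1)

lemma mem_closedSet {b : Gam src tgt} {t : ℕ} {p : V × (Fin t → S × Bool)} :
    p ∈ closedSet b t ↔ Red (List.ofFn p.2) ∧ W b p.1 (List.ofFn p.2) p.1 := by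
  classical
  simp [closedSet]

lemma NS_switch {b : Gam src tgt} {s : S} {v v' : src s} {t : ℕ} (hns : NS b t)
    (hf : Far b s v v' t) : NS (sw b s v v') t := by
  intro x u hu0 hu hl hw
  exact hns x u hu0 hu hl (CW.toW b s v v' (switch_clean b s v v' hns hf hu hl.le hw))

theorem exists_NS (hcard : ∀ s, (src s).card = (tgt s).card) (t : ℕ)
    (hN : ∀ s, (src s).Nonempty → 4 * (2 * Fintype.card S + 1) ^ t < (src s).card) :
    ∃ b : Gam src tgt, NS b t := by
  classical
  have hne : Nonempty (Gam src tgt) :=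
    ⟨fun s => Fintype.equivOfCardEq (by simpa using hcard s)⟩
  suffices H : ∀ t', t' ≤ t → ∃ b : Gam src tgt, NS b t' from H t le_rfl
  intro t'
  induction t' with
  | zero => intro _; exact ⟨hne.some, (NS_one _).mono (Nat.zero_le _)⟩
  | succ r ih =>
    intro hr
    rcases Nat.eq_zero_or_pos r with h0 | hpos
    · subst h0; exact ⟨hne.some, NS_one _⟩
    obtain ⟨b0, hb0⟩ := ih (by omega)
    obtain ⟨b, hb, hmin⟩ := Finset.exists_min_image (univ.filter fun b : Gam src tgt => NS b r)
      (fun b => (closedSet b r).card) ⟨b0, by simpa using hb0⟩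
    simp only [mem_filter, mem_univ, true_and] at hb hmin
    refine ⟨b, ?_⟩
    by_contra hcon
    simp only [NS, not_forall, not_not] at hcon
    obtain ⟨x, u, hu0, hu, hl, hw⟩ := hcon
    have hlen : u.length = r := by
      by_contra hne'
      exact hb x u hu0 hu (by omega) hw
    subst hlen
    obtain ⟨h, u', rfl⟩ := List.exists_cons_of_ne_nil hu0
    obtain ⟨z, hz, hw'⟩ := id hw
    obtain ⟨s, c⟩ := h
    -- the edge
    obtain ⟨v, hv⟩ : ∃ v : src s, (c = true ∧ x = v) ∨ (c = false ∧ x = b s v) := by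
      cases c
      · rw [E_false, E_true] at hz
        obtain ⟨hz1, hz2⟩ := hz
        exact ⟨⟨z, hz1⟩, Or.inr ⟨rfl, hz2.symm⟩⟩
      · rw [E_true] at hz
        obtain ⟨hz1, hz2⟩ := hz
        exact ⟨⟨x, hz1⟩, Or.inl ⟨rfl, rfl⟩⟩
    set r := ((s, c) :: u').length with hrdef
    obtain ⟨v', hv'⟩ : ∃ v' : src s, Far b s v v' r := by
      by_contra hno
      push Not at hno
      have h1 := card_not_Far b s v r
      rw [Finset.filter_true_of_mem (fun v' _ => hno v')] at h1
      simp only [Finset.card_univ, Fintype.card_coe] at h1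
      have h2 := hN s ⟨v, v.2⟩
      have h3 : (2 * Fintype.card S + 1) ^ r ≤ (2 * Fintype.card S + 1) ^ t :=
        Nat.pow_le_pow_right (by omega) (by omega)
      omega
    have hns' : NS (sw b s v v') r := NS_switch hb hv'
    have hlt : (closedSet (sw b s v v') r).card < (closedSet b r).card := by
      apply card_lt_card
      have hclean : ∀ p ∈ closedSet (sw b s v v') r, CW b s v v' p.1 (List.ofFn p.2) p.1 := by
        intro p hp
        obtain ⟨h1, h2⟩ := mem_closedSet.1 hp
        exact switch_clean b s v v' hb hv' h1 (le_of_eq List.length_ofFn) h2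
      refine ⟨fun p hp => ?_, fun hsub => ?_⟩
      · exact mem_closedSet.2 ⟨(mem_closedSet.1 hp).1, CW.toW b s v v' (hclean p hp)⟩
      · have hp : (x, fun i => ((s, c) :: u').get i) ∈ closedSet b r := by
          rw [mem_closedSet]
          simp only [List.ofFn_get]
          exact ⟨hu, hw⟩
        have := hclean _ (hsub hp)
        simp only [List.ofFn_get] at this
        refine this.1 ?_
        refine ⟨rfl, ?_⟩
        rcases hv with ⟨rfl, rfl⟩ | ⟨rfl, rfl⟩
        · left; exact ⟨rfl, Or.inl rfl⟩
        · right; exact ⟨rfl, Or.inl rfl⟩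
    exact absurd (hmin _ hns') (by omega)

end Exist

section Count

/-- the set of graphs in Omega containing the edges `E0` -/
noncomputable def Om (src tgt : S → Finset V) (g : ℕ) (E0 : Finset (S × V × V)) :
    Finset (Gam src tgt) := by
  classical exact univ.filter (fun b => NS b g ∧ ∀ e ∈ E0, E b (e.1, true) e.2.1 e.2.2)

lemma mem_Om {g : ℕ} {E0 : Finset (S × V × V)} {b : Gam src tgt} :
    b ∈ Om src tgt g E0 ↔ NS b g ∧ ∀ e ∈ E0, E b (e.1, true) e.2.1 e.2.2 := by
  classical
  simp [Om]

lemma sw_sw (b : Gam src tgt) (s : S) (v v' : src s) : sw (sw b s v v') s v v' = b := by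
  funext r
  by_cases hr : r = s
  · subst hr
    ext x
    simp [sw]
  · simp [sw, Function.update_of_ne hr]

lemma Om_step (g : ℕ) (E1 : Finset (S × V × V)) (e : S × V × V) (he : e ∉ E1) (B : ℕ)
    (hB : 4 * (2 * Fintype.card S + 1) ^ g + E1.card ≤ B) :
    (Om src tgt g (insert e E1)).card * ((src e.1).card - B) ≤ (Om src tgt g E1).card := by
  classical
  obtain ⟨s, x, w⟩ := e
  simp only
  by_cases hx : x ∈ src s
  swap
  · have : Om src tgt g (insert (s, x, w) E1) = ∅ := by
      ext b
      simp only [mem_Om, mem_insert, forall_eq_or_imp, notMem_empty, iff_false]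
      rintro ⟨_, h, _⟩
      rw [E_true] at h
      exact hx h.1
    rw [this]; simp
  set v : src s := ⟨x, hx⟩ with hv
  let Good : Gam src tgt → Finset (src s) := fun b =>
    univ.filter (fun v' => Far b s v v' g ∧ ∀ y, (s, (v' : V), y) ∉ E1)
  have hGood : ∀ b, (src s).card - B ≤ (Good b).card := by
    intro b
    have hc : (univ.filter (fun v' : src s => ¬ (Far b s v v' g ∧ ∀ y, (s, (v' : V), y) ∉ E1))).card
        ≤ B := by
      have hsub : univ.filter (fun v' : src s => ¬ (Far b s v v' g ∧ ∀ y, (s, (v' : V), y) ∉ E1)) ⊆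
          univ.filter (fun v' : src s => ¬ Far b s v v' g) ∪
          univ.filter (fun v' : src s => ∃ y, (s, (v' : V), y) ∈ E1) := by
        intro v' hv'
        simp only [mem_filter, mem_univ, true_and, mem_union] at hv' ⊢
        by_contra hcon
        push Not at hcon
        exact hv' ⟨hcon.1, hcon.2⟩
      have h2 : (univ.filter (fun v' : src s => ∃ y, (s, (v' : V), y) ∈ E1)).card ≤ E1.card := by
        have : (univ.filter (fun v' : src s => ∃ y, (s, (v' : V), y) ∈ E1)).card ≤
            (E1.image (fun e => e.2.1)).card := by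
          refine card_le_card_of_injOn (fun v' => (v' : V)) ?_ ?_
          · intro v' hv'
            simp only [coe_filter, mem_univ, true_and, Set.mem_ofPred_eq] at hv'
            obtain ⟨y, hy⟩ := hv'
            simp only [coe_image, Set.mem_image, mem_coe]
            exact ⟨_, hy, rfl⟩
          · intro a _ c _ h; exact Subtype.ext h
        exact this.trans card_image_le
      calc _ ≤ _ := card_le_card hsub
        _ ≤ _ := card_union_le _ _
        _ ≤ _ := add_le_add (card_not_Far b s v g) h2
        _ ≤ B := hB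
    have htot := Finset.card_filter_add_card_filter_not (s := (univ : Finset (src s)))
      (fun v' : src s => (Far b s v v' g ∧ ∀ y, (s, (v' : V), y) ∉ E1))
    simp only [Finset.card_univ, Fintype.card_coe] at htot
    show (src s).card - B ≤ (univ.filter _).card
    omega
  -- injection
  let D : Finset ((_ : Gam src tgt) × src s) := (Om src tgt g (insert (s, x, w) E1)).sigma Good
  have hD : (Om src tgt g (insert (s, x, w) E1)).card * ((src s).card - B) ≤ D.card := by
    rw [card_sigma]
    calc _ = ∑ _b ∈ Om src tgt g (insert (s, x, w) E1), ((src s).card - B) := by simp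
      _ ≤ _ := sum_le_sum (fun b _ => hGood b)
  refine hD.trans ?_
  refine card_le_card_of_injOn (fun p => sw p.1 s v p.2) ?_ ?_
  · rintro ⟨b, v'⟩ hp
    simp only [D, Good, coe_sigma, Set.mem_sigma_iff, mem_coe, mem_Om, mem_insert,
      forall_eq_or_imp, mem_filter, mem_univ, true_and] at hp
    obtain ⟨⟨hns, hbe, hE⟩, hfar, hno⟩ := hp
    simp only [mem_coe, mem_Om]
    refine ⟨NS_switch hns hfar, ?_⟩
    rintro ⟨s1, x1, y1⟩ h1
    have hE1 := hE _ h1
    simp only at hE1 ⊢
    rw [E_sw_of_not_Sp]
    · exact hE1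
    · rintro ⟨hs1, ⟨_, hx1 | hx1⟩ | ⟨hff, _⟩⟩
      · simp only at hs1
        subst hs1
        have hxx : x1 = x := hx1
        subst hxx
        have := E_det hE1 hbe
        subst this
        exact he h1
      · simp only at hs1
        subst hs1
        rw [hx1] at h1
        exact hno _ h1
      · simp at hff
  · rintro ⟨b, v'⟩ hp ⟨c, w'⟩ hq heq
    simp only [D, coe_sigma, Set.mem_sigma_iff, mem_coe, mem_Om, mem_insert,
      forall_eq_or_imp] at hp hq
    simp only at heq
    have hb : E b (s, true) x w := hp.1.2.1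
    have hc : E c (s, true) x w := hq.1.2.1
    rw [E_true] at hb hc
    obtain ⟨_, hb⟩ := hb
    obtain ⟨_, hc⟩ := hc
    have h1 : ((sw b s v v' s v' : tgt s) : V) = w := by rw [sw_apply_right]; exact hb
    have h2 : ((sw c s v w' s w' : tgt s) : V) = w := by rw [sw_apply_right]; exact hc
    have h3 : v' = w' := by
      apply (sw b s v v' s).injective
      apply Subtype.ext
      rw [h1, heq, h2]
    subst h3
    have h4 : b = c := by
      have := congrArg (fun d => sw d s v v') heq
      simpa [sw_sw] using this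
    subst h4
    rfl

theorem Om_bound (g : ℕ) (E0 : Finset (S × V × V)) (B : ℕ)
    (hB : 4 * (2 * Fintype.card S + 1) ^ g + E0.card ≤ B) :
    (Om src tgt g E0).card * ∏ e ∈ E0, ((src e.1).card - B) ≤ (Om src tgt g ∅).card := by
  classical
  induction E0 using Finset.induction_on with
  | empty => simp
  | insert e E1 he ih =>
    rw [prod_insert he]
    rw [card_insert_of_notMem he] at hB
    calc (Om src tgt g (insert e E1)).card * (((src e.1).card - B) * ∏ e ∈ E1, ((src e.1).card - B))
        = ((Om src tgt g (insert e E1)).card * ((src e.1).card - B)) *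
            ∏ e ∈ E1, ((src e.1).card - B) := by ring
      _ ≤ (Om src tgt g E1).card * ∏ e ∈ E1, ((src e.1).card - B) := by
          gcongr
          exact Om_step g E1 e he B (by omega)
      _ ≤ _ := ih (by omega)

lemma prod_sub_bound {ι : Type} (A : Finset ι) (N : ι → ℕ) (m B : ℕ)
    (hm : ∀ i ∈ A, m ≤ N i) (hB : 2 * A.card * B ≤ m) :
    ∏ i ∈ A, N i ≤ 2 * ∏ i ∈ A, (N i - B) := by
  classical
  rcases A.eq_empty_or_nonempty with rfl | hne
  · simp
  rcases Nat.eq_zero_or_pos m with hm0 | hmpos
  · have hB0 : B = 0 := by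
      have : 0 < A.card := hne.card_pos
      subst hm0
      by_contra hcon
      have : 0 < 2 * A.card * B := by positivity
      omega
    subst hB0
    simp only [Nat.sub_zero]
    omega
  have hmR : (0 : ℝ) < m := by exact_mod_cast hmpos
  have key : ∀ A' ⊆ A, (∏ i ∈ A', (N i : ℝ)) * (1 - A'.card * B / m) ≤
      ∏ i ∈ A', ((N i - B : ℕ) : ℝ) := by
    intro A'
    induction A' using Finset.induction_on with
    | empty => intro _; simp
    | insert a A1 ha ih =>
      intro hsub
      rw [prod_insert ha, prod_insert ha, card_insert_of_notMem ha]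
      have ih' := ih (fun i hi => hsub (mem_insert_of_mem hi))
      have haA : a ∈ A := hsub (mem_insert_self _ _)
      have hNa : (m : ℝ) ≤ N a := by exact_mod_cast hm a haA
      have hcardle : A1.card + 1 ≤ A.card := by
        have := card_le_card hsub
        rwa [card_insert_of_notMem ha] at this
      have hBm : B ≤ m := by
        have h1 : 1 ≤ 2 * A.card := by omega
        calc B = 1 * B := by ring
          _ ≤ 2 * A.card * B := Nat.mul_le_mul_right _ h1
          _ ≤ m := hB
      have hBN : B ≤ N a := hBm.trans (hm a haA)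
      have hsubR : ((N a - B : ℕ) : ℝ) = N a - B := by push_cast [Nat.cast_sub hBN]; ring
      rw [hsubR]
      have h1 : (N a : ℝ) * (1 - B / m) ≤ N a - B := by
        have hBn : (0 : ℝ) ≤ B := by positivity
        have : (B : ℝ) ≤ N a * (B / m) := by
          rw [mul_div_assoc', le_div_iff₀ hmR]
          nlinarith
        nlinarith
      have hx0 : (0 : ℝ) ≤ 1 - (B : ℝ) / m := by
        rw [sub_nonneg, div_le_one hmR]; exact_mod_cast hBm
      have hAB : ((A1.card + 1 : ℕ) : ℝ) * B ≤ m := by
        have : (A1.card + 1) * B ≤ m := by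
          calc (A1.card + 1) * B ≤ A.card * B := Nat.mul_le_mul_right _ hcardle
            _ ≤ 2 * A.card * B := by nlinarith
            _ ≤ m := hB
        exact_mod_cast this
      have hy0 : (0 : ℝ) ≤ 1 - (A1.card : ℝ) * B / m := by
        rw [sub_nonneg, div_le_one hmR]
        push_cast at hAB
        have hBn : (0 : ℝ) ≤ B := by positivity
        nlinarith
      have hprod0 : (0 : ℝ) ≤ ∏ i ∈ A1, (N i : ℝ) := prod_nonneg (fun i _ => by positivity)
      have hNa0 : (0 : ℝ) ≤ N a := by positivity
      have hNB0 : (0 : ℝ) ≤ (N a : ℝ) - B := by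
        rw [sub_nonneg]; exact_mod_cast hBN
      calc (N a : ℝ) * (∏ i ∈ A1, (N i : ℝ)) * (1 - ((A1.card + 1 : ℕ) : ℝ) * B / m)
          ≤ (N a : ℝ) * (∏ i ∈ A1, (N i : ℝ)) * ((1 - (B : ℝ) / m) * (1 - (A1.card : ℝ) * B / m)) := by
            apply mul_le_mul_of_nonneg_left _ (by positivity)
            push_cast
            have : (0 : ℝ) ≤ ((B : ℝ) / m) * ((A1.card : ℝ) * B / m) := by positivity
            have e : ((A1.card : ℝ) + 1) * B / m = (A1.card : ℝ) * B / m + B / m := by ring
            rw [e]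
            nlinarith
        _ = ((N a : ℝ) * (1 - (B : ℝ) / m)) *
              ((∏ i ∈ A1, (N i : ℝ)) * (1 - (A1.card : ℝ) * B / m)) := by ring
        _ ≤ ((N a : ℝ) - B) * ∏ i ∈ A1, ((N i - B : ℕ) : ℝ) := by
            apply mul_le_mul h1 ih' _ hNB0
            positivity
  have hk := key A (Subset.refl _)
  have hhalf : (1 : ℝ) / 2 ≤ 1 - A.card * B / m := by
    have : (2 * A.card * B : ℝ) ≤ m := by exact_mod_cast hB
    have h2 : (A.card : ℝ) * B / m ≤ 1 / 2 := by
      rw [div_le_iff₀ hmR]; linarith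
    linarith
  have hprod0 : (0 : ℝ) ≤ ∏ i ∈ A, (N i : ℝ) := prod_nonneg (fun i _ => by positivity)
  have hfin : (∏ i ∈ A, (N i : ℝ)) ≤ 2 * ∏ i ∈ A, ((N i - B : ℕ) : ℝ) := by
    nlinarith
  exact_mod_cast hfin

theorem Om_bound_two (g : ℕ) (E0 : Finset (S × V × V)) (m : ℕ)
    (hm : ∀ e ∈ E0, m ≤ (src e.1).card)
    (hE : 2 * E0.card * (4 * (2 * Fintype.card S + 1) ^ g + E0.card) ≤ m) :
    (Om src tgt g E0).card * ∏ e ∈ E0, (src e.1).card ≤ 2 * (Om src tgt g ∅).card := by
  have h1 := Om_bound (src := src) (tgt := tgt) g E0 (4 * (2 * Fintype.card S + 1) ^ g + E0.card)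
    le_rfl
  have h2 := prod_sub_bound E0 (fun e => (src e.1).card) m
    (4 * (2 * Fintype.card S + 1) ^ g + E0.card) hm hE
  calc (Om src tgt g E0).card * ∏ e ∈ E0, (src e.1).card
      ≤ (Om src tgt g E0).card * (2 * ∏ e ∈ E0, ((src e.1).card -
          (4 * (2 * Fintype.card S + 1) ^ g + E0.card))) := Nat.mul_le_mul_left _ h2
    _ = 2 * ((Om src tgt g E0).card * ∏ e ∈ E0, ((src e.1).card -
          (4 * (2 * Fintype.card S + 1) ^ g + E0.card))) := by ring
    _ ≤ _ := Nat.mul_le_mul_left _ h1

end Count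

end Crest.Agent.R177.Omega
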