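import Crest.Agent.R177.Defs
import Crest.Agent.R177.OmegaCore

/-!
# OMEGA: random admissible graphs of large girth, and the switching bound (helper928)
-/

set_option autoImplicit false
set_option linter.unusedSectionVars false

open scoped Classical

namespace Crest.Agent.R177

open Crest.Agent.R199 (PAct)

namespace Omega

section Bridge

variable {S V : Type} [Fintype S] [Fintype V] {src tgt : S → Finset V}

/-- the folded graph of a family of bijections -/
noncomputable def toPAct (b : Gam src tgt) : PAct S V where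
  st h x := if hx : ∃ y, E b h x y then some hx.choose else none
  symm := by
    intro a x y h
    split_ifs at h with hx
    have h1 : E b a x y := by
      have := hx.choose_spec
      rwa [Option.some.inj h] at this
    have h2 : E b (hinv a) y x := (E_hinv b a y x).2 h1
    have h3 : ∃ z, E b (a.1, !a.2) y z := ⟨x, h2⟩
    rw [dif_pos h3]
    exact congrArg some (E_det h3.choose_spec h2)

lemma st_eq_some {b : Gam src tgt} {h : S × Bool} {x y : V} :
    (toPAct b).st h x = some y ↔ E b h x y := by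
  show (if hx : ∃ y, E b h x y then some hx.choose else none) = some y ↔ _
  constructor
  · intro h1
    split_ifs at h1 with hx
    have := hx.choose_spec
    rwa [Option.some.inj h1] at this
  · intro h1
    have h3 : ∃ z, E b h x z := ⟨y, h1⟩
    rw [dif_pos h3]
    exact congrArg some (E_det h3.choose_spec h1)

lemma read_eq_some {b : Gam src tgt} {w : List (S × Bool)} {x y : V} :
    (toPAct b).read w x = some y ↔ W b x w y := by
  induction w generalizing x with
  | nil => simp [PAct.read]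
  | cons a w ih =>
    rw [PAct.read, W_cons]
    constructor
    · intro h
      rw [Option.bind_eq_some_iff] at h
      obtain ⟨z, hz, hw⟩ := h
      exact ⟨z, st_eq_some.1 hz, ih.1 hw⟩
    · rintro ⟨z, hz, hw⟩
      rw [Option.bind_eq_some_iff]
      exact ⟨z, st_eq_some.2 hz, ih.2 hw⟩

lemma red_iff {w : List (S × Bool)} : Red w ↔ FreeGroup.IsReduced w := by
  unfold Red FreeGroup.IsReduced
  have : (fun a c : S × Bool => c ≠ hinv a) = fun a b => a.1 = b.1 → a.2 = b.2 := by
    funext a c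
    rcases a with ⟨s, i⟩
    rcases c with ⟨t, j⟩
    simp only [hinv, ne_eq, Prod.mk.injEq, not_and, eq_iff_iff]
    constructor
    · rintro h rfl
      have := h rfl
      revert this
      cases i <;> cases j <;> simp
    · rintro h rfl
      have := h rfl
      revert this
      cases i <;> cases j <;> simp
  rw [this]

lemma girth_of_NS {b : Gam src tgt} {g : ℕ} (h : NS b g) : Girth (toPAct b) g := by
  intro x w hw hne hr
  by_contra hlt
  exact h x w hne (red_iff.2 hw) (not_le.1 hlt) (read_eq_some.1 hr)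

end Bridge

lemma prod_sub_key {ι : Type} (A : Finset ι) (N : ι → ℕ) (μ : ℝ) (B : ℕ) (hμ : 0 < μ)
    (hm : ∀ i ∈ A, μ ≤ N i) (hB : (A.card : ℝ) * B ≤ μ) :
    (∏ i ∈ A, (N i : ℝ)) * (1 - A.card * B / μ) ≤ ∏ i ∈ A, ((N i - B : ℕ) : ℝ) := by
  have key : ∀ A' ⊆ A, (∏ i ∈ A', (N i : ℝ)) * (1 - A'.card * B / μ) ≤
      ∏ i ∈ A', ((N i - B : ℕ) : ℝ) := by
    intro A'
    induction A' using Finset.induction_on with
    | empty => intro _; simp
    | insert a A1 ha ih =>
      intro hsub
      rw [Finset.prod_insert ha, Finset.prod_insert ha, Finset.card_insert_of_notMem ha]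
      have ih' := ih (fun i hi => hsub (Finset.mem_insert_of_mem hi))
      have haA : a ∈ A := hsub (Finset.mem_insert_self _ _)
      have hNa : μ ≤ N a := hm a haA
      have hcardle : A1.card + 1 ≤ A.card := by
        have := Finset.card_le_card hsub
        rwa [Finset.card_insert_of_notMem ha] at this
      have hBn : (0 : ℝ) ≤ B := by positivity
      have hcR : ((A1.card : ℝ) + 1) ≤ A.card := by exact_mod_cast hcardle
      have hAB : ((A1.card : ℝ) + 1) * B ≤ μ :=
        (mul_le_mul_of_nonneg_right hcR hBn).trans hB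
      have hA10 : (0 : ℝ) ≤ A1.card := by positivity
      have hBm : (B : ℝ) ≤ μ := by nlinarith
      have hBN : B ≤ N a := by exact_mod_cast hBm.trans hNa
      have hsubR : ((N a - B : ℕ) : ℝ) = N a - B := by push_cast [Nat.cast_sub hBN]; ring
      rw [hsubR]
      have h1 : (N a : ℝ) * (1 - B / μ) ≤ N a - B := by
        have : (B : ℝ) ≤ N a * (B / μ) := by
          rw [mul_div_assoc', le_div_iff₀ hμ]
          nlinarith
        nlinarith
      have hx0 : (0 : ℝ) ≤ 1 - (B : ℝ) / μ := by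
        rw [sub_nonneg, div_le_one hμ]; exact hBm
      have hy0 : (0 : ℝ) ≤ 1 - (A1.card : ℝ) * B / μ := by
        rw [sub_nonneg, div_le_one hμ]
        nlinarith
      have hprod0 : (0 : ℝ) ≤ ∏ i ∈ A1, (N i : ℝ) := Finset.prod_nonneg (fun i _ => by positivity)
      have hNa0 : (0 : ℝ) ≤ N a := by positivity
      have hNB0 : (0 : ℝ) ≤ (N a : ℝ) - B := by
        rw [sub_nonneg]; exact hBm.trans hNa
      calc (N a : ℝ) * (∏ i ∈ A1, (N i : ℝ)) * (1 - ((A1.card + 1 : ℕ) : ℝ) * B / μ)
          ≤ (N a : ℝ) * (∏ i ∈ A1, (N i : ℝ)) * ((1 - (B : ℝ) / μ) * (1 - (A1.card : ℝ) * B / μ)) := by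
            apply mul_le_mul_of_nonneg_left _ (by positivity)
            push_cast
            have : (0 : ℝ) ≤ ((B : ℝ) / μ) * ((A1.card : ℝ) * B / μ) := by positivity
            have e : ((A1.card : ℝ) + 1) * B / μ = (A1.card : ℝ) * B / μ + B / μ := by ring
            rw [e]
            nlinarith
        _ = ((N a : ℝ) * (1 - (B : ℝ) / μ)) *
              ((∏ i ∈ A1, (N i : ℝ)) * (1 - (A1.card : ℝ) * B / μ)) := by ring
        _ ≤ ((N a : ℝ) - B) * ∏ i ∈ A1, ((N i - B : ℕ) : ℝ) := by
            apply mul_le_mul h1 ih' _ hNB0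
            positivity
  exact key A (Finset.Subset.refl _)

lemma prod_sub_bound_eps {ι : Type} (A : Finset ι) (N : ι → ℕ) (μ ε : ℝ) (B : ℕ) (hμ : 0 < μ)
    (hε : 0 < ε) (hm : ∀ i ∈ A, μ ≤ N i) (hB : (A.card : ℝ) * B * (1 + ε) ≤ ε * μ) :
    ∏ i ∈ A, (N i : ℝ) ≤ (1 + ε) * ∏ i ∈ A, ((N i - B : ℕ) : ℝ) := by
  have hAB0 : (0 : ℝ) ≤ (A.card : ℝ) * B := by positivity
  have hB1 : (A.card : ℝ) * B ≤ μ := by nlinarith
  have h1 := prod_sub_key A N μ B hμ hm hB1
  have h2 : 1 ≤ (1 + ε) * (1 - A.card * B / μ) := by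
    have : (A.card : ℝ) * B / μ * (1 + ε) ≤ ε := by
      rw [div_mul_eq_mul_div, div_le_iff₀ hμ]; exact hB
    nlinarith
  have h0 : (0 : ℝ) ≤ ∏ i ∈ A, (N i : ℝ) := Finset.prod_nonneg (fun i _ => by positivity)
  calc ∏ i ∈ A, (N i : ℝ) = (∏ i ∈ A, (N i : ℝ)) * 1 := by ring
    _ ≤ (∏ i ∈ A, (N i : ℝ)) * ((1 + ε) * (1 - A.card * B / μ)) := by gcongr
    _ = (1 + ε) * ((∏ i ∈ A, (N i : ℝ)) * (1 - A.card * B / μ)) := by ring
    _ ≤ _ := by gcongr

theorem Om_bound_eps {S V : Type} [Fintype S] [Fintype V] {src tgt : S → Finset V}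
    (g : ℕ) (E0 : Finset (S × V × V)) (μ ε : ℝ) (hμ : 0 < μ) (hε : 0 < ε)
    (hm : ∀ e ∈ E0, μ ≤ ((src e.1).card : ℝ))
    (hE : (E0.card : ℝ) * ((4 * (2 * Fintype.card S + 1) ^ g + E0.card : ℕ) : ℝ) * (1 + ε) ≤
      ε * μ) :
    ((Om src tgt g E0).card : ℝ) * ∏ e ∈ E0, ((src e.1).card : ℝ) ≤
      (1 + ε) * ((Om src tgt g ∅).card : ℝ) := by
  have h1 := Om_bound (src := src) (tgt := tgt) g E0 (4 * (2 * Fintype.card S + 1) ^ g + E0.card)
    le_rfl
  have h2 := prod_sub_bound_eps E0 (fun e => (src e.1).card) μ ε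
    (4 * (2 * Fintype.card S + 1) ^ g + E0.card) hμ hε hm hE
  have h1' : ((Om src tgt g E0).card : ℝ) * ∏ e ∈ E0, (((src e.1).card -
      (4 * (2 * Fintype.card S + 1) ^ g + E0.card) : ℕ) : ℝ) ≤ ((Om src tgt g ∅).card : ℝ) := by
    exact_mod_cast h1
  calc ((Om src tgt g E0).card : ℝ) * ∏ e ∈ E0, ((src e.1).card : ℝ)
      ≤ ((Om src tgt g E0).card : ℝ) * ((1 + ε) * ∏ e ∈ E0, (((src e.1).card -
          (4 * (2 * Fintype.card S + 1) ^ g + E0.card) : ℕ) : ℝ)) := by gcongr
    _ = (1 + ε) * (((Om src tgt g E0).card : ℝ) * ∏ e ∈ E0, (((src e.1).card -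
          (4 * (2 * Fintype.card S + 1) ^ g + E0.card) : ℕ) : ℝ)) := by ring
    _ ≤ _ := by gcongr

section Mod

variable {S : Type} [Fintype S] (M : Model S) (m : ℕ)

/-- (local instance) -/
@[reducible] noncomputable def instFintypeV : Fintype (M.V m) := by
  haveI := M.fin m
  exact Fintype.ofFinite _

attribute [local instance] instFintypeV

/-- sources -/
noncomputable def osrc (s : S) : Finset (M.V m) := Finset.univ.filter fun v => M.has m v (s, true)
/-- targets -/
noncomputable def otgt (s : S) : Finset (M.V m) := Finset.univ.filter fun v => M.has m v (s, false)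

lemma mem_osrc (s : S) (v : M.V m) : v ∈ osrc M m s ↔ M.has m v (s, true) := by simp [osrc]
lemma mem_otgt (s : S) (v : M.V m) : v ∈ otgt M m s ↔ M.has m v (s, false) := by simp [otgt]

lemma card_osrc (s : S) : (osrc M m s).card = Nat.card {v // M.has m v (s, true)} := by
  rw [Nat.card_eq_fintype_card, Fintype.card_subtype]; rfl
lemma card_otgt (s : S) : (otgt M m s).card = Nat.card {v // M.has m v (s, false)} := by
  rw [Nat.card_eq_fintype_card, Fintype.card_subtype]; rfl

lemma card_eq (s : S) : (osrc M m s).card = (otgt M m s).card := by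
  rw [card_osrc, card_otgt, M.bal]

lemma adm (b : Gam (osrc M m) (otgt M m)) : M.Adm m (toPAct b) := by
  rintro v ⟨s, c⟩
  have h1 : ((toPAct b).st (s, c) v).isSome ↔ ∃ y, E b (s, c) v y := by
    rw [Option.isSome_iff_exists]
    exact exists_congr fun y => st_eq_some
  rw [h1]
  cases c
  · constructor
    · rintro ⟨y, hy⟩
      rw [E_false, E_true] at hy
      obtain ⟨hy1, hy2⟩ := hy
      rw [← hy2]
      exact (mem_otgt M m s _).1 (b s ⟨y, hy1⟩).2
    · intro h
      have hv : v ∈ otgt M m s := (mem_otgt M m s v).2 h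
      refine ⟨((b s).symm ⟨v, hv⟩ : osrc M m s), ?_⟩
      rw [E_false, E_true]
      exact ⟨((b s).symm ⟨v, hv⟩).2, by simp⟩
  · constructor
    · rintro ⟨y, hy⟩
      rw [E_true] at hy
      exact (mem_osrc M m s v).1 hy.1
    · intro h
      have hv : v ∈ osrc M m s := (mem_osrc M m s v).2 h
      exact ⟨b s ⟨v, hv⟩, by rw [E_true]; exact ⟨hv, rfl⟩⟩

/-- the family of bijections of an admissible graph -/
noncomputable def ofPAct (A : PAct S (M.V m)) (hA : M.Adm m A) :
    Gam (osrc M m) (otgt M m) := fun s =>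
  { toFun := fun v => ⟨(A.st (s, true) v).get ((hA v (s, true)).2 ((mem_osrc M m s v).1 v.2)), by
      rw [mem_otgt, ← hA]
      have h : A.st (s, true) v = some ((A.st (s, true) v).get
        ((hA v (s, true)).2 ((mem_osrc M m s v).1 v.2))) := by simp
      have := A.symm _ _ _ h
      simp only [Bool.not_true] at this
      rw [this]; rfl⟩
    invFun := fun v => ⟨(A.st (s, false) v).get ((hA v (s, false)).2 ((mem_otgt M m s v).1 v.2)), by
      rw [mem_osrc, ← hA]
      have h : A.st (s, false) v = some ((A.st (s, false) v).get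
        ((hA v (s, false)).2 ((mem_otgt M m s v).1 v.2))) := by simp
      have := A.symm _ _ _ h
      simp only [Bool.not_false] at this
      rw [this]; rfl⟩
    left_inv := fun v => by
      apply Subtype.ext
      have h : A.st (s, true) v = some ((A.st (s, true) v).get
        ((hA v (s, true)).2 ((mem_osrc M m s v).1 v.2))) := by simp
      have := A.symm _ _ _ h
      simp only [Bool.not_true] at this
      simp [this]
    right_inv := fun v => by
      apply Subtype.ext
      have h : A.st (s, false) v = some ((A.st (s, false) v).get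
        ((hA v (s, false)).2 ((mem_otgt M m s v).1 v.2))) := by simp
      have := A.symm _ _ _ h
      simp only [Bool.not_false] at this
      simp [this] }

lemma PAct_ext {V : Type} {A B : PAct S V} (h : ∀ a x y, A.st a x = some y ↔ B.st a x = some y) :
    A = B := by
  have : A.st = B.st := by
    funext a x
    exact Option.ext (h a x)
  cases A; cases B; simp only at this; subst this; rfl

lemma toPAct_ofPAct (A : PAct S (M.V m)) (hA : M.Adm m A) : toPAct (ofPAct M m A hA) = A := by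
  apply PAct_ext
  have key : ∀ s x y, E (ofPAct M m A hA) (s, true) x y ↔ A.st (s, true) x = some y := by
    intro s x y
    rw [E_true]
    constructor
    · rintro ⟨hx, h⟩
      rw [← h]
      simp [ofPAct]
    · intro h
      have hx : x ∈ osrc M m s := by
        rw [mem_osrc, ← hA, h]; rfl
      refine ⟨hx, ?_⟩
      simp [ofPAct, h]
  rintro ⟨s, c⟩ x y
  rw [st_eq_some]
  cases c
  · rw [E_false, key]
    constructor
    · intro h; exact A.symm _ _ _ h
    · intro h; exact A.symm _ _ _ h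
  · exact key s x y

lemma toPAct_injective {b b' : Gam (osrc M m) (otgt M m)} (h : toPAct b = toPAct b') : b = b' := by
  funext s
  apply Equiv.ext
  intro v
  apply Subtype.ext
  have h1 : E b (s, true) v (b s v) := by rw [E_true]; exact ⟨v.2, rfl⟩
  rw [← st_eq_some, h, st_eq_some, E_true] at h1
  obtain ⟨_, h1⟩ := h1
  exact h1.symm

lemma NS_of_girth {b : Gam (osrc M m) (otgt M m)} {g : ℕ} (h : Girth (toPAct b) g) : NS b g := by
  intro x w hne hr hlt hw
  have := h x w (red_iff.1 hr) hne (read_eq_some.2 hw)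
  omega

/-- admissible graphs of girth `≥ g` and containing `E0` correspond to `Om` -/
noncomputable def omEquiv (g : ℕ) (E0 : Finset (S × M.V m × M.V m)) :
    {b : Gam (osrc M m) (otgt M m) // b ∈ Om (osrc M m) (otgt M m) g E0} ≃
    {A : PAct S (M.V m) // (M.Adm m A ∧ Girth A g) ∧
      ∀ e ∈ E0, A.st (e.1, true) e.2.1 = some e.2.2} :=
  Equiv.ofBijective
    (fun b => ⟨toPAct b.1, ⟨adm M m b.1, girth_of_NS (mem_Om.1 b.2).1⟩,
      fun e he => st_eq_some.2 ((mem_Om.1 b.2).2 e he)⟩)
    ⟨fun b b' h => by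
        apply Subtype.ext
        exact toPAct_injective M m (congrArg Subtype.val h),
      fun A => by
        refine ⟨⟨ofPAct M m A.1 A.2.1.1, mem_Om.2 ⟨?_, ?_⟩⟩, ?_⟩
        · apply NS_of_girth
          rw [toPAct_ofPAct]
          exact A.2.1.2
        · intro e he
          rw [← st_eq_some, toPAct_ofPAct]
          exact A.2.2 e he
        · apply Subtype.ext
          exact toPAct_ofPAct M m A.1 A.2.1.1⟩

end Mod

end Omega

attribute [local instance] Omega.instFintypeV

/-- admissible graphs of girth at least `g` -/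
def OmegaSet {S : Type} [Fintype S] (M : Model S) (m g : ℕ) : Set (PAct S (M.V m)) :=
  {A | M.Adm m A ∧ Girth A g}

open Omega in
/-- The measure: `g = ⌊c log (sz m)⌋`. -/
theorem omega {S : Type} [Fintype S] (M : Model S) :
    ∃ c : ℝ, 0 < c ∧ ∀ B ε : ℝ, 0 < ε → ∃ n0 : ℕ, ∀ m, n0 ≤ M.sz m →
      (OmegaSet M m ⌊c * Real.log (M.sz m)⌋₊).Finite ∧
      (OmegaSet M m ⌊c * Real.log (M.sz m)⌋₊).Nonempty ∧
        ∀ E0 : Finset (S × M.V m × M.V m), (E0.card : ℝ) ≤ B * Real.log (M.sz m) →
          (Nat.card {A : PAct S (M.V m) // A ∈ OmegaSet M m ⌊c * Real.log (M.sz m)⌋₊ ∧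
              ∀ e ∈ E0, A.st (e.1, true) e.2.1 = some e.2.2} : ℝ) *
            ∏ e ∈ E0, (Nat.card {v // M.has m v (e.1, true)} : ℝ) ≤
          (1 + ε) * Nat.card (OmegaSet M m ⌊c * Real.log (M.sz m)⌋₊) := by
  -- a uniform lower bound
  obtain ⟨ν, hν, hνN⟩ : ∃ ν : ℝ, 0 < ν ∧ ∀ s, ν ≤ M.N s := by
    rcases isEmpty_or_nonempty S with h | h
    · exact ⟨1, one_pos, fun s => (h.false s).elim⟩
    · obtain ⟨s0, hs0⟩ := Finite.exists_min M.N
      exact ⟨M.N s0, M.N_pos s0, hs0⟩
  set k : ℝ := 2 * Fintype.card S + 2 with hk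
  have hk1 : 1 < k := by
    have : (0 : ℝ) ≤ Fintype.card S := Nat.cast_nonneg _
    rw [hk]; linarith
  have hlogk : 0 < Real.log k := Real.log_pos hk1
  refine ⟨1 / (4 * Real.log k), by positivity, fun B ε hε => ?_⟩
  set B' : ℝ := max B 1 with hB'
  have hB'1 : 1 ≤ B' := le_max_right _ _
  -- asymptotics
  have hev1 : ∀ᶠ x : ℝ in Filter.atTop, Real.log x ≤ x ^ ((1 : ℝ) / 4) := by
    have h := (isLittleO_log_rpow_atTop (show (0 : ℝ) < 1 / 4 by norm_num)).bound (one_pos)
    filter_upwards [h, Filter.eventually_ge_atTop (1 : ℝ)] with x hx hx1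
    rw [one_mul, Real.norm_of_nonneg (Real.log_nonneg hx1),
      Real.norm_of_nonneg (by positivity)] at hx
    exact hx
  have hev2 : ∀ᶠ x : ℝ in Filter.atTop,
      B' * (4 + B') * (1 + ε) * x ^ ((1 : ℝ) / 2) ≤ ε * (ν * x) ∧
      4 * x ^ ((1 : ℝ) / 4) + 1 ≤ ν * x := by
    have ht : Filter.Tendsto (fun x : ℝ => x ^ ((1 : ℝ) / 2)) Filter.atTop Filter.atTop :=
      tendsto_rpow_atTop (by norm_num)
    filter_upwards [ht.eventually_ge_atTop ((B' * (4 + B') * (1 + ε)) / (ε * ν)),
      ht.eventually_ge_atTop (5 / ν), Filter.eventually_ge_atTop (1 : ℝ)] with x hx hx' hx1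
    have hx0 : 0 ≤ x := by linarith
    have hs1 : (1 : ℝ) ≤ x ^ ((1 : ℝ) / 2) := Real.one_le_rpow hx1 (by norm_num)
    have hsq : x ^ ((1 : ℝ) / 2) * x ^ ((1 : ℝ) / 2) = x := by
      rw [← Real.rpow_add (by linarith)]; norm_num
    have hle : x ^ ((1 : ℝ) / 4) ≤ x ^ ((1 : ℝ) / 2) :=
      Real.rpow_le_rpow_of_exponent_le hx1 (by norm_num)
    rw [div_le_iff₀ (by positivity)] at hx
    rw [div_le_iff₀ hν] at hx'
    set y := x ^ ((1 : ℝ) / 2)
    have hy : ν * x = ν * y * y := by rw [mul_assoc, hsq]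
    constructor
    · rw [hy]
      have := mul_le_mul_of_nonneg_right hx (by linarith : (0 : ℝ) ≤ y)
      nlinarith
    · rw [hy]
      have := mul_le_mul_of_nonneg_right hx' (by linarith : (0 : ℝ) ≤ y)
      nlinarith
  obtain ⟨x0, hx0⟩ := Filter.eventually_atTop.1
    (hev1.and (hev2.and (Filter.eventually_ge_atTop (1 : ℝ))))
  refine ⟨⌈x0⌉₊, fun m hm => ?_⟩
  have hxm : x0 ≤ (M.sz m : ℝ) := (Nat.le_ceil x0).trans (by exact_mod_cast hm)
  obtain ⟨ha, ⟨hb1, hb2⟩, hx1⟩ := hx0 _ hxm
  set x : ℝ := (M.sz m : ℝ) with hx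
  set g : ℕ := ⌊1 / (4 * Real.log k) * Real.log x⌋₊ with hg
  have hxpos : 0 < x := by linarith
  -- size of balls
  have hball : ((2 * Fintype.card S + 1 : ℕ) : ℝ) ^ g ≤ x ^ ((1 : ℝ) / 4) := by
    have hg' : (g : ℝ) ≤ 1 / (4 * Real.log k) * Real.log x :=
      Nat.floor_le (mul_nonneg (by positivity) (Real.log_nonneg hx1))
    calc ((2 * Fintype.card S + 1 : ℕ) : ℝ) ^ g ≤ k ^ g := by
          apply pow_le_pow_left₀ (by positivity)
          rw [hk]; push_cast; linarith
      _ = k ^ (g : ℝ) := (Real.rpow_natCast _ _).symm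
      _ ≤ k ^ (1 / (4 * Real.log k) * Real.log x) :=
          Real.rpow_le_rpow_of_exponent_le hk1.le hg'
      _ = x ^ ((1 : ℝ) / 4) := by
          rw [Real.rpow_def_of_pos (by linarith), Real.rpow_def_of_pos hxpos]
          congr 1
          field_simp
  have hsrc : ∀ s, ν * x ≤ ((osrc M m s).card : ℝ) := by
    intro s
    rw [card_osrc]
    calc ν * x ≤ M.N s * x := by gcongr; exact hνN s
      _ ≤ _ := M.N_le m s
  have hnon : ∃ b : Gam (osrc M m) (otgt M m), NS b g := by
    apply exists_NS (card_eq M m)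
    intro s _
    have : (4 * (2 * Fintype.card S + 1) ^ g : ℝ) < ((osrc M m s).card : ℝ) := by
      have h1 := hsrc s
      push_cast at hball
      linarith
    exact_mod_cast this
  obtain ⟨b0, hb0⟩ := hnon
  have hfin : (OmegaSet M m g).Finite := by
    have h1 : (Set.range fun b : Gam (osrc M m) (otgt M m) => toPAct b).Finite :=
      Set.finite_range _
    refine h1.subset ?_
    intro A hA
    exact ⟨ofPAct M m A hA.1, toPAct_ofPAct M m A hA.1⟩
  have hcardΩ : Nat.card (OmegaSet M m g) = (Om (osrc M m) (otgt M m) g ∅).card := by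
    rw [← Fintype.card_coe, ← Nat.card_eq_fintype_card, Nat.card_congr (omEquiv M m g ∅)]
    apply Nat.card_congr
    exact
      { toFun := fun A => ⟨A.1, A.2, by simp⟩
        invFun := fun A => ⟨A.1, A.2.1⟩
        left_inv := fun A => rfl
        right_inv := fun A => rfl }
  refine ⟨hfin, ⟨toPAct b0, adm M m b0, girth_of_NS hb0⟩, ?_⟩
  intro E0 hE0
  have hcardE : Nat.card {A : PAct S (M.V m) // A ∈ OmegaSet M m g ∧
      ∀ e ∈ E0, A.st (e.1, true) e.2.1 = some e.2.2} =
        (Om (osrc M m) (otgt M m) g E0).card := by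
    rw [← Fintype.card_coe, ← Nat.card_eq_fintype_card, Nat.card_congr (omEquiv M m g E0)]
    rfl
  rw [hcardE, hcardΩ]
  have hlog0 : 0 ≤ Real.log x := Real.log_nonneg hx1
  have hE0' : (E0.card : ℝ) ≤ B' * x ^ ((1 : ℝ) / 4) :=
    calc (E0.card : ℝ) ≤ B * Real.log x := hE0
      _ ≤ B' * Real.log x := by gcongr; exact le_max_left _ _
      _ ≤ B' * x ^ ((1 : ℝ) / 4) := by gcongr
  have hcond : (E0.card : ℝ) * ((4 * (2 * Fintype.card S + 1) ^ g + E0.card : ℕ) : ℝ) * (1 + ε) ≤
      ε * (ν * x) := by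
    push_cast
    push_cast at hball
    have h4 : 0 ≤ x ^ ((1 : ℝ) / 4) := by positivity
    have hsq : x ^ ((1 : ℝ) / 4) * x ^ ((1 : ℝ) / 4) = x ^ ((1 : ℝ) / 2) := by
      rw [← Real.rpow_add (by linarith)]; norm_num
    calc (E0.card : ℝ) * (4 * (2 * (Fintype.card S : ℝ) + 1) ^ g + E0.card) * (1 + ε)
        ≤ (B' * x ^ ((1 : ℝ) / 4)) * (4 * x ^ ((1 : ℝ) / 4) + B' * x ^ ((1 : ℝ) / 4)) * (1 + ε) := by
          gcongr
      _ = B' * (4 + B') * (1 + ε) * x ^ ((1 : ℝ) / 2) := by rw [← hsq]; ring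
      _ ≤ ε * (ν * x) := hb1
  have hmain := Om_bound_eps (src := osrc M m) (tgt := otgt M m) g E0 (ν * x) ε (by positivity) hε
    (fun e _ => hsrc e.1) hcond
  simp only [card_osrc] at hmain
  exact hmain

end Crest.Agent.R177
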