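import Mathlib

/-!
# Planar maps through `H¹(·; F₂) = 0`

A (spherical) map is a finite type `X` of darts with two permutations `φ` (next dart in the face)
and `α` (the opposite dart, an involution without fixed points).  Planarity is expressed by the
property `PropP`: every `F₂`-valued function on the corners which satisfies the four corner
condition at all edges is the sum of a function of the vertex and a function of the face.

* `skip`, `op`: removal of points from a permutation;
* `op_transfer`: how labels are transported;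
* `exists_remove`: removal of a pair `x, x'` with `x' = α x` or `x' = φ x` keeps `PropP`.
-/

namespace Crest.Agent.R177.PM681

open Equiv

/-- planarity of the map `(φ, α)` -/
def PropP {X : Type*} (φ α : Perm X) : Prop :=
  ∀ a : X → ZMod 2, (∀ x, a x + a (φ x) + a (α x) + a (φ (α x)) = 0) →
    ∃ b h : X → ZMod 2, (∀ x, b (φ (α x)) = b x) ∧ (∀ x, h (φ x) = h x) ∧ ∀ x, a x = b x + h x

section skip

variable {X : Type*} [DecidableEq X]

/-- remove the point `x` from the permutation `ψ` (it becomes a fixed point) -/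
def skip (x : X) (ψ : Perm X) : Perm X := swap x (ψ x) * ψ

@[simp] lemma skip_self (x : X) (ψ : Perm X) : skip x ψ x = x := by simp [skip]

lemma skip_ne {x : X} {ψ : Perm X} {z : X} (hz : z ≠ x) (h : ψ z ≠ x) : skip x ψ z = ψ z := by
  simp only [skip, Perm.mul_apply]
  exact swap_apply_of_ne_of_ne h (fun h' => hz (ψ.injective h'))

lemma skip_eq {x : X} {ψ : Perm X} {z : X} (h : ψ z = x) : skip x ψ z = ψ x := by
  simp [skip, h]

/-- functions see no difference between `ψ` and `skip x ψ` if they agree at `x` and `ψ x` -/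
lemma skip_fun {T : Type*} (s : X → T) {x : X} {ψ : Perm X} (hs : s (ψ x) = s x) {z : X}
    (hz : z ≠ x) : s (skip x ψ z) = s (ψ z) := by
  by_cases h : ψ z = x
  · rw [skip_eq h, hs, h]
  · rw [skip_ne hz h]

/-- the operation `Op(x, x')` on a permutation: remove `x` and `x'` from `ψ * swap x x'` -/
def op (x x' : X) (ψ : Perm X) : Perm X := skip x' (skip x (ψ * swap x x'))

lemma op_left {x x' : X} (ψ : Perm X) (h : x ≠ x') : op x x' ψ x = x := by
  unfold op
  rw [skip_ne h]
  · simp
  · simpa using h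

lemma op_right {x x' : X} (ψ : Perm X) : op x x' ψ x' = x' := by
  unfold op
  simp

lemma op_aux {T : Type*} {x x' : X} (hne : x ≠ x') {ψ : Perm X} (s : X → T)
    (h1 : s (ψ x') = s x) (h2 : s (ψ x) = s x') {y : X} (hy : y ≠ x) (hy' : y ≠ x') :
    s (op x x' ψ y) = s (ψ y) := by
  have e1 : s ((ψ * swap x x') x) = s x := by simpa using h1
  have e2 : s ((ψ * swap x x') x') = s x' := by simpa using h2
  unfold op
  rw [skip_fun s (ψ := skip x (ψ * swap x x')) _ hy', skip_fun s e1 hy]
  · simp [swap_apply_of_ne_of_ne hy hy']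
  · rw [skip_fun s e1 hne.symm]
    simpa using h2

/-- transport of labels: if `s ∘ ψ = e` and the values of `s`, `e` at `x'` are those of `e`, `s`
at `x`, then `s ∘ ψ' = e` for the reduced permutation. -/
lemma op_transfer {T : Type*} {x x' : X} (hne : x ≠ x') {ψ : Perm X} (s e : X → T)
    (h : ∀ y, s (ψ y) = e y) (h1 : s x' = e x) (h2 : e x' = s x) {y : X} (hy : y ≠ x)
    (hy' : y ≠ x') : s (op x x' ψ y) = e y := by
  rw [op_aux hne s _ _ hy hy', h]
  · rw [h, h2]
  · rw [h, h1]

/-- extension of a function to the removed points, so that it is invariant there -/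
lemma ext_fun {T : Type*} (ψ : Perm X) {x x' : X} (hne : x ≠ x') (a0 : X → T) (t0 : T) :
    ∃ a : X → T, (∀ y, y ≠ x → y ≠ x' → a y = a0 y) ∧ a (ψ x') = a x ∧ a (ψ x) = a x' := by
  classical
  set ψ1 : Perm X := ψ * swap x x' with hψ1
  have e1 : ψ1 x = ψ x' := by simp [hψ1]
  have e2 : ψ1 x' = ψ x := by simp [hψ1]
  set ψ2 : Perm X := skip x ψ1 with hψ2
  -- value at x'
  set t1 : T := if ψ2 x' = x' then t0 else a0 (ψ2 x') with ht1
  set a1 : X → T := Function.update a0 x' t1 with ha1
  set t2 : T := if ψ1 x = x then t0 else a1 (ψ1 x) with ht2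
  set a2 : X → T := Function.update a1 x t2 with ha2
  have hψ2x : ψ2 x = x := by simp [hψ2]
  have hψ2x' : ψ2 x' ≠ x := by
    intro h
    apply hne
    apply ψ2.injective
    rw [hψ2x, h]
  have k1 : a2 (ψ1 x) = a2 x := by
    by_cases h : ψ1 x = x
    · rw [h]
    · simp only [ha2, Function.update_self, Function.update_of_ne h, ht2, if_neg h]
  have k2 : a2 (ψ2 x') = a2 x' := by
    by_cases h : ψ2 x' = x'
    · rw [h]
    · rw [ha2, Function.update_of_ne hψ2x', Function.update_of_ne hne.symm, ha1,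
        Function.update_of_ne h, Function.update_self, ht1, if_neg h]
  have k3 : a2 (ψ1 x') = a2 x' := by
    rw [← k2, hψ2, skip_fun a2 k1 hne.symm]
  refine ⟨a2, ?_, ?_, ?_⟩
  · intro y hy hy'
    rw [ha2, Function.update_of_ne hy, ha1, Function.update_of_ne hy']
  · rw [← e1, k1]
  · rw [← e2, k3]

end skip

section remove

variable {X : Type*} [DecidableEq X]

/-- the darts which are left -/
abbrev Rem (x x' : X) : Type _ := {y : X // y ≠ x ∧ y ≠ x'}

lemma op_mem {x x' : X} (hne : x ≠ x') (ψ : Perm X) (y : X) :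
    (op x x' ψ y ≠ x ∧ op x x' ψ y ≠ x') ↔ (y ≠ x ∧ y ≠ x') := by
  have h1 := op_left ψ hne
  have h2 := op_right (x := x) (x' := x') ψ
  constructor
  · rintro ⟨h, h'⟩
    refine ⟨?_, ?_⟩
    · rintro rfl
      exact h h1
    · rintro rfl
      exact h' h2
  · rintro ⟨h, h'⟩
    refine ⟨fun h3 => h ?_, fun h3 => h' ?_⟩
    · exact (op x x' ψ).injective (h3.trans h1.symm)
    · exact (op x x' ψ).injective (h3.trans h2.symm)

/-- the reduced permutation on the remaining darts -/
def rem {x x' : X} (hne : x ≠ x') (ψ : Perm X) : Perm (Rem x x') :=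
  (op x x' ψ).subtypePerm (op_mem hne ψ)

@[simp] lemma rem_coe {x x' : X} (hne : x ≠ x') (ψ : Perm X) (y : Rem x x') :
    ((rem hne ψ y : Rem x x') : X) = op x x' ψ y := rfl

lemma rem_transfer {T : Type*} {x x' : X} (hne : x ≠ x') {ψ : Perm X} (s e : X → T)
    (h : ∀ y, s (ψ y) = e y) (h1 : s x' = e x) (h2 : e x' = s x) (y : Rem x x') :
    s (rem hne ψ y) = e y :=
  op_transfer hne s e h h1 h2 y.2.1 y.2.2

variable {φ α : Perm X}

lemma op_alpha_A (h2 : ∀ x, α (α x) = x) {x x' : X} (hx' : x' = α x) {y : X} (hy : y ≠ x)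
    (hy' : y ≠ x') : op x x' α y = α y := by
  have e1 : α y ≠ x := fun h => hy' (by rw [hx', ← h, h2])
  have e2 : α y ≠ x' := fun h => hy (α.injective (by rw [h, hx']))
  have e3 : (α * swap x x') y = α y := by simp [swap_apply_of_ne_of_ne hy hy']
  unfold op
  have e4 : skip x (α * swap x x') y = α y := by
    rw [skip_ne hy (by rw [e3]; exact e1), e3]
  rw [skip_ne hy' (by rw [e4]; exact e2), e4]

/-- removing an edge keeps `PropP` -/
theorem propP_rem_alpha (h2 : ∀ x, α (α x) = x) (hP : PropP φ α) {x x' : X} (hne : x ≠ x')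
    (hx' : x' = α x) : PropP (rem hne φ) (rem hne α) := by
  intro a' ha'
  have hαx' : α x' = x := by rw [hx', h2]
  obtain ⟨a, ha0, ha1, ha2⟩ := ext_fun φ hne
    (fun y => if h : y ≠ x ∧ y ≠ x' then a' ⟨y, h⟩ else 0) 0
  have hav : ∀ y : Rem x x', a y = a' y := by
    intro y
    rw [ha0 y y.2.1 y.2.2]
    rw [dif_pos y.2]
  have hα : ∀ y : Rem x x', ((rem hne α y : Rem x x') : X) = α y := fun y =>
    op_alpha_A h2 hx' y.2.1 y.2.2
  have hφ : ∀ y : Rem x x', a (rem hne φ y) = a (φ y) := fun y =>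
    op_aux hne a ha1 ha2 y.2.1 y.2.2
  have hcond : ∀ y, a y + a (φ y) + a (α y) + a (φ (α y)) = 0 := by
    intro y
    by_cases hy : y = x
    · rw [hy, ← hx', ha1, ha2]
      have : ∀ s t : ZMod 2, s + t + t + s = 0 := by decide
      exact this _ _
    by_cases hy' : y = x'
    · rw [hy', hαx', ha1, ha2]
      have : ∀ s t : ZMod 2, s + t + t + s = 0 := by decide
      exact this _ _
    · have := ha' ⟨y, hy, hy'⟩
      rw [← hav, ← hav, ← hav, ← hav, hφ, hφ, hα] at this
      exact this
  obtain ⟨b, h, hb, hh, hab⟩ := hP a hcond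
  have hbx : b (φ x') = b x := by rw [hx']; exact hb x
  have hbx' : b (φ x) = b x' := by rw [← hb x', hαx']
  have hhx : h x = h x' := by
    have e1 := hab x
    have e2 := hab (φ x')
    rw [ha1, e1, hbx, hh] at e2
    exact add_left_cancel e2
  refine ⟨fun y => b y, fun y => h y, ?_, ?_, ?_⟩
  · intro y
    show b (rem hne φ (rem hne α y)) = b y
    rw [rem_coe hne φ, op_aux hne b hbx hbx' (rem hne α y).2.1 (rem hne α y).2.2, hα, hb]
  · intro y
    exact rem_transfer hne h h hh hhx.symm hhx.symm y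
  · intro y
    rw [← hav, hab]

lemma op_alpha_B (h2 : ∀ x, α (α x) = x) (h1 : ∀ x, α x ≠ x) {x x' : X} (hne : x ≠ x')
    (hα : x' ≠ α x) : (∀ y, y ≠ x → y ≠ x' → y ≠ α x → y ≠ α x' → op x x' α y = α y) ∧
      op x x' α (α x) = α x' ∧ op x x' α (α x') = α x := by
  have hα' : x ≠ α x' := fun h => hα (by rw [h, h2])
  have n1 : α x ≠ x := h1 x
  have n2 : α x' ≠ x' := h1 x'
  have n3 : α x ≠ α x' := fun h => hne (α.injective h)
  refine ⟨?_, ?_, ?_⟩
  · intro y hy hy' hy1 hy2
    have e1 : α y ≠ x := fun h => hy1 (by rw [← h, h2])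
    have e2 : α y ≠ x' := fun h => hy2 (by rw [← h, h2])
    have e3 : (α * swap x x') y = α y := by simp [swap_apply_of_ne_of_ne hy hy']
    have e4 : skip x (α * swap x x') y = α y := by
      rw [skip_ne hy (by rw [e3]; exact e1), e3]
    unfold op
    rw [skip_ne hy' (by rw [e4]; exact e2), e4]
  · have e3 : (α * swap x x') (α x) = x := by
      rw [Perm.mul_apply, swap_apply_of_ne_of_ne n1 hα.symm, h2]
    have e4 : skip x (α * swap x x') (α x) = α x' := by
      rw [skip_eq e3]; simp
    unfold op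
    rw [skip_ne hα.symm (by rw [e4]; exact n2), e4]
  · have e3 : (α * swap x x') (α x') = x' := by
      rw [Perm.mul_apply, swap_apply_of_ne_of_ne hα'.symm n2, h2]
    have e4 : skip x (α * swap x x') (α x') = x' := by
      rw [skip_ne hα'.symm (by rw [e3]; exact hne.symm), e3]
    unfold op
    rw [skip_eq e4]
    have e5 : (α * swap x x') x' = α x := by simp
    rw [skip_ne hne.symm (by rw [e5]; exact n1), e5]

/-- folding a backtrack keeps `PropP` -/
theorem propP_rem_phi (h2 : ∀ x, α (α x) = x) (h1 : ∀ x, α x ≠ x) (hP : PropP φ α) {x x' : X}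
    (hne : x ≠ x') (hx' : x' = φ x) (hαφ : x' ≠ α x) : PropP (rem hne φ) (rem hne α) := by
  intro a' ha'
  obtain ⟨hα0, hαp, hαq⟩ := op_alpha_B h2 h1 hne hαφ
  have hαφ' : x ≠ α x' := fun h => hαφ (by rw [h, h2])
  have n1 : α x ≠ x := h1 x
  have n2 : α x' ≠ x' := h1 x'
  have n3 : α x ≠ α x' := fun h => hne (α.injective h)
  obtain ⟨a, ha0, ha1, ha2⟩ := ext_fun φ hne
    (fun y => if h : y ≠ x ∧ y ≠ x' then a' ⟨y, h⟩ else 0) 0
  have hav : ∀ y : Rem x x', a y = a' y := by
    intro y
    rw [ha0 y y.2.1 y.2.2]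
    rw [dif_pos y.2]
  have hφ : ∀ y : Rem x x', a (rem hne φ y) = a (φ y) := fun y =>
    op_aux hne a ha1 ha2 y.2.1 y.2.2
  -- the corrected value at `x'`
  set a2 : X → ZMod 2 := Function.update a x' (a x + a (α x) + a (φ (α x))) with ha2def
  have hu : ∀ y, y ≠ x' → a2 y = a y := fun y hy => Function.update_of_ne hy _ _
  have hu' : a2 x' = a x + a (α x) + a (φ (α x)) := Function.update_self _ _ _
  have hφne : ∀ y, y ≠ x → φ y ≠ x' := fun y hy h => hy (φ.injective (h.trans hx'))
  -- the condition at the glued edge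
  have hpq : a (α x) + a (φ (α x)) + a (α x') + a (φ (α x')) = 0 := by
    have := ha' ⟨α x, n1, hαφ.symm⟩
    have e : rem hne α ⟨α x, n1, hαφ.symm⟩ = ⟨α x', hαφ'.symm, n2⟩ := Subtype.ext hαp
    rw [← hav, ← hav, ← hav, ← hav, hφ, hφ, e] at this
    exact this
  have hcx : a2 x + a2 (φ x) + a2 (α x) + a2 (φ (α x)) = 0 := by
    rw [← hx', hu', hu x hne, hu _ hαφ.symm, hu _ (hφne _ n1)]
    have : ∀ s t u : ZMod 2, s + (s + t + u) + t + u = 0 := by decide
    exact this _ _ _
  have hcx' : a2 x' + a2 (φ x') + a2 (α x') + a2 (φ (α x')) = 0 := by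
    rw [hu', hu _ (hφne _ hne.symm), hu _ n2, hu _ (hφne _ hαφ'.symm), ha1]
    have : ∀ s t u v w : ZMod 2, t + u + v + w = 0 → (s + t + u) + s + v + w = 0 := by decide
    exact this _ _ _ _ _ hpq
  have hcond : ∀ y, a2 y + a2 (φ y) + a2 (α y) + a2 (φ (α y)) = 0 := by
    have hperm : ∀ s t u v : ZMod 2, s + t + u + v = 0 → u + v + s + t = 0 := by decide
    intro y
    by_cases hy : y = x
    · rw [hy]; exact hcx
    by_cases hy' : y = x'
    · rw [hy']; exact hcx'
    by_cases hy1 : y = α x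
    · rw [hy1, h2]
      exact hperm _ _ _ _ hcx
    by_cases hy2 : y = α x'
    · rw [hy2, h2]
      exact hperm _ _ _ _ hcx'
    · have e1 : α y ≠ x := fun h => hy1 (by rw [← h, h2])
      have e2 : α y ≠ x' := fun h => hy2 (by rw [← h, h2])
      have := ha' ⟨y, hy, hy'⟩
      have e : rem hne α ⟨y, hy, hy'⟩ = ⟨α y, e1, e2⟩ := Subtype.ext (hα0 y hy hy' hy1 hy2)
      rw [← hav, ← hav, ← hav, ← hav, hφ, hφ, e] at this
      rw [hu _ hy', hu _ (hφne _ hy), hu _ e2, hu _ (hφne _ e1)]
      exact this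
  obtain ⟨b, h, hb, hh, hab⟩ := hP a2 hcond
  have hbx : b (φ x') = b x := by
    have k1 := hab (φ x')
    have k2 := hab x
    rw [hu _ (hφne _ hne.symm), ha1] at k1
    rw [hu _ hne] at k2
    have k3 : h (φ x') = h x := by rw [hh, hx', hh]
    rw [k1, k3] at k2
    exact add_right_cancel k2
  have hbx' : b (φ x) = b x' := by rw [hx']
  have hhx : h x = h x' := by rw [hx', hh]
  have hbt : ∀ y : Rem x x', b (rem hne φ y) = b (φ y) := fun y =>
    op_aux hne b hbx hbx' y.2.1 y.2.2
  refine ⟨fun y => b y, fun y => h y, ?_, ?_, ?_⟩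
  · intro y
    show b (rem hne φ (rem hne α y)) = b y
    rw [hbt]
    by_cases hy1 : (y : X) = α x
    · have e : ((rem hne α y : Rem x x') : X) = α x' := by rw [rem_coe, hy1]; exact hαp
      rw [e, hy1, hb, ← hb (α x), h2, hbx']
    by_cases hy2 : (y : X) = α x'
    · have e : ((rem hne α y : Rem x x') : X) = α x := by rw [rem_coe, hy2]; exact hαq
      rw [e, hy2, hb, ← hb (α x'), h2, hbx]
    · have e : ((rem hne α y : Rem x x') : X) = α y := hα0 y y.2.1 y.2.2 hy1 hy2
      rw [e, hb]
  · intro y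
    exact rem_transfer hne h h hh hhx.symm hhx.symm y
  · intro y
    rw [← hav, ← hu _ y.2.2, hab]

lemma rem_invol (h2 : ∀ x, α (α x) = x) (h1 : ∀ x, α x ≠ x) {x x' : X} (hne : x ≠ x') :
    (∀ y, rem hne α (rem hne α y) = y) ∧ ∀ y, rem hne α y ≠ y := by
  by_cases hα : x' = α x
  · have e : ∀ y : Rem x x', ((rem hne α y : Rem x x') : X) = α y := fun y =>
      op_alpha_A h2 hα y.2.1 y.2.2
    refine ⟨fun y => Subtype.ext ?_, fun y hy => h1 y ?_⟩
    · rw [e, e, h2]
    · rw [← e, hy]
  · obtain ⟨hα0, hαp, hαq⟩ := op_alpha_B h2 h1 hne hα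
    have n3 : α x ≠ α x' := fun h => hne (α.injective h)
    have e0 : ∀ y : Rem x x', (y : X) ≠ α x → (y : X) ≠ α x' →
        ((rem hne α y : Rem x x') : X) = α y := fun y h h' => hα0 y y.2.1 y.2.2 h h'
    have ep : ∀ y : Rem x x', (y : X) = α x → ((rem hne α y : Rem x x') : X) = α x' := by
      intro y hy
      rw [rem_coe, hy]; exact hαp
    have eq : ∀ y : Rem x x', (y : X) = α x' → ((rem hne α y : Rem x x') : X) = α x := by
      intro y hy
      rw [rem_coe, hy]; exact hαq
    refine ⟨fun y => Subtype.ext ?_, fun y hy => ?_⟩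
    · by_cases hy1 : (y : X) = α x
      · rw [eq _ (ep y hy1), hy1]
      by_cases hy2 : (y : X) = α x'
      · rw [ep _ (eq y hy2), hy2]
      · have k := e0 y hy1 hy2
        rw [e0 _ _ _, k, h2]
        · rw [k]; exact fun h => y.2.1 (α.injective h)
        · rw [k]; exact fun h => y.2.2 (α.injective h)
    · by_cases hy1 : (y : X) = α x
      · have := ep y hy1
        rw [hy, hy1] at this
        exact n3 this
      by_cases hy2 : (y : X) = α x'
      · have := eq y hy2
        rw [hy, hy2] at this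
        exact n3 this.symm
      · have := e0 y hy1 hy2
        rw [hy] at this
        exact h1 y this.symm

/-- both kinds of removals at once -/
theorem propP_rem (h2 : ∀ x, α (α x) = x) (h1 : ∀ x, α x ≠ x) (hP : PropP φ α) {x x' : X}
    (hne : x ≠ x') (hx : x' = α x ∨ x' = φ x) : PropP (rem hne φ) (rem hne α) := by
  by_cases hα : x' = α x
  · exact propP_rem_alpha h2 hP hne hα
  · rcases hx with hx | hx
    · exact absurd hx hα
    · exact propP_rem_phi h2 h1 hP hne hx hα

end remove

end Crest.Agent.R177.PM681
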