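import Mathlib
import Crest.Agent.R177.TopDefs

/-!
# Rows 177 / 184, module TOPOLOGY, part (8d): algebra of the cone complex (helper753)

* `triv_coneX` : flat labellings of the cone complex are coboundaries (simple connectivity);
* `solv_coneX` : `Aspherical A` implies that all 2-cochains are coboundaries.
-/

set_option autoImplicit false

namespace Crest.Agent.R177.Top

open Crest.Agent.R199 (PAct)

section triv

variable {S V : Type} (A : PAct S V) {H : Type} [Group H]

/-- the permutation of `Grp A × H` defined by a letter -/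
def letterPerm (θA : Grp A × S → H) (s : S) : Equiv.Perm (Grp A × H) where
  toFun x := (x.1 * gw A [(s, true)], x.2 * θA (x.1, s))
  invFun x := (x.1 * (gw A [(s, true)])⁻¹, x.2 * (θA (x.1 * (gw A [(s, true)])⁻¹, s))⁻¹)
  left_inv x := by
    ext <;> simp [mul_assoc]
  right_inv x := by
    ext <;> simp [mul_assoc]

/-- the right action of the free group on `Grp A × H` -/
def actHom (θA : Grp A × S → H) : FreeGroup S →* (Equiv.Perm (Grp A × H))ᵐᵒᵖ :=
  FreeGroup.lift fun s => MulOpposite.op (letterPerm A θA s)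

theorem actHom_of (θA : Grp A × S → H) (s : S) (x : Grp A × H) :
    (actHom A θA (FreeGroup.of s)).unop x = (x.1 * gw A [(s, true)], x.2 * θA (x.1, s)) := by
  simp [actHom, letterPerm]

theorem actHom_mul (θA : Grp A × S → H) (w w' : FreeGroup S) (x : Grp A × H) :
    (actHom A θA (w * w')).unop x = (actHom A θA w').unop ((actHom A θA w).unop x) := by
  simp

theorem gw_nil : gw A ([] : List (S × Bool)) = 1 := by
  unfold gw
  rw [← FreeGroup.one_eq_mk, map_one]

theorem gw_cons (a : S × Bool) (w : List (S × Bool)) : gw A (a :: w) = gw A [a] * gw A w := by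
  unfold gw
  rw [← map_mul, FreeGroup.mul_mk]
  rfl

theorem gw_false (s : S) : gw A [(s, false)] = (gw A [(s, true)])⁻¹ := by
  unfold gw
  rw [← map_inv, FreeGroup.inv_mk]
  rfl

/-- along a readable word -/
theorem actHom_read (θA : Grp A × S → H) (θB : Grp A × V → H)
    (h : ∀ (p : Grp A) (v v' : V) (s : S), A.st (s, true) v = some v' →
      θB (p, v) * θA (p, s) = θB (p * gw A [(s, true)], v')) :
    ∀ (w : List (S × Bool)) (v v' : V) (p : Grp A) (a : H), A.read w v = some v' →
      (actHom A θA (FreeGroup.mk w)).unop (p, a * θB (p, v)) =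
        (p * gw A w, a * θB (p * gw A w, v')) := by
  intro w
  induction w with
  | nil =>
    intro v v' p a hr
    simp only [PAct.read, Option.some.injEq] at hr
    subst hr
    rw [gw_nil, mul_one, ← FreeGroup.one_eq_mk, map_one]
    rfl
  | cons b w ih =>
    intro v v' p a hr
    obtain ⟨u, hu, hr'⟩ := Option.bind_eq_some_iff.mp hr
    have hsplit : (FreeGroup.mk (b :: w) : FreeGroup S) = FreeGroup.mk [b] * FreeGroup.mk w := by
      rw [FreeGroup.mul_mk]; rfl
    have hstep : (actHom A θA (FreeGroup.mk [b])).unop (p, a * θB (p, v)) =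
        (p * gw A [b], a * θB (p * gw A [b], u)) := by
      obtain ⟨s, c⟩ := b
      cases c with
      | true =>
        have : (FreeGroup.mk [(s, true)] : FreeGroup S) = FreeGroup.of s := rfl
        rw [this, actHom_of]
        simp only
        rw [mul_assoc, h p v u s hu]
      | false =>
        have hinv' : (FreeGroup.mk [(s, false)] : FreeGroup S) = (FreeGroup.of s)⁻¹ := by
          rw [FreeGroup.of, FreeGroup.inv_mk]; rfl
        have hback : A.st (s, true) u = some v := A.symm (s, false) v u hu
        rw [hinv', map_inv, MulOpposite.unop_inv, Equiv.Perm.inv_def, Equiv.symm_apply_eq,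
          actHom_of]
        have h1 := h (p * gw A [(s, false)]) u v s hback
        have h2 : p * gw A [(s, false)] * gw A [(s, true)] = p := by
          rw [gw_false]; group
        rw [h2] at h1
        simp only
        rw [mul_assoc a, h1, h2]
    rw [hsplit, actHom_mul, hstep, ih u v' (p * gw A [b]) a hr', gw_cons A b w, mul_assoc]

theorem actHom_rels (θA : Grp A × S → H) (θB : Grp A × V → H)
    (h : ∀ (p : Grp A) (v v' : V) (s : S), A.st (s, true) v = some v' →
      θB (p, v) * θA (p, s) = θB (p * gw A [(s, true)], v')) :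
    ∀ r ∈ rels A, actHom A θA r = 1 := by
  rintro r ⟨x, w, hw, rfl⟩
  apply MulOpposite.unop_injective
  ext1 ⟨p, a⟩
  have h1 := actHom_read A θA θB h w x x p (a * (θB (p, x))⁻¹) hw
  have hg : gw A w = 1 := by
    unfold gw
    exact PresentedGroup.one_of_mem ⟨x, w, hw, rfl⟩
  rw [hg, mul_one, inv_mul_cancel_right] at h1
  rw [h1]
  rfl

/-- (d1) -/
theorem triv_coneX {S V : Type} (A : PAct S V) : Triv (coneX A) := by
  intro H _ θA θB hf
  change (Grp A × S → H) at θA
  change (Grp A × V → H) at θB
  have h : ∀ (p : Grp A) (v v' : V) (s : S), A.st (s, true) v = some v' →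
      θB (p, v) * θA (p, s) = θB (p * gw A [(s, true)], v') := by
    intro p v v' s hs
    have hsome : (A.st (s, true) v).isSome := by rw [hs]; rfl
    have h1 := hf ⟨(p, v, s), hsome⟩
    have h2 : (A.st (s, true) v).get hsome = v' := by simp [hs]
    have h3 : θB (p, v) * θA (p, s) =
        θB (p * gw A [(s, true)], (A.st (s, true) v).get hsome) := h1
    rw [h3, h2]
  have hrels := actHom_rels A θA θB h
  let Φ : Grp A →* (Equiv.Perm (Grp A × H))ᵐᵒᵖ :=
    PresentedGroup.toGroup (f := fun s => MulOpposite.op (letterPerm A θA s)) hrels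
  have hΦs : ∀ (s : S) (x : Grp A × H), (Φ (gw A [(s, true)])).unop x =
      (x.1 * gw A [(s, true)], x.2 * θA (x.1, s)) := by
    intro s x
    have : Φ (gw A [(s, true)]) = MulOpposite.op (letterPerm A θA s) :=
      PresentedGroup.toGroup.of hrels
    rw [this]
    rfl
  have hΦ1 : ∀ (g : Grp A) (x : Grp A × H), ((Φ g).unop x).1 = x.1 * g := by
    intro g
    induction g using PresentedGroup.induction_on with
    | _ w =>
      induction w using FreeGroup.induction_on with
      | C1 => intro x; simp
      | of s =>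
        intro x
        exact congrArg Prod.fst (hΦs s x)
      | inv_of s ih =>
        intro x
        have h4 : (PresentedGroup.mk (rels A)) (FreeGroup.of s) = gw A [(s, true)] := rfl
        rw [map_inv, map_inv, MulOpposite.unop_inv, Equiv.Perm.inv_def]
        have h5 := ih ((Equiv.symm (Φ (PresentedGroup.mk (rels A) (FreeGroup.of s))).unop) x)
        rw [Equiv.apply_symm_apply] at h5
        rw [h5]
        group
      | mul w w' ih ih' =>
        intro x
        rw [map_mul, map_mul, MulOpposite.unop_mul, Equiv.Perm.mul_apply, ih', ih, mul_assoc]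
  let ρ0 : Grp A → H := fun g => ((Φ g).unop (1, 1)).2
  have hpair : ∀ g, (Φ g).unop (1, 1) = (g, ρ0 g) := by
    intro g
    apply Prod.ext
    · rw [hΦ1]; simp
    · rfl
  have hρ : ∀ (g : Grp A) (s : S), ρ0 (g * gw A [(s, true)]) = ρ0 g * θA (g, s) := by
    intro g s
    have h6 : (Φ (g * gw A [(s, true)])).unop (1, 1) =
        (g * gw A [(s, true)], ρ0 g * θA (g, s)) := by
      rw [map_mul, MulOpposite.unop_mul, Equiv.Perm.mul_apply, hpair, hΦs]
    exact congrArg Prod.snd h6
  let ρ1 : Cell A → H := Quot.lift (fun x : Grp A × V => ρ0 x.1 * (θB x)⁻¹) (by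
    rintro ⟨p, v⟩ ⟨q, v'⟩ ⟨s, hs, hq⟩
    simp only at hs hq ⊢
    rw [hq, hρ, ← h p v v' s hs]
    group)
  refine ⟨Sum.elim ρ0 ρ1, ?_, ?_⟩
  · rintro ⟨p, s⟩
    change θA (p, s) = (ρ0 p)⁻¹ * ρ0 (p * gw A [(s, true)])
    rw [hρ, inv_mul_cancel_left]
  · rintro ⟨p, v⟩
    change θB (p, v) = (ρ0 p * (θB (p, v))⁻¹)⁻¹ * ρ0 p
    group

end triv

section solv

variable (X : Cx)

/-- the cellular boundary of the 2-cells -/
noncomputable def bdry : (X.F →₀ ℤ) →+ ((X.A ⊕ X.B) →₀ ℤ) :=
  Finsupp.liftAddHom fun f => Finsupp.singleAddHom (Sum.inl (X.ft f)) +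
    Finsupp.singleAddHom (Sum.inr (X.fl f)) - Finsupp.singleAddHom (Sum.inr (X.fr f))

theorem bdry_single (f : X.F) (n : ℤ) : bdry X (Finsupp.single f n) =
    Finsupp.single (Sum.inl (X.ft f)) n + Finsupp.single (Sum.inr (X.fl f)) n -
      Finsupp.single (Sum.inr (X.fr f)) n := by
  simp [bdry]

/-- `Triv` and injectivity of the boundary give `Solv` -/
theorem solv_of_triv (hT : Triv X) (hinj : Function.Injective (bdry X)) : Solv X := by
  classical
  intro K _ o
  let Q := ((X.A ⊕ X.B) →₀ ℤ) ⧸ (bdry X).range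
  let π : ((X.A ⊕ X.B) →₀ ℤ) →+ Q := QuotientAddGroup.mk' (bdry X).range
  obtain ⟨ρ, hρA, hρB⟩ := hT (Multiplicative Q)
    (fun a => Multiplicative.ofAdd (π (Finsupp.single (Sum.inl a) 1)))
    (fun b => Multiplicative.ofAdd (π (Finsupp.single (Sum.inr b) 1))) (by
      intro f
      rw [← ofAdd_add]
      congr 1
      rw [← map_add]
      refine (QuotientAddGroup.eq).mpr ?_
      refine ⟨-(Finsupp.single f 1), ?_⟩
      rw [map_neg, bdry_single]
      abel)
  have hlift : ∀ p, ∃ c : ((X.A ⊕ X.B) →₀ ℤ), π c = Multiplicative.toAdd (ρ p) := fun p =>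
    QuotientAddGroup.mk'_surjective _ _
  choose σ hσ using hlift
  have hA : ∀ a, ∃ w : X.F →₀ ℤ, bdry X w =
      σ (X.asrc a) + Finsupp.single (Sum.inl a) 1 - σ (X.atgt a) := by
    intro a
    have h1 : π (σ (X.asrc a) + Finsupp.single (Sum.inl a) 1 - σ (X.atgt a)) = 0 := by
      rw [map_sub, map_add, hσ, hσ]
      have h2 := congrArg Multiplicative.toAdd (hρA a)
      rw [toAdd_ofAdd, toAdd_mul, toAdd_inv] at h2
      rw [h2]
      abel
    have h3 := (QuotientAddGroup.eq_zero_iff _).mp h1
    exact h3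
  have hB : ∀ b, ∃ w : X.F →₀ ℤ, bdry X w =
      σ (X.bsrc b) + Finsupp.single (Sum.inr b) 1 - σ (X.btgt b) := by
    intro b
    have h1 : π (σ (X.bsrc b) + Finsupp.single (Sum.inr b) 1 - σ (X.btgt b)) = 0 := by
      rw [map_sub, map_add, hσ, hσ]
      have h2 := congrArg Multiplicative.toAdd (hρB b)
      rw [toAdd_ofAdd, toAdd_mul, toAdd_inv] at h2
      rw [h2]
      abel
    have h3 := (QuotientAddGroup.eq_zero_iff _).mp h1
    exact h3
  choose wA hwA using hA
  choose wB hwB using hB
  have key : ∀ f, wA (X.ft f) + wB (X.fl f) - wB (X.fr f) = Finsupp.single f 1 := by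
    intro f
    apply hinj
    rw [map_sub, map_add, hwA, hwB, hwB, bdry_single, X.bsrc_fl, X.bsrc_fr, X.btgt_fl, X.btgt_fr]
    abel
  let oh : (X.F →₀ ℤ) →+ K := Finsupp.liftAddHom fun f => (zmultiplesHom K) (o f)
  have hoh : ∀ f, oh (Finsupp.single f 1) = o f := by
    intro f
    simp [oh]
  refine ⟨fun a => oh (wA a), fun b => - oh (wB b), fun f => ?_⟩
  rw [← hoh f, ← key f, map_sub, map_add]
  beta_reduce
  rw [sub_neg_eq_add]
  abel1

end solv

section asph

variable {S V : Type} (A : PAct S V)

/-- left part of a chain on a sum -/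
noncomputable def projL (α β : Type) : ((α ⊕ β) →₀ ℤ) →+ (α →₀ ℤ) :=
  Finsupp.liftAddHom (Sum.elim (fun a => Finsupp.singleAddHom a) (fun _ => 0))

/-- right part of a chain on a sum -/
noncomputable def projR (α β : Type) : ((α ⊕ β) →₀ ℤ) →+ (β →₀ ℤ) :=
  Finsupp.liftAddHom (Sum.elim (fun _ => 0) (fun b => Finsupp.singleAddHom b))

theorem projL_inl {α β : Type} (a : α) (n : ℤ) :
    projL α β (Finsupp.single (Sum.inl a) n) = Finsupp.single a n := by
  unfold projL
  rw [Finsupp.liftAddHom_apply_single]
  rfl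

theorem projL_inr {α β : Type} (b : β) (n : ℤ) :
    projL α β (Finsupp.single (Sum.inr b) n) = 0 := by
  unfold projL
  rw [Finsupp.liftAddHom_apply_single]
  rfl

theorem projR_inl {α β : Type} (a : α) (n : ℤ) :
    projR α β (Finsupp.single (Sum.inl a) n) = 0 := by
  unfold projR
  rw [Finsupp.liftAddHom_apply_single]
  rfl

theorem projR_inr {α β : Type} (b : β) (n : ℤ) :
    projR α β (Finsupp.single (Sum.inr b) n) = Finsupp.single b n := by
  unfold projR
  rw [Finsupp.liftAddHom_apply_single]
  rfl

theorem push_single (e : Grp A × V × S) (n : ℤ) :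
    push A (Finsupp.single e n) = Finsupp.single (e.1, e.2.2) n := by
  simp [push]

theorem cbd_single (e : Grp A × V × S) (v' : V) (n : ℤ)
    (h : A.st (e.2.2, true) e.2.1 = some v') :
    cbd A (Finsupp.single e n) = Finsupp.single (e.1 * gw A [(e.2.2, true)], v') n -
      Finsupp.single (e.1, e.2.1) n := by
  unfold cbd
  rw [Finsupp.liftAddHom_apply_single]
  simp only [h]
  rfl

/-- the triangles of the cone complex -/
abbrev Tri : Type := {e : Grp A × V × S // (A.st (e.2.2, true) e.2.1).isSome}

/-- the boundary with explicit types -/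
noncomputable def bd' : (Tri A →₀ ℤ) →+ (((Grp A × S) ⊕ (Grp A × V)) →₀ ℤ) :=
  bdry (coneX A)

theorem bd'_single (f : Tri A) (n : ℤ) (v' : V)
    (h : A.st (f.1.2.2, true) f.1.2.1 = some v') : bd' A (Finsupp.single f n) =
    Finsupp.single (Sum.inl (f.1.1, f.1.2.2)) n + Finsupp.single (Sum.inr (f.1.1, f.1.2.1)) n -
      Finsupp.single (Sum.inr (f.1.1 * gw A [(f.1.2.2, true)], v')) n := by
  have h1 := bdry_single (coneX A) f n
  have h2 : (A.st (f.1.2.2, true) f.1.2.1).get f.2 = v' := by simp [h]
  subst h2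
  exact h1

theorem push_eq (z : Tri A →₀ ℤ) : push A (Finsupp.mapDomain Subtype.val z) =
    projL (Grp A × S) (Grp A × V) (bd' A z) := by
  have hpush : (push A).comp (Finsupp.mapDomain.addMonoidHom Subtype.val) =
      (projL (Grp A × S) (Grp A × V)).comp (bd' A) := by
    apply Finsupp.addHom_ext
    intro f n
    obtain ⟨v', hv'⟩ := Option.isSome_iff_exists.mp f.2
    rw [AddMonoidHom.comp_apply, AddMonoidHom.comp_apply, bd'_single A f n v' hv', map_sub,
      map_add, projL_inl, projL_inr, projL_inr, add_zero, sub_zero,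
      Finsupp.mapDomain.addMonoidHom_apply, Finsupp.mapDomain_single, push_single]
  exact DFunLike.congr_fun hpush z

theorem cbd_eq (z : Tri A →₀ ℤ) : cbd A (Finsupp.mapDomain Subtype.val z) =
    -(projR (Grp A × S) (Grp A × V) (bd' A z)) := by
  have hcbd : (cbd A).comp (Finsupp.mapDomain.addMonoidHom Subtype.val) =
      -((projR (Grp A × S) (Grp A × V)).comp (bd' A)) := by
    apply Finsupp.addHom_ext
    intro f n
    obtain ⟨v', hv'⟩ := Option.isSome_iff_exists.mp f.2
    rw [AddMonoidHom.neg_apply, AddMonoidHom.comp_apply, AddMonoidHom.comp_apply,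
      bd'_single A f n v' hv', map_sub, map_add, projR_inl, projR_inr, projR_inr, zero_add,
      neg_sub, Finsupp.mapDomain.addMonoidHom_apply, Finsupp.mapDomain_single,
      cbd_single A _ v' n hv']
  exact DFunLike.congr_fun hcbd z

theorem bd'_injective (h : Aspherical A) : Function.Injective (bd' A) := by
  classical
  rw [injective_iff_map_eq_zero]
  intro z hz
  have hsupp : ∀ e ∈ (Finsupp.mapDomain (Subtype.val : Tri A → Grp A × V × S) z).support,
      (A.st (e.2.2, true) e.2.1).isSome := by
    intro e he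
    have h1 := Finsupp.mapDomain_support he
    rw [Finset.mem_image] at h1
    obtain ⟨f, -, rfl⟩ := h1
    exact f.2
  have h1 : cbd A (Finsupp.mapDomain Subtype.val z) = 0 := by
    rw [cbd_eq, hz, map_zero, neg_zero]
  have h2 : push A (Finsupp.mapDomain Subtype.val z) = 0 := by
    rw [push_eq, hz, map_zero]
  have h3 := h _ hsupp h1 h2
  exact Finsupp.mapDomain_injective Subtype.val_injective (h3.trans Finsupp.mapDomain_zero.symm)

theorem bdry_coneX_injective (h : Aspherical A) : Function.Injective (bdry (coneX A)) :=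
  bd'_injective A h

/-- (d2) -/
theorem solv_coneX {S V : Type} (A : PAct S V) (h : Aspherical A) : Solv (coneX A) :=
  solv_of_triv (coneX A) (triv_coneX A) (bdry_coneX_injective A h)

end asph

end Crest.Agent.R177.Top
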