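import Crest.Agent.R177.TopCov
import Crest.Agent.R197.TCWBuild

/-!
# Rows 177 / 184, module TOPOLOGY (8a): the finite CW structure of the quotient (helper961)
-/

set_option autoImplicit false

open scoped unitInterval Topology
open Set Metric

namespace Crest.Agent.R177.Top

namespace GCx

open Crest.Agent.R177.Top.Real

variable {G : Type} [Group G] {X : Cx} (T : GCx G X)

theorem ne_fv {f : X.F} {s t : I} (hs : Int s) (ht : Int t) {q : X.P}
    (h : T.InvEq (T.f f (s, t)) (T.v q)) : False := by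
  have h0 := h.F T (fun _ => 1) false false
  rw [fF_f, fF_v] at h0
  simp only [Bool.false_eq_true, if_false, mul_one, one_mul] at h0
  exact absurd h0 (mul_pos (pos_int hs) (pos_int ht)).ne'

theorem ne_fa {f : X.F} {s t s' : I} (hs : Int s) (ht : Int t) {q : X.A}
    (h : T.InvEq (T.f f (s, t)) (T.a q s')) : False := by
  have h0 := h.F T (fun _ => 1) false false
  rw [fF_f, fF_a] at h0
  simp only [Bool.false_eq_true, if_false, mul_one, one_mul] at h0
  exact absurd h0 (mul_pos (pos_int hs) (pos_int ht)).ne'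

theorem ne_fb {f : X.F} {s t s' : I} (hs : Int s) (ht : Int t) {q : X.B}
    (h : T.InvEq (T.f f (s, t)) (T.b q s')) : False := by
  have h0 := h.F T (fun _ => 1) false false
  rw [fF_f, fF_b] at h0
  simp only [Bool.false_eq_true, if_false, mul_one, one_mul] at h0
  exact absurd h0 (mul_pos (pos_int hs) (pos_int ht)).ne'

theorem eq_ff {f f' : X.F} {s t s' t' : I} (hs : Int s) (ht : Int t)
    (h : T.InvEq (T.f f (s, t)) (T.f f' (s', t'))) : T.tF f' = T.tF f ∧ s = s' ∧ t = t' := by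
  have h1 := fun j k => h.F T (ind (T.tF f)) j k
  simp only [fF_f, ind_self] at h1
  have hps := pos_int hs
  have hpt := pos_int ht
  have h00 := h1 false false
  have h10 := h1 true false
  have h01 := h1 false true
  simp only [Bool.false_eq_true, if_false, if_true, mul_one, one_mul] at h00 h10 h01
  have e1 : T.tF f' = T.tF f := eq_of_ind fun h => by
    rw [h] at h00; simp only [zero_mul] at h00; exact (mul_pos hps hpt).ne' h00
  rw [e1, ind_self, one_mul] at h00 h10 h01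
  rw [← h00] at h10 h01
  exact ⟨e1, Subtype.ext (mul_left_cancel₀ (mul_pos hps hpt).ne' h10),
    Subtype.ext (mul_left_cancel₀ (mul_pos hps hpt).ne' h01)⟩

theorem ne_av {a : X.A} {s : I} (hs : Int s) {q : X.P}
    (h : T.InvEq (T.a a s) (T.v q)) : False := by
  have h0 := h.A T (fun _ => 1) false
  rw [fA_a, fA_v] at h0
  simp only [Bool.false_eq_true, if_false, mul_one, one_mul] at h0
  exact absurd h0 (pos_int hs).ne'

theorem ne_ab {a : X.A} {s s' : I} (hs : Int s) {q : X.B}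
    (h : T.InvEq (T.a a s) (T.b q s')) : False := by
  have h0 := h.A T (fun _ => 1) false
  rw [fA_a, fA_b] at h0
  simp only [Bool.false_eq_true, if_false, mul_one, one_mul] at h0
  exact absurd h0 (pos_int hs).ne'

theorem eq_aa {a a' : X.A} {s s' : I} (hs : Int s)
    (h : T.InvEq (T.a a s) (T.a a' s')) : T.tA a' = T.tA a ∧ s = s' := by
  have hps := pos_int hs
  have h0 := h.A T (ind (T.tA a)) false
  have h1 := h.A T (ind (T.tA a)) true
  rw [fA_a, fA_a, ind_self] at h0 h1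
  simp only [Bool.false_eq_true, if_false, if_true, mul_one, one_mul] at h0 h1
  have e1 : T.tA a' = T.tA a := eq_of_ind fun h => by
    rw [h] at h0; simp only [zero_mul] at h0; exact hps.ne' h0
  rw [e1, ind_self, one_mul] at h0 h1
  rw [← h0] at h1
  exact ⟨e1, Subtype.ext (mul_left_cancel₀ hps.ne' h1)⟩

theorem ne_bv {a : X.B} {s : I} (hs : Int s) {q : X.P}
    (h : T.InvEq (T.b a s) (T.v q)) : False := by
  have h0 := h.B T (fun _ => 1) false
  rw [fB_b, fB_v] at h0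
  simp only [Bool.false_eq_true, if_false, mul_one, one_mul] at h0
  exact absurd h0 (pos_int hs).ne'

theorem eq_bb {a a' : X.B} {s s' : I} (hs : Int s)
    (h : T.InvEq (T.b a s) (T.b a' s')) : T.tB a' = T.tB a ∧ s = s' := by
  have hps := pos_int hs
  have h0 := h.B T (ind (T.tB a)) false
  have h1 := h.B T (ind (T.tB a)) true
  rw [fB_b, fB_b, ind_self] at h0 h1
  simp only [Bool.false_eq_true, if_false, if_true, mul_one, one_mul] at h0 h1
  have e1 : T.tB a' = T.tB a := eq_of_ind fun h => by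
    rw [h] at h0; simp only [zero_mul] at h0; exact hps.ne' h0
  rw [e1, ind_self, one_mul] at h0 h1
  rw [← h0] at h1
  exact ⟨e1, Subtype.ext (mul_left_cancel₀ hps.ne' h1)⟩

theorem eq_vv {p q : X.P} (h : T.InvEq (T.v p) (T.v q)) : T.tP q = T.tP p := by
  have h0 := h.P T (ind (T.tP p))
  rw [fP_v, fP_v, ind_self] at h0
  exact eq_of_ind (by rw [← h0]; exact one_ne_zero)

/-- representatives -/
noncomputable def rP : T.TP → X.P := Function.surjInv T.tP_sj
noncomputable def rA : T.TA → X.A := Function.surjInv T.tA_sj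
noncomputable def rB : T.TB → X.B := Function.surjInv T.tB_sj
noncomputable def rF : T.TF → X.F := Function.surjInv T.tF_sj

theorem tP_rP (x : T.TP) : T.tP (T.rP x) = x := Function.surjInv_eq _ x
theorem tA_rA (x : T.TA) : T.tA (T.rA x) = x := Function.surjInv_eq _ x
theorem tB_rB (x : T.TB) : T.tB (T.rB x) = x := Function.surjInv_eq _ x
theorem tF_rF (x : T.TF) : T.tF (T.rF x) = x := Function.surjInv_eq _ x

theorem pr_v (p : X.P) : T.pr (T.v (T.rP (T.tP p))) = T.pr (T.v p) := by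
  obtain ⟨g, hg⟩ := T.tP_tr (T.rP (T.tP p)) p (T.tP_rP _)
  rw [← T.pr_smul g, smul_v, hg]

theorem pr_a (p : X.A) (s : I) : T.pr (T.a (T.rA (T.tA p)) s) = T.pr (T.a p s) := by
  obtain ⟨g, hg⟩ := T.tA_tr (T.rA (T.tA p)) p (T.tA_rA _)
  rw [← T.pr_smul g, smul_a, hg]

theorem pr_b (p : X.B) (s : I) : T.pr (T.b (T.rB (T.tB p)) s) = T.pr (T.b p s) := by
  obtain ⟨g, hg⟩ := T.tB_tr (T.rB (T.tB p)) p (T.tB_rB _)
  rw [← T.pr_smul g, smul_b, hg]

theorem pr_f (p : X.F) (y : I × I) : T.pr (T.f (T.rF (T.tF p)) y) = T.pr (T.f p y) := by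
  obtain ⟨g, hg⟩ := T.tF_tr (T.rF (T.tF p)) p (T.tF_rF _)
  rw [← T.pr_smul g, smul_f, hg]

/-- clamp to the unit interval -/
noncomputable def cl (r : ℝ) : I := projIcc 0 1 zero_le_one ((r + 1) / 2)

theorem continuous_cl : Continuous cl := continuous_projIcc.comp (by fun_prop)

theorem cl_coe {r : ℝ} (h : |r| ≤ 1) : ((cl r : I) : ℝ) = (r + 1) / 2 := by
  have h' := abs_le.mp h
  unfold cl
  rw [projIcc_of_mem zero_le_one (x := (r + 1) / 2) ⟨by linarith, by linarith⟩]

theorem cl_int {r : ℝ} (h : |r| < 1) : Int (cl r) := by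
  have h' := abs_lt.mp h
  unfold Real.Int
  rw [cl_coe h.le]
  constructor <;> linarith

theorem cl_one : cl 1 = 1 := Subtype.ext (by rw [cl_coe (by simp)]; norm_num)
theorem cl_neg_one : cl (-1) = 0 := Subtype.ext (by rw [cl_coe (by simp)]; norm_num)

theorem cl_inj {r r' : ℝ} (h : |r| ≤ 1) (h' : |r'| ≤ 1) (e : cl r = cl r') : r = r' := by
  have := congrArg Subtype.val e
  rw [cl_coe h, cl_coe h'] at this
  linarith

theorem exists_cl (s : I) : ∃ r : ℝ, |r| ≤ 1 ∧ cl r = s := by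
  have h0 := s.2.1
  have h1 := s.2.2
  have h : |2 * (s : ℝ) - 1| ≤ 1 := abs_le.mpr ⟨by linarith, by linarith⟩
  exact ⟨2 * s - 1, h, Subtype.ext (by rw [cl_coe h]; ring)⟩

theorem cl_not_int {r : ℝ} (h : |r| = 1) : cl r = 0 ∨ cl r = 1 := by
  rcases (abs_eq zero_le_one).mp h with rfl | rfl
  · exact Or.inr cl_one
  · exact Or.inl cl_neg_one

/-- cells of the quotient -/
def Cel : ℕ → Type
  | 0 => T.TP
  | 1 => T.TA ⊕ T.TB
  | 2 => T.TF
  | _ => Empty

/-- characteristic maps -/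
noncomputable def Ph : ∀ n, T.Cel n → (Fin n → ℝ) → T.Qt
  | 0, i, _ => T.pr (T.v (T.rP i))
  | 1, Sum.inl i, x => T.pr (T.a (T.rA i) (cl (x 0)))
  | 1, Sum.inr i, x => T.pr (T.b (T.rB i) (cl (x 0)))
  | 2, i, x => T.pr (T.f (T.rF i) (cl (x 0), cl (x 1)))
  | _ + 3, i, _ => Empty.elim i

theorem continuous_Ph (n : ℕ) (i : T.Cel n) : Continuous (T.Ph n i) := by
  match n, i with
  | 0, i => exact continuous_const
  | 1, Sum.inl i =>
    exact T.continuous_pr.comp ((continuous_ea' _).comp (continuous_cl.comp (continuous_apply 0)))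
  | 1, Sum.inr i =>
    exact T.continuous_pr.comp ((continuous_eb' _).comp (continuous_cl.comp (continuous_apply 0)))
  | 2, i =>
    exact T.continuous_pr.comp ((continuous_sq' _).comp
      ((continuous_cl.comp (continuous_apply 0)).prodMk (continuous_cl.comp (continuous_apply 1))))
  | _ + 3, i => exact Empty.elim i

theorem abs_lt_of_ball {n : ℕ} {x : Fin n → ℝ} (hx : x ∈ ball (0 : Fin n → ℝ) 1) (i : Fin n) :
    |x i| < 1 := by
  rw [mem_ball_zero_iff] at hx
  exact (norm_le_pi_norm x i).trans_lt hx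

theorem abs_le_of_ball {n : ℕ} {x : Fin n → ℝ} (hx : x ∈ closedBall (0 : Fin n → ℝ) 1)
    (i : Fin n) : |x i| ≤ 1 := by
  rw [mem_closedBall_zero_iff] at hx
  exact (norm_le_pi_norm x i).trans hx

theorem mem_ball_of {n : ℕ} {x : Fin n → ℝ} (hx : ∀ i, |x i| < 1) : x ∈ ball (0 : Fin n → ℝ) 1 := by
  rw [mem_ball_zero_iff, pi_norm_lt_iff one_pos]
  exact hx

theorem mem_closedBall_of {n : ℕ} {x : Fin n → ℝ} (hx : ∀ i, |x i| ≤ 1) :
    x ∈ closedBall (0 : Fin n → ℝ) 1 := by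
  rw [mem_closedBall_zero_iff, pi_norm_le_iff_of_nonneg zero_le_one]
  exact hx

theorem exists_of_sphere {n : ℕ} {x : Fin n → ℝ} (hx : x ∈ sphere (0 : Fin n → ℝ) 1) :
    ∃ i, |x i| = 1 := by
  by_contra h
  push Not at h
  have h1 : x ∈ ball (0 : Fin n → ℝ) 1 := mem_ball_of fun i =>
    lt_of_le_of_ne (abs_le_of_ball (sphere_subset_closedBall hx) i) (h i)
  rw [mem_ball_zero_iff] at h1
  rw [mem_sphere_zero_iff_norm] at hx
  exact absurd hx h1.ne

theorem cover_v (p : X.P) : ∃ z ∈ closedBall (0 : Fin 0 → ℝ) 1,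
    T.Ph 0 (T.tP p) z = T.pr (T.v p) :=
  ⟨0, mem_closedBall_of fun i => i.elim0, T.pr_v p⟩

theorem cover_a (p : X.A) (s : I) : ∃ z ∈ closedBall (0 : Fin 1 → ℝ) 1,
    T.Ph 1 (Sum.inl (T.tA p)) z = T.pr (T.a p s) := by
  obtain ⟨r, hr, rfl⟩ := exists_cl s
  exact ⟨fun _ => r, mem_closedBall_of fun i => hr, T.pr_a p _⟩

theorem cover_b (p : X.B) (s : I) : ∃ z ∈ closedBall (0 : Fin 1 → ℝ) 1,
    T.Ph 1 (Sum.inr (T.tB p)) z = T.pr (T.b p s) := by
  obtain ⟨r, hr, rfl⟩ := exists_cl s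
  exact ⟨fun _ => r, mem_closedBall_of fun i => hr, T.pr_b p _⟩

theorem cover_f (p : X.F) (s t : I) : ∃ z ∈ closedBall (0 : Fin 2 → ℝ) 1,
    T.Ph 2 (T.tF p) z = T.pr (T.f p (s, t)) := by
  obtain ⟨r, hr, rfl⟩ := exists_cl s
  obtain ⟨r', hr', rfl⟩ := exists_cl t
  refine ⟨![r, r'], mem_closedBall_of fun i => ?_, T.pr_f p _⟩
  fin_cases i
  · exact hr
  · exact hr'

theorem Ph_inj (n : ℕ) (i : T.Cel n) : InjOn (T.Ph n i) (ball 0 1) := by
  intro x hx y hy h
  match n, i with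
  | 0, i => exact Subsingleton.elim _ _
  | 1, Sum.inl i =>
    obtain ⟨-, h2⟩ := T.eq_aa (cl_int (abs_lt_of_ball hx 0)) (T.invEq_of_pr h)
    funext j
    rw [Fin.eq_zero j]
    exact cl_inj (abs_lt_of_ball hx 0).le (abs_lt_of_ball hy 0).le h2
  | 1, Sum.inr i =>
    obtain ⟨-, h2⟩ := T.eq_bb (cl_int (abs_lt_of_ball hx 0)) (T.invEq_of_pr h)
    funext j
    rw [Fin.eq_zero j]
    exact cl_inj (abs_lt_of_ball hx 0).le (abs_lt_of_ball hy 0).le h2
  | 2, i =>
    obtain ⟨-, h2, h3⟩ := T.eq_ff (cl_int (abs_lt_of_ball hx 0)) (cl_int (abs_lt_of_ball hx 1))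
      (T.invEq_of_pr h)
    funext j
    fin_cases j
    · exact cl_inj (abs_lt_of_ball hx 0).le (abs_lt_of_ball hy 0).le h2
    · exact cl_inj (abs_lt_of_ball hx 1).le (abs_lt_of_ball hy 1).le h3
  | _ + 3, i => exact Empty.elim i

theorem not_int_zero : ¬ Int (0 : I) := fun h => absurd h.1 (lt_irrefl _)
theorem not_int_one : ¬ Int (1 : I) := fun h => absurd h.2 (lt_irrefl _)

theorem Ph_sat (n : ℕ) (i : T.Cel n) (x y : Fin n → ℝ) (hx : x ∈ ball (0 : Fin n → ℝ) 1)
    (hy : y ∈ sphere (0 : Fin n → ℝ) 1) : T.Ph n i x ≠ T.Ph n i y := by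
  intro h
  obtain ⟨k, hk⟩ := exists_of_sphere hy
  match n, i with
  | 0, i => exact k.elim0
  | 1, Sum.inl i =>
    obtain ⟨-, h2⟩ := T.eq_aa (cl_int (abs_lt_of_ball hx 0)) (T.invEq_of_pr h)
    rw [Fin.eq_zero k] at hk
    have h3 := cl_int (abs_lt_of_ball hx 0)
    rcases cl_not_int hk with h4 | h4 <;> rw [h2, h4] at h3
    · exact not_int_zero h3
    · exact not_int_one h3
  | 1, Sum.inr i =>
    obtain ⟨-, h2⟩ := T.eq_bb (cl_int (abs_lt_of_ball hx 0)) (T.invEq_of_pr h)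
    rw [Fin.eq_zero k] at hk
    have h3 := cl_int (abs_lt_of_ball hx 0)
    rcases cl_not_int hk with h4 | h4 <;> rw [h2, h4] at h3
    · exact not_int_zero h3
    · exact not_int_one h3
  | 2, i =>
    obtain ⟨-, h2, h3⟩ := T.eq_ff (cl_int (abs_lt_of_ball hx 0)) (cl_int (abs_lt_of_ball hx 1))
      (T.invEq_of_pr h)
    have h5 := cl_int (abs_lt_of_ball hx 0)
    have h6 := cl_int (abs_lt_of_ball hx 1)
    rw [h2] at h5
    rw [h3] at h6
    fin_cases k
    · rcases cl_not_int hk with h4 | h4 <;> simp only [Fin.zero_eta] at h4 <;> rw [h4] at h5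
      · exact not_int_zero h5
      · exact not_int_one h5
    · rcases cl_not_int hk with h4 | h4 <;> simp only [Fin.mk_one] at h4 <;> rw [h4] at h6
      · exact not_int_zero h6
      · exact not_int_one h6
  | _ + 3, i => exact Empty.elim i

theorem Ph_disj (n m : ℕ) (i : T.Cel n) (j : T.Cel m) (x : Fin n → ℝ) (y : Fin m → ℝ)
    (hx : x ∈ ball (0 : Fin n → ℝ) 1) (hy : y ∈ ball (0 : Fin m → ℝ) 1)
    (h : T.Ph n i x = T.Ph m j y) : (⟨n, i⟩ : Σ n, T.Cel n) = ⟨m, j⟩ := by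
  match n, i, m, j with
  | 0, i, 0, j =>
    have h1 := T.eq_vv (T.invEq_of_pr h)
    have h2 : i = j := ((T.tP_rP i).symm.trans h1.symm).trans (T.tP_rP j)
    exact congrArg (Sigma.mk 0) h2
  | 0, i, 1, Sum.inl j => exact (T.ne_av (cl_int (abs_lt_of_ball hy 0)) (T.invEq_of_pr h.symm)).elim
  | 0, i, 1, Sum.inr j => exact (T.ne_bv (cl_int (abs_lt_of_ball hy 0)) (T.invEq_of_pr h.symm)).elim
  | 0, i, 2, j => exact (T.ne_fv (cl_int (abs_lt_of_ball hy 0)) (cl_int (abs_lt_of_ball hy 1))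
      (T.invEq_of_pr h.symm)).elim
  | 1, Sum.inl i, 0, j => exact (T.ne_av (cl_int (abs_lt_of_ball hx 0)) (T.invEq_of_pr h)).elim
  | 1, Sum.inr i, 0, j => exact (T.ne_bv (cl_int (abs_lt_of_ball hx 0)) (T.invEq_of_pr h)).elim
  | 1, Sum.inl i, 1, Sum.inl j =>
    have := (T.eq_aa (cl_int (abs_lt_of_ball hx 0)) (T.invEq_of_pr h)).1
    rw [T.tA_rA, T.tA_rA] at this
    rw [this]
  | 1, Sum.inr i, 1, Sum.inr j =>
    have := (T.eq_bb (cl_int (abs_lt_of_ball hx 0)) (T.invEq_of_pr h)).1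
    rw [T.tB_rB, T.tB_rB] at this
    rw [this]
  | 1, Sum.inl i, 1, Sum.inr j => exact (T.ne_ab (cl_int (abs_lt_of_ball hx 0)) (T.invEq_of_pr h)).elim
  | 1, Sum.inr i, 1, Sum.inl j =>
    exact (T.ne_ab (cl_int (abs_lt_of_ball hy 0)) (T.invEq_of_pr h.symm)).elim
  | 1, Sum.inl i, 2, j => exact (T.ne_fa (cl_int (abs_lt_of_ball hy 0))
      (cl_int (abs_lt_of_ball hy 1)) (T.invEq_of_pr h.symm)).elim
  | 1, Sum.inr i, 2, j => exact (T.ne_fb (cl_int (abs_lt_of_ball hy 0))
      (cl_int (abs_lt_of_ball hy 1)) (T.invEq_of_pr h.symm)).elim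
  | 2, i, 0, j => exact (T.ne_fv (cl_int (abs_lt_of_ball hx 0))
      (cl_int (abs_lt_of_ball hx 1)) (T.invEq_of_pr h)).elim
  | 2, i, 1, Sum.inl j => exact (T.ne_fa (cl_int (abs_lt_of_ball hx 0))
      (cl_int (abs_lt_of_ball hx 1)) (T.invEq_of_pr h)).elim
  | 2, i, 1, Sum.inr j => exact (T.ne_fb (cl_int (abs_lt_of_ball hx 0))
      (cl_int (abs_lt_of_ball hx 1)) (T.invEq_of_pr h)).elim
  | 2, i, 2, j =>
    have := (T.eq_ff (cl_int (abs_lt_of_ball hx 0)) (cl_int (abs_lt_of_ball hx 1))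
      (T.invEq_of_pr h)).1
    have h2 : i = j := ((T.tF_rF i).symm.trans this.symm).trans (T.tF_rF j)
    exact congrArg (Sigma.mk 2) h2
  | _ + 3, i, _, _ => exact Empty.elim i
  | _, _, _ + 3, j => exact Empty.elim j

/-- the CW structure -/
theorem exists_cw [Finite T.TP] [Finite T.TA] [Finite T.TB] [Finite T.TF] :
    ∃ _C : _root_.Topology.CWComplex (Set.univ : Set T.Qt),
      _root_.Topology.RelCWComplex.Finite (Set.univ : Set T.Qt) ∧
      ∀ n, 2 < n → IsEmpty (_root_.Topology.RelCWComplex.cell (Set.univ : Set T.Qt) n) := by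
  have hfin : ∀ n, Finite (T.Cel n) := by
    intro n
    match n with
    | 0 => exact inferInstanceAs (Finite T.TP)
    | 1 => exact inferInstanceAs (Finite (T.TA ⊕ T.TB))
    | 2 => exact inferInstanceAs (Finite T.TF)
    | _ + 3 => exact inferInstanceAs (Finite Empty)
  have hemp : ∀ n, 2 < n → IsEmpty (T.Cel n) := by
    intro n hn
    match n, hn with
    | m + 3, _ => exact inferInstanceAs (IsEmpty Empty)
  have hev : ∀ᶠ n in Filter.atTop, IsEmpty (T.Cel n) :=
    Filter.eventually_atTop.mpr ⟨3, fun n hn => hemp n hn⟩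
  have h1 : ∀ (n : ℕ) (i : T.Cel n), ContinuousOn
      ((T.Ph_inj n i).toPartialEquiv (T.Ph n i) (ball 0 1)) (closedBall 0 1) :=
    fun n i => (T.continuous_Ph n i).continuousOn
  have h2 : ∀ (n : ℕ) (i : T.Cel n), ContinuousOn
      ((T.Ph_inj n i).toPartialEquiv (T.Ph n i) (ball 0 1)).symm
      ((T.Ph_inj n i).toPartialEquiv (T.Ph n i) (ball 0 1)).target :=
    fun n i => Crest.Agent.R197.cw_build_symm (T.Ph n i) (T.continuous_Ph n i).continuousOn
      (T.Ph_inj n i) (T.Ph_sat n i)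
  have h3 : (univ : Set (Σ n, T.Cel n)).PairwiseDisjoint
      (fun ni ↦ ((T.Ph_inj ni.1 ni.2).toPartialEquiv (T.Ph ni.1 ni.2) (ball 0 1)) '' ball 0 1) := by
    rintro ⟨n, i⟩ - ⟨m, j⟩ - hne
    rw [Function.onFun, Set.disjoint_left]
    rintro x ⟨y, hy, hyx⟩ ⟨z, hz, hzx⟩
    exact hne (T.Ph_disj n m i j y z hy hz (hyx.trans hzx.symm))
  have h4 : ∀ (n : ℕ) (i : T.Cel n),
      MapsTo ((T.Ph_inj n i).toPartialEquiv (T.Ph n i) (ball 0 1)) (sphere 0 1)
      (⋃ (m < n) (j : T.Cel m),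
        ((T.Ph_inj m j).toPartialEquiv (T.Ph m j) (ball 0 1)) '' closedBall 0 1) := by
    intro n i x hx
    obtain ⟨k, hk⟩ := exists_of_sphere hx
    have hv : ∀ (p : X.P), 0 < n → T.pr (T.v p) ∈ (⋃ (m < n) (j : T.Cel m),
        ((T.Ph_inj m j).toPartialEquiv (T.Ph m j) (ball 0 1)) '' closedBall 0 1) := by
      intro p hn
      obtain ⟨z, hz, h⟩ := T.cover_v p
      simp only [mem_iUnion]
      exact ⟨0, hn, T.tP p, z, hz, h⟩
    have ha : ∀ (p : X.A) (s : I), 1 < n → T.pr (T.a p s) ∈ (⋃ (m < n) (j : T.Cel m),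
        ((T.Ph_inj m j).toPartialEquiv (T.Ph m j) (ball 0 1)) '' closedBall 0 1) := by
      intro p s hn
      obtain ⟨z, hz, h⟩ := T.cover_a p s
      simp only [mem_iUnion]
      exact ⟨1, hn, Sum.inl (T.tA p), z, hz, h⟩
    have hb : ∀ (p : X.B) (s : I), 1 < n → T.pr (T.b p s) ∈ (⋃ (m < n) (j : T.Cel m),
        ((T.Ph_inj m j).toPartialEquiv (T.Ph m j) (ball 0 1)) '' closedBall 0 1) := by
      intro p s hn
      obtain ⟨z, hz, h⟩ := T.cover_b p s
      simp only [mem_iUnion]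
      exact ⟨1, hn, Sum.inr (T.tB p), z, hz, h⟩
    match n, i with
    | 0, i => exact k.elim0
    | 1, Sum.inl i =>
      rw [Fin.eq_zero k] at hk
      have h5 : T.Ph 1 (Sum.inl i) x = T.pr (T.a (T.rA i) (cl (x 0))) := rfl
      change T.Ph 1 (Sum.inl i) x ∈ _
      rw [h5]
      rcases cl_not_int hk with h4 | h4 <;> rw [h4]
      · have : T.a (T.rA i) 0 = T.v _ := ea'_zero _
        rw [this]
        exact hv _ zero_lt_one
      · have : T.a (T.rA i) 1 = T.v _ := ea'_one _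
        rw [this]
        exact hv _ zero_lt_one
    | 1, Sum.inr i =>
      rw [Fin.eq_zero k] at hk
      have h5 : T.Ph 1 (Sum.inr i) x = T.pr (T.b (T.rB i) (cl (x 0))) := rfl
      change T.Ph 1 (Sum.inr i) x ∈ _
      rw [h5]
      rcases cl_not_int hk with h4 | h4 <;> rw [h4]
      · have : T.b (T.rB i) 0 = T.v _ := eb'_zero _
        rw [this]
        exact hv _ zero_lt_one
      · have : T.b (T.rB i) 1 = T.v _ := eb'_one _
        rw [this]
        exact hv _ zero_lt_one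
    | 2, i =>
      have h5 : T.Ph 2 i x = T.pr (T.f (T.rF i) (cl (x 0), cl (x 1))) := rfl
      change T.Ph 2 i x ∈ _
      rw [h5]
      fin_cases k
      · rcases cl_not_int hk with h4 | h4 <;> simp only [Fin.zero_eta] at h4 <;> rw [h4]
        · have : T.f (T.rF i) (0, cl (x 1)) = T.b _ _ := sq'_left _ _
          rw [this]
          exact hb _ _ one_lt_two
        · have : T.f (T.rF i) (1, cl (x 1)) = T.b _ _ := sq'_right _ _
          rw [this]
          exact hb _ _ one_lt_two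
      · rcases cl_not_int hk with h4 | h4 <;> simp only [Fin.mk_one] at h4 <;> rw [h4]
        · have : T.f (T.rF i) (cl (x 0), 0) = T.v _ := sq'_bot _ _
          rw [this]
          exact hv _ zero_lt_two
        · have : T.f (T.rF i) (cl (x 0), 1) = T.a _ _ := sq'_top _ _
          rw [this]
          exact ha _ _ one_lt_two
    | _ + 3, i => exact Empty.elim i
  have h5 : ⋃ (n : ℕ) (j : T.Cel n),
      ((T.Ph_inj n j).toPartialEquiv (T.Ph n j) (ball 0 1)) '' closedBall 0 1 =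
      (univ : Set T.Qt) := by
    rw [eq_univ_iff_forall]
    intro x
    induction x using Quotient.inductionOn' with | _ x => ?_
    simp only [mem_iUnion]
    rcases T.norm x with ⟨q, rfl⟩ | ⟨a, s', hs', rfl⟩ | ⟨b, s', hs', rfl⟩ |
      ⟨f', s', t', hs', ht', rfl⟩
    · obtain ⟨z, hz, h⟩ := T.cover_v q
      exact ⟨0, T.tP q, z, hz, h⟩
    · obtain ⟨z, hz, h⟩ := T.cover_a a s'
      exact ⟨1, Sum.inl (T.tA a), z, hz, h⟩
    · obtain ⟨z, hz, h⟩ := T.cover_b b s'
      exact ⟨1, Sum.inr (T.tB b), z, hz, h⟩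
    · obtain ⟨z, hz, h⟩ := T.cover_f f' s' t'
      exact ⟨2, T.tF f', z, hz, h⟩
  refine ⟨_root_.Topology.CWComplex.mkFinite (Set.univ : Set T.Qt) T.Cel
    (fun n i => (T.Ph_inj n i).toPartialEquiv (T.Ph n i) (ball 0 1)) hev hfin
    (fun n i => rfl) h1 h2 h3 h4 h5, ?_, fun n hn => hemp n hn⟩
  exact _root_.Topology.CWComplex.finite_mkFinite _ _ _ hev hfin _ h1 h2 h3 h4 h5

/-- final statement of (8a), (8b): the quotient of a contractible cone complex -/
theorem classifying [Finite T.TP] [Finite T.TA] [Finite T.TB] [Finite T.TF]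
    [ContractibleSpace (Real X)] : Crest.Topology.HasFiniteClassifyingComplex G 2 := by
  have : ContractibleSpace T.Sp := inferInstanceAs (ContractibleSpace (Real X))
  obtain ⟨C, h1, h2⟩ := T.exists_cw
  obtain ⟨z⟩ : Nonempty T.Sp := inferInstance
  exact ⟨T.Qt, inferInstance, C, T.t2, h1, h2, T.hasContractibleCover, T.pr z, T.pi1 z⟩

end GCx

end Crest.Agent.R177.Top
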