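import Crest.Agent.R177.TopCW
import Crest.Agent.R177.Dev

/-!
# Rows 177 / 184, module TOPOLOGY (8b): the group acts on its cone complex (helper961)
-/

set_option autoImplicit false

open scoped unitInterval Topology

namespace Crest.Agent.R177.Top

open Crest.Agent.R199 (PAct)

variable {S V : Type} (A : PAct S V)

/-- pairs in the same cell are connected by a word -/
theorem cell_eq {x y : Grp A × V} (h : cell A x = cell A y) :
    ∃ w, A.read w x.2 = some y.2 ∧ y.1 = x.1 * gw A w := by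
  have h1 := Quot.eqvGen_exact h
  clear h
  induction h1 with
  | rel x y h =>
    obtain ⟨s, h1, h2⟩ := h
    exact ⟨[(s, true)], by rw [Dev.read_single, h1], h2⟩
  | refl x => exact ⟨[], rfl, by rw [Dev.gw_nil, mul_one]⟩
  | symm x y _ ih =>
    obtain ⟨w, h1, h2⟩ := ih
    exact ⟨FreeGroup.invRev w, Dev.read_invRev A w _ _ h1, by
      rw [Dev.gw_invRev, h2, mul_inv_cancel_right]⟩
  | trans x y z _ _ ih1 ih2 =>
    obtain ⟨u, h1, h2⟩ := ih1
    obtain ⟨v, h3, h4⟩ := ih2
    exact ⟨u ++ v, by rw [Dev.read_append A u v _ _ h1, h3], by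
      rw [Dev.gw_append, h4, h2, mul_assoc]⟩

theorem cell_st (p : Grp A) (v w : V) (a : S × Bool) (h : A.st a v = some w) :
    cell A (p * gw A [a], w) = cell A (p, v) := by
  obtain ⟨s, b⟩ := a
  cases b with
  | true => exact cell_step A p v w s h
  | false =>
    have h1 : A.st (s, true) w = some v := A.symm (s, false) v w h
    have h2 := cell_step A (p * gw A [(s, false)]) w v s h1
    rw [← h2]
    have : gw A [(s, false)] = (gw A [(s, true)])⁻¹ := Dev.gw_hinv A (s, true)
    rw [this, inv_mul_cancel_right]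

theorem cell_read (w : List (S × Bool)) : ∀ (p : Grp A) (v v' : V), A.read w v = some v' →
    cell A (p * gw A w, v') = cell A (p, v) := by
  induction w with
  | nil =>
    intro p v v' h
    simp only [PAct.read] at h
    rw [Dev.gw_nil, mul_one, ← Option.some_inj.1 h]
  | cons a w ih =>
    intro p v v' h
    simp only [PAct.read] at h
    cases hx : A.st a v with
    | none => rw [hx] at h; simp at h
    | some z =>
      rw [hx] at h
      simp only [Option.bind_some] at h
      rw [Dev.gw_cons, ← mul_assoc, ih _ z v' h, cell_st A p v z a hx]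

/-- action on the cells -/
def cellMul (g : Grp A) : Cell A → Cell A :=
  Quot.map (fun x => (g * x.1, x.2)) fun _ _ ⟨s, h1, h2⟩ => ⟨s, h1, by rw [h2, mul_assoc]⟩

theorem cellMul_cell (g : Grp A) (x : Grp A × V) : cellMul A g (cell A x) = cell A (g * x.1, x.2) :=
  rfl

/-- component of a cell -/
def cellTy : Cell A → Quotient (Dev.conn A) :=
  Quot.lift (fun x => Quotient.mk _ x.2) fun _ _ ⟨s, h1, _⟩ =>
    Quotient.sound ⟨[(s, true)], by rw [Dev.read_single, h1]⟩

theorem cellMul_free (g : Grp A) (c : Cell A) (h : cellMul A g c = c) : g = 1 := by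
  obtain ⟨x, rfl⟩ : ∃ x, cell A x = c := Quot.exists_rep c
  rw [cellMul_cell] at h
  obtain ⟨w, h1, h2⟩ := cell_eq A h
  have h3 := Dev.gw_closed A w x.2 h1
  simp only at h2
  rw [h3, mul_one] at h2
  exact mul_eq_right.1 h2.symm

/-- the group of a folded graph acts on its cone complex -/
def gcxCone : GCx (Grp A) (coneX A) where
  P g := Sum.map (fun p => g * p) (cellMul A g)
  A g x := (g * x.1, x.2)
  B g x := (g * x.1, x.2)
  F g x := ⟨(g * x.1.1, x.1.2), x.2⟩
  P_one := by
    rintro (p | c)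
    · exact congrArg Sum.inl (one_mul p)
    · obtain ⟨x, rfl⟩ : ∃ x, cell A x = c := Quot.exists_rep c
      exact congrArg (fun q => Sum.inr (cell A (q, x.2))) (one_mul x.1)
  A_one x := Prod.ext (one_mul _) rfl
  B_one x := Prod.ext (one_mul _) rfl
  F_one x := Subtype.ext (Prod.ext (one_mul _) rfl)
  P_mul := by
    rintro g h (p | c)
    · exact congrArg Sum.inl (mul_assoc g h p)
    · obtain ⟨x, rfl⟩ : ∃ x, cell A x = c := Quot.exists_rep c
      exact congrArg (fun q => Sum.inr (cell A (q, x.2))) (mul_assoc g h x.1)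
  A_mul g h x := Prod.ext (mul_assoc _ _ _) rfl
  B_mul g h x := Prod.ext (mul_assoc _ _ _) rfl
  F_mul g h x := Subtype.ext (Prod.ext (mul_assoc _ _ _) rfl)
  asrc _ _ := rfl
  atgt g x := congrArg Sum.inl (mul_assoc g x.1 _)
  bsrc _ _ := rfl
  btgt _ _ := rfl
  fb _ _ := rfl
  fl _ _ := rfl
  fr g x := Prod.ext (mul_assoc _ _ _) rfl
  ft _ _ := rfl
  freeP := by
    rintro g (p | c) h
    · exact mul_eq_right.1 (Sum.inl_injective h)
    · exact cellMul_free A g c (Sum.inr_injective h)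
  freeA g x h := mul_eq_right.1 (congrArg Prod.fst h)
  cp x := x.isRight
  cp_asrc _ := by simp [coneX]
  cp_atgt _ := by simp [coneX]
  cp_bsrc _ := by simp [coneX]
  cp_btgt _ := by simp [coneX]
  cp_inv g x h := by
    rcases x with p | c
    · simp at h
    · rfl
  TP := Option (Quotient (Dev.conn A))
  TA := S
  TB := V
  TF := {e : V × S // (A.st (e.2, true) e.1).isSome}
  tP x := Sum.elim (fun _ => none) (fun c => some (cellTy A c)) x
  tA x := x.2
  tB x := x.2
  tF x := ⟨x.1.2, x.2⟩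
  tP_inv := by
    rintro g (p | c)
    · rfl
    · obtain ⟨x, rfl⟩ : ∃ x, cell A x = c := Quot.exists_rep c
      rfl
  tA_inv _ _ := rfl
  tB_inv _ _ := rfl
  tF_inv _ _ := rfl
  tP_tr := by
    rintro (p | c) (q | d) h
    · exact ⟨q * p⁻¹, congrArg Sum.inl (inv_mul_cancel_right q p)⟩
    · simp at h
    · simp at h
    · obtain ⟨x, rfl⟩ : ∃ x, cell A x = c := Quot.exists_rep c
      obtain ⟨y, rfl⟩ : ∃ y, cell A y = d := Quot.exists_rep d
      obtain ⟨w, hw⟩ : ∃ w, A.read w x.2 = some y.2 := Quotient.exact (Option.some_inj.1 h)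
      refine ⟨y.1 * (gw A w)⁻¹ * x.1⁻¹, congrArg Sum.inr ?_⟩
      rw [cellMul_cell, inv_mul_cancel_right, ← cell_read A w _ _ _ hw, inv_mul_cancel_right]
  tA_tr x y h := ⟨y.1 * x.1⁻¹, Prod.ext (inv_mul_cancel_right _ _) h⟩
  tB_tr x y h := ⟨y.1 * x.1⁻¹, Prod.ext (inv_mul_cancel_right _ _) h⟩
  tF_tr x y h := ⟨y.1.1 * x.1.1⁻¹, Subtype.ext (Prod.ext (inv_mul_cancel_right _ _)
    (congrArg Subtype.val h))⟩
  tP_sj := by
    rintro (_ | q)
    · exact ⟨Sum.inl 1, rfl⟩
    · obtain ⟨v, rfl⟩ := Quotient.exists_rep q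
      exact ⟨Sum.inr (cell A (1, v)), rfl⟩
  tA_sj s := ⟨(1, s), rfl⟩
  tB_sj v := ⟨(1, v), rfl⟩
  tF_sj e := ⟨⟨(1, e.1), e.2⟩, rfl⟩

end Crest.Agent.R177.Top
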