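import Crest.Agent.R177.TopReal
import Crest.Prelude.Def_ClassifyingComplex

/-!
# Rows 177 / 184, module TOPOLOGY (8b): free actions on cone complexes (helper961)
-/

set_option autoImplicit false

open scoped unitInterval Topology

namespace Crest.Agent.R177.Top

/-- A group acting freely on a cone complex, with types of cells = orbits. -/
structure GCx (G : Type) [Group G] (X : Cx) where
  P : G → X.P → X.P
  A : G → X.A → X.A
  B : G → X.B → X.B
  F : G → X.F → X.F
  P_one : ∀ x, P 1 x = x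
  A_one : ∀ x, A 1 x = x
  B_one : ∀ x, B 1 x = x
  F_one : ∀ x, F 1 x = x
  P_mul : ∀ g h x, P (g * h) x = P g (P h x)
  A_mul : ∀ g h x, A (g * h) x = A g (A h x)
  B_mul : ∀ g h x, B (g * h) x = B g (B h x)
  F_mul : ∀ g h x, F (g * h) x = F g (F h x)
  asrc : ∀ g x, X.asrc (A g x) = P g (X.asrc x)
  atgt : ∀ g x, X.atgt (A g x) = P g (X.atgt x)
  bsrc : ∀ g x, X.bsrc (B g x) = P g (X.bsrc x)
  btgt : ∀ g x, X.btgt (B g x) = P g (X.btgt x)
  fb : ∀ g x, X.fb (F g x) = P g (X.fb x)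
  fl : ∀ g x, X.fl (F g x) = B g (X.fl x)
  fr : ∀ g x, X.fr (F g x) = B g (X.fr x)
  ft : ∀ g x, X.ft (F g x) = A g (X.ft x)
  freeP : ∀ g x, P g x = x → g = 1
  freeA : ∀ g x, A g x = x → g = 1
  /-- cone points -/
  cp : X.P → Prop
  cp_asrc : ∀ x, ¬ cp (X.asrc x)
  cp_atgt : ∀ x, ¬ cp (X.atgt x)
  cp_bsrc : ∀ x, cp (X.bsrc x)
  cp_btgt : ∀ x, ¬ cp (X.btgt x)
  cp_inv : ∀ g x, cp (P g x) → cp x
  TP : Type
  TA : Type
  TB : Type
  TF : Type
  tP : X.P → TP
  tA : X.A → TA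
  tB : X.B → TB
  tF : X.F → TF
  tP_inv : ∀ g x, tP (P g x) = tP x
  tA_inv : ∀ g x, tA (A g x) = tA x
  tB_inv : ∀ g x, tB (B g x) = tB x
  tF_inv : ∀ g x, tF (F g x) = tF x
  tP_tr : ∀ x y, tP x = tP y → ∃ g, P g x = y
  tA_tr : ∀ x y, tA x = tA y → ∃ g, A g x = y
  tB_tr : ∀ x y, tB x = tB y → ∃ g, B g x = y
  tF_tr : ∀ x y, tF x = tF y → ∃ g, F g x = y
  tP_sj : Function.Surjective tP
  tA_sj : Function.Surjective tA
  tB_sj : Function.Surjective tB
  tF_sj : Function.Surjective tF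

namespace GCx

open Crest.Agent.R177.Top.Real

variable {G : Type} [Group G] {X : Cx} (T : GCx G X)

/-- action of a group element as a compatible family -/
def fam (g : G) : Fam X (Real X) where
  vert p := vert (T.P g p)
  ea a := ⟨ea' (T.A g a), continuous_ea' _⟩
  eb b := ⟨eb' (T.B g b), continuous_eb' _⟩
  sq f := ⟨sq' (T.F g f), continuous_sq' _⟩
  ea_zero a := (ea'_zero _).trans (by rw [T.asrc])
  ea_one a := (ea'_one _).trans (by rw [T.atgt])
  eb_zero a := (eb'_zero _).trans (by rw [T.bsrc])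
  eb_one a := (eb'_one _).trans (by rw [T.btgt])
  sq_bot f s := (sq'_bot _ _).trans (by rw [T.fb])
  sq_left f t := (sq'_left _ _).trans (by rw [T.fl]; rfl)
  sq_right f t := (sq'_right _ _).trans (by rw [T.fr]; rfl)
  sq_top f s := (sq'_top _ _).trans (by rw [T.ft]; rfl)

/-- the points of the realization, with the action of `G` -/
def Sp (_T : GCx G X) : Type := Real X

instance : TopologicalSpace T.Sp := inferInstanceAs (TopologicalSpace (Real X))

/-- action -/
def act (g : G) (x : T.Sp) : T.Sp := liftFun (T.fam g) x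

instance : MulAction G T.Sp where
  smul g x := T.act g x
  one_smul x := by
    change T.act 1 x = x
    induction x using Quot.inductionOn with | _ y => ?_
    cases y with
    | p x => exact congrArg vert (T.P_one x)
    | a x s => exact congrArg (fun z => ea' z s) (T.A_one x)
    | b x s => exact congrArg (fun z => eb' z s) (T.B_one x)
    | f x y => exact congrArg (fun z => sq' z y) (T.F_one x)
  mul_smul g h x := by
    change T.act (g * h) x = T.act g (T.act h x)
    induction x using Quot.inductionOn with | _ y => ?_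
    cases y with
    | p x => exact congrArg vert (T.P_mul g h x)
    | a x s => exact congrArg (fun z => ea' z s) (T.A_mul g h x)
    | b x s => exact congrArg (fun z => eb' z s) (T.B_mul g h x)
    | f x y => exact congrArg (fun z => sq' z y) (T.F_mul g h x)

/-- vertices -/
def v (p : X.P) : T.Sp := vert p
/-- letter edges -/
def a (x : X.A) (s : I) : T.Sp := ea' x s
/-- cone edges -/
def b (x : X.B) (s : I) : T.Sp := eb' x s
/-- squares -/
def f (x : X.F) (y : I × I) : T.Sp := sq' x y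

theorem smul_v (g : G) (p : X.P) : g • T.v p = T.v (T.P g p) := rfl
theorem smul_a (g : G) (x : X.A) (s : I) : g • T.a x s = T.a (T.A g x) s := rfl
theorem smul_b (g : G) (x : X.B) (s : I) : g • T.b x s = T.b (T.B g x) s := rfl
theorem smul_f (g : G) (x : X.F) (y : I × I) : g • T.f x y = T.f (T.F g x) y := rfl

theorem norm (x : T.Sp) : (∃ p, x = T.v p) ∨ (∃ a s, Int s ∧ x = T.a a s) ∨
    (∃ b s, Int s ∧ x = T.b b s) ∨ ∃ f s t, Int s ∧ Int t ∧ x = T.f f (s, t) :=
  normal x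

instance : ContinuousConstSMul G T.Sp where
  continuous_const_smul g := (lift (T.fam g)).continuous

/-- vertex functions -/
noncomputable def fP (w : X.P → ℝ) : C(T.Sp, ℝ) := lift (famP w)
/-- letter edge functions -/
noncomputable def fA (w : X.A → ℝ) (j : Bool) : C(T.Sp, ℝ) := lift (famA w j)
/-- cone edge functions -/
noncomputable def fB (w : X.B → ℝ) (j : Bool) : C(T.Sp, ℝ) := lift (famB w j)
/-- square functions -/
noncomputable def fF (w : X.F → ℝ) (j k : Bool) : C(T.Sp, ℝ) := lift (famF w j k)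

theorem fP_v (w : X.P → ℝ) (p : X.P) : T.fP w (T.v p) = w p := rfl
theorem fP_a (w : X.P → ℝ) (x : X.A) (s : I) :
    T.fP w (T.a x s) = (1 - (s : ℝ)) * w (X.asrc x) + s * w (X.atgt x) := rfl
theorem fP_b (w : X.P → ℝ) (x : X.B) (s : I) :
    T.fP w (T.b x s) = (1 - (s : ℝ)) * w (X.bsrc x) + s * w (X.btgt x) := rfl
theorem fP_f (w : X.P → ℝ) (x : X.F) (s t : I) :
    T.fP w (T.f x (s, t)) = (1 - (t : ℝ)) * w (X.fb x) +
      t * ((1 - (s : ℝ)) * w (X.asrc (X.ft x)) + s * w (X.atgt (X.ft x))) := rfl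
theorem fA_v (w : X.A → ℝ) (j : Bool) (p : X.P) : T.fA w j (T.v p) = 0 := rfl
theorem fA_a (w : X.A → ℝ) (j : Bool) (x : X.A) (s : I) :
    T.fA w j (T.a x s) = w x * (s * (1 - (s : ℝ))) * (if j then (s : ℝ) else 1) := rfl
theorem fA_b (w : X.A → ℝ) (j : Bool) (x : X.B) (s : I) : T.fA w j (T.b x s) = 0 := rfl
theorem fA_f (w : X.A → ℝ) (j : Bool) (x : X.F) (s t : I) :
    T.fA w j (T.f x (s, t)) = t * (w (X.ft x) * (s * (1 - (s : ℝ))) * (if j then (s : ℝ) else 1)) :=
  rfl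
theorem fB_v (w : X.B → ℝ) (j : Bool) (p : X.P) : T.fB w j (T.v p) = 0 := rfl
theorem fB_a (w : X.B → ℝ) (j : Bool) (x : X.A) (s : I) : T.fB w j (T.a x s) = 0 := rfl
theorem fB_b (w : X.B → ℝ) (j : Bool) (x : X.B) (s : I) :
    T.fB w j (T.b x s) = w x * (s * (1 - (s : ℝ))) * (if j then (s : ℝ) else 1) := rfl
theorem fF_v (w : X.F → ℝ) (j k : Bool) (p : X.P) : T.fF w j k (T.v p) = 0 := rfl
theorem fF_a (w : X.F → ℝ) (j k : Bool) (x : X.A) (s : I) : T.fF w j k (T.a x s) = 0 := rfl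
theorem fF_b (w : X.F → ℝ) (j k : Bool) (x : X.B) (s : I) : T.fF w j k (T.b x s) = 0 := rfl
theorem fF_f (w : X.F → ℝ) (j k : Bool) (x : X.F) (s t : I) :
    T.fF w j k (T.f x (s, t)) = w x * (s * (1 - (s : ℝ))) * (t * (1 - (t : ℝ))) *
      (if j then (s : ℝ) else 1) * (if k then (t : ℝ) else 1) := rfl

theorem fP_smul (w : X.P → ℝ) (g : G) (x : T.Sp) :
    T.fP w (g • x) = T.fP (fun p => w (T.P g p)) x := by
  rcases T.norm x with ⟨p, rfl⟩ | ⟨a, s, -, rfl⟩ | ⟨b, s, -, rfl⟩ | ⟨f, s, t, -, -, rfl⟩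
  · rfl
  · rw [smul_a, fP_a, fP_a, T.asrc, T.atgt]
  · rw [smul_b, fP_b, fP_b, T.bsrc, T.btgt]
  · rw [smul_f, fP_f, fP_f, T.fb, T.ft, T.asrc, T.atgt]

theorem fA_smul (w : X.A → ℝ) (j : Bool) (g : G) (x : T.Sp) :
    T.fA w j (g • x) = T.fA (fun p => w (T.A g p)) j x := by
  rcases T.norm x with ⟨p, rfl⟩ | ⟨a, s, -, rfl⟩ | ⟨b, s, -, rfl⟩ | ⟨f, s, t, -, -, rfl⟩
  · rfl
  · rfl
  · rfl
  · rw [smul_f, fA_f, fA_f, T.ft]

theorem fB_smul (w : X.B → ℝ) (j : Bool) (g : G) (x : T.Sp) :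
    T.fB w j (g • x) = T.fB (fun p => w (T.B g p)) j x := by
  rcases T.norm x with ⟨p, rfl⟩ | ⟨a, s, -, rfl⟩ | ⟨b, s, -, rfl⟩ | ⟨f, s, t, -, -, rfl⟩
  · rfl
  · rfl
  · rfl
  · change lift (famB w j) (sq' (T.F g f) (s, t)) = lift (famB _ j) (sq' f (s, t))
    rw [lift_sq', lift_sq']
    change ((1 - (s : ℝ)) * w (X.fl (T.F g f)) + s * w (X.fr (T.F g f))) * _ * _ =
      ((1 - (s : ℝ)) * w (T.B g (X.fl f)) + s * w (T.B g (X.fr f))) * _ * _
    rw [T.fl, T.fr]

theorem fF_smul (w : X.F → ℝ) (j k : Bool) (g : G) (x : T.Sp) :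
    T.fF w j k (g • x) = T.fF (fun p => w (T.F g p)) j k x := by
  rcases T.norm x with ⟨p, rfl⟩ | ⟨a, s, -, rfl⟩ | ⟨b, s, -, rfl⟩ | ⟨f, s, t, -, -, rfl⟩ <;> rfl

theorem fP_add_le (w w' : X.P → ℝ) (h : ∀ p, w p + w' p ≤ 1) (x : T.Sp) :
    T.fP w x + T.fP w' x ≤ 1 := by
  rcases T.norm x with ⟨p, rfl⟩ | ⟨a, s, hs, rfl⟩ | ⟨b, s, hs, rfl⟩ | ⟨f, s, t, hs, ht, rfl⟩
  · exact h p
  · rw [fP_a, fP_a]
    have h1 := h (X.asrc a)
    have h2 := h (X.atgt a)
    have h3 := hs.1
    have h4 := hs.2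
    nlinarith
  · rw [fP_b, fP_b]
    have h1 := h (X.bsrc b)
    have h2 := h (X.btgt b)
    have h3 := hs.1
    have h4 := hs.2
    nlinarith
  · rw [fP_f, fP_f]
    have h1 := h (X.asrc (X.ft f))
    have h2 := h (X.atgt (X.ft f))
    have h0 := h (X.fb f)
    have h3 := hs.1
    have h4 := hs.2
    have h5 := ht.1
    have h6 := ht.2
    have e1 : ((1 - (s : ℝ)) * w (X.asrc (X.ft f)) + s * w (X.atgt (X.ft f))) +
        ((1 - (s : ℝ)) * w' (X.asrc (X.ft f)) + s * w' (X.atgt (X.ft f))) ≤ 1 := by nlinarith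
    nlinarith

open Classical in
/-- indicator function -/
noncomputable def ind {Y : Type} (y : Y) : Y → ℝ := fun z => if z = y then 1 else 0

theorem ind_self {Y : Type} (y : Y) : ind y y = 1 := by simp [ind]

theorem ind_ne {Y : Type} {y z : Y} (h : z ≠ y) : ind y z = 0 := by simp [ind, h]

theorem ind_nonneg {Y : Type} (y z : Y) : 0 ≤ ind y z := by
  unfold ind; split <;> norm_num

theorem eq_of_ind {Y : Type} {y z : Y} (h : ind y z ≠ 0) : z = y := by
  by_contra h'
  exact h (ind_ne h')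

theorem cone_key (c : X.P) (hc : T.cp c) (g : G) (y : T.Sp) (hy : 0 < T.fP (ind c) y)
    (hgy : 0 < T.fP (ind c) (g • y)) : g = 1 := by
  rw [fP_smul] at hgy
  have h0 : ∀ q, ¬ T.cp q → ind c q = 0 := fun q hq => ind_ne fun h => hq (h ▸ hc)
  have h1 : ∀ q, ¬ T.cp q → ind c (T.P g q) = 0 := fun q hq =>
    ind_ne fun h => hq (T.cp_inv g q (h ▸ hc))
  rcases T.norm y with ⟨q, rfl⟩ | ⟨a, s, hs, rfl⟩ | ⟨b, s, hs, rfl⟩ | ⟨f, s, t, hs, ht, rfl⟩
  · rw [fP_v] at hy hgy
    have e1 : q = c := eq_of_ind hy.ne'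
    have e2 : T.P g q = c := eq_of_ind hgy.ne'
    exact T.freeP g c (by rw [← e1, e2, e1])
  · rw [fP_a, h0 _ (T.cp_asrc a), h0 _ (T.cp_atgt a)] at hy
    simp at hy
  · rw [fP_b, h0 _ (T.cp_btgt b)] at hy
    rw [fP_b, h1 _ (T.cp_btgt b)] at hgy
    have e1 : X.bsrc b = c := eq_of_ind fun h => by rw [h] at hy; simp at hy
    have e2 : T.P g (X.bsrc b) = c := eq_of_ind fun h => by rw [h] at hgy; simp at hgy
    exact T.freeP g c (by rw [← e1, e2, e1])
  · rw [fP_f, h0 _ (T.cp_asrc _), h0 _ (T.cp_atgt _)] at hy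
    rw [fP_f, h1 _ (T.cp_asrc _), h1 _ (T.cp_atgt _)] at hgy
    have e1 : X.fb f = c := eq_of_ind fun h => by rw [h] at hy; simp at hy
    have e2 : T.P g (X.fb f) = c := eq_of_ind fun h => by rw [h] at hgy; simp at hgy
    exact T.freeP g c (by rw [← e1, e2, e1])

theorem disj_cone (x : T.Sp) (c : X.P) (hc : T.cp c) (hx : 0 < T.fP (ind c) x) :
    ∃ U ∈ 𝓝 x, ∀ g : G, ((fun w => g • w) '' U ∩ U).Nonempty → g = 1 := by
  refine ⟨{y | 0 < T.fP (ind c) y}, ?_, ?_⟩
  · exact (isOpen_lt continuous_const (T.fP (ind c)).continuous).mem_nhds hx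
  · rintro g ⟨_, ⟨y, hy, rfl⟩, hgy⟩
    exact T.cone_key c hc g y hy hgy

/-- the action is a covering space action -/
theorem disj (x : T.Sp) : ∃ U ∈ 𝓝 x, ∀ g : G, ((fun w => g • w) '' U ∩ U).Nonempty → g = 1 := by
  classical
  rcases T.norm x with ⟨p, rfl⟩ | ⟨a, s, hs, rfl⟩ | ⟨b, s, hs, rfl⟩ | ⟨f, s, t, hs, ht, rfl⟩
  · -- vertices
    refine ⟨{y | 1 / 2 < T.fP (ind p) y}, ?_, ?_⟩
    · refine (isOpen_lt continuous_const (T.fP (ind p)).continuous).mem_nhds ?_
      change (1 / 2 : ℝ) < T.fP (ind p) (T.v p)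
      rw [fP_v, ind_self]; norm_num
    · rintro g ⟨_, ⟨y, hy, rfl⟩, hgy⟩
      by_contra hg
      change (1 / 2 : ℝ) < T.fP (ind p) y at hy
      change (1 / 2 : ℝ) < T.fP (ind p) (g • y) at hgy
      rw [fP_smul] at hgy
      have := T.fP_add_le (ind p) (fun q => ind p (T.P g q)) (fun q => ?_) y
      · linarith
      · by_cases h1 : q = p
        · subst h1
          rw [ind_ne fun h => hg (T.freeP g q h), ind_self]; norm_num
        · rw [ind_ne h1]
          unfold ind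
          split <;> norm_num
  · -- letter edges
    refine ⟨{y | 0 < T.fA (ind a) false y}, ?_, ?_⟩
    · refine (isOpen_lt continuous_const (T.fA (ind a) false).continuous).mem_nhds ?_
      change (0 : ℝ) < T.fA (ind a) false (T.a a s)
      rw [fA_a, ind_self]
      have h3 := hs.1
      have h4 : 0 < 1 - (s : ℝ) := sub_pos.mpr hs.2
      simp only [Bool.false_eq_true, if_false]
      positivity
    · rintro g ⟨_, ⟨y, hy, rfl⟩, hgy⟩
      change (0 : ℝ) < T.fA (ind a) false y at hy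
      change (0 : ℝ) < T.fA (ind a) false (g • y) at hgy
      rw [fA_smul] at hgy
      rcases T.norm y with ⟨p, rfl⟩ | ⟨a', s, hs, rfl⟩ | ⟨b, s, hs, rfl⟩ | ⟨f, s, t, hs, ht, rfl⟩
      · rw [fA_v] at hy; exact absurd hy (lt_irrefl _)
      · rw [fA_a] at hy hgy
        have e1 : a' = a := eq_of_ind fun h => by rw [h] at hy; simp at hy
        have e2 : T.A g a' = a := eq_of_ind fun h => by rw [h] at hgy; simp at hgy
        exact T.freeA g a (by rw [← e1, e2, e1])
      · rw [fA_b] at hy; exact absurd hy (lt_irrefl _)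
      · rw [fA_f] at hy hgy
        have e1 : X.ft f = a := eq_of_ind fun h => by rw [h] at hy; simp at hy
        have e2 : T.A g (X.ft f) = a := eq_of_ind fun h => by rw [h] at hgy; simp at hgy
        exact T.freeA g a (by rw [← e1, e2, e1])
  · exact T.disj_cone _ (X.bsrc b) (T.cp_bsrc b) (by
      rw [fP_b, ind_self]
      have h3 : 0 < 1 - (s : ℝ) := sub_pos.mpr hs.2
      have h4 := mul_nonneg s.2.1 (ind_nonneg (X.bsrc b) (X.btgt b))
      linarith)
  · exact T.disj_cone _ (X.fb f) (by rw [← X.bsrc_fl]; exact T.cp_bsrc _) (by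
      rw [fP_f, ind_self]
      have h3 : 0 < 1 - (t : ℝ) := sub_pos.mpr ht.2
      have h4 := mul_nonneg s.2.1 (ind_nonneg (X.fb f) (X.atgt (X.ft f)))
      have h5 := mul_nonneg (sub_nonneg.mpr s.2.2) (ind_nonneg (X.fb f) (X.asrc (X.ft f)))
      have h6 := mul_nonneg t.2.1 (add_nonneg h5 h4)
      linarith)

/-! ## Invariant functions separate orbits -/

theorem pos_int {s : I} (hs : Int s) : 0 < (s : ℝ) * (1 - (s : ℝ)) :=
  mul_pos hs.1 (sub_pos.mpr hs.2)

/-- all invariant continuous functions agree -/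
def InvEq (x y : T.Sp) : Prop :=
  ∀ u : C(T.Sp, ℝ), (∀ (g : G) (z : T.Sp), u (g • z) = u z) → u x = u y

theorem InvEq.symm {x y : T.Sp} (h : T.InvEq x y) : T.InvEq y x := fun u hu => (h u hu).symm

theorem InvEq.P {x y : T.Sp} (h : T.InvEq x y) (w : T.TP → ℝ) :
    T.fP (fun p => w (T.tP p)) x = T.fP (fun p => w (T.tP p)) y :=
  h _ fun g z => by rw [fP_smul]; simp only [T.tP_inv]

theorem InvEq.A {x y : T.Sp} (h : T.InvEq x y) (w : T.TA → ℝ) (j : Bool) :
    T.fA (fun p => w (T.tA p)) j x = T.fA (fun p => w (T.tA p)) j y :=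
  h _ fun g z => by rw [fA_smul]; simp only [T.tA_inv]

theorem InvEq.B {x y : T.Sp} (h : T.InvEq x y) (w : T.TB → ℝ) (j : Bool) :
    T.fB (fun p => w (T.tB p)) j x = T.fB (fun p => w (T.tB p)) j y :=
  h _ fun g z => by rw [fB_smul]; simp only [T.tB_inv]

theorem InvEq.F {x y : T.Sp} (h : T.InvEq x y) (w : T.TF → ℝ) (j k : Bool) :
    T.fF (fun p => w (T.tF p)) j k x = T.fF (fun p => w (T.tF p)) j k y :=
  h _ fun g z => by rw [fF_smul]; simp only [T.tF_inv]

theorem inv_f {f : X.F} {s t : I} (hs : Int s) (ht : Int t) {y : T.Sp}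
    (h : T.InvEq (T.f f (s, t)) y) : ∃ f', T.tF f' = T.tF f ∧ y = T.f f' (s, t) := by
  have h1 := fun j k => h.F T (ind (T.tF f)) j k
  simp only [fF_f, ind_self] at h1
  have hps := pos_int hs
  have hpt := pos_int ht
  have h00 := h1 false false
  have h10 := h1 true false
  have h01 := h1 false true
  simp only [Bool.false_eq_true, if_false, if_true, mul_one, one_mul] at h00 h10 h01
  rcases T.norm y with ⟨q, rfl⟩ | ⟨a, s', hs', rfl⟩ | ⟨b, s', hs', rfl⟩ | ⟨f', s', t', hs', ht', rfl⟩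
  · rw [fF_v] at h00; exact absurd h00 (mul_pos hps hpt).ne'
  · rw [fF_a] at h00; exact absurd h00 (mul_pos hps hpt).ne'
  · rw [fF_b] at h00; exact absurd h00 (mul_pos hps hpt).ne'
  · rw [fF_f] at h00 h10 h01
    simp only [Bool.false_eq_true, if_false, if_true, mul_one] at h00 h10 h01
    have e1 : T.tF f' = T.tF f := eq_of_ind fun h => by
      rw [h] at h00; simp only [zero_mul] at h00; exact (mul_pos hps hpt).ne' h00
    rw [e1, ind_self, one_mul] at h00 h10 h01
    rw [← h00] at h10 h01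
    have e2 : s = s' := Subtype.ext (mul_left_cancel₀ (mul_pos hps hpt).ne' h10)
    have e3 : t = t' := Subtype.ext (mul_left_cancel₀ (mul_pos hps hpt).ne' h01)
    exact ⟨f', e1, by rw [e2, e3]⟩

theorem inv_a {a : X.A} {s : I} (hs : Int s) {y : T.Sp}
    (h : T.InvEq (T.a a s) y) : ∃ a', T.tA a' = T.tA a ∧ y = T.a a' s := by
  have hps := pos_int hs
  rcases T.norm y with ⟨q, rfl⟩ | ⟨a', s', hs', rfl⟩ | ⟨b, s', hs', rfl⟩ | ⟨f', s', t', hs', ht', rfl⟩
  · have h0 := h.A T (ind (T.tA a)) false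
    rw [fA_a, fA_v, ind_self] at h0
    simp only [Bool.false_eq_true, if_false, mul_one, one_mul] at h0
    exact absurd h0 hps.ne'
  · have h0 := h.A T (ind (T.tA a)) false
    have h1 := h.A T (ind (T.tA a)) true
    rw [fA_a, fA_a, ind_self] at h0 h1
    simp only [Bool.false_eq_true, if_false, if_true, mul_one, one_mul] at h0 h1
    have e1 : T.tA a' = T.tA a := eq_of_ind fun h => by
      rw [h] at h0; simp only [zero_mul] at h0; exact hps.ne' h0
    rw [e1, ind_self, one_mul] at h0 h1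
    rw [← h0] at h1
    have e2 : s = s' := Subtype.ext (mul_left_cancel₀ hps.ne' h1)
    exact ⟨a', e1, by rw [e2]⟩
  · have h0 := h.A T (ind (T.tA a)) false
    rw [fA_a, fA_b, ind_self] at h0
    simp only [Bool.false_eq_true, if_false, mul_one, one_mul] at h0
    exact absurd h0 hps.ne'
  · obtain ⟨f'', -, h2⟩ := T.inv_f hs' ht' h.symm
    have h0 := T.fF (fun _ => 1) false false |> fun u => congrArg u h2
    rw [fF_a, fF_f] at h0
    have := mul_pos (pos_int hs') (pos_int ht')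
    simp only [Bool.false_eq_true, if_false, mul_one, one_mul] at h0
    exact absurd h0.symm this.ne'

theorem inv_b {a : X.B} {s : I} (hs : Int s) {y : T.Sp}
    (h : T.InvEq (T.b a s) y) : ∃ a', T.tB a' = T.tB a ∧ y = T.b a' s := by
  have hps := pos_int hs
  rcases T.norm y with ⟨q, rfl⟩ | ⟨b, s', hs', rfl⟩ | ⟨a', s', hs', rfl⟩ | ⟨f', s', t', hs', ht', rfl⟩
  · have h0 := h.B T (ind (T.tB a)) false
    rw [fB_b, fB_v, ind_self] at h0
    simp only [Bool.false_eq_true, if_false, mul_one, one_mul] at h0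
    exact absurd h0 hps.ne'
  · have h0 := h.B T (ind (T.tB a)) false
    rw [fB_b, fB_a, ind_self] at h0
    simp only [Bool.false_eq_true, if_false, mul_one, one_mul] at h0
    exact absurd h0 hps.ne'
  · have h0 := h.B T (ind (T.tB a)) false
    have h1 := h.B T (ind (T.tB a)) true
    rw [fB_b, fB_b, ind_self] at h0 h1
    simp only [Bool.false_eq_true, if_false, if_true, mul_one, one_mul] at h0 h1
    have e1 : T.tB a' = T.tB a := eq_of_ind fun h => by
      rw [h] at h0; simp only [zero_mul] at h0; exact hps.ne' h0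
    rw [e1, ind_self, one_mul] at h0 h1
    rw [← h0] at h1
    have e2 : s = s' := Subtype.ext (mul_left_cancel₀ hps.ne' h1)
    exact ⟨a', e1, by rw [e2]⟩
  · obtain ⟨f'', -, h2⟩ := T.inv_f hs' ht' h.symm
    have h0 := T.fF (fun _ => 1) false false |> fun u => congrArg u h2
    rw [fF_b, fF_f] at h0
    have := mul_pos (pos_int hs') (pos_int ht')
    simp only [Bool.false_eq_true, if_false, mul_one, one_mul] at h0
    exact absurd h0.symm this.ne'

theorem inv_v {p : X.P} {y : T.Sp}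
    (h : T.InvEq (T.v p) y) : ∃ p', T.tP p' = T.tP p ∧ y = T.v p' := by
  rcases T.norm y with ⟨q, rfl⟩ | ⟨a, s', hs', rfl⟩ | ⟨b, s', hs', rfl⟩ | ⟨f', s', t', hs', ht', rfl⟩
  · have h0 := h.P T (ind (T.tP p))
    rw [fP_v, fP_v, ind_self] at h0
    exact ⟨q, eq_of_ind (by rw [← h0]; exact one_ne_zero), rfl⟩
  · obtain ⟨a', -, h2⟩ := T.inv_a hs' h.symm
    have h0 := T.fA (fun _ => 1) false |> fun u => congrArg u h2
    rw [fA_v, fA_a] at h0
    simp only [Bool.false_eq_true, if_false, mul_one, one_mul] at h0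
    exact absurd h0.symm (pos_int hs').ne'
  · obtain ⟨a', -, h2⟩ := T.inv_b hs' h.symm
    have h0 := T.fB (fun _ => 1) false |> fun u => congrArg u h2
    rw [fB_v, fB_b] at h0
    simp only [Bool.false_eq_true, if_false, mul_one, one_mul] at h0
    exact absurd h0.symm (pos_int hs').ne'
  · obtain ⟨f'', -, h2⟩ := T.inv_f hs' ht' h.symm
    have h0 := T.fF (fun _ => 1) false false |> fun u => congrArg u h2
    rw [fF_v, fF_f] at h0
    have := mul_pos (pos_int hs') (pos_int ht')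
    simp only [Bool.false_eq_true, if_false, mul_one, one_mul] at h0
    exact absurd h0.symm this.ne'

theorem orbit_of_invEq {x y : T.Sp} (h : T.InvEq x y) : ∃ g : G, g • x = y := by
  rcases T.norm x with ⟨q, rfl⟩ | ⟨a, s', hs', rfl⟩ | ⟨b, s', hs', rfl⟩ | ⟨f', s', t', hs', ht', rfl⟩
  · obtain ⟨p', h1, rfl⟩ := T.inv_v h
    obtain ⟨g, hg⟩ := T.tP_tr q p' h1.symm
    exact ⟨g, by rw [smul_v, hg]⟩
  · obtain ⟨p', h1, rfl⟩ := T.inv_a hs' h
    obtain ⟨g, hg⟩ := T.tA_tr a p' h1.symm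
    exact ⟨g, by rw [smul_a, hg]⟩
  · obtain ⟨p', h1, rfl⟩ := T.inv_b hs' h
    obtain ⟨g, hg⟩ := T.tB_tr b p' h1.symm
    exact ⟨g, by rw [smul_b, hg]⟩
  · obtain ⟨p', h1, rfl⟩ := T.inv_f hs' ht' h
    obtain ⟨g, hg⟩ := T.tF_tr f' p' h1.symm
    exact ⟨g, by rw [smul_f, hg]⟩

/-- the quotient -/
abbrev Qt : Type := MulAction.orbitRel.Quotient G T.Sp

/-- projection -/
def pr (x : T.Sp) : T.Qt := Quotient.mk (MulAction.orbitRel G T.Sp) x

theorem pr_smul (g : G) (x : T.Sp) : T.pr (g • x) = T.pr x :=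
  Quotient.sound' ⟨g, rfl⟩

theorem pr_eq {x y : T.Sp} (h : T.pr x = T.pr y) : ∃ g : G, g • y = x :=
  Quotient.exact' h

theorem invEq_of_pr {x y : T.Sp} (h : T.pr x = T.pr y) : T.InvEq x y := by
  obtain ⟨g, rfl⟩ := T.pr_eq h
  exact fun u hu => hu g y

theorem continuous_pr : Continuous T.pr := continuous_quotient_mk'

instance t2 : T2Space T.Qt := by
  refine ⟨fun x y hxy => ?_⟩
  induction x using Quotient.inductionOn' with | _ x => ?_
  induction y using Quotient.inductionOn' with | _ y => ?_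
  have h1 : ¬ T.InvEq x y := fun h => hxy (by
    obtain ⟨g, hg⟩ := T.orbit_of_invEq h
    change T.pr x = T.pr y
    rw [← hg, pr_smul])
  unfold InvEq at h1
  push Not at h1
  obtain ⟨u, hu, hne⟩ := h1
  let u' : T.Qt → ℝ := Quotient.lift u (by
    rintro a b ⟨g, rfl⟩
    exact hu g b)
  have hc : Continuous u' := u.continuous.quotient_lift _
  obtain ⟨U, V, hU, hV, hxU, hyV, hd⟩ := t2_separation hne
  exact ⟨u' ⁻¹' U, u' ⁻¹' V, hU.preimage hc, hV.preimage hc, hxU, hyV, hd.preimage u'⟩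

theorem quotientCovering : IsQuotientCoveringMap T.pr G where
  toIsQuotientMap := isQuotientMap_quotient_mk'
  toContinuousConstSMul := inferInstance
  apply_eq_iff_mem_orbit := by
    intro e₁ e₂
    exact Quotient.eq''
  disjoint e := T.disj e

theorem hasContractibleCover [ContractibleSpace T.Sp] : Crest.Topology.HasContractibleCover T.Qt :=
  ⟨T.Sp, inferInstance, T.pr, inferInstance, T.quotientCovering.isCoveringMap,
    Quotient.mk_surjective⟩

theorem pi1 [ContractibleSpace T.Sp] (z : T.Sp) :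
    Nonempty (FundamentalGroup T.Qt (T.pr z) ≃* G) :=
  ⟨(T.quotientCovering.fundamentalGroupEquiv (x := T.pr z) ⟨z, rfl⟩).trans
    (MulEquiv.inv' G).symm⟩

end GCx

end Crest.Agent.R177.Top
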