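import Crest.Agent.R177.TopDefs

/-!
# Rows 177 / 184, module TOPOLOGY (8d): paths to the base point from `Triv` (helper961)
-/

set_option autoImplicit false

open scoped unitInterval Topology

namespace Crest.Agent.R177.Top

section square

variable {E : Type} [TopologicalSpace E]

theorem contractible_I : ContractibleSpace I := (convex_Icc (0 : ℝ) 1).contractibleSpace ⟨0, by simp⟩

attribute [instance] contractible_I
instance : SimplyConnectedSpace (I × I) := by infer_instance

/-- the left side then the top side of a square with collapsed bottom is homotopic to the right
side -/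
theorem square_homotopic_path (u : C(I × I, E)) {b x y : E} (l : Path b x) (m : Path x y) (r : Path b y)
    (hb : ∀ s, u (s, 0) = b) (hl : ∀ t, u (0, t) = l t) (hr : ∀ t, u (1, t) = r t)
    (hm : ∀ s, u (s, 1) = m s) : (l.trans m).Homotopic r := by
  let L : Path ((0, 0) : I × I) (0, 1) :=
    { toFun := fun t => (0, t), continuous_toFun := by fun_prop, source' := rfl, target' := rfl }
  let T : Path ((0, 1) : I × I) (1, 1) :=
    { toFun := fun t => (t, 1), continuous_toFun := by fun_prop, source' := rfl, target' := rfl }
  let B : Path ((0, 0) : I × I) (1, 0) :=
    { toFun := fun t => (t, 0), continuous_toFun := by fun_prop, source' := rfl, target' := rfl }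
  let R : Path ((1, 0) : I × I) (1, 1) :=
    { toFun := fun t => (1, t), continuous_toFun := by fun_prop, source' := rfl, target' := rfl }
  have h : (L.trans T).Homotopic (B.trans R) := SimplyConnectedSpace.paths_homotopic _ _
  have h1 := h.map u
  have e0 : b = u (0, 0) := (hb 0).symm
  have e1 : y = u (1, 1) := by rw [hr 1]; exact r.target.symm
  have h2 := h1.pathCast e0 e1
  have e2 : ((L.trans T).map u.continuous).cast e0 e1 = l.trans m := by
    ext t
    simp only [Path.cast_coe, Path.map_coe, Function.comp, Path.trans_apply]
    split
    · exact hl _
    · exact hm _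
  have e3 : ((B.trans R).map u.continuous).cast e0 e1 = (Path.refl b).trans r := by
    ext t
    simp only [Path.cast_coe, Path.map_coe, Function.comp, Path.trans_apply]
    split
    · exact hb _
    · exact hr _
  rw [e2, e3] at h2
  exact h2.trans (Path.Homotopic.refl_trans r)

end square

end Crest.Agent.R177.Top
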