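import Crest.Agent.R177.TopDefs

/-!
# Rows 177 / 184, module TOPOLOGY (8a): realization of a cone complex (helper961)
-/

set_option autoImplicit false

open scoped unitInterval Topology

namespace Crest.Agent.R177.Top

variable {X : Cx}

/-- points of the cells -/
inductive Pre (X : Cx) : Type
  | p (x : X.P)
  | a (x : X.A) (s : I)
  | b (x : X.B) (s : I)
  | f (x : X.F) (y : I × I)

/-- boundary identifications -/
inductive Rl (X : Cx) : Pre X → Pre X → Prop
  | a0 (x : X.A) : Rl X (.a x 0) (.p (X.asrc x))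
  | a1 (x : X.A) : Rl X (.a x 1) (.p (X.atgt x))
  | b0 (x : X.B) : Rl X (.b x 0) (.p (X.bsrc x))
  | b1 (x : X.B) : Rl X (.b x 1) (.p (X.btgt x))
  | bot (x : X.F) (s : I) : Rl X (.f x (s, 0)) (.p (X.fb x))
  | left (x : X.F) (t : I) : Rl X (.f x (0, t)) (.b (X.fl x) t)
  | right (x : X.F) (t : I) : Rl X (.f x (1, t)) (.b (X.fr x) t)
  | top (x : X.F) (s : I) : Rl X (.f x (s, 1)) (.a (X.ft x) s)

/-- realization -/
def Real (X : Cx) : Type := Quot (Rl X)

namespace Real

/-- vertices -/
def vert (x : X.P) : Real X := Quot.mk _ (.p x)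

/-- letter edges -/
def ea' (x : X.A) (s : I) : Real X := Quot.mk _ (.a x s)

/-- cone edges -/
def eb' (x : X.B) (s : I) : Real X := Quot.mk _ (.b x s)

/-- squares -/
def sq' (x : X.F) (y : I × I) : Real X := Quot.mk _ (.f x y)

instance instTop : TopologicalSpace (Real X) :=
  (⨆ x : X.A, TopologicalSpace.coinduced (ea' x) inferInstance) ⊔
  (⨆ x : X.B, TopologicalSpace.coinduced (eb' x) inferInstance) ⊔
  (⨆ x : X.F, TopologicalSpace.coinduced (sq' x) inferInstance)

theorem continuous_iff {Z : Type*} [TopologicalSpace Z] {g : Real X → Z} :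
    Continuous g ↔ (∀ x, Continuous fun s => g (ea' x s)) ∧ (∀ x, Continuous fun s => g (eb' x s)) ∧
      ∀ x, Continuous fun y => g (sq' x y) := by
  exact (continuous_sup_dom.trans (and_congr (continuous_sup_dom.trans (and_congr
    (continuous_iSup_dom.trans (forall_congr' fun _ => continuous_coinduced_dom))
    (continuous_iSup_dom.trans (forall_congr' fun _ => continuous_coinduced_dom))))
    (continuous_iSup_dom.trans (forall_congr' fun _ => continuous_coinduced_dom)))).trans and_assoc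

theorem continuous_ea' (x : X.A) : Continuous (ea' x) :=
  (continuous_iff.mp continuous_id).1 x

theorem continuous_eb' (x : X.B) : Continuous (eb' x) :=
  (continuous_iff.mp continuous_id).2.1 x

theorem continuous_sq' (x : X.F) : Continuous (sq' x) :=
  (continuous_iff.mp continuous_id).2.2 x

/-- lifting a compatible family (function) -/
def liftFun {Z : Type} [TopologicalSpace Z] (h : Fam X Z) : Real X → Z :=
  Quot.lift (fun y => match y with
    | .p x => h.vert x
    | .a x s => h.ea x s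
    | .b x s => h.eb x s
    | .f x y => h.sq x y) (by
      intro y z r
      cases r with
      | a0 x => exact h.ea_zero x
      | a1 x => exact h.ea_one x
      | b0 x => exact h.eb_zero x
      | b1 x => exact h.eb_one x
      | bot x s => exact h.sq_bot x s
      | left x t => exact h.sq_left x t
      | right x t => exact h.sq_right x t
      | top x s => exact h.sq_top x s)

/-- lifting a compatible family -/
def lift {Z : Type} [TopologicalSpace Z] (h : Fam X Z) : C(Real X, Z) where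
  toFun := liftFun h
  continuous_toFun := continuous_iff.mpr
    ⟨fun x => (h.ea x).continuous, fun x => (h.eb x).continuous,
      fun x => (h.sq x).continuous⟩

@[simp] theorem lift_vert {Z : Type} [TopologicalSpace Z] (h : Fam X Z) (x : X.P) :
    lift h (vert x) = h.vert x := rfl

@[simp] theorem lift_ea' {Z : Type} [TopologicalSpace Z] (h : Fam X Z) (x : X.A) (s : I) :
    lift h (ea' x s) = h.ea x s := rfl

@[simp] theorem lift_eb' {Z : Type} [TopologicalSpace Z] (h : Fam X Z) (x : X.B) (s : I) :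
    lift h (eb' x s) = h.eb x s := rfl

@[simp] theorem lift_sq' {Z : Type} [TopologicalSpace Z] (h : Fam X Z) (x : X.F) (y : I × I) :
    lift h (sq' x y) = h.sq x y := rfl

theorem ea'_zero (x : X.A) : ea' x 0 = vert (X.asrc x) := Quot.sound (Rl.a0 x)
theorem ea'_one (x : X.A) : ea' x 1 = vert (X.atgt x) := Quot.sound (Rl.a1 x)
theorem eb'_zero (x : X.B) : eb' x 0 = vert (X.bsrc x) := Quot.sound (Rl.b0 x)
theorem eb'_one (x : X.B) : eb' x 1 = vert (X.btgt x) := Quot.sound (Rl.b1 x)
theorem sq'_bot (x : X.F) (s : I) : sq' x (s, 0) = vert (X.fb x) := Quot.sound (Rl.bot x s)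
theorem sq'_left (x : X.F) (t : I) : sq' x (0, t) = eb' (X.fl x) t := Quot.sound (Rl.left x t)
theorem sq'_right (x : X.F) (t : I) : sq' x (1, t) = eb' (X.fr x) t := Quot.sound (Rl.right x t)
theorem sq'_top (x : X.F) (s : I) : sq' x (s, 1) = ea' (X.ft x) s := Quot.sound (Rl.top x s)

/-- the realization as a `ConeCx` -/
def cone (X : Cx) : ConeCx X (Real X) where
  vert := vert
  ea x := ⟨ea' x, continuous_ea' x⟩
  eb x := ⟨eb' x, continuous_eb' x⟩
  sq x := ⟨sq' x, continuous_sq' x⟩
  ea_zero := ea'_zero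
  ea_one := ea'_one
  eb_zero := eb'_zero
  eb_one := eb'_one
  sq_bot := sq'_bot
  sq_left := sq'_left
  sq_right := sq'_right
  sq_top := sq'_top
  glue _ _ h := ⟨lift h, fun _ => rfl, fun _ _ => rfl, fun _ _ => rfl, fun _ _ => rfl⟩
  cover := by
    intro x
    induction x using Quot.inductionOn with | _ y => ?_
    cases y with
    | p x => exact Or.inl ⟨x, rfl⟩
    | a x s => exact Or.inr (Or.inl ⟨x, s, rfl⟩)
    | b x s => exact Or.inr (Or.inr (Or.inl ⟨x, s, rfl⟩))
    | f x y => exact Or.inr (Or.inr (Or.inr ⟨x, y, rfl⟩))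

theorem I_cases (s : I) : s = 0 ∨ s = 1 ∨ (0 < (s : ℝ) ∧ (s : ℝ) < 1) := by
  rcases eq_or_lt_of_le s.2.1 with h | h
  · exact Or.inl (Subtype.ext h.symm)
  · rcases eq_or_lt_of_le s.2.2 with h' | h'
    · exact Or.inr (Or.inl (Subtype.ext h'))
    · exact Or.inr (Or.inr ⟨h, h'⟩)

/-- interior parameters -/
def Int (s : I) : Prop := 0 < (s : ℝ) ∧ (s : ℝ) < 1

/-- every point lies in an open cell -/
theorem normal (x : Real X) : (∃ p, x = vert p) ∨ (∃ a s, Int s ∧ x = ea' a s) ∨
    (∃ b s, Int s ∧ x = eb' b s) ∨ ∃ f s t, Int s ∧ Int t ∧ x = sq' f (s, t) := by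
  have ha : ∀ a s, (∃ p, (ea' a s : Real X) = vert p) ∨ (∃ a' s', Int s' ∧ ea' a s = ea' a' s') := by
    intro a s
    rcases I_cases s with rfl | rfl | h
    · exact Or.inl ⟨_, ea'_zero a⟩
    · exact Or.inl ⟨_, ea'_one a⟩
    · exact Or.inr ⟨a, s, h, rfl⟩
  have hb : ∀ b s, (∃ p, (eb' b s : Real X) = vert p) ∨ (∃ b' s', Int s' ∧ eb' b s = eb' b' s') := by
    intro b s
    rcases I_cases s with rfl | rfl | h
    · exact Or.inl ⟨_, eb'_zero b⟩
    · exact Or.inl ⟨_, eb'_one b⟩
    · exact Or.inr ⟨b, s, h, rfl⟩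
  induction x using Quot.inductionOn with | _ y => ?_
  cases y with
  | p x => exact Or.inl ⟨x, rfl⟩
  | a x s =>
    rcases ha x s with h | ⟨a', s', hs, h⟩
    · exact Or.inl h
    · exact Or.inr (Or.inl ⟨a', s', hs, h⟩)
  | b x s =>
    rcases hb x s with h | ⟨a', s', hs, h⟩
    · exact Or.inl h
    · exact Or.inr (Or.inr (Or.inl ⟨a', s', hs, h⟩))
  | f x y =>
    obtain ⟨s, t⟩ := y
    change (∃ p, sq' x (s, t) = vert p) ∨ (∃ a s', Int s' ∧ sq' x (s, t) = ea' a s') ∨
      (∃ b s', Int s' ∧ sq' x (s, t) = eb' b s') ∨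
      ∃ f s' t', Int s' ∧ Int t' ∧ sq' x (s, t) = sq' f (s', t')
    rcases I_cases t with rfl | rfl | ht
    · exact Or.inl ⟨_, sq'_bot x s⟩
    · rw [sq'_top]
      rcases ha (X.ft x) s with h | ⟨a', s', hs, h⟩
      · exact Or.inl h
      · exact Or.inr (Or.inl ⟨a', s', hs, h⟩)
    · rcases I_cases s with rfl | rfl | hs
      · rw [sq'_left]
        rcases hb (X.fl x) t with h | ⟨a', s', hs, h⟩
        · exact Or.inl h
        · exact Or.inr (Or.inr (Or.inl ⟨a', s', hs, h⟩))
      · rw [sq'_right]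
        rcases hb (X.fr x) t with h | ⟨a', s', hs, h⟩
        · exact Or.inl h
        · exact Or.inr (Or.inr (Or.inl ⟨a', s', hs, h⟩))
      · exact Or.inr (Or.inr (Or.inr ⟨x, s, t, hs, ht, rfl⟩))

/-! ## Coordinate functions -/

/-- vertex weights -/
noncomputable def famP (w : X.P → ℝ) : Fam X ℝ where
  vert := w
  ea a := ⟨fun s => (1 - (s : ℝ)) * w (X.asrc a) + s * w (X.atgt a), by fun_prop⟩
  eb b := ⟨fun s => (1 - (s : ℝ)) * w (X.bsrc b) + s * w (X.btgt b), by fun_prop⟩
  sq f := ⟨fun y => (1 - (y.2 : ℝ)) * w (X.fb f) +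
    y.2 * ((1 - (y.1 : ℝ)) * w (X.asrc (X.ft f)) + y.1 * w (X.atgt (X.ft f))), by fun_prop⟩
  ea_zero a := by simp
  ea_one a := by simp
  eb_zero a := by simp
  eb_one a := by simp
  sq_bot f s := by simp
  sq_left f t := by simp [X.bsrc_fl, X.btgt_fl]
  sq_right f t := by simp [X.bsrc_fr, X.btgt_fr]
  sq_top f s := by simp

/-- letter edge bumps -/
noncomputable def famA (w : X.A → ℝ) (j : Bool) : Fam X ℝ where
  vert _ := 0
  ea a := ⟨fun s => w a * (s * (1 - (s : ℝ))) * (if j then (s : ℝ) else 1), by split <;> fun_prop⟩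
  eb b := ⟨fun _ => 0, by fun_prop⟩
  sq f := ⟨fun y => y.2 * (w (X.ft f) * (y.1 * (1 - (y.1 : ℝ))) * (if j then (y.1 : ℝ) else 1)),
    by split <;> fun_prop⟩
  ea_zero a := by simp
  ea_one a := by simp
  eb_zero a := by simp
  eb_one a := by simp
  sq_bot f s := by simp
  sq_left f t := by simp
  sq_right f t := by simp
  sq_top f s := by simp

/-- cone edge bumps -/
noncomputable def famB (w : X.B → ℝ) (j : Bool) : Fam X ℝ where
  vert _ := 0
  ea a := ⟨fun _ => 0, by fun_prop⟩
  eb b := ⟨fun s => w b * (s * (1 - (s : ℝ))) * (if j then (s : ℝ) else 1), by split <;> fun_prop⟩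
  sq f := ⟨fun y => ((1 - (y.1 : ℝ)) * w (X.fl f) + y.1 * w (X.fr f)) * (y.2 * (1 - (y.2 : ℝ))) *
    (if j then (y.2 : ℝ) else 1), by split <;> fun_prop⟩
  ea_zero a := by simp
  ea_one a := by simp
  eb_zero a := by simp
  eb_one a := by simp
  sq_bot f s := by simp
  sq_left f t := by simp
  sq_right f t := by simp
  sq_top f s := by simp

/-- square bumps -/
noncomputable def famF (w : X.F → ℝ) (j k : Bool) : Fam X ℝ where
  vert _ := 0
  ea a := ⟨fun _ => 0, by fun_prop⟩
  eb b := ⟨fun s => 0, by fun_prop⟩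
  sq f := ⟨fun y => w f * (y.1 * (1 - (y.1 : ℝ))) * (y.2 * (1 - (y.2 : ℝ))) *
    (if j then (y.1 : ℝ) else 1) * (if k then (y.2 : ℝ) else 1), by
      split <;> split <;> fun_prop⟩
  ea_zero a := by simp
  ea_one a := by simp
  eb_zero a := by simp
  eb_one a := by simp
  sq_bot f s := by simp
  sq_left f t := by simp
  sq_right f t := by simp
  sq_top f s := by simp

end Real

end Crest.Agent.R177.Top
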